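import Mathlib

/-!
# R339, block Trot716 (helper716)

Lie-Trotter / Chernoff type product formulas in a complete normed algebra and the real Lie algebra
of a closed submonoid:

* `tendsto_pow_exp` : `k i • (g i - 1) → A`, `k i → ∞`  implies `g i ^ k i → exp A`.
* `tendsto_pow_exp_of_hasDerivAt` : `G 0 = 1`, `G' (0) = A` implies `G (1/n) ^ n → exp A`.
* `tendsto_commutator` : `K(a,b) = e^{aA} e^{bB} e^{-aA} e^{-bB}`, `(K - 1)/(ab) → AB - BA`.
* `lieOf S` : `{A | ∀ t : ℝ, exp (t • A) ∈ S}` for a closed submonoid `S`; closed under sums, real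
  multiples, limits, brackets and conjugation by invertible elements of `S`.
-/

set_option autoImplicit false
set_option linter.unusedSectionVars false
set_option linter.style.haveILetI false

open Filter Topology NormedSpace

namespace Crest.Agent.R339.Trot

section Basic

variable {𝔸 : Type*} [NormedRing 𝔸] [NormedAlgebra ℝ 𝔸] [CompleteSpace 𝔸] [NormOneClass 𝔸]

theorem norm_exp_sub_one_le (x : 𝔸) : ‖exp x - 1‖ ≤ Real.exp ‖x‖ - 1 := by
  have h1 : HasSum (fun n : ℕ => ((n.factorial : ℝ))⁻¹ • x ^ n) (exp x) :=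
    exp_series_hasSum_exp' (𝕂 := ℝ) x
  have h2 : HasSum (fun n : ℕ => ((n.factorial : ℝ))⁻¹ • ‖x‖ ^ n) (Real.exp ‖x‖) := by
    have := exp_series_hasSum_exp' (𝕂 := ℝ) (‖x‖ : ℝ)
    rwa [← Real.exp_eq_exp_ℝ] at this
  have h1' := (hasSum_nat_add_iff' 1).mpr h1
  have h2' := (hasSum_nat_add_iff' 1).mpr h2
  simp only [Finset.range_one, Finset.sum_singleton, Nat.factorial_zero, Nat.cast_one, inv_one,
    pow_zero, one_smul, smul_eq_mul, mul_one] at h1' h2'
  rw [← h1'.tsum_eq, ← h2'.tsum_eq]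
  refine (norm_tsum_le_tsum_norm ?_).trans ?_
  · refine Summable.of_nonneg_of_le (fun _ => norm_nonneg _) (fun n => ?_) h2'.summable
    rw [norm_smul, Real.norm_of_nonneg (by positivity)]
    exact mul_le_mul_of_nonneg_left (norm_pow_le _ _) (by positivity)
  · refine Summable.tsum_le_tsum (fun n => ?_) ?_ h2'.summable
    · rw [norm_smul, Real.norm_of_nonneg (by positivity)]
      exact mul_le_mul_of_nonneg_left (norm_pow_le _ _) (by positivity)
    · refine Summable.of_nonneg_of_le (fun _ => norm_nonneg _) (fun n => ?_) h2'.summable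
      rw [norm_smul, Real.norm_of_nonneg (by positivity)]
      exact mul_le_mul_of_nonneg_left (norm_pow_le _ _) (by positivity)

theorem norm_exp_le (x : 𝔸) : ‖exp x‖ ≤ Real.exp ‖x‖ := by
  have := norm_exp_sub_one_le x
  calc ‖exp x‖ = ‖(exp x - 1) + 1‖ := by rw [sub_add_cancel]
    _ ≤ ‖exp x - 1‖ + ‖(1 : 𝔸)‖ := norm_add_le _ _
    _ ≤ Real.exp ‖x‖ := by rw [norm_one]; linarith

/-- telescoping bound for powers -/
theorem norm_pow_sub_pow_le (a b : 𝔸) (M : ℝ) (ha : ‖a‖ ≤ M) (hb : ‖b‖ ≤ M) (hM : 1 ≤ M) (n : ℕ) :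
    ‖a ^ n - b ^ n‖ ≤ n * M ^ n * ‖a - b‖ := by
  induction n with
  | zero => simp
  | succ n ih =>
    have h : a ^ (n + 1) - b ^ (n + 1) = (a ^ n - b ^ n) * a + b ^ n * (a - b) := by
      rw [pow_succ, pow_succ]; noncomm_ring
    rw [h]
    have hbn : ‖b ^ n‖ ≤ M ^ n := (norm_pow_le _ _).trans (pow_le_pow_left₀ (norm_nonneg _) hb _)
    have h0 : 0 ≤ M := by linarith
    calc ‖(a ^ n - b ^ n) * a + b ^ n * (a - b)‖
        ≤ ‖a ^ n - b ^ n‖ * ‖a‖ + ‖b ^ n‖ * ‖a - b‖ :=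
          (norm_add_le _ _).trans (add_le_add (norm_mul_le _ _) (norm_mul_le _ _))
      _ ≤ (n * M ^ n * ‖a - b‖) * M + M ^ n * ‖a - b‖ := by
          gcongr
      _ ≤ (n * M ^ (n+1) * ‖a - b‖) + M ^ (n+1) * ‖a - b‖ := by
          have : M ^ n ≤ M ^ (n+1) := pow_le_pow_right₀ hM (Nat.le_succ n)
          have h3 : (n * M ^ n * ‖a - b‖) * M = n * M ^ (n+1) * ‖a - b‖ := by ring
          rw [h3]
          gcongr
      _ = ((n + 1 : ℕ) : ℝ) * M ^ (n + 1) * ‖a - b‖ := by push_cast; ring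

/-- `exp x - 1 - x` is quadratic, in the limit form needed here:
`k • (exp (A / k) - 1) → A`. -/
theorem tendsto_smul_exp_sub_one {ι : Type*} {l : Filter ι} {k : ι → ℝ}
    (hk : Tendsto k l atTop) (A : 𝔸) :
    Tendsto (fun i => k i • (exp ((k i)⁻¹ • A) - 1)) l (𝓝 A) := by
  have hd : HasDerivAt (fun t : ℝ => exp (t • A)) A 0 := by
    have := hasDerivAt_exp_smul_const (𝕂 := ℝ) A (0 : ℝ)
    simpa using this
  have hs := hd.tendsto_slope_zero
  have hk' : Tendsto (fun i => (k i)⁻¹) l (𝓝[≠] (0 : ℝ)) := by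
    have h1 : Tendsto (fun i => (k i)⁻¹) l (𝓝[>] (0:ℝ)) := tendsto_inv_atTop_nhdsGT_zero.comp hk
    exact h1.mono_right (nhdsWithin_mono _ (fun x hx => ne_of_gt hx))
  have := hs.comp hk'
  refine this.congr (fun i => ?_)
  simp

/-- **Chernoff / Lie-Trotter in a Banach algebra.** -/
theorem tendsto_pow_exp {ι : Type*} {l : Filter ι} {k : ι → ℕ} {g : ι → 𝔸} {A : 𝔸}
    (hk : Tendsto k l atTop) (hg : Tendsto (fun i => (k i : ℝ) • (g i - 1)) l (𝓝 A)) :
    Tendsto (fun i => g i ^ k i) l (𝓝 (exp A)) := by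
  have hkR : Tendsto (fun i => (k i : ℝ)) l atTop := tendsto_natCast_atTop_atTop.comp hk
  set b : ι → 𝔸 := fun i => exp ((k i : ℝ)⁻¹ • A) with hb
  have hbk : ∀ᶠ i in l, b i ^ k i = exp A := by
    filter_upwards [hk.eventually_gt_atTop 0] with i hi
    have hk1 : (k i : ℝ) ≠ 0 := by positivity
    rw [hb]
    simp only
    letI : NormedAlgebra ℚ 𝔸 := NormedAlgebra.restrictScalars ℚ ℝ 𝔸
    rw [← exp_nsmul (𝔸 := 𝔸)]
    congr 1
    rw [← Nat.cast_smul_eq_nsmul ℝ, smul_smul, mul_inv_cancel₀ hk1, one_smul]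
  have hdiff : Tendsto (fun i => (k i : ℝ) • (g i - b i)) l (𝓝 0) := by
    have h1 := tendsto_smul_exp_sub_one hkR A
    have h2 := hg.sub h1
    rw [sub_self] at h2
    refine h2.congr (fun i => ?_)
    simp only [hb, ← smul_sub]
    congr 1
    abel
  -- norm bounds
  set C : ℝ := ‖A‖ + 1 with hC
  have hC0 : 0 ≤ C := by positivity
  have hgb : ∀ᶠ i in l, ‖g i‖ ≤ Real.exp (C / k i) := by
    have h1 : ∀ᶠ i in l, ‖(k i : ℝ) • (g i - 1)‖ < C :=
      (hg.norm).eventually_lt_const (by simp [hC])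
    filter_upwards [h1, hk.eventually_gt_atTop 0] with i hi hki
    have hk0 : (0 : ℝ) < k i := by exact_mod_cast hki
    rw [norm_smul, Real.norm_of_nonneg hk0.le] at hi
    have h2 : ‖g i - 1‖ ≤ C / k i := by
      rw [le_div_iff₀ hk0, mul_comm]; exact hi.le
    calc ‖g i‖ = ‖(g i - 1) + 1‖ := by rw [sub_add_cancel]
      _ ≤ ‖g i - 1‖ + 1 := by simpa using norm_add_le (g i - 1) 1
      _ ≤ C / k i + 1 := by linarith
      _ ≤ Real.exp (C / k i) := Real.add_one_le_exp _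
  have hbb : ∀ᶠ i in l, ‖b i‖ ≤ Real.exp (C / k i) := by
    filter_upwards [hk.eventually_gt_atTop 0] with i hki
    have hk0 : (0 : ℝ) < k i := by exact_mod_cast hki
    refine (norm_exp_le _).trans (Real.exp_le_exp.mpr ?_)
    rw [norm_smul, Real.norm_of_nonneg (by positivity), div_eq_inv_mul]
    gcongr
    simp [hC]
  have hfin : ∀ᶠ i in l, ‖g i ^ k i - exp A‖ ≤ Real.exp C * ‖(k i : ℝ) • (g i - b i)‖ := by
    filter_upwards [hgb, hbb, hbk, hk.eventually_gt_atTop 0] with i h1 h2 h3 hki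
    have hk0 : (0 : ℝ) < k i := by exact_mod_cast hki
    rw [← h3]
    refine (norm_pow_sub_pow_le _ _ _ h1 h2 (Real.one_le_exp (by positivity)) _).trans ?_
    rw [norm_smul, Real.norm_of_nonneg hk0.le, ← Real.exp_nat_mul]
    have : (k i : ℝ) * (C / k i) = C := by field_simp
    rw [this]
    apply le_of_eq
    ring
  rw [tendsto_iff_norm_sub_tendsto_zero]
  have hlim : Tendsto (fun i => Real.exp C * ‖(k i : ℝ) • (g i - b i)‖) l (𝓝 0) := by
    have := (hdiff.norm).const_mul (Real.exp C)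
    simpa using this
  exact tendsto_of_tendsto_of_tendsto_of_le_of_le' tendsto_const_nhds hlim
    (Eventually.of_forall fun _ => norm_nonneg _) hfin

/-- derivative form -/
theorem tendsto_pow_exp_of_hasDerivAt {G : ℝ → 𝔸} {A : 𝔸} (h0 : G 0 = 1) (hG : HasDerivAt G A 0) :
    Tendsto (fun n : ℕ => G ((n : ℝ)⁻¹) ^ n) atTop (𝓝 (exp A)) := by
  refine tendsto_pow_exp tendsto_id ?_
  have hs := hG.tendsto_slope_zero
  have hk' : Tendsto (fun n : ℕ => ((n : ℝ))⁻¹) atTop (𝓝[≠] (0 : ℝ)) := by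
    have h1 : Tendsto (fun n : ℕ => ((n : ℝ))⁻¹) atTop (𝓝[>] (0:ℝ)) :=
      tendsto_inv_atTop_nhdsGT_zero.comp tendsto_natCast_atTop_atTop
    exact h1.mono_right (nhdsWithin_mono _ (fun x hx => ne_of_gt hx))
  refine (hs.comp hk').congr (fun n => ?_)
  simp [h0]

theorem hasDerivAt_exp_smul_zero (A : 𝔸) : HasDerivAt (fun t : ℝ => exp (t • A)) A 0 := by
  have := hasDerivAt_exp_smul_const (𝕂 := ℝ) A (0 : ℝ)
  simpa using this

/-- **Lie-Trotter** for two operators -/
theorem tendsto_trotter (A B : 𝔸) :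
    Tendsto (fun n : ℕ => (exp ((n : ℝ)⁻¹ • A) * exp ((n : ℝ)⁻¹ • B)) ^ n) atTop
      (𝓝 (exp (A + B))) := by
  refine tendsto_pow_exp_of_hasDerivAt (G := fun t : ℝ => exp (t • A) * exp (t • B)) (by simp) ?_
  have := (hasDerivAt_exp_smul_zero A).fun_mul (hasDerivAt_exp_smul_zero B)
  simpa using this



end Basic

section Lie

variable {𝔸 : Type*} [NormedRing 𝔸] [NormedAlgebra ℝ 𝔸] [CompleteSpace 𝔸] [NormOneClass 𝔸]

/-- the real Lie algebra of a submonoid -/
def lieOf (S : Submonoid 𝔸) : Set 𝔸 := {A | ∀ t : ℝ, exp (t • A) ∈ S}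


theorem zero_mem_lieOf (S : Submonoid 𝔸) : (0 : 𝔸) ∈ lieOf S := fun t => by simp [S.one_mem]

theorem smul_mem_lieOf {S : Submonoid 𝔸} {A : 𝔸} (hA : A ∈ lieOf S) (c : ℝ) : c • A ∈ lieOf S :=
  fun t => by rw [smul_smul]; exact hA _

theorem neg_mem_lieOf {S : Submonoid 𝔸} {A : 𝔸} (hA : A ∈ lieOf S) : -A ∈ lieOf S := by
  simpa using smul_mem_lieOf hA (-1)

theorem add_mem_lieOf {S : Submonoid 𝔸} (hS : IsClosed (S : Set 𝔸)) {A B : 𝔸}
    (hA : A ∈ lieOf S) (hB : B ∈ lieOf S) : A + B ∈ lieOf S := by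
  intro t
  rw [smul_add]
  refine hS.mem_of_tendsto (tendsto_trotter (t • A) (t • B)) (Eventually.of_forall fun n => ?_)
  refine S.pow_mem (S.mul_mem ?_ ?_) n
  · rw [smul_smul]; exact hA _
  · rw [smul_smul]; exact hB _

theorem sum_mem_lieOf {S : Submonoid 𝔸} (hS : IsClosed (S : Set 𝔸)) {ι : Type*} (s : Finset ι)
    (A : ι → 𝔸) (hA : ∀ i ∈ s, A i ∈ lieOf S) : ∑ i ∈ s, A i ∈ lieOf S := by
  classical
  induction s using Finset.induction_on with
  | empty => simpa using zero_mem_lieOf S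
  | insert i s hi ih =>
    rw [Finset.sum_insert hi]
    exact add_mem_lieOf hS (hA i (Finset.mem_insert_self _ _))
      (ih fun j hj => hA j (Finset.mem_insert_of_mem hj))

theorem isClosed_lieOf {S : Submonoid 𝔸} (hS : IsClosed (S : Set 𝔸)) : IsClosed (lieOf S) := by
  letI : NormedAlgebra ℚ 𝔸 := NormedAlgebra.restrictScalars ℚ ℝ 𝔸
  have : lieOf S = ⋂ t : ℝ, (fun A : 𝔸 => exp (t • A)) ⁻¹' (S : Set 𝔸) := by
    ext A; simp [lieOf]
  rw [this]
  refine isClosed_iInter fun t => hS.preimage ?_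
  exact (exp_continuous (𝔸 := 𝔸)).comp (continuous_const_smul t)

/-- conjugation by an element of `S` with inverse in `S` -/
theorem conj_mem_lieOf {S : Submonoid 𝔸} {A : 𝔸} (hA : A ∈ lieOf S) {u v : 𝔸} (hu : u ∈ S)
    (hv : v ∈ S) (huv : u * v = 1) (hvu : v * u = 1) : u * A * v ∈ lieOf S := by
  letI : NormedAlgebra ℚ 𝔸 := NormedAlgebra.restrictScalars ℚ ℝ 𝔸
  intro t
  have h : exp (t • (u * A * v)) = u * exp (t • A) * v := by
    have := exp_units_conj (⟨u, v, huv, hvu⟩ : 𝔸ˣ) (t • A)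
    simp only [Units.val_mk, Units.inv_mk] at this
    rw [← this]
    simp
  rw [h]
  exact S.mul_mem (S.mul_mem hu (hA t)) hv

/-- conjugation by one-parameter groups in `S` -/
theorem exp_conj_mem_lieOf {S : Submonoid 𝔸} {A B : 𝔸} (hA : A ∈ lieOf S) (hB : B ∈ lieOf S)
    (t : ℝ) : exp (t • A) * B * exp (-(t • A)) ∈ lieOf S := by
  letI : NormedAlgebra ℚ 𝔸 := NormedAlgebra.restrictScalars ℚ ℝ 𝔸
  have h1 : exp (t • A) * exp (-(t • A)) = 1 := by
    rw [← exp_add_of_commute (Commute.neg_right (Commute.refl _)), add_neg_cancel, exp_zero]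
  have h2 : exp (-(t • A)) * exp (t • A) = 1 := by
    rw [← exp_add_of_commute (Commute.neg_left (Commute.refl _)), neg_add_cancel, exp_zero]
  refine conj_mem_lieOf hB (hA t) ?_ h1 h2
  rw [← neg_smul]; exact hA _

/-- **brackets** -/
theorem bracket_mem_lieOf {S : Submonoid 𝔸} (hS : IsClosed (S : Set 𝔸)) {A B : 𝔸}
    (hA : A ∈ lieOf S) (hB : B ∈ lieOf S) : A * B - B * A ∈ lieOf S := by
  -- derivative of `t ↦ e^{tA} B e^{-tA}` at `0`
  have hd : HasDerivAt (fun t : ℝ => exp (t • A) * B * exp (-(t • A))) (A * B - B * A) 0 := by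
    have h1 := hasDerivAt_exp_smul_zero A
    have h2 : HasDerivAt (fun t : ℝ => exp (-(t • A))) (-A) 0 := by
      have := hasDerivAt_exp_smul_zero (-A)
      refine this.congr_of_eventuallyEq (Eventually.of_forall fun t => ?_)
      simp
    have h3 := (h1.mul_const B).mul h2
    refine h3.congr_deriv ?_
    simp [sub_eq_add_neg]
  have hs := hd.tendsto_slope_zero
  refine (isClosed_lieOf hS).mem_of_tendsto hs (Eventually.of_forall fun t => ?_)
  refine smul_mem_lieOf ?_ _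
  simp only [zero_add, zero_smul, exp_zero, one_mul, neg_zero, mul_one]
  rw [sub_eq_add_neg]
  exact add_mem_lieOf hS (exp_conj_mem_lieOf hA hB t) (neg_mem_lieOf hB)

end Lie

section Labels

/-! ### Label-controlled rotations, abstract form

`V : L → 𝔸` a representation of an additive group (multiplication by `e^{i Z (label)}`), `X` an
element with `X * V l = V (-l) * X`. -/

variable {𝔸 : Type*} [NormedRing 𝔸] [NormedAlgebra ℝ 𝔸] [CompleteSpace 𝔸] [NormOneClass 𝔸]
variable {L : Type*} [AddCommGroup L]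


end Labels

section Closure

/-! ### Abstract closure lemma -/

variable {𝒰 : Type*} [TopologicalSpace 𝒰] {W : Type*}







end Closure

end Crest.Agent.R339.Trot
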