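import Mathlib
import Crest.Agent.R339.Lab373A

-- ▼ part R339/Heavy682A
section

/-!
# Weyl eigenfamilies (heavy / light branches of the site vector)

Abstract setting: `S` a complex Hilbert space (`ℂ² ⊗ Fock K`), `W f` the Weyl operators
(acting on the Fock factor), `Z` the Pauli operator.  A family `h n` is a *Weyl eigenfamily* of
momentum `y n` at scale `ε n` if `W (ε n • f n) (h n) - exp (i Im ⟪y n, f n⟫) • h n → 0` for all
bounded `f n`.  Light families have `y = 0`, heavy families of type `b = ±1` have momentum `b • y`.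
-/

set_option autoImplicit false

noncomputable section

open scoped ComplexConjugate InnerProductSpace Topology
open Filter

namespace Crest.Agent.R339.Hv

variable {K S : Type*} [NormedAddCommGroup K] [InnerProductSpace ℂ K]
  [NormedAddCommGroup S] [InnerProductSpace ℂ S]

/-- The Weyl operators and the spin operator `Z` on the site space. -/
structure WS (K S : Type*) [NormedAddCommGroup K] [InnerProductSpace ℂ K]
    [NormedAddCommGroup S] [InnerProductSpace ℂ S] where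
  W : K → S →L[ℂ] S
  Z : S →L[ℂ] S
  W_mul : ∀ f g v, W f (W g v) = Complex.exp (-(Complex.I * ((⟪f, g⟫_ℂ).im : ℂ))) • W (f + g) v
  W_zero : ∀ v, W 0 v = v
  norm_W : ∀ f v, ‖W f v‖ = ‖v‖
  Z_sq : ∀ v, Z (Z v) = v
  Z_W : ∀ f v, Z (W f v) = W f (Z v)
  norm_Z : ∀ v, ‖Z v‖ = ‖v‖

namespace WS

variable (w : WS K S)

/-- `E f = exp (i Z φ(f))`. -/
def E (f : K) : S →L[ℂ] S :=
  (1 / 2 : ℂ) • ((w.W f + w.W (-f)) + (w.Z ∘L (w.W f - w.W (-f))))

lemma E_apply (f : K) (v : S) : w.E f v =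
    (1 / 2 : ℂ) • ((w.W f v + w.W (-f) v) + w.Z (w.W f v - w.W (-f) v)) := rfl

/-- Commutation of Weyl operators. -/
lemma W_comm (f g : K) (v : S) : w.W f (w.W g v) =
    Complex.exp (-(2 * Complex.I * ((⟪f, g⟫_ℂ).im : ℂ))) • w.W g (w.W f v) := by
  rw [w.W_mul, w.W_mul g f, smul_smul, ← Complex.exp_add, add_comm g f]
  congr 2
  have : (⟪g, f⟫_ℂ).im = -(⟪f, g⟫_ℂ).im := by
    rw [← inner_conj_symm f g, Complex.conj_im, neg_neg]
  rw [this]
  push_cast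
  ring

/-- An operator commuting with all Weyl operators (a spin matrix). -/
def CW (A : S →L[ℂ] S) : Prop := ∀ f v, A (w.W f v) = w.W f (A v)


lemma CW_one : w.CW 1 := fun _ _ => rfl

variable {w}

lemma CW.mul {A B : S →L[ℂ] S} (hA : w.CW A) (hB : w.CW B) : w.CW (A * B) := by
  intro f v
  show A (B (w.W f v)) = w.W f (A (B v))
  rw [hB, hA]

lemma CW.add {A B : S →L[ℂ] S} (hA : w.CW A) (hB : w.CW B) : w.CW (A + B) := by
  intro f v
  show A (w.W f v) + B (w.W f v) = w.W f (A v + B v)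
  rw [hB, hA, map_add]

lemma CW.smul {A : S →L[ℂ] S} (hA : w.CW A) (c : ℂ) : w.CW (c • A) := by
  intro f v
  show c • A (w.W f v) = w.W f (c • A v)
  rw [hA, map_smul]

variable (w)

/-- `exp (i θ Z)`. -/
def expZ (θ : ℝ) : S →L[ℂ] S :=
  ((Real.cos θ : ℝ) : ℂ) • (1 : S →L[ℂ] S) + (Complex.I * ((Real.sin θ : ℝ) : ℂ)) • w.Z

lemma expZ_apply (θ : ℝ) (v : S) : w.expZ θ v =
    ((Real.cos θ : ℝ) : ℂ) • v + (Complex.I * ((Real.sin θ : ℝ) : ℂ)) • w.Z v := rfl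


/-- The Weyl operators commute with `E` up to an `expZ`. -/
lemma W_E (f g : K) (v : S) : w.W f (w.E g v) =
    w.E g (w.expZ (-(2 * (⟪f, g⟫_ℂ).im)) (w.W f v)) := by
  have h1 : w.W f (w.W g v) =
      Complex.exp (-(2 * Complex.I * ((⟪f, g⟫_ℂ).im : ℂ))) • w.W g (w.W f v) := w.W_comm f g v
  have h2 : w.W f (w.W (-g) v) =
      Complex.exp ((2 * Complex.I * ((⟪f, g⟫_ℂ).im : ℂ))) • w.W (-g) (w.W f v) := by
    rw [w.W_comm f (-g) v, inner_neg_right, Complex.neg_im]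
    congr 2
    push_cast
    ring
  set θ : ℝ := (⟪f, g⟫_ℂ).im with hθ
  have hc : Complex.exp (-(2 * Complex.I * (θ : ℂ))) =
      ((Real.cos (-(2 * θ)) : ℝ) : ℂ) + Complex.I * ((Real.sin (-(2 * θ)) : ℝ) : ℂ) := by
    rw [show -(2 * Complex.I * (θ : ℂ)) = ((-(2 * θ) : ℝ) : ℂ) * Complex.I by push_cast; ring,
      Complex.exp_mul_I, ← Complex.ofReal_cos, ← Complex.ofReal_sin]
    ring
  have hc' : Complex.exp ((2 * Complex.I * (θ : ℂ))) =
      ((Real.cos (-(2 * θ)) : ℝ) : ℂ) - Complex.I * ((Real.sin (-(2 * θ)) : ℝ) : ℂ) := by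
    rw [show (2 * Complex.I * (θ : ℂ)) = ((2 * θ : ℝ) : ℂ) * Complex.I by push_cast; ring,
      Complex.exp_mul_I, ← Complex.ofReal_cos, ← Complex.ofReal_sin, Real.cos_neg, Real.sin_neg]
    push_cast
    ring
  rw [E_apply, map_smul, map_add, map_add, ← w.Z_W, map_sub, h1, h2, E_apply, expZ_apply]
  simp only [map_add, map_sub, map_smul, ← w.Z_W, w.Z_sq]
  rw [hc, hc']
  module

lemma norm_E (f : K) (v : S) : ‖w.E f v‖ = ‖v‖ := by
  -- decompose `v = v₊ + v₋`, `Z v± = ± v±`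
  set vp : S := (1 / 2 : ℂ) • (v + w.Z v) with hvp
  set vm : S := (1 / 2 : ℂ) • (v - w.Z v) with hvm
  have hv : v = vp + vm := by rw [hvp, hvm]; module
  have hZp : w.Z vp = vp := by
    rw [hvp, map_smul, map_add, w.Z_sq, add_comm]
  have hZm : w.Z vm = -vm := by
    rw [hvm, map_smul, map_sub, w.Z_sq]
    module
  have hE : w.E f v = w.W f vp + w.W (-f) vm := by
    rw [E_apply, hv]
    simp only [map_add, map_sub, w.Z_W, hZp, hZm, map_neg]
    module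
  -- orthogonality: `Z` is an isometry with square one, hence self-adjoint
  have hZiso : ∀ a b : S, ⟪w.Z a, w.Z b⟫_ℂ = ⟪a, b⟫_ℂ := fun a b =>
    (LinearIsometry.mk w.Z.toLinearMap w.norm_Z).inner_map_map a b
  have horth : ∀ a b : S, w.Z a = a → w.Z b = -b → ⟪a, b⟫_ℂ = 0 := by
    intro a b ha hb
    have := hZiso a b
    rw [ha, hb, inner_neg_right] at this
    have h2 : (2 : ℂ) * ⟪a, b⟫_ℂ = 0 := by linear_combination -this
    simpa using h2
  have h1 : ⟪w.W f vp, w.W (-f) vm⟫_ℂ = 0 := by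
    refine horth _ _ ?_ ?_
    · rw [w.Z_W, hZp]
    · rw [w.Z_W, hZm, map_neg]
  have h2 : ⟪vp, vm⟫_ℂ = 0 := horth _ _ hZp hZm
  have e1 := norm_add_sq_eq_norm_sq_add_norm_sq_of_inner_eq_zero (w.W f vp) (w.W (-f) vm) h1
  have e2 := norm_add_sq_eq_norm_sq_add_norm_sq_of_inner_eq_zero vp vm h2
  rw [w.norm_W, w.norm_W] at e1
  rw [hE]
  have e3 : ‖w.W f vp + w.W (-f) vm‖ * ‖w.W f vp + w.W (-f) vm‖ = ‖v‖ * ‖v‖ := by
    rw [e1, ← e2, ← hv]
  exact mul_self_inj_of_nonneg (norm_nonneg _) (norm_nonneg _) |>.mp e3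

end WS

end Crest.Agent.R339.Hv
end
end

-- ▼ part R339/Heavy682B
section

/-!
# Weyl eigenfamilies: calculus
-/

set_option autoImplicit false

noncomputable section

open scoped ComplexConjugate InnerProductSpace Topology
open Filter

namespace Crest.Agent.R339.Hv

variable {K S : Type*} [NormedAddCommGroup K] [InnerProductSpace ℂ K]
  [NormedAddCommGroup S] [InnerProductSpace ℂ S]

/-- bounded families -/
def Bdd {α E : Type*} [Norm E] (f : α → E) : Prop := ∃ T : ℝ, ∀ n, ‖f n‖ ≤ T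

section Bdd
variable {α E F : Type*} [SeminormedAddCommGroup E] [SeminormedAddCommGroup F]

lemma Bdd.const (x : E) : Bdd (fun _ : α => x) := ⟨‖x‖, fun _ => le_rfl⟩

lemma Bdd.add {f g : α → E} (hf : Bdd f) (hg : Bdd g) : Bdd (fun n => f n + g n) := by
  obtain ⟨T, hT⟩ := hf
  obtain ⟨T', hT'⟩ := hg
  exact ⟨T + T', fun n => (norm_add_le _ _).trans (add_le_add (hT n) (hT' n))⟩

lemma Bdd.neg {f : α → E} (hf : Bdd f) : Bdd (fun n => -f n) := by
  obtain ⟨T, hT⟩ := hf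
  exact ⟨T, fun n => by rw [norm_neg]; exact hT n⟩

lemma Bdd.sub {f g : α → E} (hf : Bdd f) (hg : Bdd g) : Bdd (fun n => f n - g n) := by
  simpa [sub_eq_add_neg] using hf.add hg.neg

lemma Bdd.smul {𝕜 : Type*} [NormedField 𝕜] [NormedSpace 𝕜 E] {c : α → 𝕜} {f : α → E}
    (hc : Bdd c) (hf : Bdd f) : Bdd (fun n => c n • f n) := by
  obtain ⟨T, hT⟩ := hc
  obtain ⟨T', hT'⟩ := hf
  refine ⟨T * T', fun n => ?_⟩
  rw [norm_smul]
  exact mul_le_mul (hT n) (hT' n) (norm_nonneg _) ((norm_nonneg _).trans (hT n))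

lemma Bdd.mono {f : α → E} {g : α → F} (hf : Bdd f) (h : ∀ n, ‖g n‖ ≤ ‖f n‖) : Bdd g := by
  obtain ⟨T, hT⟩ := hf
  exact ⟨T, fun n => (h n).trans (hT n)⟩

lemma Bdd.ofReal {c : α → ℝ} (hc : Bdd c) : Bdd (fun n => ((c n : ℝ) : ℂ)) :=
  hc.mono fun n => by rw [Complex.norm_real]

end Bdd

lemma tendsto_zero_of_norm_le {α E F : Type*} [SeminormedAddCommGroup E]
    [SeminormedAddCommGroup F] {l : Filter α} {f : α → E} {g : α → F} {C : ℝ}
    (hg : Tendsto g l (𝓝 0)) (h : ∀ n, ‖f n‖ ≤ C * ‖g n‖) : Tendsto f l (𝓝 0) := by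
  rw [tendsto_zero_iff_norm_tendsto_zero] at hg ⊢
  have h2 : Tendsto (fun n => C * ‖g n‖) l (𝓝 0) := by
    simpa using hg.const_mul C
  exact squeeze_zero (fun n => norm_nonneg _) h h2

lemma tendsto_smul_zero_of_bdd {α E 𝕜 : Type*} [SeminormedAddCommGroup E] [NormedField 𝕜]
    [NormedSpace 𝕜 E] {l : Filter α} {c : α → 𝕜} {f : α → E}
    (hc : Bdd c) (hf : Tendsto f l (𝓝 0)) : Tendsto (fun n => c n • f n) l (𝓝 0) := by
  obtain ⟨T, hT⟩ := hc
  refine tendsto_zero_of_norm_le (C := T) hf fun n => ?_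
  rw [norm_smul]
  exact mul_le_mul_of_nonneg_right (hT n) (norm_nonneg _)


/-- the phase `exp (i x)` -/
def ph (x : ℝ) : ℂ := Complex.exp (Complex.I * (x : ℂ))

lemma norm_ph (x : ℝ) : ‖ph x‖ = 1 := by
  rw [ph, mul_comm, Complex.norm_exp_ofReal_mul_I]

lemma ph_add (x y : ℝ) : ph (x + y) = ph x * ph y := by
  rw [ph, ph, ph, ← Complex.exp_add]
  congr 1
  push_cast
  ring

lemma ph_zero : ph 0 = 1 := by simp [ph]

lemma norm_ph_sub_one (x : ℝ) : ‖ph x - 1‖ ≤ |x| := by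
  have := Real.norm_exp_I_mul_ofReal_sub_one_le (x := x)
  simpa [ph] using this

lemma norm_ph_sub (x y : ℝ) : ‖ph x - ph y‖ ≤ |x - y| := by
  have : ph x - ph y = ph y * (ph (x - y) - 1) := by
    rw [mul_sub, ← ph_add, mul_one]
    congr 2
    ring
  rw [this, norm_mul, norm_ph, one_mul]
  exact norm_ph_sub_one _

lemma abs_im_inner_le (y f : K) : |(⟪y, f⟫_ℂ).im| ≤ ‖y‖ * ‖f‖ :=
  (Complex.abs_im_le_norm _).trans (norm_inner_le_norm _ _)

namespace WS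

variable {w : WS K S}

lemma norm_expZ_sub_one (w : WS K S) (θ : ℝ) (v : S) : ‖w.expZ θ v - v‖ ≤ 2 * |θ| * ‖v‖ := by
  have h1 : w.expZ θ v - v = (((Real.cos θ - 1 : ℝ)) : ℂ) • v +
      (Complex.I * ((Real.sin θ : ℝ) : ℂ)) • w.Z v := by
    rw [expZ_apply]
    push_cast
    module
  have h2 : |Real.cos θ - 1| ≤ |θ| := by
    have := norm_ph_sub_one θ
    have h3 := (Complex.abs_re_le_norm (ph θ - 1)).trans this
    have h4 : (ph θ - 1).re = Real.cos θ - 1 := by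
      rw [ph, mul_comm, Complex.sub_re, Complex.exp_ofReal_mul_I_re, Complex.one_re]
    rwa [h4] at h3
  have h3 : |Real.sin θ| ≤ |θ| := Real.abs_sin_le_abs
  rw [h1]
  refine (norm_add_le _ _).trans ?_
  rw [norm_smul, norm_smul, w.norm_Z, Complex.norm_real, norm_mul, Complex.norm_I,
    Complex.norm_real, one_mul, Real.norm_eq_abs, Real.norm_eq_abs]
  nlinarith [norm_nonneg v]


lemma norm_expZ_sub (w : WS K S) (θ θ' : ℝ) (v : S) :
    ‖w.expZ θ v - w.expZ θ' v‖ ≤ 2 * |θ - θ'| * ‖v‖ := by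
  have h1 : w.expZ θ v - w.expZ θ' v = (((Real.cos θ - Real.cos θ' : ℝ)) : ℂ) • v +
      (Complex.I * ((Real.sin θ - Real.sin θ' : ℝ) : ℂ)) • w.Z v := by
    rw [expZ_apply, expZ_apply]
    push_cast
    module
  have h2 := norm_ph_sub θ θ'
  have h3 : |Real.cos θ - Real.cos θ'| ≤ |θ - θ'| := by
    have h3 := (Complex.abs_re_le_norm (ph θ - ph θ')).trans h2
    have h4 : (ph θ - ph θ').re = Real.cos θ - Real.cos θ' := by
      rw [ph, ph, mul_comm, mul_comm Complex.I, Complex.sub_re, Complex.exp_ofReal_mul_I_re,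
        Complex.exp_ofReal_mul_I_re]
    rwa [h4] at h3
  have h5 : |Real.sin θ - Real.sin θ'| ≤ |θ - θ'| := by
    have h3 := (Complex.abs_im_le_norm (ph θ - ph θ')).trans h2
    have h4 : (ph θ - ph θ').im = Real.sin θ - Real.sin θ' := by
      rw [ph, ph, mul_comm, mul_comm Complex.I, Complex.sub_im, Complex.exp_ofReal_mul_I_im,
        Complex.exp_ofReal_mul_I_im]
    rwa [h4] at h3
  rw [h1]
  refine (norm_add_le _ _).trans ?_
  rw [norm_smul, norm_smul, w.norm_Z, Complex.norm_real, norm_mul, Complex.norm_I,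
    Complex.norm_real, one_mul, Real.norm_eq_abs, Real.norm_eq_abs]
  nlinarith [norm_nonneg v]

end WS

variable {α : Type*}

/-- `h` is a Weyl eigenfamily with momentum `y` at scale `ε`. -/
def WH (w : WS K S) (l : Filter α) (ε : α → ℝ) (y : α → K) (h : α → S) : Prop :=
  ∀ f : α → K, Bdd f → Tendsto (fun n => w.W ((ε n : ℂ) • f n) (h n) -
    ph ((⟪y n, f n⟫_ℂ).im) • h n) l (𝓝 0)

namespace WH

variable {w : WS K S} {l : Filter α} {ε : α → ℝ} {y y' : α → K} {h h' : α → S}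

lemma congr (H : WH w l ε y h) (hh : Tendsto (fun n => h' n - h n) l (𝓝 0)) :
    WH w l ε y h' := by
  intro f hf
  have h1 := H f hf
  have h2 : Tendsto (fun n => w.W ((ε n : ℂ) • f n) (h' n - h n)) l (𝓝 0) :=
    tendsto_zero_of_norm_le (C := 1) hh fun n => by rw [w.norm_W, one_mul]
  have h3 : Tendsto (fun n => ph ((⟪y n, f n⟫_ℂ).im) • (h' n - h n)) l (𝓝 0) :=
    tendsto_smul_zero_of_bdd ⟨1, fun n => (norm_ph _).le⟩ hh
  have h4 := (h1.add h2).sub h3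
  simp only [add_zero, sub_zero] at h4
  refine h4.congr fun n => ?_
  rw [map_sub, smul_sub]
  abel

lemma congr' (H : WH w l ε y h) (hh : Tendsto (fun n => h n - h' n) l (𝓝 0)) :
    WH w l ε y h' := by
  refine H.congr ?_
  have := hh.neg
  simpa using this


/-- apply a bounded family of spin matrices -/
lemma map (H : WH w l ε y h) {A : α → S →L[ℂ] S} (hA : ∀ n, w.CW (A n)) {C : ℝ}
    (hC : ∀ n v, ‖A n v‖ ≤ C * ‖v‖) : WH w l ε y (fun n => A n (h n)) := by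
  intro f hf
  refine tendsto_zero_of_norm_le (C := C) (H f hf) fun n => ?_
  refine le_trans (le_of_eq ?_) (hC n _)
  rw [map_sub, hA, map_smul]

lemma map_const (H : WH w l ε y h) {A : S →L[ℂ] S} (hA : w.CW A) :
    WH w l ε y (fun n => A (h n)) :=
  H.map (fun _ => hA) (C := ‖A‖) fun _ v => A.le_opNorm v

lemma add (H : WH w l ε y h) (H' : WH w l ε y h') : WH w l ε y (fun n => h n + h' n) := by
  intro f hf
  have := (H f hf).add (H' f hf)
  rw [add_zero] at this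
  refine this.congr fun n => ?_
  rw [map_add, smul_add]
  abel

lemma smul (H : WH w l ε y h) {c : α → ℂ} (hc : Bdd c) : WH w l ε y (fun n => c n • h n) := by
  intro f hf
  refine (tendsto_smul_zero_of_bdd hc (H f hf)).congr fun n => ?_
  rw [map_smul, smul_sub, smul_comm]

lemma zero : WH w l ε y (fun _ => (0 : S)) := by
  intro f _
  simpa using tendsto_const_nhds

/-- bounded `E`-moves keep the momentum -/
lemma E_bdd (H : WH w l ε y h) (hε : Tendsto ε l (𝓝 0)) (hb : Bdd h) {F : α → K} (hF : Bdd F) :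
    WH w l ε y (fun n => w.E (F n) (h n)) := by
  intro f hf
  have h1 := H f hf
  obtain ⟨T, hT⟩ := hf
  obtain ⟨T', hT'⟩ := hF
  obtain ⟨C, hC⟩ := hb
  have h2 : Tendsto (fun n => w.E (F n) (w.W ((ε n : ℂ) • f n) (h n) -
      ph ((⟪y n, f n⟫_ℂ).im) • h n)) l (𝓝 0) :=
    tendsto_zero_of_norm_le (C := 1) h1 fun n => by rw [w.norm_E, one_mul]
  have h3 : Tendsto (fun n => w.E (F n) (w.expZ (-(2 * (⟪(ε n : ℂ) • f n, F n⟫_ℂ).im))
      (w.W ((ε n : ℂ) • f n) (h n)) - w.W ((ε n : ℂ) • f n) (h n))) l (𝓝 0) := by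
    refine tendsto_zero_of_norm_le (C := 4 * (T * T') * C) hε fun n => ?_
    rw [w.norm_E]
    refine (w.norm_expZ_sub_one _ _).trans ?_
    rw [w.norm_W]
    have hin : |(⟪(ε n : ℂ) • f n, F n⟫_ℂ).im| ≤ ‖ε n‖ * (T * T') := by
      refine (abs_im_inner_le _ _).trans ?_
      rw [norm_smul, Complex.norm_real, mul_assoc]
      exact mul_le_mul_of_nonneg_left (mul_le_mul (hT n) (hT' n) (norm_nonneg _)
        ((norm_nonneg _).trans (hT n))) (norm_nonneg _)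
    have habs : |-(2 * (⟪(ε n : ℂ) • f n, F n⟫_ℂ).im)| =
        2 * |(⟪(ε n : ℂ) • f n, F n⟫_ℂ).im| := by
      rw [abs_neg, abs_mul, abs_two]
    rw [habs]
    have hn := norm_nonneg (h n)
    have hTT : 0 ≤ T * T' := mul_nonneg ((norm_nonneg _).trans (hT n))
      ((norm_nonneg _).trans (hT' n))
    calc 2 * (2 * |(⟪(ε n : ℂ) • f n, F n⟫_ℂ).im|) * ‖h n‖
        ≤ 2 * (2 * (‖ε n‖ * (T * T'))) * C := by
          refine mul_le_mul ?_ (hC n) hn ?_
          · linarith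
          · positivity
      _ = 4 * (T * T') * C * ‖ε n‖ := by ring
  have h4 := h2.add h3
  rw [add_zero] at h4
  refine h4.congr fun n => ?_
  rw [w.W_E, ← map_add, ← map_smul, ← map_sub]
  congr 1
  abel

/-- small pulses on an eigenfamily: `E(ε τ f) h ≈ exp(i τ Im⟪y,f⟫ Z) h` -/
lemma pulse (H : WH w l ε y h) {τ : α → ℝ} (hτ : Bdd τ) {f : α → K} (hf : Bdd f) :
    Tendsto (fun n => w.E (((ε n * τ n : ℝ) : ℂ) • f n) (h n) -
      w.expZ (τ n * (⟪y n, f n⟫_ℂ).im) (h n)) l (𝓝 0) := by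
  have h1 := H (fun n => ((τ n : ℝ) : ℂ) • f n) (hτ.ofReal.smul hf)
  have h2 := H (fun n => -(((τ n : ℝ) : ℂ) • f n)) (hτ.ofReal.smul hf).neg
  have h3 : Tendsto (fun n => w.Z ((w.W ((ε n : ℂ) • ((τ n : ℝ) : ℂ) • f n) (h n) -
      ph ((⟪y n, ((τ n : ℝ) : ℂ) • f n⟫_ℂ).im) • h n) -
      (w.W ((ε n : ℂ) • -(((τ n : ℝ) : ℂ) • f n)) (h n) -
      ph ((⟪y n, -(((τ n : ℝ) : ℂ) • f n)⟫_ℂ).im) • h n))) l (𝓝 0) := by
    have := h1.sub h2
    rw [sub_zero] at this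
    exact tendsto_zero_of_norm_le (C := 1) this fun n => by rw [w.norm_Z, one_mul]
  have h4 := ((h1.add h2).add h3).const_smul (1 / 2 : ℂ)
  simp only [add_zero, smul_zero] at h4
  refine h4.congr fun n => ?_
  set θ : ℝ := τ n * (⟪y n, f n⟫_ℂ).im with hθ
  have him : (⟪y n, ((τ n : ℝ) : ℂ) • f n⟫_ℂ).im = θ := by
    rw [inner_smul_right, Complex.im_ofReal_mul]
  have him2 : (⟪y n, -(((τ n : ℝ) : ℂ) • f n)⟫_ℂ).im = -θ := by
    rw [inner_neg_right, Complex.neg_im, him]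
  have hk : (ε n : ℂ) • ((τ n : ℝ) : ℂ) • f n = ((ε n * τ n : ℝ) : ℂ) • f n := by
    rw [smul_smul]
    push_cast
    rfl
  have hk2 : (ε n : ℂ) • -(((τ n : ℝ) : ℂ) • f n) = -(((ε n * τ n : ℝ) : ℂ) • f n) := by
    rw [smul_neg, hk]
  have hp : ph θ = ((Real.cos θ : ℝ) : ℂ) + Complex.I * ((Real.sin θ : ℝ) : ℂ) := by
    rw [ph, mul_comm, Complex.exp_mul_I, ← Complex.ofReal_cos, ← Complex.ofReal_sin]
    ring
  have hm : ph (-θ) = ((Real.cos θ : ℝ) : ℂ) - Complex.I * ((Real.sin θ : ℝ) : ℂ) := by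
    rw [ph, mul_comm, Complex.exp_mul_I, ← Complex.ofReal_cos, ← Complex.ofReal_sin, Real.cos_neg,
      Real.sin_neg]
    push_cast
    ring
  rw [him, him2, hk, hk2, WS.E_apply, WS.expZ_apply, hp, hm]
  simp only [map_sub, map_smul]
  module

/-- version with a limiting angle -/
lemma pulse_lim (H : WH w l ε y h) (hb : Bdd h) {τ : α → ℝ} (hτ : Bdd τ) {f : α → K} (hf : Bdd f)
    {θ : ℝ} (hθ : Tendsto (fun n => τ n * (⟪y n, f n⟫_ℂ).im) l (𝓝 θ)) :
    Tendsto (fun n => w.E (((ε n * τ n : ℝ) : ℂ) • f n) (h n) - w.expZ θ (h n)) l (𝓝 0) := by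
  have h1 := H.pulse hτ hf
  have h2 : Tendsto (fun n => w.expZ (τ n * (⟪y n, f n⟫_ℂ).im) (h n) - w.expZ θ (h n)) l
      (𝓝 0) := by
    obtain ⟨C, hC⟩ := hb
    have h3 : Tendsto (fun n => τ n * (⟪y n, f n⟫_ℂ).im - θ) l (𝓝 0) := by
      simpa using hθ.sub_const θ
    refine tendsto_zero_of_norm_le (C := 2 * C) h3 fun n => ?_
    refine (w.norm_expZ_sub _ _ _).trans ?_
    rw [Real.norm_eq_abs]
    have := hC n
    have hab := abs_nonneg (τ n * (⟪y n, f n⟫_ℂ).im - θ)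
    nlinarith
  have h4 := h1.add h2
  rw [add_zero] at h4
  refine h4.congr fun n => ?_
  abel

/-- big moves shift the momentum -/
lemma W_big (H : WH w l ε y h) {c : α → ℝ} {e : α → K} (q : ℝ)
    (hc : ∀ᶠ n in l, 2 * (ε n * c n) = q) :
    WH w l ε (fun n => y n + (q : ℂ) • e n) (fun n => w.W ((c n : ℂ) • e n) (h n)) := by
  intro f hf
  have h1 := H f hf
  have h2 : Tendsto (fun n => ph (q * (⟪e n, f n⟫_ℂ).im) • w.W ((c n : ℂ) • e n)
      (w.W ((ε n : ℂ) • f n) (h n) - ph ((⟪y n, f n⟫_ℂ).im) • h n)) l (𝓝 0) :=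
    tendsto_zero_of_norm_le (C := 1) h1 fun n => by
      rw [norm_smul, norm_ph, w.norm_W]
  refine h2.congr' ?_
  filter_upwards [hc] with n hn
  rw [w.W_comm ((ε n : ℂ) • f n)]
  have e1 : (⟪(ε n : ℂ) • f n, (c n : ℂ) • e n⟫_ℂ).im = -(ε n * c n * (⟪e n, f n⟫_ℂ).im) := by
    rw [inner_smul_left, inner_smul_right, Complex.conj_ofReal, ← mul_assoc,
      ← Complex.ofReal_mul, Complex.im_ofReal_mul, ← inner_conj_symm (f n) (e n), Complex.conj_im]
    ring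
  have e2 : Complex.exp (-(2 * Complex.I * ((⟪(ε n : ℂ) • f n, (c n : ℂ) • e n⟫_ℂ).im : ℂ))) =
      ph (q * (⟪e n, f n⟫_ℂ).im) := by
    rw [e1, ph, ← hn]
    congr 1
    push_cast
    ring
  have e3 : (⟪y n + (q : ℂ) • e n, f n⟫_ℂ).im = (⟪y n, f n⟫_ℂ).im + q * (⟪e n, f n⟫_ℂ).im := by
    rw [inner_add_left, inner_smul_left, Complex.conj_ofReal, Complex.add_im,
      Complex.im_ofReal_mul]
  rw [e2, e3, ph_add, map_sub, smul_sub, map_smul, smul_smul, mul_comm (ph (q * _))]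

end WH

/-- spin bit `b` asymptotically -/
def Bit (w : WS K S) (l : Filter α) (b : ℝ) (h : α → S) : Prop :=
  Tendsto (fun n => w.Z (h n) - (b : ℂ) • h n) l (𝓝 0)

namespace Bit

variable {w : WS K S} {l : Filter α} {ε : α → ℝ} {y y' : α → K} {h h' : α → S} {b : ℝ}

lemma congr (H : Bit w l b h) (hh : Tendsto (fun n => h' n - h n) l (𝓝 0)) : Bit w l b h' := by
  have h2 : Tendsto (fun n => w.Z (h' n - h n)) l (𝓝 0) :=
    tendsto_zero_of_norm_le (C := 1) hh fun n => by rw [w.norm_Z, one_mul]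
  have h3 := (H.add h2).sub (hh.const_smul (b : ℂ))
  simp only [add_zero, smul_zero, sub_zero] at h3
  refine h3.congr fun n => ?_
  rw [map_sub, smul_sub]
  abel

/-- operators commuting with `Z` keep the bit -/
lemma map (H : Bit w l b h) {A : α → S →L[ℂ] S} (hA : ∀ n v, w.Z (A n v) = A n (w.Z v)) {C : ℝ}
    (hC : ∀ n v, ‖A n v‖ ≤ C * ‖v‖) : Bit w l b (fun n => A n (h n)) := by
  refine tendsto_zero_of_norm_le (C := C) H fun n => ?_
  rw [hA, ← map_smul, ← map_sub]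
  exact hC n _

/-- operators anticommuting with `Z` flip the bit -/
lemma flip (H : Bit w l b h) {A : α → S →L[ℂ] S} (hA : ∀ n v, w.Z (A n v) = -A n (w.Z v)) {C : ℝ}
    (hC : ∀ n v, ‖A n v‖ ≤ C * ‖v‖) : Bit w l (-b) (fun n => A n (h n)) := by
  refine tendsto_zero_of_norm_le (C := C) H fun n => ?_
  have : w.Z (A n (h n)) - ((-b : ℝ) : ℂ) • A n (h n) = -(A n (w.Z (h n) - (b : ℂ) • h n)) := by
    rw [hA, map_sub, map_smul]
    push_cast
    module
  rw [this, norm_neg]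
  exact hC n _

end Bit

lemma WS.Z_E (w : WS K S) (f : K) (v : S) : w.Z (w.E f v) = w.E f (w.Z v) := by
  rw [WS.E_apply, WS.E_apply]
  simp only [map_add, map_sub, map_smul, w.Z_W]

/-- on vectors of bit `b = ±1`, `E f` is `W (b f)` -/
lemma E_bit {w : WS K S} {l : Filter α} {h : α → S} {b : ℝ} (hb : b = 1 ∨ b = -1)
    (H : Bit w l b h) (f : α → K) :
    Tendsto (fun n => w.E (f n) (h n) - w.W ((b : ℂ) • f n) (h n)) l (𝓝 0) := by
  have h1 : Tendsto (fun n => (1 / 2 : ℂ) • (w.W (f n) (w.Z (h n) - (b : ℂ) • h n) -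
      w.W (-f n) (w.Z (h n) - (b : ℂ) • h n))) l (𝓝 0) := by
    refine tendsto_zero_of_norm_le (C := 1) H fun n => ?_
    rw [norm_smul, one_mul]
    refine (mul_le_mul_of_nonneg_left (norm_sub_le _ _) (norm_nonneg _)).trans ?_
    rw [w.norm_W, w.norm_W]
    have h0 : ‖(1 / 2 : ℂ)‖ = 1 / 2 := by norm_num
    rw [h0]
    linarith
  refine h1.congr fun n => ?_
  rw [WS.E_apply]
  rcases hb with rfl | rfl
  · simp only [map_sub, w.Z_W, Complex.ofReal_one, one_smul]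
    module
  · simp only [map_sub, w.Z_W, Complex.ofReal_neg, Complex.ofReal_one,
      neg_smul, one_smul, map_neg]
    module

/-- big moves on a heavy branch -/
lemma WH.E_big {w : WS K S} {l : Filter α} {ε : α → ℝ} {y : α → K} {h : α → S}
    (H : WH w l ε y h) {b : ℝ} (hb : b = 1 ∨ b = -1) (B : Bit w l b h) {c : α → ℝ} {e : α → K}
    (q : ℝ) (hc : ∀ᶠ n in l, 2 * (ε n * c n) = q) :
    WH w l ε (fun n => y n + ((b * q : ℝ) : ℂ) • e n) (fun n => w.E ((c n : ℂ) • e n) (h n)) := by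
  have h1 := H.W_big (c := fun n => b * c n) (e := e) (b * q) (by
    filter_upwards [hc] with n hn
    rw [← hn]
    ring)
  refine h1.congr ((E_bit hb B fun n => (c n : ℂ) • e n).congr fun n => ?_)
  rw [smul_smul]
  push_cast
  rfl

lemma WH.E_big_bit {w : WS K S} {l : Filter α} {h : α → S} {b : ℝ} (B : Bit w l b h) (f : α → K) :
    Bit w l b (fun n => w.E (f n) (h n)) :=
  B.map (C := 1) (fun n v => w.Z_E _ _) fun n v => by rw [w.norm_E, one_mul]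

/-- Eigenfamilies with separated momenta are asymptotically orthogonal. -/
lemma WH.overlap {w : WS K S} {l : Filter α} {ε : α → ℝ} {y y' : α → K} {h h' : α → S}
    (H : WH w l ε y h) (H' : WH w l ε y' h') (hb : Bdd h) (hb' : Bdd h') {f : α → K}
    (hf : Bdd f) {c : ℝ} (hc : 0 < c)
    (hsep : ∀ᶠ n in l, c ≤ ‖ph ((⟪y' n, f n⟫_ℂ).im) - ph ((⟪y n, f n⟫_ℂ).im)‖) :
    Tendsto (fun n => ⟪h n, h' n⟫_ℂ) l (𝓝 0) := by
  have h1 := H f hf
  have h2 := H' f hf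
  obtain ⟨C, hC⟩ := hb
  obtain ⟨C', hC'⟩ := hb'
  have hWiso : ∀ (g : K) (a b : S), ⟪w.W g a, w.W g b⟫_ℂ = ⟪a, b⟫_ℂ := fun g a b =>
    (LinearIsometry.mk (w.W g).toLinearMap (w.norm_W g)).inner_map_map a b
  have key : Tendsto (fun n => (1 - conj (ph ((⟪y n, f n⟫_ℂ).im)) * ph ((⟪y' n, f n⟫_ℂ).im)) *
      ⟪h n, h' n⟫_ℂ) l (𝓝 0) := by
    have e1 : Tendsto (fun n => ⟪w.W ((ε n : ℂ) • f n) (h n) -
        ph ((⟪y n, f n⟫_ℂ).im) • h n, w.W ((ε n : ℂ) • f n) (h' n)⟫_ℂ) l (𝓝 0) := by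
      refine tendsto_zero_of_norm_le (C := C') h1 fun n => ?_
      refine (norm_inner_le_norm _ _).trans ?_
      rw [w.norm_W, mul_comm]
      exact mul_le_mul_of_nonneg_right (hC' n) (norm_nonneg _)
    have e2 : Tendsto (fun n => ⟪ph ((⟪y n, f n⟫_ℂ).im) • h n, w.W ((ε n : ℂ) • f n) (h' n) -
        ph ((⟪y' n, f n⟫_ℂ).im) • h' n⟫_ℂ) l (𝓝 0) := by
      refine tendsto_zero_of_norm_le (C := C) h2 fun n => ?_
      refine (norm_inner_le_norm _ _).trans ?_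
      rw [norm_smul, norm_ph, one_mul]
      exact mul_le_mul_of_nonneg_right (hC n) (norm_nonneg _)
    have e3 := e1.add e2
    rw [add_zero] at e3
    refine e3.congr fun n => ?_
    rw [inner_sub_left, inner_sub_right, hWiso, inner_smul_left, inner_smul_left,
      inner_smul_right]
    ring
  rw [tendsto_zero_iff_norm_tendsto_zero] at key ⊢
  have h5 : Tendsto (fun n => c⁻¹ * ‖(1 - conj (ph ((⟪y n, f n⟫_ℂ).im)) *
      ph ((⟪y' n, f n⟫_ℂ).im)) * ⟪h n, h' n⟫_ℂ‖) l (𝓝 0) := by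
    simpa using key.const_mul c⁻¹
  refine squeeze_zero' (Eventually.of_forall fun n => norm_nonneg _) ?_ h5
  filter_upwards [hsep] with n hn
  have h6 : ‖1 - conj (ph ((⟪y n, f n⟫_ℂ).im)) * ph ((⟪y' n, f n⟫_ℂ).im)‖ =
      ‖ph ((⟪y' n, f n⟫_ℂ).im) - ph ((⟪y n, f n⟫_ℂ).im)‖ := by
    have h7 : conj (ph ((⟪y n, f n⟫_ℂ).im)) * ph ((⟪y n, f n⟫_ℂ).im) = 1 := by
      rw [← Complex.normSq_eq_conj_mul_self, Complex.normSq_eq_norm_sq, norm_ph]
      simp
    have h8 : 1 - conj (ph ((⟪y n, f n⟫_ℂ).im)) * ph ((⟪y' n, f n⟫_ℂ).im) =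
        -(conj (ph ((⟪y n, f n⟫_ℂ).im)) * (ph ((⟪y' n, f n⟫_ℂ).im) - ph ((⟪y n, f n⟫_ℂ).im))) := by
      rw [mul_sub, h7]
      ring
    rw [h8, norm_neg, norm_mul, RCLike.norm_conj, norm_ph, one_mul]
  rw [norm_mul, h6]
  have h9 := norm_nonneg (⟪h n, h' n⟫_ℂ)
  calc ‖⟪h n, h' n⟫_ℂ‖ = c⁻¹ * (c * ‖⟪h n, h' n⟫_ℂ‖) := by field_simp
    _ ≤ c⁻¹ * (‖ph ((⟪y' n, f n⟫_ℂ).im) - ph ((⟪y n, f n⟫_ℂ).im)‖ * ‖⟪h n, h' n⟫_ℂ‖) := by
        gcongr

end Crest.Agent.R339.Hv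
end
end

-- ▼ part R339/Heavy682C
section

/-!
# Heavy branches: calibrated pulses, the reading gate, the label macro
-/

set_option autoImplicit false

noncomputable section

open scoped ComplexConjugate InnerProductSpace Topology
open Filter

namespace Crest.Agent.R339.Hv

variable {K S : Type*} [NormedAddCommGroup K] [InnerProductSpace ℂ K]
  [NormedAddCommGroup S] [InnerProductSpace ℂ S]

/-- Weyl operators together with the spin matrices `Z` and `X`. -/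
structure WX (K S : Type*) [NormedAddCommGroup K] [InnerProductSpace ℂ K]
    [NormedAddCommGroup S] [InnerProductSpace ℂ S] extends WS K S where
  X : S →L[ℂ] S
  X_sq : ∀ v, X (X v) = v
  X_W : ∀ f v, X (W f v) = W f (X v)
  X_Z : ∀ v, X (Z v) = -Z (X v)
  norm_X : ∀ v, ‖X v‖ = ‖v‖


namespace WX

variable (w : WX K S)

/-- `rx θ = exp (-i θ X)` -/
def rx (θ : ℝ) : S →L[ℂ] S :=
  ((Real.cos θ : ℝ) : ℂ) • (1 : S →L[ℂ] S) - (Complex.I * ((Real.sin θ : ℝ) : ℂ)) • w.X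

lemma rx_apply (θ : ℝ) (v : S) : w.rx θ v =
    ((Real.cos θ : ℝ) : ℂ) • v - (Complex.I * ((Real.sin θ : ℝ) : ℂ)) • w.X v := rfl

lemma CW_rx (θ : ℝ) : w.toWS.CW (w.rx θ) := by
  intro f v
  rw [rx_apply, rx_apply, w.X_W, map_sub, map_smul, map_smul]

lemma rx_add (θ θ' : ℝ) (v : S) : w.rx θ (w.rx θ' v) = w.rx (θ + θ') v := by
  have hc : ((Real.cos (θ + θ') : ℝ) : ℂ) = ((Real.cos θ : ℝ) : ℂ) * ((Real.cos θ' : ℝ) : ℂ) -
      ((Real.sin θ : ℝ) : ℂ) * ((Real.sin θ' : ℝ) : ℂ) := by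
    rw [Real.cos_add, Complex.ofReal_sub, Complex.ofReal_mul, Complex.ofReal_mul]
  have hs : ((Real.sin (θ + θ') : ℝ) : ℂ) = ((Real.sin θ : ℝ) : ℂ) * ((Real.cos θ' : ℝ) : ℂ) +
      ((Real.cos θ : ℝ) : ℂ) * ((Real.sin θ' : ℝ) : ℂ) := by
    rw [Real.sin_add, Complex.ofReal_add, Complex.ofReal_mul, Complex.ofReal_mul]
  rw [rx_apply, rx_apply, rx_apply, map_sub, map_smul, map_smul, w.X_sq, hc, hs]
  generalize ((Real.cos θ : ℝ) : ℂ) = a
  generalize ((Real.sin θ : ℝ) : ℂ) = b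
  generalize ((Real.cos θ' : ℝ) : ℂ) = a'
  generalize ((Real.sin θ' : ℝ) : ℂ) = b'
  have e : (Complex.I * b) • (Complex.I * b') • v = -((b * b') • v) := by
    rw [smul_smul, ← neg_smul]
    congr 1
    linear_combination (b * b') * Complex.I_mul_I
  rw [smul_sub, smul_sub, e]
  module

lemma rx_zero (v : S) : w.rx 0 v = v := by
  rw [rx_apply]
  simp

lemma rx_neg_rx (θ : ℝ) (v : S) : w.rx (-θ) (w.rx θ v) = v := by
  rw [rx_add, neg_add_cancel, rx_zero]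


lemma Z_rx (θ : ℝ) (v : S) : w.Z (w.rx θ v) = w.rx (-θ) (w.Z v) := by
  have h : w.Z (w.X v) = -w.X (w.Z v) := by rw [w.X_Z, neg_neg]
  rw [rx_apply, rx_apply, map_sub, map_smul, map_smul, h, Real.cos_neg, Real.sin_neg]
  push_cast
  module

lemma norm_rx (θ : ℝ) (v : S) : ‖w.rx θ v‖ = ‖v‖ := by
  have hXiso : ∀ a b : S, ⟪w.X a, w.X b⟫_ℂ = ⟪a, b⟫_ℂ := fun a b =>
    (LinearIsometry.mk w.X.toLinearMap w.norm_X).inner_map_map a b
  have hre : ⟪w.X v, v⟫_ℂ = ⟪v, w.X v⟫_ℂ := by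
    rw [← hXiso v (w.X v), w.X_sq]
  have h1 : ⟪w.rx θ v, w.rx θ v⟫_ℂ = ⟪v, v⟫_ℂ := by
    rw [rx_apply, inner_sub_left, inner_sub_right, inner_sub_right, inner_smul_left,
      inner_smul_left, inner_smul_left, inner_smul_left, inner_smul_right, inner_smul_right,
      inner_smul_right, inner_smul_right, hXiso, hre]
    simp only [map_mul, Complex.conj_I, Complex.conj_ofReal]
    have hs := Real.sin_sq_add_cos_sq θ
    have hs' : ((Real.sin θ : ℝ) : ℂ) ^ 2 + ((Real.cos θ : ℝ) : ℂ) ^ 2 = 1 := by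
      exact_mod_cast hs
    have hI : Complex.I * Complex.I = -1 := Complex.I_mul_I
    linear_combination ⟪v, v⟫_ℂ * hs' - ((Real.sin θ : ℝ) : ℂ) ^ 2 * ⟪v, v⟫_ℂ * hI
  rw [@norm_eq_sqrt_re_inner ℂ, h1, ← @norm_eq_sqrt_re_inner ℂ]

/-- the conjugated gate `E_β(f) = e^{iβX} E(f) e^{-iβX}` -/
def Eb (β : ℝ) (f : K) : S →L[ℂ] S := w.rx (-β) ∘L w.toWS.E f ∘L w.rx β

lemma Eb_apply (β : ℝ) (f : K) (v : S) : w.Eb β f v = w.rx (-β) (w.toWS.E f (w.rx β v)) := rfl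

lemma norm_Eb (β : ℝ) (f : K) (v : S) : ‖w.Eb β f v‖ = ‖v‖ := by
  rw [Eb_apply, norm_rx, w.toWS.norm_E, norm_rx]

/-- `Z_β = e^{iβX} Z e^{-iβX}` -/
def Zb (β : ℝ) : S →L[ℂ] S := w.rx (-β) ∘L w.Z ∘L w.rx β

lemma Zb_apply (β : ℝ) (v : S) : w.Zb β v = w.rx (-β) (w.Z (w.rx β v)) := rfl

lemma Zb_eq (β : ℝ) (v : S) : w.Zb β v = w.Z (w.rx (2 * β) v) := by
  rw [Zb_apply, ← w.Z_rx, w.rx_add, two_mul]

lemma Z_Zb (β : ℝ) (v : S) : w.Z (w.Zb β v) = w.rx (2 * β) v := by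
  rw [Zb_eq, w.Z_sq]

lemma CW_Zb (β : ℝ) : w.toWS.CW (w.Zb β) := by
  intro f v
  rw [Zb_eq, Zb_eq, w.CW_rx, w.Z_W]





end WX




end Crest.Agent.R339.Hv
end
end

-- ▼ part R339/Heavy682D
section

/-!
# Heavy predicate with two signs, cost moves, pulse sequences (abstract site algebra)
-/

set_option autoImplicit false

noncomputable section

open scoped ComplexConjugate InnerProductSpace Topology
open Filter

namespace Crest.Agent.R339.Hv

variable {K S : Type*} [NormedAddCommGroup K] [InnerProductSpace ℂ K]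
  [NormedAddCommGroup S] [InnerProductSpace ℂ S]

/-- uniform form of the eigenfamily property -/
def WHu {α : Type*} (w : WS K S) (l : Filter α) (ε : α → ℝ) (b : ℝ) (y : α → K) (h : α → S) :
    Prop :=
  ∀ T : ℝ, ∀ δ > 0, ∀ᶠ n in l, ∀ f : K, ‖f‖ ≤ T →
    ‖w.W ((ε n : ℂ) • f) (h n) - Complex.exp (Complex.I * (b * (⟪y n, f⟫_ℂ).im)) • h n‖ ≤ δ

lemma ph_smul_im {b : ℝ} {y f : K} :
    ph ((⟪(b : ℂ) • y, f⟫_ℂ).im) = Complex.exp (Complex.I * (b * (⟪y, f⟫_ℂ).im)) := by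
  rw [ph, inner_smul_left, Complex.conj_ofReal, Complex.im_ofReal_mul]
  push_cast
  rfl

lemma whu_iff {α : Type*} {w : WS K S} {l : Filter α} {ε : α → ℝ} {b : ℝ} {y : α → K}
    {h : α → S} : WHu w l ε b y h ↔ WH w l ε (fun n => (b : ℂ) • y n) h := by
  constructor
  · intro H f ⟨T, hT⟩
    rw [Metric.tendsto_nhds]
    intro δ hδ
    filter_upwards [H T (δ / 2) (half_pos hδ)] with n hn
    rw [dist_zero_right, ph_smul_im]
    exact (hn (f n) (hT n)).trans_lt (half_lt_self hδ)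
  · intro H T δ hδ
    classical
    let P : α → K → Prop := fun n f => ‖f‖ ≤ T ∧ δ < ‖w.W ((ε n : ℂ) • f) (h n) -
      Complex.exp (Complex.I * (b * (⟪y n, f⟫_ℂ).im)) • h n‖
    let f : α → K := fun n => if hn : ∃ f, P n f then hn.choose else 0
    have hf : Bdd f := by
      refine ⟨max T 0, fun n => ?_⟩
      by_cases hn : ∃ f, P n f
      · simp only [f, hn, dite_true]
        exact hn.choose_spec.1.trans (le_max_left _ _)
      · simp only [f, hn, dite_false, norm_zero]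
        exact le_max_right _ _
    have h1 := H f hf
    rw [Metric.tendsto_nhds] at h1
    filter_upwards [h1 δ hδ] with n hn g hg
    by_contra hcon
    rw [not_le] at hcon
    have hex : ∃ f, P n f := ⟨g, hg, hcon⟩
    have hfn : f n = hex.choose := by simp only [f, hex, dite_true]
    rw [dist_zero_right, ph_smul_im, hfn] at hn
    exact absurd hn (not_lt.mpr hex.choose_spec.2.le)

/-- Heavy families: label sign `b`, current spin `b'`, momentum `b y`. -/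
def HvS {α : Type*} (w : WS K S) (l : Filter α) (ε : α → ℝ) (b b' : ℝ) (y : α → K)
    (h : α → S) : Prop :=
  Tendsto (fun n => w.Z (h n) - (b' : ℂ) • h n) l (𝓝 0) ∧ WHu w l ε b y h

namespace HvS

variable {α : Type*} {w : WS K S} {l : Filter α} {ε : α → ℝ} {b b' : ℝ} {y y' : α → K}
  {h h' : α → S}

lemma wh (H : HvS w l ε b b' y h) : WH w l ε (fun n => (b : ℂ) • y n) h := whu_iff.mp H.2

lemma bit (H : HvS w l ε b b' y h) : Bit w l b' h := H.1

lemma mk' (h1 : Bit w l b' h) (h2 : WH w l ε (fun n => (b : ℂ) • y n) h) :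
    HvS w l ε b b' y h := ⟨h1, whu_iff.mpr h2⟩

/-- (N) perturbation in the vector -/
lemma congr (H : HvS w l ε b b' y h) (hh : Tendsto (fun n => h' n - h n) l (𝓝 0)) :
    HvS w l ε b b' y h' := mk' (H.bit.congr hh) (H.wh.congr hh)


/-- unit scalars -/
lemma smul (H : HvS w l ε b b' y h) {c : α → ℂ} (hc : Bdd c) :
    HvS w l ε b b' y (fun n => c n • h n) := by
  refine mk' ?_ (H.wh.smul hc)
  refine (tendsto_smul_zero_of_bdd hc H.bit).congr fun n => ?_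
  rw [smul_sub, map_smul, smul_comm]

/-- spin matrices commuting with `Z` keep everything -/
lemma map (H : HvS w l ε b b' y h) {A : α → S →L[ℂ] S} (hA : ∀ n, w.CW (A n))
    (hZ : ∀ n v, w.Z (A n v) = A n (w.Z v)) {C : ℝ} (hC : ∀ n v, ‖A n v‖ ≤ C * ‖v‖) :
    HvS w l ε b b' y (fun n => A n (h n)) :=
  mk' (H.bit.map hZ hC) (H.wh.map hA hC)

/-- spin matrices anticommuting with `Z` flip the spin -/
lemma flip (H : HvS w l ε b b' y h) {A : α → S →L[ℂ] S} (hA : ∀ n, w.CW (A n))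
    (hZ : ∀ n v, w.Z (A n v) = -A n (w.Z v)) {C : ℝ} (hC : ∀ n v, ‖A n v‖ ≤ C * ‖v‖) :
    HvS w l ε b (-b') y (fun n => A n (h n)) :=
  mk' (H.bit.flip hZ hC) (H.wh.map hA hC)

/-- (M) cost moves, bounded or amplified -/
lemma cost (H : HvS w l ε b b' y h) (hb : b = 1 ∨ b = -1) (hb' : b' = 1 ∨ b' = -1)
    (hε : ∀ᶠ n in l, ε n ≠ 0) (x : α → K) :
    HvS w l ε b b' (fun n => y n + ((2 * (b * b') : ℝ) : ℂ) • x n)
      (fun n => w.E (((1 / ε n : ℝ) : ℂ) • x n) (h n)) := by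
  refine mk' (WH.E_big_bit H.bit _) ?_
  have h1 := H.wh.E_big hb' H.bit (c := fun n => 1 / ε n) (e := x) 2 (by
    filter_upwards [hε] with n hn
    rw [mul_one_div_cancel hn, mul_one])
  have h2 : (fun n => (b : ℂ) • y n + ((b' * 2 : ℝ) : ℂ) • x n) =
      fun n => (b : ℂ) • (y n + ((2 * (b * b') : ℝ) : ℂ) • x n) := by
    funext n
    rw [smul_add, smul_smul]
    congr 2
    have : (b : ℂ) * (b : ℂ) = 1 := by rcases hb with rfl | rfl <;> simp
    push_cast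
    linear_combination -(2 * (b' : ℂ)) * this
  rwa [h2] at h1

end HvS

/-! ### Pulse sequences -/

namespace WX

variable (w : WX K S)

/-- `exp (i θ Z_β)` -/
def expZb (β θ : ℝ) : S →L[ℂ] S := w.rx (-β) ∘L w.toWS.expZ θ ∘L w.rx β

lemma expZb_apply (β θ : ℝ) (v : S) : w.expZb β θ v =
    ((Real.cos θ : ℝ) : ℂ) • v + (Complex.I * ((Real.sin θ : ℝ) : ℂ)) • w.Zb β v := by
  show w.rx (-β) (w.toWS.expZ θ (w.rx β v)) = _
  rw [WS.expZ_apply, map_add, map_smul, map_smul, rx_neg_rx, Zb_apply]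

end WX

/-- (P) a pulse applied to `A h`, `A` a spin matrix -/
lemma HvS.pulse {α : Type*} {w : WX K S} {l : Filter α} {ε : α → ℝ} {b b' : ℝ} {y : α → K}
    {h : α → S} (H : HvS w.toWS l ε b b' y h) (hb : Bdd h) (β : ℝ) {τ : α → K} (hτ : Bdd τ)
    {θ : ℝ} (hθ : Tendsto (fun n => b * (⟪y n, τ n⟫_ℂ).im) l (𝓝 θ)) {A : S →L[ℂ] S}
    (hA : w.toWS.CW A) :
    Tendsto (fun n => w.Eb β ((ε n : ℂ) • τ n) (A (h n)) - w.expZb β θ (A (h n))) l (𝓝 0) := by
  have H' : WH w.toWS l ε (fun n => (b : ℂ) • y n) (fun n => w.rx β (A (h n))) :=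
    (H.wh.map_const hA).map_const (w.CW_rx β)
  have hb' : Bdd (fun n => w.rx β (A (h n))) := by
    obtain ⟨C, hC⟩ := hb
    exact ⟨‖A‖ * C, fun n => by
      rw [w.norm_rx]
      exact (A.le_opNorm _).trans (mul_le_mul_of_nonneg_left (hC n) (norm_nonneg _))⟩
  have hθ' : Tendsto (fun n => (1 : ℝ) * (⟪(b : ℂ) • y n, τ n⟫_ℂ).im) l (𝓝 θ) := by
    refine hθ.congr fun n => ?_
    rw [inner_smul_left, Complex.conj_ofReal, Complex.im_ofReal_mul, one_mul]
  refine tendsto_zero_of_norm_le (C := 1)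
    (H'.pulse_lim hb' (τ := fun _ => 1) (Bdd.const _) hτ hθ') fun n => ?_
  rw [mul_one, one_mul, w.Eb_apply, WX.expZb]
  show ‖w.rx (-β) _ - w.rx (-β) (w.toWS.expZ θ (w.rx β (A (h n))))‖ ≤ _
  rw [← map_sub, w.norm_rx]

/-- the spin matrices produced by a sequence of calibrated pulses: `A₀ = 1`,
`A_{j+1} = i b σ_j Z_{β_j} A_j` -/
def pulseA (w : WX K S) (b : ℝ) (β σ : ℕ → ℝ) : ℕ → (S →L[ℂ] S)
  | 0 => 1
  | j + 1 => (Complex.I * ((b * σ j : ℝ) : ℂ)) • (w.Zb (β j) ∘L pulseA w b β σ j)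

lemma CW_pulseA (w : WX K S) (b : ℝ) (β σ : ℕ → ℝ) (j : ℕ) :
    w.toWS.CW (pulseA w b β σ j) := by
  induction j with
  | zero => exact w.toWS.CW_one
  | succ j ih => exact ((w.CW_Zb (β j)).mul ih).smul _

/-- A sequence of calibrated pulses acts on a heavy family by the matrices `pulseA`. -/
theorem HvS.pulses {α : Type*} {w : WX K S} {l : Filter α} {ε : α → ℝ} {b b' : ℝ} {y : α → K}
    {h : α → S} (H : HvS w.toWS l ε b b' y h) (hb : Bdd h) (hb1 : b = 1 ∨ b = -1)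
    {β σ : ℕ → ℝ} (hσ : ∀ j, σ j = 1 ∨ σ j = -1) {τ : ℕ → α → K} {N : ℕ}
    (hτ : ∀ j < N, Bdd (τ j))
    (hcal : ∀ j < N, Tendsto (fun n => (⟪y n, τ j n⟫_ℂ).im) l (𝓝 (σ j * (Real.pi / 2))))
    {g : ℕ → α → S} (h0 : ∀ n, g 0 n = h n)
    (hg : ∀ j < N, ∀ n, g (j + 1) n = w.Eb (β j) ((ε n : ℂ) • τ j n) (g j n)) :
    ∀ j ≤ N, Tendsto (fun n => g j n - pulseA w b β σ j (h n)) l (𝓝 0) := by
  intro j
  induction j with
  | zero =>
    intro _
    refine tendsto_const_nhds.congr fun n => ?_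
    rw [h0]
    show (0 : S) = h n - h n
    rw [sub_self]
  | succ j ih =>
    intro hj
    have hjN : j < N := hj
    have h1 := ih hjN.le
    have h2 : Tendsto (fun n => w.Eb (β j) ((ε n : ℂ) • τ j n)
        (g j n - pulseA w b β σ j (h n))) l (𝓝 0) :=
      tendsto_zero_of_norm_le (C := 1) h1 fun n => by rw [w.norm_Eb, one_mul]
    have hθ : Tendsto (fun n => b * (⟪y n, τ j n⟫_ℂ).im) l (𝓝 (b * (σ j * (Real.pi / 2)))) :=
      (hcal j hjN).const_mul b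
    have h3 := H.pulse hb (β j) (hτ j hjN) hθ (CW_pulseA w b β σ j)
    have h4 := h2.add h3
    rw [add_zero] at h4
    refine h4.congr fun n => ?_
    have e1 : w.expZb (β j) (b * (σ j * (Real.pi / 2))) (pulseA w b β σ j (h n)) =
        pulseA w b β σ (j + 1) (h n) := by
      rw [WX.expZb_apply]
      show _ = (Complex.I * ((b * σ j : ℝ) : ℂ)) • w.Zb (β j) (pulseA w b β σ j (h n))
      have hs : b * σ j = 1 ∨ b * σ j = -1 := by
        rcases hb1 with rfl | rfl <;> rcases hσ j with h | h <;> rw [h] <;> norm_num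
      have harg : b * (σ j * (Real.pi / 2)) = (b * σ j) * (Real.pi / 2) := by ring
      rw [harg]
      rcases hs with hs | hs <;> rw [hs]
      · rw [one_mul, Real.cos_pi_div_two, Real.sin_pi_div_two]
        simp
      · rw [neg_one_mul, Real.cos_neg, Real.sin_neg, Real.cos_pi_div_two, Real.sin_pi_div_two]
        simp
    rw [hg j hjN, map_sub, e1]
    abel

/-- the periodic pattern `(β,+),(0,-),(β,-),(0,+)` gives `e^{-4iβX}` per period -/
lemma pulseA_period (w : WX K S) {b : ℝ} (hb1 : b = 1 ∨ b = -1) (β₀ : ℝ) {β σ : ℕ → ℝ}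
    (hβ : ∀ j, β j = if j % 2 = 0 then β₀ else 0)
    (hσ : ∀ j, σ j = if j % 4 = 0 ∨ j % 4 = 3 then 1 else -1) (k : ℕ) (v : S) :
    pulseA w b β σ (4 * k) v = w.rx (4 * k * β₀) v := by
  have hbb : (b : ℂ) * (b : ℂ) = 1 := by rcases hb1 with rfl | rfl <;> simp
  induction k generalizing v with
  | zero =>
    simp only [Nat.cast_zero, mul_zero, zero_mul]
    rw [w.rx_zero]
    rfl
  | succ k ih =>
    have hZ0 : ∀ u : S, w.Zb 0 u = w.Z u := by
      intro u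
      rw [WX.Zb_eq, mul_zero, w.rx_zero]
    have hb0 : β (4 * k) = β₀ := by rw [hβ, if_pos (by omega)]
    have hb1' : β (4 * k + 1) = 0 := by rw [hβ, if_neg (by omega)]
    have hb2 : β (4 * k + 2) = β₀ := by rw [hβ, if_pos (by omega)]
    have hb3 : β (4 * k + 3) = 0 := by rw [hβ, if_neg (by omega)]
    have hs0 : σ (4 * k) = 1 := by rw [hσ, if_pos (by omega)]
    have hs1 : σ (4 * k + 1) = -1 := by rw [hσ, if_neg (by omega)]
    have hs2 : σ (4 * k + 2) = -1 := by rw [hσ, if_neg (by omega)]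
    have hs3 : σ (4 * k + 3) = 1 := by rw [hσ, if_pos (by omega)]
    rw [show 4 * (k + 1) = 4 * k + 3 + 1 by ring]
    have e4 : pulseA w b β σ (4 * k + 3 + 1) v = (Complex.I * ((b * σ (4 * k + 3) : ℝ) : ℂ)) •
        w.Zb (β (4 * k + 3)) (pulseA w b β σ (4 * k + 3) v) := rfl
    have e3 : pulseA w b β σ (4 * k + 3) v = (Complex.I * ((b * σ (4 * k + 2) : ℝ) : ℂ)) •
        w.Zb (β (4 * k + 2)) (pulseA w b β σ (4 * k + 2) v) := rfl
    have e2 : pulseA w b β σ (4 * k + 2) v = (Complex.I * ((b * σ (4 * k + 1) : ℝ) : ℂ)) •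
        w.Zb (β (4 * k + 1)) (pulseA w b β σ (4 * k + 1) v) := rfl
    have e1 : pulseA w b β σ (4 * k + 1) v = (Complex.I * ((b * σ (4 * k) : ℝ) : ℂ)) •
        w.Zb (β (4 * k)) (pulseA w b β σ (4 * k) v) := rfl
    rw [e4, e3, e2, e1, hb0, hb1', hb2, hb3, hs0, hs1, hs2, hs3, hZ0, hZ0, ih]
    simp only [map_smul, w.Z_Zb, w.rx_add, smul_smul]
    have hc : Complex.I * ((b * 1 : ℝ) : ℂ) * (Complex.I * ((b * -1 : ℝ) : ℂ) *
        (Complex.I * ((b * -1 : ℝ) : ℂ) * (Complex.I * ((b * 1 : ℝ) : ℂ)))) = 1 := by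
      push_cast
      have hI : Complex.I * Complex.I = -1 := Complex.I_mul_I
      linear_combination ((b : ℂ) ^ 4 * Complex.I ^ 2 - (b : ℂ) ^ 4) * hI + ((b : ℂ) * b + 1) * hbb
    rw [hc, one_smul]
    congr 2
    push_cast
    ring

end Crest.Agent.R339.Hv
end
end

-- ▼ part R339/Heavy682E

/-!
# Heavy branches in the site model
-/

set_option autoImplicit false

noncomputable section

open scoped ComplexConjugate InnerProductSpace Topology
open Filter Crest.MathPhysics.SpinGlass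
open Crest.Agent.R339.Site Crest.Agent.R339.Lab

namespace Crest.Agent.R339.Hv

variable {K : Type*} [NormedAddCommGroup K] [InnerProductSpace ℂ K]

/-- the concrete spin-Weyl algebra -/
def siteWX : WX K (Sp K) where
  W := Wl
  Z := Zop
  X := Xop
  W_mul := Wl_Wl
  W_zero v := by rw [Wl_zero]; rfl
  norm_W := norm_Wl_apply
  Z_sq := Zop_Zop
  Z_W := isSpin_Zop
  norm_Z := norm_Zop_apply
  X_sq := Xop_Xop
  X_W := isSpin_Xop
  X_Z v := by rw [Zop_Xop, neg_neg]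
  norm_X := norm_Xop_apply

lemma site_E (f : K) (v : Sp K) :
    (siteWX (K := K)).toWS.E f v = ((Ez f : USp K) : Sp K →L[ℂ] Sp K) v := by
  rw [Ez_eq, ← smul_add]
  rfl

lemma site_rx (β : ℝ) (v : Sp K) :
    (siteWX (K := K)).rx β v = ((mixU β : USp K) : Sp K →L[ℂ] Sp K) v := by
  rw [mixU_eq]
  rfl

lemma site_Zb (β : ℝ) (v : Sp K) : (siteWX (K := K)).Zb β v = Zb β v := by
  rw [WX.Zb_apply, Zb_apply, site_rx, site_rx]
  rfl

lemma site_Eb (β : ℝ) (u : K) (v : Sp K) :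
    (siteWX (K := K)).Eb β u v = ((Pu β u : USp K) : Sp K →L[ℂ] Sp K) v := by
  rw [WX.Eb_apply, Pu_apply, site_rx, site_rx, site_E]

/-- Heavy families in the site model: label sign `b`, current spin `b'`, momentum `b y`. -/
def Heavy (ε : ℕ → ℝ) (b b' : ℝ) (y : ℕ → K) (h : ℕ → Sp K) : Prop :=
  Tendsto (fun n => Zop (h n) - (b' : ℂ) • h n) atTop (𝓝 0) ∧
  ∀ T : ℝ, ∀ δ > 0, ∀ᶠ n in atTop, ∀ f : K, ‖f‖ ≤ T →
    ‖Wl ((ε n : ℂ) • f) (h n) - Complex.exp (Complex.I * (b * (⟪y n, f⟫_ℂ).im)) • h n‖ ≤ δ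

lemma hv_iff {ε : ℕ → ℝ} {b b' : ℝ} {y : ℕ → K} {h : ℕ → Sp K} :
    Heavy ε b b' y h ↔ HvS (siteWX (K := K)).toWS atTop ε b b' y h := Iff.rfl

variable {ε : ℕ → ℝ} {b b' : ℝ} {y y' : ℕ → K} {h h' : ℕ → Sp K}

/-- bounded sequences form -/
lemma Heavy.seq (H : Heavy ε b b' y h) {f : ℕ → K} (hf : Bdd f) :
    Tendsto (fun n => Wl ((ε n : ℂ) • f n) (h n) -
      Complex.exp (Complex.I * (b * (⟪y n, f n⟫_ℂ).im)) • h n) atTop (𝓝 0) := by
  have := (HvS.wh (w := (siteWX (K := K)).toWS) H) f hf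
  refine this.congr fun n => ?_
  rw [ph_smul_im]
  rfl

lemma Heavy.mk' (h1 : Tendsto (fun n => Zop (h n) - (b' : ℂ) • h n) atTop (𝓝 0))
    (h2 : ∀ f : ℕ → K, Bdd f → Tendsto (fun n => Wl ((ε n : ℂ) • f n) (h n) -
      Complex.exp (Complex.I * (b * (⟪y n, f n⟫_ℂ).im)) • h n) atTop (𝓝 0)) :
    Heavy ε b b' y h := by
  refine HvS.mk' (w := (siteWX (K := K)).toWS) h1 fun f hf => (h2 f hf).congr fun n => ?_
  rw [ph_smul_im]
  rfl

/-- (N) -/
lemma Heavy.congr (H : Heavy ε b b' y h) (hh : Tendsto (fun n => h' n - h n) atTop (𝓝 0)) :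
    Heavy ε b b' y h' := HvS.congr (w := (siteWX (K := K)).toWS) H hh


lemma Heavy.smul (H : Heavy ε b b' y h) {c : ℕ → ℂ} (hc : Bdd c) :
    Heavy ε b b' y (fun n => c n • h n) := HvS.smul (w := (siteWX (K := K)).toWS) H hc

/-- spin operators commuting with `Z` -/
lemma Heavy.map (H : Heavy ε b b' y h) {A : ℕ → Sp K →L[ℂ] Sp K} (hA : ∀ n, IsSpin (A n))
    (hZ : ∀ n v, Zop (A n v) = A n (Zop v)) {C : ℝ} (hC : ∀ n v, ‖A n v‖ ≤ C * ‖v‖) :
    Heavy ε b b' y (fun n => A n (h n)) :=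
  HvS.map (w := (siteWX (K := K)).toWS) H hA hZ hC

/-- spin operators anticommuting with `Z` -/
lemma Heavy.flip (H : Heavy ε b b' y h) {A : ℕ → Sp K →L[ℂ] Sp K} (hA : ∀ n, IsSpin (A n))
    (hZ : ∀ n v, Zop (A n v) = -A n (Zop v)) {C : ℝ} (hC : ∀ n v, ‖A n v‖ ≤ C * ‖v‖) :
    Heavy ε b (-b') y (fun n => A n (h n)) :=
  HvS.flip (w := (siteWX (K := K)).toWS) H hA hZ hC

/-- (M) cost moves, bounded or amplified: `y ↦ y + 2 b b' x` -/
lemma Heavy.cost (H : Heavy ε b b' y h) (hb : b = 1 ∨ b = -1) (hb' : b' = 1 ∨ b' = -1)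
    (hε : ∀ᶠ n in atTop, ε n ≠ 0) (x : ℕ → K) :
    Heavy ε b b' (fun n => y n + ((2 * (b * b') : ℝ) : ℂ) • x n)
      (fun n => ((Ez (((1 / ε n : ℝ) : ℂ) • x n) : USp K) : Sp K →L[ℂ] Sp K) (h n)) := by
  have := HvS.cost (w := (siteWX (K := K)).toWS) H hb hb' hε x
  simp only [site_E] at this
  exact this

/-- bounded cost moves keep the momentum -/
lemma Heavy.cost_bdd (H : Heavy ε b b' y h) (hε : Tendsto ε atTop (𝓝 0)) (hb : Bdd h) {F : ℕ → K}
    (hF : Bdd F) :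
    Heavy ε b b' y (fun n => ((Ez (F n) : USp K) : Sp K →L[ℂ] Sp K) (h n)) := by
  have h1 := (HvS.wh (w := (siteWX (K := K)).toWS) H).E_bdd hε hb hF
  have h2 := WH.E_big_bit (HvS.bit (w := (siteWX (K := K)).toWS) H) F
  have := HvS.mk' h2 h1
  simp only [site_E] at this
  exact this

/-- (P) pulses: `Pu β (ε τ)` acts on `A h` as `exp (i θ Z_β)`, `θ = lim b Im⟪y, τ⟫` -/
lemma Heavy.pulse (H : Heavy ε b b' y h) (hb : Bdd h) (β : ℝ) {τ : ℕ → K} (hτ : Bdd τ)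
    {θ : ℝ} (hθ : Tendsto (fun n => b * (⟪y n, τ n⟫_ℂ).im) atTop (𝓝 θ))
    {A : Sp K →L[ℂ] Sp K} (hA : IsSpin A) :
    Tendsto (fun n => ((Pu β ((ε n : ℂ) • τ n) : USp K) : Sp K →L[ℂ] Sp K) (A (h n)) -
      (((Real.cos θ : ℝ) : ℂ) • A (h n) + (Complex.I * ((Real.sin θ : ℝ) : ℂ)) • Zb β (A (h n))))
      atTop (𝓝 0) := by
  have := HvS.pulse (w := siteWX (K := K)) H hb β hτ hθ hA
  refine this.congr fun n => ?_
  rw [site_Eb, WX.expZb_apply, site_Zb]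

/-- spin matrices produced by a calibrated pulse sequence -/
def pulM (b : ℝ) (β σ : ℕ → ℝ) : ℕ → (Sp K →L[ℂ] Sp K)
  | 0 => 1
  | j + 1 => (Complex.I * ((b * σ j : ℝ) : ℂ)) • (Zb (β j) ∘L pulM b β σ j)

lemma site_pulseA (b : ℝ) (β σ : ℕ → ℝ) (j : ℕ) (v : Sp K) :
    pulseA (siteWX (K := K)) b β σ j v = pulM b β σ j v := by
  induction j generalizing v with
  | zero => rfl
  | succ j ih =>
    show (Complex.I * ((b * σ j : ℝ) : ℂ)) • (siteWX (K := K)).Zb (β j)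
      (pulseA (siteWX (K := K)) b β σ j v) = (Complex.I * ((b * σ j : ℝ) : ℂ)) •
      Zb (β j) (pulM b β σ j v)
    rw [site_Zb, ih]

lemma isSpin_pulM (b : ℝ) (β σ : ℕ → ℝ) (j : ℕ) : IsSpin (pulM b β σ j : Sp K →L[ℂ] Sp K) := by
  induction j with
  | zero => exact isSpin_one
  | succ j ih => exact ((isSpin_Zb (β j)).mul ih).smul _

/-- A sequence of calibrated pulses acts on a heavy family by the matrices `pulM`. -/
theorem Heavy.pulses (H : Heavy ε b b' y h) (hb : Bdd h) (hb1 : b = 1 ∨ b = -1)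
    {β σ : ℕ → ℝ} (hσ : ∀ j, σ j = 1 ∨ σ j = -1) {τ : ℕ → ℕ → K} {N : ℕ}
    (hτ : ∀ j < N, Bdd (τ j))
    (hcal : ∀ j < N, Tendsto (fun n => (⟪y n, τ j n⟫_ℂ).im) atTop (𝓝 (σ j * (Real.pi / 2))))
    {g : ℕ → ℕ → Sp K} (h0 : ∀ n, g 0 n = h n)
    (hg : ∀ j < N, ∀ n, g (j + 1) n =
      ((Pu (β j) ((ε n : ℂ) • τ j n) : USp K) : Sp K →L[ℂ] Sp K) (g j n)) :
    ∀ j ≤ N, Tendsto (fun n => g j n - pulM b β σ j (h n)) atTop (𝓝 0) := by
  intro j hj
  have hg' : ∀ j < N, ∀ n, g (j + 1) n =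
      (siteWX (K := K)).Eb (β j) ((ε n : ℂ) • τ j n) (g j n) := by
    intro j hj n
    rw [hg j hj n, site_Eb]
  refine (HvS.pulses (w := siteWX (K := K)) H hb hb1 hσ hτ hcal h0 hg' j hj).congr fun n => ?_
  rw [site_pulseA]

/-- the periodic pattern `(β,+),(0,-),(β,-),(0,+)` gives `e^{-4iβX}` per period -/
lemma pulM_period {b : ℝ} (hb1 : b = 1 ∨ b = -1) (β₀ : ℝ) {β σ : ℕ → ℝ}
    (hβ : ∀ j, β j = if j % 2 = 0 then β₀ else 0)
    (hσ : ∀ j, σ j = if j % 4 = 0 ∨ j % 4 = 3 then 1 else -1) (k : ℕ) (v : Sp K) :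
    pulM b β σ (4 * k) v = ((mixU (4 * k * β₀) : USp K) : Sp K →L[ℂ] Sp K) v := by
  rw [← site_pulseA, pulseA_period _ hb1 β₀ hβ hσ, site_rx]


/-- (O) in 373's form: if `Wl (g n) ζ - ζ → 0` and `Wl (g n) h - c n • h → 0`, `c n → c ≠ 1`. -/
lemma overlap_site' {ζ : ℕ → Sp K} {g : ℕ → K} {c : ℕ → ℂ} {c₀ : ℂ} (hζ : Bdd ζ) (hb : Bdd h)
    (h1 : Tendsto (fun n => Wl (g n) (ζ n) - ζ n) atTop (𝓝 0))
    (h2 : Tendsto (fun n => Wl (g n) (h n) - c n • h n) atTop (𝓝 0))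
    (hc : Tendsto c atTop (𝓝 c₀)) (hc₀ : c₀ ≠ 1)
    {A A' : Sp K →L[ℂ] Sp K} (hA : IsSpin A) (hA' : IsSpin A') :
    Tendsto (fun n => ⟪A (ζ n), A' (h n)⟫_ℂ) atTop (𝓝 0) := by
  obtain ⟨C, hC⟩ := hζ
  obtain ⟨C', hC'⟩ := hb
  have e1 : Tendsto (fun n => ⟪A (ζ n), A' (h n)⟫_ℂ - ⟪A (ζ n), A' (c n • h n)⟫_ℂ) atTop
      (𝓝 0) := by
    have a1 : Tendsto (fun n => ⟪A (ζ n) - A (Wl (g n) (ζ n)), A' (Wl (g n) (h n))⟫_ℂ) atTop
        (𝓝 0) := by
      refine tendsto_zero_of_norm_le (C := ‖A‖ * (‖A'‖ * C')) h1 fun n => ?_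
      refine (norm_inner_le_norm _ _).trans ?_
      have i1 : ‖A (ζ n) - A (Wl (g n) (ζ n))‖ ≤ ‖A‖ * ‖Wl (g n) (ζ n) - ζ n‖ := by
        rw [← map_sub, norm_sub_rev (Wl (g n) (ζ n))]
        exact A.le_opNorm _
      have i2 : ‖A' (Wl (g n) (h n))‖ ≤ ‖A'‖ * C' := by
        refine (A'.le_opNorm _).trans (mul_le_mul_of_nonneg_left ?_ (norm_nonneg _))
        rw [norm_Wl_apply]
        exact hC' n
      calc _ ≤ (‖A‖ * ‖Wl (g n) (ζ n) - ζ n‖) * (‖A'‖ * C') :=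
            mul_le_mul i1 i2 (norm_nonneg _) (by positivity)
        _ = _ := by ring
    have a2 : Tendsto (fun n => ⟪A (ζ n), A' (Wl (g n) (h n) - c n • h n)⟫_ℂ) atTop (𝓝 0) := by
      refine tendsto_zero_of_norm_le (C := ‖A‖ * C * ‖A'‖) h2 fun n => ?_
      refine (norm_inner_le_norm _ _).trans ?_
      have i1 : ‖A (ζ n)‖ ≤ ‖A‖ * C :=
        (A.le_opNorm _).trans (mul_le_mul_of_nonneg_left (hC n) (norm_nonneg _))
      calc _ ≤ (‖A‖ * C) * (‖A'‖ * ‖Wl (g n) (h n) - c n • h n‖) :=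
            mul_le_mul i1 (A'.le_opNorm _) (norm_nonneg _)
              (mul_nonneg (norm_nonneg _) ((norm_nonneg _).trans (hC n)))
        _ = _ := by ring
    have a3 := a2.sub a1
    rw [sub_zero] at a3
    refine a3.congr fun n => ?_
    have i3 : ⟪A (Wl (g n) (ζ n)), A' (Wl (g n) (h n))⟫_ℂ = ⟪A (ζ n), A' (h n)⟫_ℂ := by
      rw [hA, hA', inner_Wl_Wl]
    rw [map_sub, inner_sub_right, inner_sub_left, i3]
    ring
  have e2 : Tendsto (fun n => (1 - c n) * ⟪A (ζ n), A' (h n)⟫_ℂ) atTop (𝓝 0) := by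
    refine e1.congr fun n => ?_
    rw [map_smul, inner_smul_right]
    ring
  have e3 : Tendsto (fun n => (1 - c n)⁻¹) atTop (𝓝 (1 - c₀)⁻¹) :=
    (tendsto_const_nhds.sub hc).inv₀ (sub_ne_zero.mpr (Ne.symm hc₀))
  have e4 := e3.mul e2
  rw [mul_zero] at e4
  have hev : ∀ᶠ n in atTop, c n ≠ 1 := hc.eventually_ne hc₀
  refine e4.congr' ?_
  filter_upwards [hev] with n hn
  rw [inv_mul_cancel_left₀ (sub_ne_zero.mpr (Ne.symm hn))]

end Crest.Agent.R339.Hv
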