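import Mathlib
import Crest.Agent.R339.SiteModel
import Crest.Agent.R339.Lab373A
import Crest.Agent.R339.Heavy682E
import Crest.Agent.R339.Lab373B

-- ▼ part R339/Mark539A
section

/-!
# Marking: Fock-level facts and the modified isometry
-/

set_option autoImplicit false
set_option maxHeartbeats 400000

noncomputable section

open scoped ComplexConjugate InnerProductSpace Topology
open Filter

namespace Crest.Agent.R339.Mark

open Crest.Agent.R339.Site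

section Modified

variable {E K : Type*} [NormedAddCommGroup E] [InnerProductSpace ℂ E]
  [NormedAddCommGroup K] [InnerProductSpace ℂ K]

/-- `ι (1 - |x⟩⟨x|) + |s⟩⟨x|`, an isometry if `s` is a unit vector orthogonal to the range of `ι`
and `x` is a unit vector. -/
def modI (ι : E →ₗᵢ[ℂ] K) (s : K) (x : E) (hs : ‖s‖ = 1) (hsi : ∀ v, ⟪s, ι v⟫_ℂ = 0)
    (hx : ‖x‖ = 1) : E →ₗᵢ[ℂ] K where
  toFun v := ι (v - ⟪x, v⟫_ℂ • x) + ⟪x, v⟫_ℂ • s
  map_add' v w := by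
    simp only [inner_add_right, add_smul, map_add, map_sub]
    abel
  map_smul' c v := by
    simp only [inner_smul_right, RingHom.id_apply, smul_add, map_sub, map_smul, smul_sub, mul_smul]
  norm_map' v := by
    have h1 : ⟪ι (v - ⟪x, v⟫_ℂ • x), ⟪x, v⟫_ℂ • s⟫_ℂ = 0 := by
      rw [inner_smul_right, inner_eq_zero_symm.mp (hsi _), mul_zero]
    have h2 : ⟪v - ⟪x, v⟫_ℂ • x, ⟪x, v⟫_ℂ • x⟫_ℂ = 0 := by
      rw [inner_smul_right, inner_sub_left, inner_smul_left, inner_self_eq_norm_sq_to_K, hx,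
        inner_conj_symm]
      simp
    have h3 := norm_add_sq_eq_norm_sq_add_norm_sq_of_inner_eq_zero _ _ h1
    have h4 := norm_add_sq_eq_norm_sq_add_norm_sq_of_inner_eq_zero _ _ h2
    rw [sub_add_cancel] at h4
    show ‖ι (v - ⟪x, v⟫_ℂ • x) + ⟪x, v⟫_ℂ • s‖ = ‖v‖
    have h5 : ‖ι (v - ⟪x, v⟫_ℂ • x) + ⟪x, v⟫_ℂ • s‖ * ‖ι (v - ⟪x, v⟫_ℂ • x) + ⟪x, v⟫_ℂ • s‖ =
        ‖v‖ * ‖v‖ := by
      rw [h3, h4, LinearIsometry.norm_map, norm_smul, norm_smul, hs, hx]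
    exact (mul_self_inj (norm_nonneg _) (norm_nonneg _)).mp h5

variable (ι : E →ₗᵢ[ℂ] K) (s : K) (x : E) (hs : ‖s‖ = 1) (hsi : ∀ v, ⟪s, ι v⟫_ℂ = 0)
    (hx : ‖x‖ = 1)

lemma modI_apply (v : E) : modI ι s x hs hsi hx v = ι (v - ⟪x, v⟫_ℂ • x) + ⟪x, v⟫_ℂ • s := rfl

lemma modI_of_orth {v : E} (hv : ⟪x, v⟫_ℂ = 0) : modI ι s x hs hsi hx v = ι v := by
  rw [modI_apply, hv]
  simp

lemma modI_self : modI ι s x hs hsi hx x = s := by
  rw [modI_apply, inner_self_eq_norm_sq_to_K, hx]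
  simp

lemma norm_modI_sub_le (v : E) : ‖modI ι s x hs hsi hx v - ι v‖ ≤ 2 * ‖⟪x, v⟫_ℂ‖ := by
  have h1 : modI ι s x hs hsi hx v - ι v = ⟪x, v⟫_ℂ • (s - ι x) := by
    rw [modI_apply, map_sub, map_smul, smul_sub]
    abel
  rw [h1, norm_smul, mul_comm]
  refine mul_le_mul_of_nonneg_right ?_ (norm_nonneg _)
  refine (norm_sub_le _ _).trans ?_
  rw [hs, LinearIsometry.norm_map, hx]
  norm_num

end Modified

section Coh

variable {K : Type*} [NormedAddCommGroup K] [InnerProductSpace ℂ K]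

lemma im_inner_I_smul (r t : ℝ) {e : K} (he : ‖e‖ = 1) :
    (⟪(Complex.I * ((t : ℝ) : ℂ)) • e, ((r : ℝ) : ℂ) • e⟫_ℂ).im = -(t * r) := by
  rw [inner_smul_left, inner_smul_right, inner_self_eq_norm_sq_to_K, he]
  have h1 : (starRingEnd ℂ) (Complex.I * ((t : ℝ) : ℂ)) = ⟨0, -t⟩ := by
    apply Complex.ext <;> simp
  rw [h1]
  have h2 : (((1 : ℝ) : ℂ)) ^ 2 = 1 := by simp
  erw [h2]
  simp [Complex.mul_im]

lemma Wy_I_smul_coh (r t : ℝ) {e : K} (he : ‖e‖ = 1) :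
    Wy ((Complex.I * ((t : ℝ) : ℂ)) • e) (coh (((r : ℝ) : ℂ) • e)) =
      Complex.exp (Complex.I * (2 * (t * r : ℝ) : ℂ)) •
        Wy (((r : ℝ) : ℂ) • e) (coh ((Complex.I * ((t : ℝ) : ℂ)) • e)) := by
  rw [← Wy_vac (((r : ℝ) : ℂ) • e), ← mul_apply_eq_comp, Wy_comm, smul_apply, mul_apply_eq_comp,
    Wy_vac, im_inner_I_smul r t he]
  congr 2
  push_cast
  ring

/-- coherent vectors with a large displacement in a fixed direction tend weakly to zero -/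
lemma tendsto_inner_coh_smul {r : ℕ → ℝ} (hr : Tendsto (fun n => |r n|) atTop atTop) {e : K}
    (he : ‖e‖ = 1) (w : Fock K) :
    Tendsto (fun n => ⟪coh (((r n : ℝ) : ℂ) • e), w⟫_ℂ) atTop (𝓝 0) := by
  have hrz : Tendsto (fun n => (r n)⁻¹) atTop (𝓝 0) := by
    rw [tendsto_zero_iff_abs_tendsto_zero]
    have := tendsto_inv_atTop_zero.comp hr
    refine this.congr fun n => ?_
    simp
  obtain ⟨h, hh⟩ : ∃ h : ℕ → K, ∀ n, h n = (Complex.I * ((Real.pi / 2 * (r n)⁻¹ : ℝ) : ℂ)) • e :=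
    ⟨_, fun n => rfl⟩
  have hht : Tendsto h atTop (𝓝 0) := by
    have h1 : Tendsto (fun n => (Complex.I * ((Real.pi / 2 * (r n)⁻¹ : ℝ) : ℂ))) atTop
        (𝓝 (Complex.I * ((Real.pi / 2 * 0 : ℝ) : ℂ))) :=
      ((Complex.continuous_ofReal.tendsto _).comp (hrz.const_mul _)).const_mul _
    have h2 := h1.smul_const e
    have h3 : (Complex.I * ((Real.pi / 2 * 0 : ℝ) : ℂ)) • e = 0 := by simp
    rw [h3] at h2
    exact h2.congr fun n => (hh n).symm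
  have hev : ∀ᶠ n in atTop, r n ≠ 0 := by
    filter_upwards [hr.eventually_gt_atTop 0] with n hn
    exact abs_pos.mp hn
  have key : ∀ᶠ n in atTop, ⟪coh (((r n : ℝ) : ℂ) • e), w⟫_ℂ =
      -⟪Wy (((r n : ℝ) : ℂ) • e) (coh (h n)), Wy (h n) w⟫_ℂ := by
    filter_upwards [hev] with n hn
    have h1 : Wy (h n) (coh (((r n : ℝ) : ℂ) • e)) =
        -(Wy (((r n : ℝ) : ℂ) • e) (coh (h n))) := by
      rw [hh, Wy_I_smul_coh _ _ he, mul_assoc, inv_mul_cancel₀ hn, mul_one]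
      have h5 : (Complex.I * (2 * (Real.pi / 2 : ℝ) : ℂ)) = Real.pi * Complex.I := by
        push_cast
        ring
      rw [h5, Complex.exp_pi_mul_I, neg_one_smul]
    rw [← inner_Wy_Wy (h n), h1, inner_neg_left]
  -- the difference between the two expressions tends to zero
  have h3 : Tendsto (fun n => ⟪Wy (((r n : ℝ) : ℂ) • e) (coh (h n)), Wy (h n) w⟫_ℂ -
      ⟪coh (((r n : ℝ) : ℂ) • e), w⟫_ℂ) atTop (𝓝 0) := by
    have ha : Tendsto (fun n => ‖coh (h n) - vac‖) atTop (𝓝 0) := by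
      have := ((continuous_coh (K := K)).tendsto 0).comp hht
      exact tendsto_iff_norm_sub_tendsto_zero.mp this
    have hb : Tendsto (fun n => ‖Wy (h n) w - w‖) atTop (𝓝 0) := by
      have h4 : Tendsto (fun n => Wy (h n) w) atTop (𝓝 (Wy 0 w)) :=
        ((continuous_Wy_apply w).tendsto 0).comp hht
      rw [Wy_zero] at h4
      exact tendsto_iff_norm_sub_tendsto_zero.mp h4
    have hc : Tendsto (fun n => ‖coh (h n) - vac‖ * ‖w‖ + ‖Wy (h n) w - w‖) atTop (𝓝 0) := by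
      have := (ha.mul_const ‖w‖).add hb
      simpa using this
    refine squeeze_zero_norm (fun n => ?_) hc
    have h5 : ⟪Wy (((r n : ℝ) : ℂ) • e) (coh (h n)), Wy (h n) w⟫_ℂ -
        ⟪coh (((r n : ℝ) : ℂ) • e), w⟫_ℂ =
        ⟪Wy (((r n : ℝ) : ℂ) • e) (coh (h n) - vac), Wy (h n) w⟫_ℂ +
        ⟪coh (((r n : ℝ) : ℂ) • e), Wy (h n) w - w⟫_ℂ := by
      rw [map_sub, inner_sub_left, inner_sub_right, Wy_vac]
      ring
    rw [h5]
    refine (norm_add_le _ _).trans (add_le_add ?_ ?_)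
    · refine (norm_inner_le_norm _ _).trans ?_
      rw [norm_Wy_apply, norm_Wy_apply]
    · refine (norm_inner_le_norm _ _).trans ?_
      rw [norm_coh, one_mul]
  -- conclusion
  have h6 : Tendsto (fun n => ⟪coh (((r n : ℝ) : ℂ) • e), w⟫_ℂ) atTop (𝓝 (-(1/2 : ℂ) * 0)) := by
    refine (h3.const_mul (-(1/2 : ℂ))).congr' ?_
    filter_upwards [key] with n hn
    linear_combination (-(1/2 : ℂ)) * hn
  rwa [mul_zero] at h6


end Coh

end Crest.Agent.R339.Mark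
end
end

-- ▼ part R339/Mark539B
section

/-!
# Marking: the new direction, the modified isometry, the marking word
-/

set_option autoImplicit false
set_option maxHeartbeats 400000

noncomputable section

open scoped ComplexConjugate InnerProductSpace Topology
open Filter Crest.MathPhysics.SpinGlass Crest.Agent.R339.Site Crest.Agent.R339.Lab

namespace Crest.Agent.R339.Mark

section Orth

variable {E : Type*} [NormedAddCommGroup E] [InnerProductSpace ℂ E]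

/-- normalised component of `x` orthogonal to `z` -/
def orthn (z x : E) : E := (((√(1 - ‖⟪z, x⟫_ℂ‖ ^ 2))⁻¹ : ℝ) : ℂ) • (x - ⟪z, x⟫_ℂ • z)

variable {z x : E}

lemma inner_orthn (hz : ‖z‖ = 1) : ⟪z, orthn z x⟫_ℂ = 0 := by
  rw [orthn, inner_smul_right, inner_sub_right, inner_smul_right, inner_self_eq_norm_sq_to_K, hz]
  simp

lemma inner_orthn' (hz : ‖z‖ = 1) : ⟪orthn z x, z⟫_ℂ = 0 :=
  inner_eq_zero_symm.mp (inner_orthn hz)

lemma norm_sub_sq_orthn (hz : ‖z‖ = 1) (hx : ‖x‖ = 1) :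
    ‖x - ⟪z, x⟫_ℂ • z‖ ^ 2 = 1 - ‖⟪z, x⟫_ℂ‖ ^ 2 := by
  have h1 : ⟪x - ⟪z, x⟫_ℂ • z, ⟪z, x⟫_ℂ • z⟫_ℂ = 0 := by
    rw [inner_smul_right, inner_sub_left, inner_smul_left, inner_self_eq_norm_sq_to_K, hz,
      inner_conj_symm]
    simp
  have h2 := norm_add_sq_eq_norm_sq_add_norm_sq_of_inner_eq_zero _ _ h1
  rw [sub_add_cancel, norm_smul, hz, hx] at h2
  linarith

lemma norm_orthn (hz : ‖z‖ = 1) (hx : ‖x‖ = 1) (hc : ‖⟪z, x⟫_ℂ‖ < 1) : ‖orthn z x‖ = 1 := by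
  have h0 : 0 < 1 - ‖⟪z, x⟫_ℂ‖ ^ 2 := by
    have := norm_nonneg ⟪z, x⟫_ℂ
    nlinarith
  have h1 := norm_sub_sq_orthn hz hx
  have h2 : ‖x - ⟪z, x⟫_ℂ • z‖ = √(1 - ‖⟪z, x⟫_ℂ‖ ^ 2) := by
    rw [← h1, Real.sqrt_sq (norm_nonneg _)]
  rw [orthn, norm_smul, h2, Complex.norm_real, Real.norm_eq_abs, abs_inv,
    abs_of_nonneg (Real.sqrt_nonneg _)]
  exact inv_mul_cancel₀ (Real.sqrt_pos.mpr h0).ne'

lemma decomp_orthn (hc : ‖⟪z, x⟫_ℂ‖ < 1) :
    x = ⟪z, x⟫_ℂ • z + ((√(1 - ‖⟪z, x⟫_ℂ‖ ^ 2) : ℝ) : ℂ) • orthn z x := by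
  have h0 : 0 < 1 - ‖⟪z, x⟫_ℂ‖ ^ 2 := by
    have := norm_nonneg ⟪z, x⟫_ℂ
    nlinarith
  have h1 := (Real.sqrt_pos.mpr h0).ne'
  rw [orthn, smul_smul, ← Complex.ofReal_mul, mul_inv_cancel₀ h1, Complex.ofReal_one, one_smul]
  abel

lemma inner_orthn_left (v : E) : ⟪orthn z x, v⟫_ℂ =
    (((√(1 - ‖⟪z, x⟫_ℂ‖ ^ 2))⁻¹ : ℝ) : ℂ) * (⟪x, v⟫_ℂ - conj ⟪z, x⟫_ℂ * ⟪z, v⟫_ℂ) := by
  rw [orthn, inner_smul_left, inner_sub_left, inner_smul_left, Complex.conj_ofReal]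

end Orth

variable {K : Type*} [NormedAddCommGroup K] [InnerProductSpace ℂ K]

lemma Om_apply (b : Bool) : (Om : Sp K) b = (((1 : ℝ) / Real.sqrt 2 : ℝ) : ℂ) • vac := rfl

lemma Xop_Om : Xop (Om : Sp K) = Om := by
  ext b
  rw [Xop_apply]
  rfl

lemma Ez_Om_apply (u : K) (b : Bool) : ((Ez u : USp K) : Sp K →L[ℂ] Sp K) Om b =
    (((1 : ℝ) / Real.sqrt 2 : ℝ) : ℂ) • coh (((spinSign b : ℝ) : ℂ) • u) := by
  rw [Ez_apply, Om_apply, map_smul, Wy_vac]

lemma half_sq : ((((1 : ℝ) / Real.sqrt 2 : ℝ) : ℂ)) * ((((1 : ℝ) / Real.sqrt 2 : ℝ) : ℂ)) = 1 / 2 := by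
  rw [← Complex.ofReal_mul]
  have : (1 : ℝ) / Real.sqrt 2 * (1 / Real.sqrt 2) = 1 / 2 := by
    rw [div_mul_div_comm, one_mul, Real.mul_self_sqrt (by norm_num)]
  rw [this]
  push_cast
  rfl

lemma norm_sign_smul (b : Bool) (u : K) : ‖((spinSign b : ℝ) : ℂ) • u‖ = ‖u‖ := by
  rw [norm_smul, Complex.norm_real, Real.norm_eq_abs]
  have : |spinSign b| = 1 := by cases b <;> simp [spinSign]
  rw [this, one_mul]

lemma inner_Om_Ez (u : K) : ⟪(Om : Sp K), ((Ez u : USp K) : Sp K →L[ℂ] Sp K) Om⟫_ℂ =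
    Complex.exp (-((‖u‖ ^ 2 / 2 : ℝ) : ℂ)) := by
  rw [PiLp.inner_apply]
  have h : ∀ b : Bool, ⟪(Om : Sp K) b, ((Ez u : USp K) : Sp K →L[ℂ] Sp K) Om b⟫_ℂ =
      1 / 2 * Complex.exp (-((‖u‖ ^ 2 / 2 : ℝ) : ℂ)) := by
    intro b
    rw [Ez_Om_apply, Om_apply, inner_smul_left, inner_smul_right, ← Wy_vac, inner_vac_Wy,
      norm_sign_smul, Complex.conj_ofReal, ← mul_assoc, half_sq]
  simp only [h, Fintype.sum_bool]
  ring

/-- the new direction `Y exp (2 i g Z φ(e)) Ω` -/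
def xi (e : K) (g : ℝ) : Sp K :=
  (-Complex.I) • Zop (Xop (((Ez (((2 * g : ℝ) : ℂ) • e) : USp K) : Sp K →L[ℂ] Sp K) Om))

lemma norm_xi (e : K) (g : ℝ) : ‖xi e g‖ = 1 := by
  rw [xi, norm_smul, norm_neg, Complex.norm_I, norm_Zop_apply, norm_Xop_apply, norm_U_apply,
    norm_Om, one_mul]

lemma inner_ZOm_xi {e : K} (he : ‖e‖ = 1) (g : ℝ) :
    ⟪Zop (Om : Sp K), xi e g⟫_ℂ = -Complex.I * Complex.exp (-((2 * g ^ 2 : ℝ) : ℂ)) := by
  rw [xi, inner_smul_right, inner_Zop_left, Zop_Zop, ← inner_Xop_left, Xop_Om, inner_Om_Ez,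
    norm_smul, Complex.norm_real, he, mul_one, Real.norm_eq_abs, sq_abs]
  congr 3
  ring_nf

lemma norm_inner_ZOm_xi {e : K} (he : ‖e‖ = 1) (g : ℝ) :
    ‖⟪Zop (Om : Sp K), xi e g⟫_ℂ‖ = Real.exp (-(2 * g ^ 2)) := by
  rw [inner_ZOm_xi he, norm_mul, norm_neg, Complex.norm_I, one_mul, ← Complex.ofReal_neg,
    ← Complex.ofReal_exp, Complex.norm_real, Real.norm_eq_abs, Real.abs_exp]

lemma norm_inner_ZOm_xi_lt {e : K} (he : ‖e‖ = 1) {g : ℝ} (hg : g ≠ 0) :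
    ‖⟪Zop (Om : Sp K), xi e g⟫_ℂ‖ < 1 := by
  rw [norm_inner_ZOm_xi he]
  have h1 := sq_pos_of_ne_zero hg
  rw [Real.exp_lt_one_iff]
  linarith

lemma norm_ZOm : ‖Zop (Om : Sp K)‖ = 1 := by rw [norm_Zop_apply, norm_Om]

/-- the new direction tends weakly to zero -/
lemma tendsto_inner_xi {g : ℕ → ℝ} (hg : Tendsto (fun n => |g n|) atTop atTop) {e : K}
    (he : ‖e‖ = 1) (v : Sp K) : Tendsto (fun n => ⟪xi e (g n), v⟫_ℂ) atTop (𝓝 0) := by
  have hc : ∀ b : Bool, Tendsto (fun n => ⟪xi e (g n) b, v b⟫_ℂ) atTop (𝓝 0) := by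
    intro b
    have h1 : Tendsto (fun n => |spinSign (!b) * (2 * g n)|) atTop atTop := by
      have h2 : Tendsto (fun n => 2 * |g n|) atTop atTop := hg.const_mul_atTop (by norm_num)
      refine h2.congr fun n => ?_
      rw [abs_mul, abs_mul, abs_two]
      have : |spinSign (!b)| = 1 := by cases b <;> simp [spinSign]
      rw [this, one_mul]
    have h2 := tendsto_inner_coh_smul h1 he (v b)
    have h3 := h2.const_mul (conj ((-Complex.I) * (((spinSign b : ℝ) : ℂ) *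
      (((1 : ℝ) / Real.sqrt 2 : ℝ) : ℂ))))
    rw [mul_zero] at h3
    refine h3.congr fun n => ?_
    have h4 : xi e (g n) b = ((-Complex.I) * (((spinSign b : ℝ) : ℂ) *
        (((1 : ℝ) / Real.sqrt 2 : ℝ) : ℂ))) • coh (((spinSign (!b) * (2 * g n) : ℝ) : ℂ) • e) := by
      have h6 : ((spinSign (!b) : ℝ) : ℂ) • (((2 * g n : ℝ) : ℂ) • e) =
          ((spinSign (!b) * (2 * g n) : ℝ) : ℂ) • e := by
        rw [smul_smul, ← Complex.ofReal_mul]
      rw [xi, PiLp.smul_apply, Zop_apply, Xop_apply, Ez_Om_apply, h6, smul_smul, smul_smul]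
      congr 1
      ring
    rw [h4, inner_smul_left]
  have h5 := (hc true).add (hc false)
  rw [add_zero] at h5
  refine h5.congr fun n => ?_
  rw [PiLp.inner_apply, Fintype.sum_bool]

section Isometry

variable (ι : Sp K →ₗᵢ[ℂ] K) {s : K} (hs : ‖s‖ = 1) (hsi : ∀ v, ⟪s, ι v⟫_ℂ = 0)

/-- the site vector of the identity -/
def e0 : K := ι (Zop Om)

lemma norm_e0 : ‖e0 ι‖ = 1 := by rw [e0, LinearIsometry.norm_map, norm_ZOm]

/-- the normalised new direction -/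
def xi' (g : ℝ) : Sp K := orthn (Zop Om) (xi (e0 ι) g)

lemma norm_xi' {g : ℝ} (hg : g ≠ 0) : ‖xi' ι g‖ = 1 :=
  norm_orthn norm_ZOm (norm_xi _ _) (norm_inner_ZOm_xi_lt (norm_e0 ι) hg)

/-- the modified isometry -/
def iM {g : ℝ} (hg : g ≠ 0) : Sp K →ₗᵢ[ℂ] K := modI ι s (xi' ι g) hs hsi (norm_xi' ι hg)

lemma iM_ZOm {g : ℝ} (hg : g ≠ 0) : iM ι hs hsi hg (Zop Om) = e0 ι :=
  modI_of_orth _ _ _ _ _ _ (inner_orthn' norm_ZOm)

lemma iM_xi {g : ℝ} (hg : g ≠ 0) : iM ι hs hsi hg (xi (e0 ι) g) =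
    (-Complex.I * Complex.exp (-((2 * g ^ 2 : ℝ) : ℂ))) • e0 ι +
      ((√(1 - Real.exp (-(2 * g ^ 2)) ^ 2) : ℝ) : ℂ) • s := by
  have h := decomp_orthn (norm_inner_ZOm_xi_lt (norm_e0 ι) hg)
  rw [norm_inner_ZOm_xi (norm_e0 ι), inner_ZOm_xi (norm_e0 ι)] at h
  conv_lhs => rw [h]
  rw [map_add, map_smul, map_smul, iM_ZOm]
  congr 2
  exact modI_self ι s (xi' ι g) hs hsi (norm_xi' ι hg)

lemma tendsto_exp_neg_sq {g : ℕ → ℝ} (hg : Tendsto (fun n => |g n|) atTop atTop) :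
    Tendsto (fun n => Real.exp (-(2 * g n ^ 2))) atTop (𝓝 0) := by
  refine Real.tendsto_exp_atBot.comp (tendsto_neg_atTop_atBot.comp ?_)
  have h1 : Tendsto (fun n => 2 * |g n| ^ 2) atTop atTop :=
    ((tendsto_pow_atTop two_ne_zero).comp hg).const_mul_atTop (by norm_num)
  exact h1.congr fun n => by rw [sq_abs]

lemma tendsto_iM_xi {g : ℕ → ℝ} (hg : Tendsto (fun n => |g n|) atTop atTop)
    (hg0 : ∀ n, g n ≠ 0) :
    Tendsto (fun n => iM ι hs hsi (hg0 n) (xi (e0 ι) (g n))) atTop (𝓝 s) := by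
  have h1 := tendsto_exp_neg_sq hg
  have h2 : Tendsto (fun n => (-Complex.I * Complex.exp (-((2 * g n ^ 2 : ℝ) : ℂ)))) atTop
      (𝓝 (-Complex.I * ((0 : ℝ) : ℂ))) := by
    have h3 := ((Complex.continuous_ofReal.tendsto _).comp h1).const_mul (-Complex.I)
    refine h3.congr fun n => ?_
    simp
  have h3 : Tendsto (fun n => ((√(1 - Real.exp (-(2 * g n ^ 2)) ^ 2) : ℝ) : ℂ)) atTop
      (𝓝 ((√(1 - (0 : ℝ) ^ 2) : ℝ) : ℂ)) :=
    (Complex.continuous_ofReal.tendsto _).comp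
      ((Real.continuous_sqrt.tendsto _).comp ((h1.pow 2).const_sub 1))
  have h4 := (h2.smul_const (e0 ι)).add (h3.smul_const s)
  have h5 : (-Complex.I * ((0 : ℝ) : ℂ)) • e0 ι + ((√(1 - (0 : ℝ) ^ 2) : ℝ) : ℂ) • s = s := by
    simp
  rw [h5] at h4
  refine h4.congr fun n => ?_
  rw [iM_xi]

lemma tendsto_iM {g : ℕ → ℝ} (hg : Tendsto (fun n => |g n|) atTop atTop)
    (hg0 : ∀ n, g n ≠ 0) (v : Sp K) :
    Tendsto (fun n => iM ι hs hsi (hg0 n) v) atTop (𝓝 (ι v)) := by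
  rw [tendsto_iff_norm_sub_tendsto_zero]
  have h0 : Tendsto (fun n => ⟪xi' ι (g n), v⟫_ℂ) atTop (𝓝 0) := by
    have h1 := tendsto_exp_neg_sq hg
    have h2 := tendsto_inner_xi hg (norm_e0 ι) v
    have h3 : Tendsto (fun n => (((√(1 - Real.exp (-(2 * g n ^ 2)) ^ 2))⁻¹ : ℝ) : ℂ)) atTop
        (𝓝 (((√(1 - (0 : ℝ) ^ 2))⁻¹ : ℝ) : ℂ)) := by
      refine (Complex.continuous_ofReal.tendsto _).comp (Tendsto.inv₀
        ((Real.continuous_sqrt.tendsto _).comp ((h1.pow 2).const_sub 1)) ?_)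
      simp
    have h4 : Tendsto (fun n => conj ⟪Zop (Om : Sp K), xi (e0 ι) (g n)⟫_ℂ) atTop (𝓝 0) := by
      rw [tendsto_zero_iff_norm_tendsto_zero]
      refine h1.congr fun n => ?_
      rw [RCLike.norm_conj, norm_inner_ZOm_xi (norm_e0 ι)]
    have h5 := h3.mul (h2.sub (h4.mul_const ⟪Zop (Om : Sp K), v⟫_ℂ))
    rw [zero_mul, sub_zero, mul_zero] at h5
    refine h5.congr fun n => ?_
    rw [xi', inner_orthn_left, norm_inner_ZOm_xi (norm_e0 ι)]
  have h1 : Tendsto (fun n => 2 * ‖⟪xi' ι (g n), v⟫_ℂ‖) atTop (𝓝 0) := by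
    have := (tendsto_zero_iff_norm_tendsto_zero.mp h0).const_mul 2
    rwa [mul_zero] at this
  exact squeeze_zero (fun n => norm_nonneg _) (fun n => norm_modI_sub_le _ _ _ _ _ _ v) h1

end Isometry

end Crest.Agent.R339.Mark
end
end

-- ▼ part R339/Mark539C
section

/-!
# Marking: the word, its light and heavy parts
-/

set_option autoImplicit false
set_option maxHeartbeats 400000

noncomputable section

open scoped ComplexConjugate InnerProductSpace Topology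
open Filter Crest.MathPhysics.SpinGlass Crest.Agent.R339.Site Crest.Agent.R339.Lab

namespace Crest.Agent.R339.Mark

variable {K : Type*} [NormedAddCommGroup K] [InnerProductSpace ℂ K]

/-! ### Algebra at a fixed `ε` -/

section Algebra

/-- the marking word -/
def mw (g ε : ℝ) : List (ℝ × ℝ) := [(-g, ε), (g, 0)]

variable (j : Sp K →ₗᵢ[ℂ] K) (g ε : ℝ)

/-- current vector after the mixer -/
def f2 : K := j (eVec (mixU ε * Ez ((g : ℂ) • j (Zop Om))))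

/-- light part of the marking word -/
def Lc : USp K := Ez ((-(g : ℂ)) • f2 j g ε) * Ez ((g : ℂ) • j (Zop Om))

/-- heavy part of the marking word -/
def Hc : Sp K →L[ℂ] Sp K := ((Ez ((-(g : ℂ)) • f2 j g ε) : USp K) : Sp K →L[ℂ] Sp K) * Xop *
  ((Ez ((g : ℂ) • j (Zop Om)) : USp K) : Sp K →L[ℂ] Sp K)

/-- the marking unitary -/
def Mu : USp K := Ez ((-(g : ℂ)) • f2 j g ε) * mixU ε * Ez ((g : ℂ) • j (Zop Om))

lemma eVec_one : eVec (1 : USp K) = Zop Om := by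
  show star ((1 : USp K) : Sp K →L[ℂ] Sp K) (Zop (((1 : USp K) : Sp K →L[ℂ] Sp K) Om)) = _
  rw [OneMemClass.coe_one, star_one]
  rfl

lemma wordU_mw : wordU j (mw g ε) = Mu j g ε := by
  rw [wordU, mw, List.foldl_cons, List.foldl_cons, List.foldl_nil]
  simp only [moveB, moveC, mixU_zero, one_mul, mul_one, eVec_one, costU_eq_Ez, Complex.ofReal_neg,
    neg_neg]
  rw [Mu, f2, mul_assoc]

lemma Lc_apply (v : Sp K) : (Lc j g ε : Sp K →L[ℂ] Sp K) v =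
    ((Ez ((-(g : ℂ)) • f2 j g ε) : USp K) : Sp K →L[ℂ] Sp K)
      (((Ez ((g : ℂ) • j (Zop Om)) : USp K) : Sp K →L[ℂ] Sp K) v) := rfl

lemma Hc_apply (v : Sp K) : Hc j g ε v =
    ((Ez ((-(g : ℂ)) • f2 j g ε) : USp K) : Sp K →L[ℂ] Sp K)
      (Xop (((Ez ((g : ℂ) • j (Zop Om)) : USp K) : Sp K →L[ℂ] Sp K) v)) := rfl

lemma Mu_apply (v : Sp K) : (Mu j g ε : Sp K →L[ℂ] Sp K) v =
    ((Ez ((-(g : ℂ)) • f2 j g ε) : USp K) : Sp K →L[ℂ] Sp K)
      (((mixU ε : USp K) : Sp K →L[ℂ] Sp K)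
      (((Ez ((g : ℂ) • j (Zop Om)) : USp K) : Sp K →L[ℂ] Sp K) v)) := rfl

/-- the decomposition into light and heavy part -/
lemma Mu_eq (v : Sp K) : (Mu j g ε : Sp K →L[ℂ] Sp K) v =
    ((Real.cos ε : ℝ) : ℂ) • (Lc j g ε : Sp K →L[ℂ] Sp K) v -
      (Complex.I * ((Real.sin ε : ℝ) : ℂ)) • Hc j g ε v := by
  rw [Mu_apply, mixU_eq, map_sub, map_smul, map_smul, Lc_apply, Hc_apply]

lemma norm_Hc_apply (v : Sp K) : ‖Hc j g ε v‖ = ‖v‖ := by
  rw [Hc_apply, norm_U_apply, norm_Xop_apply, norm_U_apply]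

lemma Ez_double (u v : K) (w : Sp K) (h : u = v) : ((Ez u : USp K) : Sp K →L[ℂ] Sp K)
    (((Ez v : USp K) : Sp K →L[ℂ] Sp K) w) = ((Ez ((2 : ℂ) • u) : USp K) : Sp K →L[ℂ] Sp K) w := by
  subst h
  have him : (⟪u, u⟫_ℂ).im = 0 := inner_self_im (𝕜 := ℂ) u
  rw [Ez_Ez, him, two_smul]
  simp

lemma Xop_Ez' (f : K) (v : Sp K) : ((Ez (-f) : USp K) : Sp K →L[ℂ] Sp K) (Xop v) =
    Xop (((Ez f : USp K) : Sp K →L[ℂ] Sp K) v) := (Xop_Ez f v).symm

/-- `Ez(-u) X Ez(u) Ω = X Ez(2u) Ω` -/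
lemma Ez_X_Ez (u : K) (v : Sp K) : ((Ez (-u) : USp K) : Sp K →L[ℂ] Sp K)
    (Xop (((Ez u : USp K) : Sp K →L[ℂ] Sp K) v)) =
    Xop (((Ez ((2 : ℂ) • u) : USp K) : Sp K →L[ℂ] Sp K) v) := by
  rw [Xop_Ez', Ez_double u u v rfl]

lemma ZX_eq_xi (e : K) : Zop (Xop (((Ez ((2 : ℂ) • ((g : ℂ) • e)) : USp K) : Sp K →L[ℂ] Sp K) Om)) =
    Complex.I • xi e g := by
  have h : (2 : ℂ) • ((g : ℂ) • e) = ((2 * g : ℝ) : ℂ) • e := by
    rw [smul_smul]
    push_cast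
    rfl
  rw [xi, h, smul_smul]
  simp

lemma eVec_mix_Ez : eVec (mixU ε * Ez ((g : ℂ) • j (Zop Om))) =
    ((Real.cos (2 * ε) : ℝ) : ℂ) • Zop Om + ((Real.sin (2 * ε) : ℝ) : ℂ) • xi (j (Zop Om)) g := by
  set u : K := (g : ℂ) • j (Zop Om) with hu
  have h1 : eVec (mixU ε * Ez u) = ((Ez (-u) : USp K) : Sp K →L[ℂ] Sp K)
      (Zb ε (((Ez u : USp K) : Sp K →L[ℂ] Sp K) Om)) := by
    show star (((mixU ε * Ez u : USp K)) : Sp K →L[ℂ] Sp K)
      (Zop (((mixU ε * Ez u : USp K) : Sp K →L[ℂ] Sp K) Om)) = _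
    have h2 : star (((mixU ε * Ez u : USp K)) : Sp K →L[ℂ] Sp K) =
        ((Ez (-u) : USp K) : Sp K →L[ℂ] Sp K) * ((mixU (-ε) : USp K) : Sp K →L[ℂ] Sp K) := by
      rw [← star_Ez_coe, ← star_mixU_coe, ← star_mul]
      rfl
    rw [h2]
    rfl
  rw [h1, Zb_eq, mixU_eq, map_sub, map_smul, map_smul, Real.cos_neg, Real.sin_neg, ← Zop_Ez,
    Ez_neg_Ez]
  have h3 : Xop (Zop (((Ez u : USp K) : Sp K →L[ℂ] Sp K) Om)) =
      -Zop (Xop (((Ez u : USp K) : Sp K →L[ℂ] Sp K) Om)) := by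
    rw [Zop_Xop, neg_neg]
  rw [h3, map_neg, ← Zop_Ez, Ez_X_Ez, hu, ZX_eq_xi, Complex.ofReal_neg]
  simp only [smul_neg, sub_eq_add_neg, neg_neg, mul_neg, smul_smul]
  congr 2
  linear_combination (-(Real.sin (2 * ε) : ℂ)) * Complex.I_mul_I

lemma f2_eq : f2 j g ε = ((Real.cos (2 * ε) : ℝ) : ℂ) • j (Zop Om) +
    ((Real.sin (2 * ε) : ℝ) : ℂ) • j (xi (j (Zop Om)) g) := by
  rw [f2, eVec_mix_Ez, map_add, map_smul, map_smul]

/-- the light displacement -/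
def ul : K := (-(g : ℂ)) • f2 j g ε + (g : ℂ) • j (Zop Om)

/-- the unit phase of the light part -/
def cl : ℂ := Complex.exp (Complex.I *
  ((⟪(-(g : ℂ)) • f2 j g ε, (g : ℂ) • j (Zop Om)⟫_ℂ).im : ℂ))

lemma norm_cl : ‖cl j g ε‖ = 1 := norm_cexp_I_mul _

lemma cl_smul_Lc (v : Sp K) : cl j g ε • (Lc j g ε : Sp K →L[ℂ] Sp K) v =
    ((Ez (ul j g ε) : USp K) : Sp K →L[ℂ] Sp K) v := by
  rw [Lc_apply, Ez_Ez, smul_smul, cl, ← Complex.exp_add, ul]
  simp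

/-- the unit phase of the heavy part -/
def ch : ℂ := Complex.exp (-(Complex.I *
  ((⟪(-(g : ℂ)) • f2 j g ε, -((g : ℂ) • j (Zop Om))⟫_ℂ).im : ℂ)))

lemma norm_ch : ‖ch j g ε‖ = 1 := by
  rw [ch, ← mul_neg, ← Complex.ofReal_neg]
  exact norm_cexp_I_mul _

lemma Hc_Om : Hc j g ε Om = ch j g ε • ((Ez ((-(g : ℂ)) • f2 j g ε + -((g : ℂ) • j (Zop Om))) :
    USp K) : Sp K →L[ℂ] Sp K) Om := by
  rw [Hc_apply, Xop_Ez, Xop_Om, Ez_Ez, ch]

/-- `M* Z Hc Ω` up to a small error -/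
lemma norm_star_Mu_sub_le : ‖star (Mu j g ε : Sp K →L[ℂ] Sp K) (Zop (Hc j g ε Om)) -
    Complex.I • xi (j (Zop Om)) g‖ ≤ |Real.cos ε - 1| + |Real.sin ε| := by
  set u : K := (g : ℂ) • j (Zop Om) with hu
  set f : K := (-(g : ℂ)) • f2 j g ε with hf
  set w : Sp K := ((Ez (-f) : USp K) : Sp K →L[ℂ] Sp K) (Zop (Hc j g ε Om)) with hw
  have h1 : star (Mu j g ε : Sp K →L[ℂ] Sp K) (Zop (Hc j g ε Om)) =
      ((Ez (-u) : USp K) : Sp K →L[ℂ] Sp K) (((mixU (-ε) : USp K) : Sp K →L[ℂ] Sp K) w) := by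
    have h2 : star (Mu j g ε : Sp K →L[ℂ] Sp K) = ((Ez (-u) : USp K) : Sp K →L[ℂ] Sp K) *
        (((mixU (-ε) : USp K) : Sp K →L[ℂ] Sp K) * ((Ez (-f) : USp K) : Sp K →L[ℂ] Sp K)) := by
      rw [← star_Ez_coe, ← star_mixU_coe, ← star_Ez_coe, ← star_mul, ← star_mul]
      rfl
    rw [h2]
    rfl
  have h3 : ((Ez (-u) : USp K) : Sp K →L[ℂ] Sp K) w = Complex.I • xi (j (Zop Om)) g := by
    rw [hw, Hc_apply, Zop_Ez, Ez_neg_Ez, ← Zop_Ez, Ez_X_Ez, hu, ZX_eq_xi]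
  have hwn : ‖w‖ = 1 := by
    rw [hw, norm_U_apply, norm_Zop_apply, norm_Hc_apply, norm_Om]
  rw [h1, ← h3, ← map_sub, norm_U_apply, mixU_eq, Real.cos_neg, Real.sin_neg]
  have h4 : ((Real.cos ε : ℝ) : ℂ) • w - (Complex.I * ((-Real.sin ε : ℝ) : ℂ)) • Xop w - w =
      ((Real.cos ε - 1 : ℝ) : ℂ) • w + (Complex.I * ((Real.sin ε : ℝ) : ℂ)) • Xop w := by
    push_cast
    module
  rw [h4]
  refine (norm_add_le _ _).trans (le_of_eq ?_)
  rw [norm_smul, norm_smul, norm_mul, norm_Xop_apply, hwn, Complex.norm_real, Complex.norm_real,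
    Complex.norm_I, Real.norm_eq_abs, Real.norm_eq_abs, mul_one, mul_one, one_mul]

end Algebra

/-! ### Limits -/

section Limits

variable (ι : Sp K →ₗᵢ[ℂ] K) {s : K} (hs : ‖s‖ = 1) (hsi : ∀ v, ⟪s, ι v⟫_ℂ = 0)

/-- the amplification of the marking -/
def gm (α0 ε : ℝ) : ℝ := -(α0 / (2 * ε))

lemma gm_ne {α0 ε : ℝ} (hα : α0 ≠ 0) (hε : 0 < ε) : gm α0 ε ≠ 0 :=
  neg_ne_zero.mpr (div_ne_zero hα (by positivity))

lemma tendsto_abs_gm {α0 : ℝ} (hα : α0 ≠ 0) {ε : ℕ → ℝ} (hε : ∀ n, 0 < ε n)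
    (hε0 : Tendsto ε atTop (𝓝 0)) : Tendsto (fun n => |gm α0 (ε n)|) atTop atTop := by
  have h1 : Tendsto (fun n => (ε n)⁻¹) atTop atTop :=
    Tendsto.inv_tendsto_nhdsGT_zero (tendsto_nhdsWithin_iff.mpr
      ⟨hε0, Eventually.of_forall fun n => hε n⟩)
  have h2 : Tendsto (fun n => |α0| / 2 * (ε n)⁻¹) atTop atTop :=
    h1.const_mul_atTop (by positivity)
  refine h2.congr fun n => ?_
  rw [gm, abs_neg, abs_div, abs_mul, abs_two, abs_of_pos (hε n)]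
  have := (hε n).ne'
  field_simp

variable {α0 : ℝ} (hα : α0 ≠ 0) {ε : ℕ → ℝ} (hε : ∀ n, 0 < ε n) (hε0 : Tendsto ε atTop (𝓝 0))

/-- the sequence of modified isometries -/
def jn (n : ℕ) : Sp K →ₗᵢ[ℂ] K := iM ι hs hsi (gm_ne hα (hε n))

lemma jn_ZOm (n : ℕ) : jn ι hs hsi hα hε n (Zop Om) = e0 ι := iM_ZOm _ _ _ _

include hε0 in
lemma tendsto_jn (v : Sp K) : Tendsto (fun n => jn ι hs hsi hα hε n v) atTop (𝓝 (ι v)) :=
  tendsto_iM ι hs hsi (tendsto_abs_gm hα hε hε0) (fun n => gm_ne hα (hε n)) v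

/-- joint convergence -/
lemma tendsto_jn' {v : ℕ → Sp K} {v₀ : Sp K} (hε0 : Tendsto ε atTop (𝓝 0))
    (hv : Tendsto v atTop (𝓝 v₀)) :
    Tendsto (fun n => jn ι hs hsi hα hε n (v n)) atTop (𝓝 (ι v₀)) := by
  have h1 := tendsto_jn ι hs hsi hα hε hε0 v₀
  have h2 : Tendsto (fun n => jn ι hs hsi hα hε n (v n) - jn ι hs hsi hα hε n v₀) atTop (𝓝 0) := by
    rw [tendsto_zero_iff_norm_tendsto_zero]
    refine (tendsto_iff_norm_sub_tendsto_zero.mp hv).congr fun n => ?_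
    rw [← map_sub, LinearIsometry.norm_map]
  simpa using h2.add h1

include hε0 in
lemma tendsto_jn_xi : Tendsto (fun n => jn ι hs hsi hα hε n (xi (e0 ι) (gm α0 (ε n)))) atTop
    (𝓝 s) :=
  tendsto_iM_xi ι hs hsi (tendsto_abs_gm hα hε hε0) (fun n => gm_ne hα (hε n))

lemma tendsto_cos_sub_one_div {ε : ℕ → ℝ} (hε : ∀ n, 0 < ε n) (hε0 : Tendsto ε atTop (𝓝 0)) :
    Tendsto (fun n => (Real.cos (2 * ε n) - 1) / (2 * ε n)) atTop (𝓝 0) := by
  have h1 : HasDerivAt Real.cos (-Real.sin 0) 0 := Real.hasDerivAt_cos 0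
  have h2 := h1.tendsto_slope_zero
  have h3 : Tendsto (fun n => 2 * ε n) atTop (𝓝[≠] 0) := by
    rw [tendsto_nhdsWithin_iff]
    refine ⟨by simpa using hε0.const_mul 2, Eventually.of_forall fun n => ?_⟩
    have := hε n
    show 2 * ε n ≠ 0
    positivity
  have h4 := h2.comp h3
  rw [Real.sin_zero, neg_zero] at h4
  refine h4.congr fun n => ?_
  show (2 * ε n)⁻¹ • (Real.cos (0 + 2 * ε n) - Real.cos 0) = _
  rw [zero_add, Real.cos_zero, smul_eq_mul, inv_mul_eq_div]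

lemma tendsto_sin_div {ε : ℕ → ℝ} (hε : ∀ n, 0 < ε n) (hε0 : Tendsto ε atTop (𝓝 0)) :
    Tendsto (fun n => Real.sin (2 * ε n) / (2 * ε n)) atTop (𝓝 1) := by
  have h1 : HasDerivAt Real.sin (Real.cos 0) 0 := Real.hasDerivAt_sin 0
  have h2 := h1.tendsto_slope_zero
  have h3 : Tendsto (fun n => 2 * ε n) atTop (𝓝[≠] 0) := by
    rw [tendsto_nhdsWithin_iff]
    refine ⟨by simpa using hε0.const_mul 2, Eventually.of_forall fun n => ?_⟩
    have := hε n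
    show 2 * ε n ≠ 0
    positivity
  have h4 := h2.comp h3
  rw [Real.cos_zero] at h4
  refine h4.congr fun n => ?_
  show (2 * ε n)⁻¹ • (Real.sin (0 + 2 * ε n) - Real.sin 0) = _
  rw [zero_add, Real.sin_zero, sub_zero, smul_eq_mul, inv_mul_eq_div]

include hε0 in
/-- `f2 → e0` -/
lemma tendsto_f2 : Tendsto (fun n => f2 (jn ι hs hsi hα hε n) (gm α0 (ε n)) (ε n)) atTop
    (𝓝 (e0 ι)) := by
  have h1 := tendsto_jn_xi ι hs hsi hα hε hε0
  have h2 : Tendsto (fun n => ((Real.cos (2 * ε n) : ℝ) : ℂ)) atTop (𝓝 ((Real.cos (2 * 0) : ℝ) : ℂ)) :=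
    (Complex.continuous_ofReal.tendsto _).comp ((Real.continuous_cos.tendsto _).comp
      (hε0.const_mul 2))
  have h3 : Tendsto (fun n => ((Real.sin (2 * ε n) : ℝ) : ℂ)) atTop (𝓝 ((Real.sin (2 * 0) : ℝ) : ℂ)) :=
    (Complex.continuous_ofReal.tendsto _).comp ((Real.continuous_sin.tendsto _).comp
      (hε0.const_mul 2))
  have h4 := (h2.smul_const (e0 ι)).add (h3.smul h1)
  have h5 : ((Real.cos (2 * 0) : ℝ) : ℂ) • e0 ι + ((Real.sin (2 * 0) : ℝ) : ℂ) • s = e0 ι := by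
    simp
  rw [h5] at h4
  refine h4.congr fun n => ?_
  rw [f2_eq, jn_ZOm]

include hε0 in
/-- the light displacement tends to `α0 s` -/
lemma tendsto_ul : Tendsto (fun n => ul (jn ι hs hsi hα hε n) (gm α0 (ε n)) (ε n)) atTop
    (𝓝 ((α0 : ℂ) • s)) := by
  have h1 := tendsto_jn_xi ι hs hsi hα hε hε0
  have h2 : Tendsto (fun n => ((α0 * ((Real.cos (2 * ε n) - 1) / (2 * ε n)) : ℝ) : ℂ)) atTop
      (𝓝 ((α0 * 0 : ℝ) : ℂ)) :=
    (Complex.continuous_ofReal.tendsto _).comp ((tendsto_cos_sub_one_div hε hε0).const_mul α0)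
  have h3 : Tendsto (fun n => ((α0 * (Real.sin (2 * ε n) / (2 * ε n)) : ℝ) : ℂ)) atTop
      (𝓝 ((α0 * 1 : ℝ) : ℂ)) :=
    (Complex.continuous_ofReal.tendsto _).comp ((tendsto_sin_div hε hε0).const_mul α0)
  have h4 := (h2.smul_const (e0 ι)).add (h3.smul h1)
  have h5 : ((α0 * 0 : ℝ) : ℂ) • e0 ι + ((α0 * 1 : ℝ) : ℂ) • s = (α0 : ℂ) • s := by
    simp
  rw [h5] at h4
  refine h4.congr fun n => ?_
  rw [ul, f2_eq, jn_ZOm]
  have hne : ((ε n : ℝ) : ℂ) ≠ 0 := by exact_mod_cast (hε n).ne'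
  rw [gm]
  push_cast
  rw [neg_neg, smul_add, smul_smul, smul_smul, add_right_comm, ← add_smul]
  congr 2
  · ring
  · ring

include hε0 in
/-- the light part tends strongly to the label gate -/
lemma STends_light : STends (fun n => (Ez (ul (jn ι hs hsi hα hε n) (gm α0 (ε n)) (ε n)) : USp K))
    atTop (Ez ((α0 : ℂ) • s)) :=
  STends_costU _ _ tendsto_const_nhds (tendsto_ul ι hs hsi hα hε hε0)

include hε0 in
/-- `M* Z Hc Ω - i ξ → 0` -/
lemma tendsto_star_Mu : Tendsto (fun n =>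
    star (Mu (jn ι hs hsi hα hε n) (gm α0 (ε n)) (ε n) : Sp K →L[ℂ] Sp K)
      (Zop (Hc (jn ι hs hsi hα hε n) (gm α0 (ε n)) (ε n) Om)) -
    Complex.I • xi (e0 ι) (gm α0 (ε n))) atTop (𝓝 0) := by
  have h1 : Tendsto (fun n => |Real.cos (ε n) - 1| + |Real.sin (ε n)|) atTop
      (𝓝 (|Real.cos 0 - 1| + |Real.sin 0|)) :=
    ((((Real.continuous_cos.tendsto _).comp hε0).sub_const 1).abs).add
      (((Real.continuous_sin.tendsto _).comp hε0).abs)
  rw [Real.cos_zero, Real.sin_zero, sub_self, abs_zero, add_zero] at h1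
  refine squeeze_zero_norm (fun n => ?_) h1
  have h2 := norm_star_Mu_sub_le (jn ι hs hsi hα hε n) (gm α0 (ε n)) (ε n)
  rwa [jn_ZOm] at h2

include hε0 in
/-- the image of `M* Z Hc Ω` is the label, up to the factor `i` -/
lemma tendsto_jn_star_Mu : Tendsto (fun n => jn ι hs hsi hα hε n
    (star (Mu (jn ι hs hsi hα hε n) (gm α0 (ε n)) (ε n) : Sp K →L[ℂ] Sp K)
      (Zop (Hc (jn ι hs hsi hα hε n) (gm α0 (ε n)) (ε n) Om)))) atTop
    (𝓝 (Complex.I • s)) := by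
  have h1 := tendsto_star_Mu ι hs hsi hα hε hε0
  have h2 := (tendsto_jn_xi ι hs hsi hα hε hε0).const_smul Complex.I
  have h3 : Tendsto (fun n => jn ι hs hsi hα hε n
    (star (Mu (jn ι hs hsi hα hε n) (gm α0 (ε n)) (ε n) : Sp K →L[ℂ] Sp K)
      (Zop (Hc (jn ι hs hsi hα hε n) (gm α0 (ε n)) (ε n) Om)) -
    Complex.I • xi (e0 ι) (gm α0 (ε n)))) atTop (𝓝 0) := by
    rw [tendsto_zero_iff_norm_tendsto_zero] at h1 ⊢
    exact h1.congr fun n => by rw [LinearIsometry.norm_map]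
  have h4 := h3.add h2
  rw [zero_add] at h4
  refine h4.congr fun n => ?_
  rw [map_sub, map_smul]
  abel

end Limits

/-! ### The heavy branches -/

section Heavy

/-- projection on the spin `b = ±1` -/
def Pb (b : ℝ) : Sp K →L[ℂ] Sp K := (1 / 2 : ℂ) • ((1 : Sp K →L[ℂ] Sp K) + (b : ℂ) • Zop)

lemma Pb_apply (b : ℝ) (v : Sp K) : Pb b v = (1 / 2 : ℂ) • (v + (b : ℂ) • Zop v) := rfl

lemma Pb_add (v : Sp K) : Pb 1 v + Pb (-1) v = v := by
  rw [Pb_apply, Pb_apply, Complex.ofReal_one, Complex.ofReal_neg, Complex.ofReal_one]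
  module

lemma Pb_sub (v : Sp K) : Pb 1 v - Pb (-1) v = Zop v := by
  rw [Pb_apply, Pb_apply, Complex.ofReal_one, Complex.ofReal_neg, Complex.ofReal_one]
  module

lemma Zop_Pb {b : ℝ} (hb : b = 1 ∨ b = -1) (v : Sp K) : Zop (Pb b v) = (b : ℂ) • Pb b v := by
  rw [Pb_apply, map_smul, map_add, map_smul, Zop_Zop]
  rcases hb with rfl | rfl
  · rw [Complex.ofReal_one, one_smul, one_smul, one_smul, add_comm]
  · rw [Complex.ofReal_neg, Complex.ofReal_one]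
    module

lemma norm_Pb_le {b : ℝ} (hb : b = 1 ∨ b = -1) (v : Sp K) : ‖Pb b v‖ ≤ ‖v‖ := by
  rw [Pb_apply, norm_smul]
  have h1 : ‖(b : ℂ) • Zop v‖ = ‖v‖ := by
    rw [norm_smul, norm_Zop_apply, Complex.norm_real]
    rcases hb with rfl | rfl <;> simp
  have h2 := norm_add_le v ((b : ℂ) • Zop v)
  rw [h1] at h2
  have h3 : ‖(1 / 2 : ℂ)‖ = 1 / 2 := by norm_num
  rw [h3]
  linarith

lemma Pb_Ez (b : ℝ) (f : K) (v : Sp K) : Pb b (((Ez f : USp K) : Sp K →L[ℂ] Sp K) v) =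
    ((Ez f : USp K) : Sp K →L[ℂ] Sp K) (Pb b v) := by
  rw [Pb_apply, Pb_apply, map_smul, map_add, map_smul, Zop_Ez]

open Crest.Agent.R339.Hv in
/-- a fixed vector of spin `b` is a heavy family with momentum zero -/
lemma hvS_const {ε : ℕ → ℝ} (hε0 : Tendsto ε atTop (𝓝 0)) {b : ℝ} {v : Sp K}
    (hv : Zop v = (b : ℂ) • v) :
    HvS (siteWX (K := K)).toWS atTop ε b b (fun _ => (0 : K)) (fun _ => v) := by
  refine HvS.mk' ?_ ?_
  · show Tendsto (fun n : ℕ => Zop v - (b : ℂ) • v) atTop (𝓝 0)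
    rw [hv, sub_self]
    exact tendsto_const_nhds
  · intro f ⟨T, hT⟩
    have h1 : Tendsto (fun n => (ε n : ℂ) • f n) atTop (𝓝 0) := by
      rw [tendsto_zero_iff_norm_tendsto_zero]
      have h2 : Tendsto (fun n => |ε n| * T) atTop (𝓝 0) := by
        have := hε0.abs.mul_const T
        rwa [abs_zero, zero_mul] at this
      refine squeeze_zero (fun n => norm_nonneg _) (fun n => ?_) h2
      rw [norm_smul, Complex.norm_real, Real.norm_eq_abs]
      exact mul_le_mul_of_nonneg_left (hT n) (abs_nonneg _)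
    have h2 : Tendsto (fun n => Wl ((ε n : ℂ) • f n) v) atTop (𝓝 v) := by
      have h3 : ∀ n, Wl ((ε n : ℂ) • f n) v =
          WithLp.toLp 2 (fun b => Wy ((ε n : ℂ) • f n) (v b)) := by
        intro n
        ext b
        exact Wl_apply _ _ _
      have h4 : v = WithLp.toLp 2 (fun b => v b) := rfl
      rw [h4]
      refine Tendsto.congr (fun n => (h3 n).symm) ?_
      refine ((PiLp.continuous_toLp 2 (fun _ : Bool => Fock K)).tendsto _).comp ?_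
      rw [tendsto_pi_nhds]
      intro b
      have h5 : Tendsto (fun n => Wy ((ε n : ℂ) • f n) (v b)) atTop (𝓝 (Wy 0 (v b))) :=
        tendsto_Wy_apply h1 tendsto_const_nhds
      rwa [Wy_zero] at h5
    have h3 := h2.sub_const v
    rw [sub_self] at h3
    refine h3.congr fun n => ?_
    rw [smul_zero, inner_zero_left, Complex.zero_im, ph_zero, one_smul]
    rfl

variable (ι : Sp K →ₗᵢ[ℂ] K) {s : K} (hs : ‖s‖ = 1) (hsi : ∀ v, ⟪s, ι v⟫_ℂ = 0)
  {α0 : ℝ} (hα : α0 ≠ 0) {ε : ℕ → ℝ} (hε : ∀ n, 0 < ε n)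

/-- the momentum of the heavy branches -/
def yM (n : ℕ) : K := (α0 : ℂ) • (f2 (jn ι hs hsi hα hε n) (gm α0 (ε n)) (ε n) + e0 ι)

lemma tendsto_yM (hε0 : Tendsto ε atTop (𝓝 0)) :
    Tendsto (yM ι hs hsi hα hε) atTop (𝓝 (((2 * α0 : ℝ) : ℂ) • e0 ι)) := by
  have h1 := ((tendsto_f2 ι hs hsi hα hε hε0).add_const (e0 ι)).const_smul (α0 : ℂ)
  have h2 : (α0 : ℂ) • (e0 ι + e0 ι) = ((2 * α0 : ℝ) : ℂ) • e0 ι := by
    push_cast
    module
  rw [h2] at h1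
  exact h1

open Crest.Agent.R339.Hv in
/-- the heavy branches of the marking word -/
theorem hvS_mark (hε0 : Tendsto ε atTop (𝓝 0)) {b : ℝ} (hb : b = 1 ∨ b = -1) :
    HvS (siteWX (K := K)).toWS atTop ε b b (yM ι hs hsi hα hε)
      (fun n => Pb b (Hc (jn ι hs hsi hα hε n) (gm α0 (ε n)) (ε n) Om)) := by
  have h1 := hvS_const (K := K) hε0 (Zop_Pb hb Om)
  have h2 := h1.cost hb hb (Eventually.of_forall fun n => (hε n).ne')
    (fun n => ((α0 / 2 : ℝ) : ℂ) • (f2 (jn ι hs hsi hα hε n) (gm α0 (ε n)) (ε n) + e0 ι))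
  have h3 := h2.smul (c := fun n => ch (jn ι hs hsi hα hε n) (gm α0 (ε n)) (ε n))
    ⟨1, fun n => (norm_ch _ _ _).le⟩
  have hbb : b * b = 1 := by rcases hb with rfl | rfl <;> norm_num
  have e1 : (fun n => (0 : K) + ((2 * (b * b) : ℝ) : ℂ) • (((α0 / 2 : ℝ) : ℂ) •
      (f2 (jn ι hs hsi hα hε n) (gm α0 (ε n)) (ε n) + e0 ι))) = yM ι hs hsi hα hε := by
    funext n
    rw [hbb, zero_add, smul_smul, yM]
    congr 1
    push_cast
    ring
  rw [e1] at h3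
  have e2 : (fun n => ch (jn ι hs hsi hα hε n) (gm α0 (ε n)) (ε n) •
      (siteWX (K := K)).toWS.E (((1 / ε n : ℝ) : ℂ) • (((α0 / 2 : ℝ) : ℂ) •
      (f2 (jn ι hs hsi hα hε n) (gm α0 (ε n)) (ε n) + e0 ι))) (Pb b Om)) =
      fun n => Pb b (Hc (jn ι hs hsi hα hε n) (gm α0 (ε n)) (ε n) Om) := by
    funext n
    rw [site_E, Hc_Om, map_smul, Pb_Ez, jn_ZOm]
    have e3 : ((1 / ε n : ℝ) : ℂ) • (((α0 / 2 : ℝ) : ℂ) •
        (f2 (jn ι hs hsi hα hε n) (gm α0 (ε n)) (ε n) + e0 ι)) =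
        (-((gm α0 (ε n) : ℝ) : ℂ)) • f2 (jn ι hs hsi hα hε n) (gm α0 (ε n)) (ε n) +
          -(((gm α0 (ε n) : ℝ) : ℂ) • e0 ι) := by
      have hc : ((1 / ε n : ℝ) : ℂ) * ((α0 / 2 : ℝ) : ℂ) = -((gm α0 (ε n) : ℝ) : ℂ) := by
        rw [gm]
        push_cast
        have hne : ((ε n : ℝ) : ℂ) ≠ 0 := by exact_mod_cast (hε n).ne'
        field_simp
      rw [smul_smul, hc]
      module
    rw [e3]
  rw [e2] at h3
  exact h3

end Heavy

end Crest.Agent.R339.Mark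
end
end

-- ▼ part R339/Mark539D
section

/-!
# Marking: final statements in the form used by the light side
-/

set_option autoImplicit false
set_option maxHeartbeats 400000

noncomputable section

open scoped ComplexConjugate InnerProductSpace Topology
open Filter Crest.MathPhysics.SpinGlass Crest.Agent.R339.Site Crest.Agent.R339.Lab

namespace Crest.Agent.R339.Mark

variable {K : Type*} [NormedAddCommGroup K] [InnerProductSpace ℂ K]

lemma cvH_const (v : Sp K) : CvH (fun _ => v) v := by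
  refine ⟨fun _ => 0, tendsto_const_nhds, Eventually.of_forall fun n => ?_⟩
  refine ⟨by simp, fun g => ?_⟩
  simp

variable (ι : Sp K →ₗᵢ[ℂ] K) {s : K} (hs : ‖s‖ = 1) (hsi : ∀ v, ⟪s, ι v⟫_ℂ = 0)
  {α0 : ℝ} (hα : α0 ≠ 0) {ε : ℕ → ℝ} (hε : ∀ n, 0 < ε n) (hε0 : Tendsto ε atTop (𝓝 0))

include hε0 in
/-- the light part at the vacuum, in the strong sense -/
theorem cvH_light : CvH (fun n => cl (jn ι hs hsi hα hε n) (gm α0 (ε n)) (ε n) •
    (Lc (jn ι hs hsi hα hε n) (gm α0 (ε n)) (ε n) : Sp K →L[ℂ] Sp K) Om)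
    (((Ez ((α0 : ℂ) • s) : USp K) : Sp K →L[ℂ] Sp K) Om) := by
  have h := (cvH_const (Om : Sp K)).Ez nice_Om (tendsto_ul ι hs hsi hα hε hε0)
  have e : (fun n => cl (jn ι hs hsi hα hε n) (gm α0 (ε n)) (ε n) •
      (Lc (jn ι hs hsi hα hε n) (gm α0 (ε n)) (ε n) : Sp K →L[ℂ] Sp K) Om) =
      fun n => ((Ez (ul (jn ι hs hsi hα hε n) (gm α0 (ε n)) (ε n)) : USp K) : Sp K →L[ℂ] Sp K)
        Om := by
    funext n
    exact cl_smul_Lc _ _ _ _
  rw [e]
  exact h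

/-- the heavy branches of the marking word (predicate of the site model) -/
theorem heavy_mark (hε0 : Tendsto ε atTop (𝓝 0)) {b : ℝ} (hb : b = 1 ∨ b = -1) :
    Hv.Heavy ε b b (yM ι hs hsi hα hε)
      (fun n => Pb b (Hc (jn ι hs hsi hα hε n) (gm α0 (ε n)) (ε n) Om)) :=
  Hv.hv_iff.mpr (hvS_mark ι hs hsi hα hε hε0 hb)

end Crest.Agent.R339.Mark
end
end

-- ▼ part R339/Asm539A
section

/-!
# Level-one label gates: the invariant, the cost move, the energy limit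
-/

set_option autoImplicit false
set_option maxHeartbeats 400000

noncomputable section

open scoped ComplexConjugate InnerProductSpace Topology
open Filter Crest.MathPhysics.SpinGlass Crest.Agent.R339.Site Crest.Agent.R339.Lab

namespace Crest.Agent.R339.Mark

variable {K : Type*} [NormedAddCommGroup K] [InnerProductSpace ℂ K]

/-! ### Unit phases -/

/-- a unit phase times a unitary -/
def phU (c : ℂ) (hc : ‖c‖ = 1) (U : USp K) : USp K :=
  ⟨c • (U : Sp K →L[ℂ] Sp K), by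
    have h1 : star c * c = 1 := by
      rw [Complex.star_def, ← Complex.normSq_eq_conj_mul_self, Complex.normSq_eq_norm_sq, hc]
      simp
    have h2 : c * star c = 1 := by rw [mul_comm]; exact h1
    rw [Unitary.mem_iff, star_smul, smul_mul_smul_comm, smul_mul_smul_comm, h1, h2,
      star_U_mul_self, U_mul_star_self, one_smul]
    exact ⟨rfl, rfl⟩⟩

lemma phU_apply (c : ℂ) (hc : ‖c‖ = 1) (U : USp K) (v : Sp K) :
    (phU c hc U : Sp K →L[ℂ] Sp K) v = c • (U : Sp K →L[ℂ] Sp K) v := rfl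

lemma eVec_phU (c : ℂ) (hc : ‖c‖ = 1) (U : USp K) : eVec (phU c hc U) = eVec U := by
  have h1 : star c * c = 1 := by
    rw [Complex.star_def, ← Complex.normSq_eq_conj_mul_self, Complex.normSq_eq_norm_sq, hc]
    simp
  show star (c • (U : Sp K →L[ℂ] Sp K)) (Zop ((c • (U : Sp K →L[ℂ] Sp K)) Om)) = eVec U
  rw [star_smul, smul_apply, smul_apply, map_smul, map_smul, smul_smul, h1, one_smul]
  rfl

lemma energy_phU (ι : Sp K →ₗᵢ[ℂ] K) (c : ℂ) (hc : ‖c‖ = 1) (U : USp K) :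
    energy ι (phU c hc U) = energy ι U := by
  rw [energy, energy, eVec_phU]

/-- convergence of the energy under strong convergence of the unitaries and of the isometries -/
lemma tendsto_energy_of {j : ℕ → (Sp K →ₗᵢ[ℂ] K)} {ι : Sp K →ₗᵢ[ℂ] K}
    (hj : ∀ (v : ℕ → Sp K) (v₀ : Sp K), Tendsto v atTop (𝓝 v₀) →
      Tendsto (fun n => j n (v n)) atTop (𝓝 (ι v₀)))
    {U : ℕ → USp K} {U₀ : USp K} (hU : STends U atTop U₀) :
    Tendsto (fun n => energy (j n) (U n)) atTop (𝓝 (energy ι U₀)) := by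
  have h1 := hU.tendsto_eVec
  have h2 := hj _ _ h1
  have h3 : Tendsto (fun n => Sop (j n) (eVec (U n))) atTop (𝓝 (Sop ι (eVec U₀))) := by
    refine ((PiLp.continuous_toLp 2 (fun _ : Bool => Fock K)).tendsto _).comp ?_
    rw [tendsto_pi_nhds]
    intro b
    exact (((one.continuous.tendsto _).comp h2).const_smul _)
  exact (Complex.continuous_re.tendsto _).comp (h1.inner h3)

/-! ### The invariant -/

section Inv

variable (ι : Sp K →ₗᵢ[ℂ] K) {s : K} (hs : ‖s‖ = 1) (hsi : ∀ v, ⟪s, ι v⟫_ℂ = 0)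
  {α0 : ℝ} (hα : α0 ≠ 0) {ε : ℕ → ℝ} (hε : ∀ n, 0 < ε n) (hε0 : Tendsto ε atTop (𝓝 0))

/-- the marking unitaries -/
def Mn (n : ℕ) : USp K := Mu (jn ι hs hsi hα hε n) (gm α0 (ε n)) (ε n)

/-- the light parts -/
def Ln (n : ℕ) : USp K := Lc (jn ι hs hsi hα hε n) (gm α0 (ε n)) (ε n)

/-- the heavy parts -/
def Hn (n : ℕ) : Sp K →L[ℂ] Sp K := Hc (jn ι hs hsi hα hε n) (gm α0 (ε n)) (ε n)

lemma Mn_eq (n : ℕ) (v : Sp K) : (Mn ι hs hsi hα hε n : Sp K →L[ℂ] Sp K) v =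
    ((Real.cos (ε n) : ℝ) : ℂ) • (Ln ι hs hsi hα hε n : Sp K →L[ℂ] Sp K) v -
      (Complex.I * ((Real.sin (ε n) : ℝ) : ℂ)) • Hn ι hs hsi hα hε n v := Mu_eq _ _ _ v

lemma norm_Hn_apply (n : ℕ) (v : Sp K) : ‖Hn ι hs hsi hα hε n v‖ = ‖v‖ := norm_Hc_apply _ _ _ v

/-- Convergence of the light part, up to unit phases: strongly, and in the strong sense at `Ω`. -/
def Light (V : ℕ → USp K) (U : USp K) : Prop :=
  ∃ c : ℕ → ℂ, (∀ n, ‖c n‖ = 1) ∧
    (∀ v, Tendsto (fun n => c n • (V n : Sp K →L[ℂ] Sp K) ((Ln ι hs hsi hα hε n : Sp K →L[ℂ] Sp K) v))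
      atTop (𝓝 ((U : Sp K →L[ℂ] Sp K) v))) ∧
    CvH (fun n => c n • (V n : Sp K →L[ℂ] Sp K) ((Ln ι hs hsi hα hε n : Sp K →L[ℂ] Sp K) Om))
      ((U : Sp K →L[ℂ] Sp K) Om)

/-- The invariant of the simulation of labelled words by plain words: `V n * Mn n` is a plain word
unitary, close to `U` on the light part, and with the right momentum on the heavy part. -/
structure Inv (V : ℕ → USp K) (U : USp K) (y : K) : Prop where
  reach : ∀ n, ∃ w, wordU (jn ι hs hsi hα hε n) w = V n * Mn ι hs hsi hα hε n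
  light : Light ι hs hsi hα hε V U
  nice : Nice ((U : Sp K →L[ℂ] Sp K) Om)
  heavy : ∃ yn : ℕ → K, Tendsto yn atTop (𝓝 y) ∧ ∀ b : ℝ, b = 1 ∨ b = -1 →
    Hv.Heavy ε b b yn (fun n => (V n : Sp K →L[ℂ] Sp K) (Pb b (Hn ι hs hsi hα hε n Om)))

include hε0 in
/-- the invariant holds after the marking word -/
theorem Inv.init : Inv ι hs hsi hα hε (fun _ => 1) (costU (-α0) s) (((2 * α0 : ℝ) : ℂ) • e0 ι) := by
  have hE : (costU (-α0) s : USp K) = Ez ((α0 : ℂ) • s) := by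
    rw [costU_eq_Ez]
    congr 2
    push_cast
    ring
  refine ⟨fun n => ⟨mw (gm α0 (ε n)) (ε n), ?_⟩, ⟨fun n => cl (jn ι hs hsi hα hε n)
    (gm α0 (ε n)) (ε n), fun n => norm_cl _ _ _, fun v => ?_, ?_⟩, ?_,
    ⟨yM ι hs hsi hα hε, tendsto_yM ι hs hsi hα hε hε0, fun b hb => ?_⟩⟩
  · rw [wordU_mw, one_mul]
    rfl
  · rw [hE]
    refine (STends_light ι hs hsi hα hε hε0 v).congr fun n => ?_
    exact (cl_smul_Lc _ _ _ _).symm
  · rw [hE]
    exact cvH_light ι hs hsi hα hε hε0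
  · rw [hE]
    exact nice_Om.Ez _
  · exact heavy_mark ι hs hsi hα hε hε0 hb

variable {ι hs hsi hα hε}

include hε0 in
/-- the full unitaries converge strongly, up to unit phases -/
lemma Light.stends {V : ℕ → USp K} {U : USp K} (H : Light ι hs hsi hα hε V U) :
    ∃ (c : ℕ → ℂ) (hc : ∀ n, ‖c n‖ = 1),
      STends (fun n => phU (c n) (hc n) (V n * Mn ι hs hsi hα hε n)) atTop U := by
  obtain ⟨c, hc, h1, -⟩ := H
  refine ⟨c, hc, fun v => ?_⟩
  have hcos : Tendsto (fun n => ((Real.cos (ε n) : ℝ) : ℂ)) atTop (𝓝 ((Real.cos 0 : ℝ) : ℂ)) :=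
    (Complex.continuous_ofReal.tendsto _).comp ((Real.continuous_cos.tendsto _).comp hε0)
  have hsin : Tendsto (fun n => ((Real.sin (ε n) : ℝ) : ℂ)) atTop (𝓝 ((Real.sin 0 : ℝ) : ℂ)) :=
    (Complex.continuous_ofReal.tendsto _).comp ((Real.continuous_sin.tendsto _).comp hε0)
  have h2 := hcos.smul (h1 v)
  rw [Real.cos_zero, Complex.ofReal_one, one_smul] at h2
  have h3 : Tendsto (fun n => (Complex.I * ((Real.sin (ε n) : ℝ) : ℂ)) • (c n •
      (V n : Sp K →L[ℂ] Sp K) (Hn ι hs hsi hα hε n v))) atTop (𝓝 0) := by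
    rw [tendsto_zero_iff_norm_tendsto_zero]
    have h4 : Tendsto (fun n => ‖((Real.sin (ε n) : ℝ) : ℂ)‖ * ‖v‖) atTop (𝓝 0) := by
      have := (hsin.norm).mul_const ‖v‖
      rwa [Real.sin_zero, Complex.ofReal_zero, norm_zero, zero_mul] at this
    refine h4.congr fun n => ?_
    rw [norm_smul, norm_smul, norm_mul, Complex.norm_I, one_mul, hc, one_mul, norm_U_apply,
      norm_Hn_apply]
  have h5 := h2.sub h3
  rw [sub_zero] at h5
  refine h5.congr fun n => ?_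
  rw [phU_apply]
  show _ = c n • (V n : Sp K →L[ℂ] Sp K) ((Mn ι hs hsi hα hε n : Sp K →L[ℂ] Sp K) v)
  rw [Mn_eq, map_sub, map_smul, map_smul, smul_sub, smul_comm (c n), smul_comm (c n)]

include hε0 in
/-- the site vectors converge -/
lemma Light.tendsto_eVec {V : ℕ → USp K} {U : USp K} (H : Light ι hs hsi hα hε V U) :
    Tendsto (fun n => eVec (V n * Mn ι hs hsi hα hε n)) atTop (𝓝 (eVec U)) := by
  obtain ⟨c, hc, h⟩ := H.stends hε0
  refine h.tendsto_eVec.congr fun n => ?_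
  rw [eVec_phU]

include hε0 in
lemma Light.tendsto_jn_eVec {V : ℕ → USp K} {U : USp K} (H : Light ι hs hsi hα hε V U) :
    Tendsto (fun n => jn ι hs hsi hα hε n (eVec (V n * Mn ι hs hsi hα hε n))) atTop
      (𝓝 (ι (eVec U))) :=
  tendsto_jn' ι hs hsi hα hε hε0 (H.tendsto_eVec hε0)

include hε0 in
/-- energies converge -/
lemma Light.tendsto_energy {V : ℕ → USp K} {U : USp K} (H : Light ι hs hsi hα hε V U) :
    Tendsto (fun n => energy (jn ι hs hsi hα hε n) (V n * Mn ι hs hsi hα hε n)) atTop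
      (𝓝 (energy ι U)) := by
  obtain ⟨c, hc, h⟩ := H.stends hε0
  have h1 := tendsto_energy_of (fun v v₀ hv => tendsto_jn' ι hs hsi hα hε hε0 hv) h
  refine h1.congr fun n => ?_
  rw [energy_phU]

/-- a plain word extends by a plain move -/
lemma wordU_append (j : Sp K →ₗᵢ[ℂ] K) (w : List (ℝ × ℝ)) (γ β : ℝ) :
    wordU j (w ++ [(γ, β)]) = moveB β (moveC j γ (wordU j w)) := by
  rw [wordU, List.foldl_append, List.foldl_cons, List.foldl_nil]
  rfl

lemma exists_word_moveC {j : Sp K →ₗᵢ[ℂ] K} {U : USp K} (h : ∃ w, wordU j w = U) (γ : ℝ) :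
    ∃ w, wordU j w = moveC j γ U := by
  obtain ⟨w, rfl⟩ := h
  refine ⟨w ++ [(γ, 0)], ?_⟩
  rw [wordU_append, moveB, mixU_zero, one_mul]

lemma moveC_zero (j : Sp K →ₗᵢ[ℂ] K) (U : USp K) : moveC j 0 U = U := by
  rw [moveC, costU_eq_Ez]
  simp

lemma exists_word_moveB {j : Sp K →ₗᵢ[ℂ] K} {U : USp K} (h : ∃ w, wordU j w = U) (β : ℝ) :
    ∃ w, wordU j w = moveB β U := by
  obtain ⟨w, rfl⟩ := h
  refine ⟨w ++ [(0, β)], ?_⟩
  rw [wordU_append, moveC_zero]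

include hε0 in
/-- the cost move -/
theorem Inv.cost {V : ℕ → USp K} {U : USp K} {y : K} (H : Inv ι hs hsi hα hε V U y) (γ : ℝ) :
    Inv ι hs hsi hα hε (fun n => costU γ (jn ι hs hsi hα hε n
      (eVec (V n * Mn ι hs hsi hα hε n))) * V n) (moveC ι γ U) y := by
  have he := H.light.tendsto_jn_eVec hε0
  set f : ℕ → K := fun n => jn ι hs hsi hα hε n (eVec (V n * Mn ι hs hsi hα hε n)) with hf
  have hu : Tendsto (fun n => (-(γ : ℂ)) • f n) atTop (𝓝 ((-(γ : ℂ)) • ι (eVec U))) :=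
    he.const_smul _
  have hE : ∀ n, (costU γ (f n) : USp K) = Ez ((-(γ : ℂ)) • f n) := fun n => costU_eq_Ez γ (f n)
  have hE0 : (costU γ (ι (eVec U)) : USp K) = Ez ((-(γ : ℂ)) • ι (eVec U)) := costU_eq_Ez γ _
  refine ⟨fun n => ?_, ?_, ?_, ?_⟩
  · have := exists_word_moveC (H.reach n) γ
    obtain ⟨w, hw⟩ := this
    exact ⟨w, by rw [hw, moveC, mul_assoc]⟩
  · obtain ⟨c, hc, h1, h2⟩ := H.light
    refine ⟨c, hc, fun v => ?_, ?_⟩
    · have h3 : STends (fun n => (costU γ (f n) : USp K)) atTop (costU γ (ι (eVec U))) :=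
        STends_costU _ _ tendsto_const_nhds he
      have h4 := tendsto_U_apply h3 (h1 v)
      refine h4.congr fun n => ?_
      rw [map_smul]
      rfl
    · have h3 := h2.Ez H.nice hu
      have e1 : (fun n => c n • (((costU γ (f n) * V n : USp K)) : Sp K →L[ℂ] Sp K)
          ((Ln ι hs hsi hα hε n : Sp K →L[ℂ] Sp K) Om)) =
          fun n => ((Ez ((-(γ : ℂ)) • f n) : USp K) : Sp K →L[ℂ] Sp K)
            (c n • (V n : Sp K →L[ℂ] Sp K) ((Ln ι hs hsi hα hε n : Sp K →L[ℂ] Sp K) Om)) := by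
        funext n
        rw [map_smul, ← hE n]
        rfl
      have e2 : ((moveC ι γ U : USp K) : Sp K →L[ℂ] Sp K) Om =
          ((Ez ((-(γ : ℂ)) • ι (eVec U)) : USp K) : Sp K →L[ℂ] Sp K)
            ((U : Sp K →L[ℂ] Sp K) Om) := by
        rw [moveC, hE0]
        rfl
      rw [e1, e2]
      exact h3
  · have e2 : ((moveC ι γ U : USp K) : Sp K →L[ℂ] Sp K) Om =
        ((Ez ((-(γ : ℂ)) • ι (eVec U)) : USp K) : Sp K →L[ℂ] Sp K)
          ((U : Sp K →L[ℂ] Sp K) Om) := by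
      rw [moveC, hE0]
      rfl
    rw [e2]
    exact H.nice.Ez _
  · obtain ⟨yn, hy, h1⟩ := H.heavy
    refine ⟨yn, hy, fun b hb => ?_⟩
    have hb1 : Hv.Bdd (fun n => (V n : Sp K →L[ℂ] Sp K) (Pb b (Hn ι hs hsi hα hε n Om))) :=
      ⟨1, fun n => by
        rw [norm_U_apply]
        refine (norm_Pb_le hb _).trans ?_
        rw [norm_Hn_apply, norm_Om]⟩
    have hF : Hv.Bdd (fun n => (-(γ : ℂ)) • f n) := by
      refine ⟨|γ|, fun n => ?_⟩
      rw [norm_smul, norm_neg, Complex.norm_real, Real.norm_eq_abs]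
      have hn : ‖f n‖ = 1 := by
        rw [hf]
        simp only
        rw [LinearIsometry.norm_map, eVec]
        have := norm_star_U_apply (V n * Mn ι hs hsi hα hε n)
          (Zop (((V n * Mn ι hs hsi hα hε n : USp K) : Sp K →L[ℂ] Sp K) Om))
        rw [this, norm_Zop_apply, norm_U_apply, norm_Om]
      rw [hn, mul_one]
    have h2 := (h1 b hb).cost_bdd hε0 hb1 hF
    have e1 : (fun n => (((costU γ (f n) * V n : USp K)) : Sp K →L[ℂ] Sp K)
        (Pb b (Hn ι hs hsi hα hε n Om))) =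
        fun n => ((Ez ((-(γ : ℂ)) • f n) : USp K) : Sp K →L[ℂ] Sp K)
          ((V n : Sp K →L[ℂ] Sp K) (Pb b (Hn ι hs hsi hα hε n Om))) := by
      funext n
      rw [← hE n]
      rfl
    rw [e1]
    exact h2

end Inv

end Crest.Agent.R339.Mark
end
end

-- ▼ part R339/Asm539B
section

/-!
# Level-one label gates: pulses, the mixer move
-/

set_option autoImplicit false
set_option maxHeartbeats 400000

noncomputable section

open scoped ComplexConjugate InnerProductSpace Topology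
open Filter Crest.MathPhysics.SpinGlass Crest.Agent.R339.Site Crest.Agent.R339.Lab

namespace Crest.Agent.R339.Mark

variable {K : Type*} [NormedAddCommGroup K] [InnerProductSpace ℂ K]

/-! ### Pulses on heavy families, started from a rotated family -/

open Crest.Agent.R339.Hv in
/-- A sequence of calibrated pulses, started from `A h` with a spin operator `A`. -/
theorem heavy_pulses_from {ε : ℕ → ℝ} {b b' : ℝ} {y : ℕ → K} {h : ℕ → Sp K}
    (H : Heavy ε b b' y h) (hb : Bdd h) (hb1 : b = 1 ∨ b = -1)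
    {β σ : ℕ → ℝ} (hσ : ∀ j, σ j = 1 ∨ σ j = -1) {τ : ℕ → ℕ → K} {N : ℕ}
    (hτ : ∀ j < N, Bdd (τ j))
    (hcal : ∀ j < N, Tendsto (fun n => (⟪y n, τ j n⟫_ℂ).im) atTop (𝓝 (σ j * (Real.pi / 2))))
    {A : Sp K →L[ℂ] Sp K} (hA : IsSpin A)
    {g : ℕ → ℕ → Sp K} (h0 : Tendsto (fun n => g 0 n - A (h n)) atTop (𝓝 0))
    (hg : ∀ j < N, ∀ n, g (j + 1) n =
      ((Pu (β j) ((ε n : ℂ) • τ j n) : USp K) : Sp K →L[ℂ] Sp K) (g j n)) :
    ∀ j ≤ N, Tendsto (fun n => g j n - pulM b β σ j (A (h n))) atTop (𝓝 0) := by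
  intro j
  induction j with
  | zero =>
    intro _
    exact h0
  | succ j ih =>
    intro hj
    have hjN : j < N := hj
    have h1 := ih hjN.le
    have h2 : Tendsto (fun n => ((Pu (β j) ((ε n : ℂ) • τ j n) : USp K) : Sp K →L[ℂ] Sp K)
        (g j n - pulM b β σ j (A (h n)))) atTop (𝓝 0) := by
      rw [tendsto_zero_iff_norm_tendsto_zero] at h1 ⊢
      exact h1.congr fun n => by rw [norm_U_apply]
    have hθ : Tendsto (fun n => b * (⟪y n, τ j n⟫_ℂ).im) atTop (𝓝 (b * (σ j * (Real.pi / 2)))) :=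
      (hcal j hjN).const_mul b
    have h3 := H.pulse hb (β j) (hτ j hjN) hθ ((isSpin_pulM b β σ j).mul hA)
    have h4 := h2.add h3
    rw [add_zero] at h4
    refine h4.congr fun n => ?_
    have e0 : ((pulM b β σ j : Sp K →L[ℂ] Sp K) * A) (h n) = pulM b β σ j (A (h n)) := rfl
    have e1 : ((Real.cos (b * (σ j * (Real.pi / 2))) : ℝ) : ℂ) • pulM b β σ j (A (h n)) +
        (Complex.I * ((Real.sin (b * (σ j * (Real.pi / 2))) : ℝ) : ℂ)) •
          Zb (β j) (pulM b β σ j (A (h n))) = pulM b β σ (j + 1) (A (h n)) := by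
      show _ = (Complex.I * ((b * σ j : ℝ) : ℂ)) • Zb (β j) (pulM b β σ j (A (h n)))
      have hs : b * σ j = 1 ∨ b * σ j = -1 := by
        rcases hb1 with rfl | rfl <;> rcases hσ j with h | h <;> rw [h] <;> norm_num
      have harg : b * (σ j * (Real.pi / 2)) = (b * σ j) * (Real.pi / 2) := by ring
      rw [harg]
      rcases hs with hs | hs <;> rw [hs]
      · rw [one_mul, Real.cos_pi_div_two, Real.sin_pi_div_two]
        simp
      · rw [neg_one_mul, Real.cos_neg, Real.sin_neg, Real.cos_pi_div_two, Real.sin_pi_div_two]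
        simp
    rw [hg j hjN, map_sub, e0, e1]
    abel

/-! ### The pulse sequence -/

section Pulses

variable (ι : Sp K →ₗᵢ[ℂ] K) {s : K} (hs : ‖s‖ = 1) (hsi : ∀ v, ⟪s, ι v⟫_ℂ = 0)
  {α0 : ℝ} (hα : α0 ≠ 0) {ε : ℕ → ℝ} (hε : ∀ n, 0 < ε n) (hε0 : Tendsto ε atTop (𝓝 0))

/-- the current vector read by a pulse of axis `β` at `V` -/
def rd (β : ℝ) (V : ℕ → USp K) (n : ℕ) : K :=
  jn ι hs hsi hα hε n (eVec (mixU β * V n * Mn ι hs hsi hα hε n))

/-- the strength of a calibrated pulse, divided by `ε` -/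
def st (y : ℕ → K) (β σ : ℝ) (V : ℕ → USp K) (n : ℕ) : ℝ :=
  σ * Real.pi / (2 * (⟪y n, rd ι hs hsi hα hε β V n⟫_ℂ).im)

/-- the displacement of a calibrated pulse, divided by `ε` -/
def ta (y : ℕ → K) (β σ : ℝ) (V : ℕ → USp K) (n : ℕ) : K :=
  ((st ι hs hsi hα hε y β σ V n : ℝ) : ℂ) • rd ι hs hsi hα hε β V n

/-- the sequence of pulses -/
def pv (y : ℕ → K) (β σ : ℕ → ℝ) (V : ℕ → USp K) : ℕ → ℕ → USp K
  | 0, n => V n
  | j + 1, n => Pu (β j) ((ε n : ℂ) • ta ι hs hsi hα hε y (β j) (σ j) (pv y β σ V j) n) *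
      pv y β σ V j n

lemma norm_eVec (U : USp K) : ‖eVec U‖ = 1 := by
  have := norm_star_U_apply U (Zop ((U : Sp K →L[ℂ] Sp K) Om))
  rw [eVec, this, norm_Zop_apply, norm_U_apply, norm_Om]

lemma norm_rd (β : ℝ) (V : ℕ → USp K) (n : ℕ) : ‖rd ι hs hsi hα hε β V n‖ = 1 := by
  rw [rd, LinearIsometry.norm_map, norm_eVec]

/-- a pulse is a plain word -/
lemma reach_pulse (y : ℕ → K) (β σ : ℝ) {V : ℕ → USp K} {n : ℕ}
    (h : ∃ w, wordU (jn ι hs hsi hα hε n) w = V n * Mn ι hs hsi hα hε n) :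
    ∃ w, wordU (jn ι hs hsi hα hε n) w =
      Pu β ((ε n : ℂ) • ta ι hs hsi hα hε y β σ V n) * V n * Mn ι hs hsi hα hε n := by
  have h1 := exists_word_moveB h β
  have h2 := exists_word_moveC h1 (-(ε n * st ι hs hsi hα hε y β σ V n))
  have h3 := exists_word_moveB h2 (-β)
  obtain ⟨w, hw⟩ := h3
  refine ⟨w, ?_⟩
  rw [hw]
  simp only [moveB, moveC, costU_eq_Ez]
  rw [Pu]
  have e : (-((-(ε n * st ι hs hsi hα hε y β σ V n) : ℝ) : ℂ)) •
      jn ι hs hsi hα hε n (eVec (mixU β * (V n * Mn ι hs hsi hα hε n))) =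
      (ε n : ℂ) • ta ι hs hsi hα hε y β σ V n := by
    rw [ta, rd, smul_smul, ← mul_assoc (mixU β : USp K)]
    congr 1
    push_cast
    ring
  rw [e]
  simp only [mul_assoc]

lemma reach_pv (y : ℕ → K) (β σ : ℕ → ℝ) {V : ℕ → USp K} {n : ℕ}
    (h : ∃ w, wordU (jn ι hs hsi hα hε n) w = V n * Mn ι hs hsi hα hε n) (j : ℕ) :
    ∃ w, wordU (jn ι hs hsi hα hε n) w =
      pv ι hs hsi hα hε y β σ V j n * Mn ι hs hsi hα hε n := by
  induction j with
  | zero => exact h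
  | succ j ih => exact reach_pulse ι hs hsi hα hε y (β j) (σ j) ih

variable {ι hs hsi hα hε}

/-- mixers act on the light part -/
lemma Light.mix {V : ℕ → USp K} {U : USp K} (H : Light ι hs hsi hα hε V U) (β : ℝ) :
    Light ι hs hsi hα hε (fun n => mixU β * V n) (mixU β * U) := by
  obtain ⟨c, hc, h1, h2⟩ := H
  refine ⟨c, hc, fun v => ?_, ?_⟩
  · have h3 := (((mixU β : USp K) : Sp K →L[ℂ] Sp K).continuous.tendsto _).comp (h1 v)
    refine h3.congr fun n => ?_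
    show ((mixU β : USp K) : Sp K →L[ℂ] Sp K) (c n • (V n : Sp K →L[ℂ] Sp K) _) = _
    rw [map_smul]
    rfl
  · have h3 := h2.spin (isSpin_mixU β)
    have e1 : (fun n => c n • ((mixU β * V n : USp K) : Sp K →L[ℂ] Sp K)
        ((Ln ι hs hsi hα hε n : Sp K →L[ℂ] Sp K) Om)) =
        fun n => ((mixU β : USp K) : Sp K →L[ℂ] Sp K)
          (c n • (V n : Sp K →L[ℂ] Sp K) ((Ln ι hs hsi hα hε n : Sp K →L[ℂ] Sp K) Om)) := by
      funext n
      rw [map_smul]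
      rfl
    rw [e1]
    exact h3

/-- gates of vanishing strength do not change the light part -/
lemma Light.small {V : ℕ → USp K} {U : USp K} (H : Light ι hs hsi hα hε V U)
    (hn : Nice ((U : Sp K →L[ℂ] Sp K) Om)) {u : ℕ → K} (hu : Tendsto u atTop (𝓝 0)) :
    Light ι hs hsi hα hε (fun n => Ez (u n) * V n) U := by
  obtain ⟨c, hc, h1, h2⟩ := H
  refine ⟨c, hc, fun v => ?_, ?_⟩
  · have h3 : STends (fun n => (Ez (u n) : USp K)) atTop (Ez (0 : K)) :=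
      STends_costU _ _ tendsto_const_nhds hu
    have h4 := tendsto_U_apply h3 (h1 v)
    rw [Ez_zero] at h4
    refine h4.congr fun n => ?_
    rw [map_smul]
    rfl
  · have h3 := h2.Ez hn hu
    rw [Ez_zero] at h3
    have e1 : (fun n => c n • ((Ez (u n) * V n : USp K) : Sp K →L[ℂ] Sp K)
        ((Ln ι hs hsi hα hε n : Sp K →L[ℂ] Sp K) Om)) =
        fun n => ((Ez (u n) : USp K) : Sp K →L[ℂ] Sp K)
          (c n • (V n : Sp K →L[ℂ] Sp K) ((Ln ι hs hsi hα hε n : Sp K →L[ℂ] Sp K) Om)) := by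
      funext n
      rw [map_smul]
      rfl
    rw [e1]
    exact h3

/-- pulses of vanishing strength do not change the light part -/
lemma Light.pulse {V : ℕ → USp K} {U : USp K} (H : Light ι hs hsi hα hε V U)
    (hn : Nice ((U : Sp K →L[ℂ] Sp K) Om)) (β : ℝ) {u : ℕ → K} (hu : Tendsto u atTop (𝓝 0)) :
    Light ι hs hsi hα hε (fun n => Pu β (u n) * V n) U := by
  have h1 := ((H.mix β).small (nice_mixU hn β) hu).mix (-β)
  have e1 : (mixU (-β) * (mixU β * U) : USp K) = U := by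
    rw [← mul_assoc, mixU_neg_mul, one_mul]
  rw [e1] at h1
  have e2 : (fun n => (mixU (-β) * (Ez (u n) * (mixU β * V n)) : USp K)) =
      fun n => Pu β (u n) * V n := by
    funext n
    rw [Pu]
    simp only [mul_assoc]
  rw [e2] at h1
  exact h1

include hε0 in
lemma Light.tendsto_rd {V : ℕ → USp K} {U : USp K} (H : Light ι hs hsi hα hε V U) (β : ℝ) :
    Tendsto (rd ι hs hsi hα hε β V) atTop (𝓝 (ι (eVec (mixU β * U)))) :=
  (H.mix β).tendsto_jn_eVec hε0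

/-- a convergent real sequence is bounded -/
lemma bdd_of_tendsto {E : Type*} [SeminormedAddCommGroup E] {x : ℕ → E} {x₀ : E}
    (h : Tendsto x atTop (𝓝 x₀)) : Hv.Bdd x := by
  obtain ⟨T, hT⟩ := (Metric.isBounded_range_of_tendsto x h).exists_norm_le
  exact ⟨T, fun n => hT _ ⟨n, rfl⟩⟩

include hε0 in
/-- calibration facts for one pulse -/
lemma Light.calib {V : ℕ → USp K} {U : USp K} (H : Light ι hs hsi hα hε V U) {β : ℝ} (σ : ℝ)
    {yn : ℕ → K} {y : K} (hy : Tendsto yn atTop (𝓝 y))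
    (hne : (⟪y, ι (eVec (mixU β * U))⟫_ℂ).im ≠ 0) :
    Tendsto (fun n => (ε n : ℂ) • ta ι hs hsi hα hε yn β σ V n) atTop (𝓝 0) ∧
    Hv.Bdd (ta ι hs hsi hα hε yn β σ V) ∧
    Tendsto (fun n => (⟪yn n, ta ι hs hsi hα hε yn β σ V n⟫_ℂ).im) atTop
      (𝓝 (σ * (Real.pi / 2))) := by
  have h1 := H.tendsto_rd hε0 β
  have h2 : Tendsto (fun n => (⟪yn n, rd ι hs hsi hα hε β V n⟫_ℂ).im) atTop
      (𝓝 (⟪y, ι (eVec (mixU β * U))⟫_ℂ).im) :=
    (Complex.continuous_im.tendsto _).comp (hy.inner h1)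
  have h3 : Tendsto (fun n => st ι hs hsi hα hε yn β σ V n) atTop
      (𝓝 (σ * Real.pi / (2 * (⟪y, ι (eVec (mixU β * U))⟫_ℂ).im))) :=
    tendsto_const_nhds.div (h2.const_mul 2) (mul_ne_zero two_ne_zero hne)
  have h4 : Tendsto (ta ι hs hsi hα hε yn β σ V) atTop
      (𝓝 (((σ * Real.pi / (2 * (⟪y, ι (eVec (mixU β * U))⟫_ℂ).im) : ℝ) : ℂ) •
        ι (eVec (mixU β * U)))) :=
    ((Complex.continuous_ofReal.tendsto _).comp h3).smul h1
  refine ⟨?_, bdd_of_tendsto h4, ?_⟩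
  · have h5 := ((Complex.continuous_ofReal.tendsto _).comp hε0).smul h4
    rw [Complex.ofReal_zero, zero_smul] at h5
    exact h5
  · refine tendsto_const_nhds.congr' ?_
    filter_upwards [h2.eventually_ne hne] with n hn
    rw [ta, inner_smul_right, Complex.im_ofReal_mul, st]
    field_simp

include hε0 in
/-- a sequence of calibrated pulses: light part and calibration -/
lemma Light.pv {V : ℕ → USp K} {U : USp K} (H : Light ι hs hsi hα hε V U)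
    (hn : Nice ((U : Sp K →L[ℂ] Sp K) Om)) {yn : ℕ → K} {y : K} (hy : Tendsto yn atTop (𝓝 y))
    {β σ : ℕ → ℝ} (hne : ∀ j, (⟪y, ι (eVec (mixU (β j) * U))⟫_ℂ).im ≠ 0) (j : ℕ) :
    Light ι hs hsi hα hε (pv ι hs hsi hα hε yn β σ V j) U := by
  induction j with
  | zero => exact H
  | succ j ih =>
    have h1 := (ih.calib hε0 (σ j) hy (hne j)).1
    exact ih.pulse hn (β j) h1

/-- strong continuity of the mixer -/
lemma STends_mixU {β : ℕ → ℝ} {β₀ : ℝ} (hβ : Tendsto β atTop (𝓝 β₀)) :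
    STends (fun n => (mixU (β n) : USp K)) atTop (mixU β₀) := by
  intro v
  have h1 : Tendsto (fun n => ((Real.cos (β n) : ℝ) : ℂ) • v -
      (Complex.I * ((Real.sin (β n) : ℝ) : ℂ)) • Xop v) atTop (𝓝 (((Real.cos β₀ : ℝ) : ℂ) • v -
      (Complex.I * ((Real.sin β₀ : ℝ) : ℂ)) • Xop v)) := by
    have hcos : Tendsto (fun n => ((Real.cos (β n) : ℝ) : ℂ)) atTop (𝓝 ((Real.cos β₀ : ℝ) : ℂ)) :=
      (Complex.continuous_ofReal.tendsto _).comp ((Real.continuous_cos.tendsto _).comp hβ)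
    have hsin : Tendsto (fun n => ((Real.sin (β n) : ℝ) : ℂ)) atTop (𝓝 ((Real.sin β₀ : ℝ) : ℂ)) :=
      (Complex.continuous_ofReal.tendsto _).comp ((Real.continuous_sin.tendsto _).comp hβ)
    exact (hcos.smul_const v).sub ((hsin.const_mul Complex.I).smul_const (Xop v))
  rw [← mixU_eq] at h1
  refine h1.congr fun n => ?_
  rw [mixU_eq]

/-- fine subdivision: the read-out stays nonzero for small axes -/
lemma exists_subdiv (ι : Sp K →ₗᵢ[ℂ] K) {y : K} {U : USp K}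
    (hne : (⟪y, ι (eVec U)⟫_ℂ).im ≠ 0) (θ : ℝ) :
    ∃ m : ℕ, 0 < m ∧ (⟪y, ι (eVec (mixU (θ / (4 * m)) * U))⟫_ℂ).im ≠ 0 := by
  have h0 : Tendsto (fun m : ℕ => θ / (4 * (m : ℝ))) atTop (𝓝 0) := by
    refine Tendsto.const_div_atTop ?_ θ
    exact tendsto_natCast_atTop_atTop.const_mul_atTop (by norm_num)
  have h1 : STends (fun m : ℕ => (mixU (θ / (4 * (m : ℝ))) * U : USp K)) atTop (mixU 0 * U) :=
    (STends_mixU h0).mul (STends.const U)
  rw [mixU_zero, one_mul] at h1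
  have h2 : Tendsto (fun m : ℕ => (⟪y, ι (eVec (mixU (θ / (4 * (m : ℝ))) * U))⟫_ℂ).im) atTop
      (𝓝 (⟪y, ι (eVec U)⟫_ℂ).im) :=
    (Complex.continuous_im.tendsto _).comp
      (tendsto_const_nhds.inner ((ι.continuous.tendsto _).comp h1.tendsto_eVec))
  obtain ⟨m, hm, hm0⟩ := ((h2.eventually_ne hne).and (eventually_gt_atTop 0)).exists
  exact ⟨m, hm0, hm⟩

/-- axes of the rotation pattern -/
def axs (β₀ : ℝ) (j : ℕ) : ℝ := if j % 2 = 0 then β₀ else 0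

/-- signs of the rotation pattern -/
def sgs (j : ℕ) : ℝ := if j % 4 = 0 ∨ j % 4 = 3 then 1 else -1

lemma sgs_or (j : ℕ) : sgs j = 1 ∨ sgs j = -1 := by
  unfold sgs
  split_ifs <;> simp

include hε0 in
/-- **The mixer move.** -/
theorem Inv.mix {V : ℕ → USp K} {U : USp K} {y : K} (H : Inv ι hs hsi hα hε V U y) (θ : ℝ)
    (hne : (⟪y, ι (eVec (mixU θ * U))⟫_ℂ).im ≠ 0) :
    ∃ V', Inv ι hs hsi hα hε V' (moveB θ U) y := by
  obtain ⟨m, hm0, hm⟩ := exists_subdiv ι hne (-θ)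
  obtain ⟨yn, hy, hhv⟩ := H.heavy
  set β₀ : ℝ := -θ / (4 * m) with hβ₀
  set V₁ : ℕ → USp K := fun n => mixU θ * V n with hV₁
  have hL : Light ι hs hsi hα hε V₁ (mixU θ * U) := H.light.mix θ
  have hN : Nice (((mixU θ * U : USp K) : Sp K →L[ℂ] Sp K) Om) := nice_mixU H.nice θ
  have hne' : ∀ j, (⟪y, ι (eVec (mixU (axs β₀ j) * (mixU θ * U)))⟫_ℂ).im ≠ 0 := by
    intro j
    unfold axs
    split_ifs
    · exact hm
    · rw [mixU_zero, one_mul]
      exact hne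
  refine ⟨pv ι hs hsi hα hε yn (axs β₀) sgs V₁ (4 * m), fun n => ?_,
    hL.pv hε0 hN hy hne' _, hN, yn, hy, fun b hb => ?_⟩
  · refine reach_pv ι hs hsi hα hε yn (axs β₀) sgs ?_ _
    have := exists_word_moveB (H.reach n) θ
    obtain ⟨w, hw⟩ := this
    exact ⟨w, by rw [hw, moveB, hV₁, mul_assoc]⟩
  · have hHv := hhv b hb
    have hbd : Hv.Bdd (fun n => (V n : Sp K →L[ℂ] Sp K) (Pb b (Hn ι hs hsi hα hε n Om))) :=
      ⟨1, fun n => by
        rw [norm_U_apply]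
        refine (norm_Pb_le hb _).trans ?_
        rw [norm_Hn_apply, norm_Om]⟩
    have hcal := fun j => (hL.pv (σ := sgs) hε0 hN hy hne' j).calib hε0 (sgs j) hy (hne' j)
    have h1 := heavy_pulses_from hHv hbd hb (β := axs β₀) (σ := sgs) sgs_or
      (τ := fun j => ta ι hs hsi hα hε yn (axs β₀ j) (sgs j)
        (pv ι hs hsi hα hε yn (axs β₀) sgs V₁ j)) (N := 4 * m)
      (fun j _ => (hcal j).2.1) (fun j _ => (hcal j).2.2) (isSpin_mixU θ)
      (g := fun j n => (pv ι hs hsi hα hε yn (axs β₀) sgs V₁ j n : Sp K →L[ℂ] Sp K)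
        (Pb b (Hn ι hs hsi hα hε n Om)))
      (by
        refine tendsto_const_nhds.congr fun n => ?_
        symm
        show ((mixU θ * V n : USp K) : Sp K →L[ℂ] Sp K) (Pb b (Hn ι hs hsi hα hε n Om)) -
          ((mixU θ : USp K) : Sp K →L[ℂ] Sp K) ((V n : Sp K →L[ℂ] Sp K)
            (Pb b (Hn ι hs hsi hα hε n Om))) = 0
        exact sub_self _)
      (fun j _ n => rfl) (4 * m) le_rfl
    refine hHv.congr (h1.congr fun n => ?_)
    congr 1
    rw [Hv.pulM_period (β := axs β₀) (σ := sgs) hb β₀ (fun j => rfl) (fun j => rfl),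
      mixU_apply_add]
    have hmz : (m : ℝ) ≠ 0 := by exact_mod_cast hm0.ne'
    have e : 4 * (m : ℝ) * β₀ + θ = 0 := by
      rw [hβ₀]
      field_simp
      ring
    rw [e, mixU_zero]
    rfl

end Pulses

end Crest.Agent.R339.Mark
end
end

-- ▼ part R339/Asm539C

/-!
# Level-one label gates: labelled words and the final bound
-/

set_option autoImplicit false
set_option maxHeartbeats 400000

noncomputable section

open scoped ComplexConjugate InnerProductSpace Topology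
open Filter Crest.MathPhysics.SpinGlass Crest.Agent.R339.Site Crest.Agent.R339.Lab

namespace Crest.Agent.R339.Mark

variable {K : Type*} [NormedAddCommGroup K] [InnerProductSpace ℂ K]

/-- letters of a labelled word: cost gate, mixer, label gate -/
inductive Lg : Type
  | C (γ : ℝ)
  | B (β : ℝ)
  | L (α : ℝ)

/-- the action of a letter on a labelled state `(U, y)` -/
def Lg.run (ι : Sp K →ₗᵢ[ℂ] K) (s : K) : Lg → USp K × K → USp K × K
  | .C γ, p => (moveC ι γ p.1, p.2)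
  | .B β, p => (moveB β p.1, p.2)
  | .L α, p => (costU (-α) s * p.1, p.2 + ((2 * α : ℝ) : ℂ) • ι (eVec p.1))

/-- admissibility: the read-out `Im ⟪y, e(U)⟫` does not vanish after a mixer and at a label gate -/
def Lg.adm (ι : Sp K →ₗᵢ[ℂ] K) : Lg → USp K × K → Prop
  | .C _, _ => True
  | .B β, p => (⟪p.2, ι (eVec (moveB β p.1))⟫_ℂ).im ≠ 0
  | .L _, p => (⟪p.2, ι (eVec p.1)⟫_ℂ).im ≠ 0

/-- the action of a labelled word -/
def runL (ι : Sp K →ₗᵢ[ℂ] K) (s : K) : List Lg → USp K × K → USp K × K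
  | [], p => p
  | g :: w, p => runL ι s w (g.run ι s p)

/-- admissible labelled words -/
def admL (ι : Sp K →ₗᵢ[ℂ] K) (s : K) : List Lg → USp K × K → Prop
  | [], _ => True
  | g :: w, p => g.adm ι p ∧ admL ι s w (g.run ι s p)

/-- the label gate is simulated -/
def LamStmt (ι : Sp K →ₗᵢ[ℂ] K) {s : K} (hs : ‖s‖ = 1) (hsi : ∀ v, ⟪s, ι v⟫_ℂ = 0)
    {α0 : ℝ} (hα : α0 ≠ 0) {ε : ℕ → ℝ} (hε : ∀ n, 0 < ε n) : Prop :=
  ∀ (V : ℕ → USp K) (U : USp K) (y : K), Inv ι hs hsi hα hε V U y →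
    (⟪y, ι (eVec U)⟫_ℂ).im ≠ 0 → ∀ α : ℝ,
    ∃ V', Inv ι hs hsi hα hε V' (costU (-α) s * U) (y + ((2 * α : ℝ) : ℂ) • ι (eVec U))

variable {ι : Sp K →ₗᵢ[ℂ] K} {s : K} {hs : ‖s‖ = 1} {hsi : ∀ v, ⟪s, ι v⟫_ℂ = 0}
  {α0 : ℝ} {hα : α0 ≠ 0} {ε : ℕ → ℝ} {hε : ∀ n, 0 < ε n}

theorem Inv.runL (hε0 : Tendsto ε atTop (𝓝 0)) (hLam : LamStmt ι hs hsi hα hε) (w : List Lg) :
    ∀ (V : ℕ → USp K) (p : USp K × K), Inv ι hs hsi hα hε V p.1 p.2 → admL ι s w p →
      ∃ V', Inv ι hs hsi hα hε V' (Mark.runL ι s w p).1 (Mark.runL ι s w p).2 := by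
  induction w with
  | nil => intro V p H _; exact ⟨V, H⟩
  | cons g w ih =>
    intro V p H hadm
    obtain ⟨h1, h2⟩ := hadm
    cases g with
    | C γ => exact ih _ _ (H.cost hε0 γ) h2
    | B β =>
      obtain ⟨V', H'⟩ := H.mix hε0 β h1
      exact ih V' _ H' h2
    | L α =>
      obtain ⟨V', H'⟩ := hLam V p.1 p.2 H h1 α
      exact ih V' _ H' h2

/-- **Labelled words are not better than plain words** (given the label gate step). -/
theorem labelled_le (hε0 : Tendsto ε atTop (𝓝 0)) (hLam : LamStmt ι hs hsi hα hε) {c : ℝ}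
    (hc : ∀ (j : Sp K →ₗᵢ[ℂ] K) (angles : List (ℝ × ℝ)), energy j (wordU j angles) ≤ c)
    (w : List Lg) (hw : admL ι s w (costU (-α0) s, ((2 * α0 : ℝ) : ℂ) • ι (Zop Om))) :
    energy ι (Mark.runL ι s w (costU (-α0) s, ((2 * α0 : ℝ) : ℂ) • ι (Zop Om))).1 ≤ c := by
  obtain ⟨V', H⟩ := Inv.runL hε0 hLam w (fun _ => 1)
    (costU (-α0) s, ((2 * α0 : ℝ) : ℂ) • ι (Zop Om)) (Inv.init ι hs hsi hα hε hε0) hw
  refine le_of_tendsto (H.light.tendsto_energy hε0) (Eventually.of_forall fun n => ?_)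
  obtain ⟨w', hw'⟩ := H.reach n
  rw [← hw']
  exact hc _ _

end Crest.Agent.R339.Mark
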