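import Crest.Agent.R164.FieldList

-- ▼ part R339/D3Step
section

/-!
# Row 339, (D3): one step of the tilted chain versus one Euler step
-/

set_option autoImplicit false

namespace Crest.Agent.R339.D3

open MeasureTheory ProbabilityTheory Real
open Crest.Agent.R164.GC
open Crest.ProbabilityR.InvariantGlass (gaussOp)

noncomputable section

/-- the standard Gaussian -/
abbrev γ : Measure ℝ := gaussianReal 0 1

/-- Gaussian shift -/
theorem shift (φ : ℝ → ℝ) (a : ℝ) :
    ∫ g, φ (g + a) * Real.exp (-(a * g) - a ^ 2 / 2) ∂γ = ∫ g, φ g ∂γ := by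
  rw [integral_gaussianReal_eq_integral_smul (by norm_num),
    integral_gaussianReal_eq_integral_smul (by norm_num)]
  have h : ∀ g, gaussianPDFReal 0 1 g • (φ (g + a) * Real.exp (-(a * g) - a ^ 2 / 2)) =
      gaussianPDFReal 0 1 (g + a) • φ (g + a) := by
    intro g
    simp only [gaussianPDFReal, smul_eq_mul]
    have e : Real.exp (-(g + a - 0) ^ 2 / (2 * ((1 : NNReal) : ℝ))) =
        Real.exp (-(g - 0) ^ 2 / (2 * ((1 : NNReal) : ℝ))) *
          Real.exp (-(a * g) - a ^ 2 / 2) := by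
      rw [← Real.exp_add]; congr 1
      rw [NNReal.coe_one]; ring
    rw [e]; ring
  simp only [h]
  exact integral_add_right_eq_self (fun g => gaussianPDFReal 0 1 g • φ g) a

/-- the basic weight -/
def ex (K g : ℝ) : ℝ := Real.exp (K * (1 + |g|))

theorem ex_pos (K g : ℝ) : 0 < ex K g := Real.exp_pos _

theorem ex_mul (K L g : ℝ) : ex K g * ex L g = ex (K + L) g := by
  unfold ex; rw [← Real.exp_add]; ring_nf


theorem one_le_ex {K : ℝ} (h : 0 ≤ K) (g : ℝ) : 1 ≤ ex K g :=
  Real.one_le_exp (by positivity)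

theorem le_ex1 (g : ℝ) : 1 + |g| ≤ ex 1 g := by
  unfold ex
  rw [one_mul]
  have := Real.add_one_le_exp (1 + |g|)
  linarith

theorem abs_le_ex1 (g : ℝ) : |g| ≤ ex 1 g := by
  have := le_ex1 g; linarith

theorem sq_le_ex2 (g : ℝ) : (1 + |g|) ^ 2 ≤ ex 2 g := by
  have h := le_ex1 g
  have h0 : 0 ≤ 1 + |g| := by positivity
  calc (1 + |g|) ^ 2 = (1 + |g|) * (1 + |g|) := by ring
    _ ≤ ex 1 g * ex 1 g := mul_le_mul h h h0 (ex_pos _ _).le
    _ = ex 2 g := by rw [ex_mul]; norm_num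

theorem gsq_le_ex2 (g : ℝ) : g ^ 2 ≤ ex 2 g := by
  refine le_trans ?_ (sq_le_ex2 g)
  rw [← sq_abs g]
  exact pow_le_pow_left₀ (abs_nonneg _) (by linarith [abs_nonneg g]) 2

theorem ex_int (K : ℝ) : Integrable (ex K) γ := by
  have h := (integrable_exp_abs K).const_mul (Real.exp K)
  refine h.congr (Filter.Eventually.of_forall fun g => ?_)
  simp only [ex]
  rw [← Real.exp_add]; ring_nf

/-- its expectation -/
def EE (K : ℝ) : ℝ := ∫ g, ex K g ∂γ

theorem EE_nonneg (K : ℝ) : 0 ≤ EE K := integral_nonneg fun g => (ex_pos K g).le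


theorem int_le_EE {φ : ℝ → ℝ} (hφ : Continuous φ) {A K : ℝ} (h : ∀ g, |φ g| ≤ A * ex K g) :
    Integrable φ γ ∧ |∫ g, φ g ∂γ| ≤ A * EE K := by
  have hi : Integrable φ γ := ((ex_int K).const_mul A).mono' hφ.aestronglyMeasurable
    (Filter.Eventually.of_forall fun g => by rw [Real.norm_eq_abs]; exact h g)
  refine ⟨hi, ?_⟩
  calc |∫ g, φ g ∂γ| ≤ ∫ g, |φ g| ∂γ := abs_integral_le_integral_abs
    _ ≤ ∫ g, A * ex K g ∂γ := integral_mono hi.abs ((ex_int K).const_mul A) h
    _ = A * EE K := integral_const_mul _ _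

/-- second order Taylor bound -/
theorem taylor {f f1 : ℝ → ℝ} {C : ℝ} (hd : ∀ x, HasDerivAt f (f1 x) x)
    (hl : ∀ x y, |f1 x - f1 y| ≤ C * |x - y|) (x h : ℝ) :
    |f (x + h) - f x - f1 x * h| ≤ C * h ^ 2 := by
  have hC : 0 ≤ C := by
    have := hl 0 1
    have h2 := abs_nonneg (f1 0 - f1 1)
    norm_num at this
    linarith
  have hd2 : ∀ t, HasDerivAt (fun t => f t - f1 x * t) (f1 t - f1 x) t := fun t => by
    have := (hd t).fun_sub ((hasDerivAt_id t).const_mul (f1 x))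
    simpa using this
  have h1 := Convex.norm_image_sub_le_of_norm_hasDerivWithin_le
    (f := fun t => f t - f1 x * t) (f' := fun t => f1 t - f1 x) (C := C * |h|)
    (s := Set.uIcc x (x + h)) (fun t _ => (hd2 t).hasDerivWithinAt) (fun t ht => by
      rw [Real.norm_eq_abs]
      refine (hl t x).trans (mul_le_mul_of_nonneg_left ?_ hC)
      have := Set.abs_sub_left_of_mem_uIcc ht
      simpa using this) (convex_uIcc x (x + h)) Set.left_mem_uIcc Set.right_mem_uIcc
  rw [Real.norm_eq_abs, Real.norm_eq_abs] at h1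
  have e1 : f (x + h) - f1 x * (x + h) - (f x - f1 x * x) = f (x + h) - f x - f1 x * h := by ring
  have e2 : x + h - x = h := by ring
  rw [e1, e2] at h1
  calc _ ≤ C * |h| * |h| := h1
    _ = C * h ^ 2 := by rw [mul_assoc, ← sq, sq_abs]

/-- data of one step -/
structure Step (M C m v : ℝ) (f f1 f2 : ℝ → ℝ) : Prop where
  hm : 0 < m
  hmM : m ≤ M
  hv : 0 ≤ v
  hv1 : v ≤ 1
  sm : Sm f f1 f2 C
  l2 : ∀ x y, |f2 x - f2 y| ≤ C * |x - y|

namespace Step

variable {M C m v : ℝ} {f f1 f2 : ℝ → ℝ}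

theorem C0 (h : Step M C m v f f1 f2) : 0 ≤ C := (abs_nonneg _).trans (h.sm.b2 0)
theorem M0 (h : Step M C m v f f1 f2) : 0 < M := h.hm.trans_le h.hmM
theorem s0 (_ : Step M C m v f f1 f2) : 0 ≤ √v := Real.sqrt_nonneg _
theorem s1 (h : Step M C m v f f1 f2) : √v ≤ 1 := by
  rw [Real.sqrt_le_one]; exact h.hv1
theorem ss (h : Step M C m v f f1 f2) : √v * √v = v := Real.mul_self_sqrt h.hv
theorem vs (h : Step M C m v f f1 f2) : v ≤ √v := by
  have := mul_le_mul_of_nonneg_left h.s1 h.s0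
  rw [h.ss, mul_one] at this; exact this

theorem l1 (h : Step M C m v f f1 f2) (x y : ℝ) : |f1 x - f1 y| ≤ C * |x - y| := by
  have h1 := Convex.norm_image_sub_le_of_norm_hasDerivWithin_le (f := f1) (f' := f2) (C := C)
    (s := Set.univ) (fun x _ => (h.sm.d2 x).hasDerivWithinAt) (fun x _ => h.sm.b2 x) convex_univ
    (Set.mem_univ y) (Set.mem_univ x)
  simpa [Real.norm_eq_abs] using h1

theorem l0 (h : Step M C m v f f1 f2) (x y : ℝ) : |f x - f y| ≤ |x - y| := by
  have h1 := h.sm.lip x y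
  have h2 := h.sm.lip y x
  rw [abs_sub_comm y x] at h2
  rw [abs_le]; constructor <;> linarith

end Step

/-- the lower bound constant of the normalisation -/
def c0 (M : ℝ) : ℝ := ∫ g, Real.exp (-(M * |g|)) ∂γ

theorem c0_pos (M : ℝ) : 0 < c0 M := by
  have : Integrable (fun g : ℝ => Real.exp (-(M * |g|))) γ := by
    have h := integrable_exp_abs (-M)
    simpa using h
  exact integral_exp_pos this

/-- tilted moment constant -/
def KT (M k : ℝ) : ℝ := (c0 M)⁻¹ * EE (k + M)

theorem KT_nonneg (M k : ℝ) : 0 ≤ KT M k := mul_nonneg (inv_nonneg.2 (c0_pos M).le) (EE_nonneg _)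

namespace Step

variable {M C m v : ℝ} {f f1 f2 : ℝ → ℝ}

theorem den_low (h : Step M C m v f f1 f2) (x : ℝ) :
    Real.exp (m * f x) * c0 M ≤ H (√v) (fun y => Real.exp (m * f y)) x := by
  unfold c0 H
  rw [← integral_const_mul]
  have hi : Integrable (fun g : ℝ => Real.exp (-(M * |g|))) γ := by
    simpa using integrable_exp_abs (-M)
  refine integral_mono (hi.const_mul _) ((EG.exp_lip h.sm.lip m).int _ _) fun g => ?_
  simp only
  rw [← Real.exp_add]
  apply Real.exp_le_exp.2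
  have h1 := h.l0 (x + √v * g) x
  have e : x + √v * g - x = √v * g := by ring
  rw [e, abs_mul, abs_of_nonneg h.s0] at h1
  have h2 := (abs_le.1 h1).1
  have h3 : m * (√v * |g|) ≤ M * |g| := by
    have := h.s1
    have a := abs_nonneg g
    calc m * (√v * |g|) = (m * √v) * |g| := by ring
      _ ≤ (M * 1) * |g| := mul_le_mul_of_nonneg_right
          (mul_le_mul h.hmM h.s1 h.s0 h.M0.le) a
      _ = _ := by ring
  have h4 := mul_le_mul_of_nonneg_left h2 h.hm.le
  linarith

theorem tE_le (h : Step M C m v f f1 f2) {φ : ℝ → ℝ} (hφ : Continuous φ) {A k x : ℝ}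
    (hA : ∀ g, |φ (x + √v * g)| ≤ A * ex k g) : |tE m v f φ x| ≤ A * KT M k := by
  have hA0 : 0 ≤ A := by
    have h1 := (abs_nonneg _).trans (hA 0)
    by_contra hneg
    have := mul_neg_of_neg_of_pos (not_le.1 hneg) (ex_pos k 0)
    linarith
  have hden := h.den_low x
  have hdp := den_pos h.sm.lip m (√v) x
  have hfc := h.sm.eg.cont
  have hnum : |H (√v) (fun y => φ y * Real.exp (m * f y)) x| ≤
      (A * Real.exp (m * f x)) * EE (k + M) := by
    unfold H
    refine (int_le_EE (φ := fun g => φ (x + √v * g) * Real.exp (m * f (x + √v * g)))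
      (by fun_prop) fun g => ?_).2
    rw [abs_mul, abs_of_pos (Real.exp_pos _)]
    have h1 := h.l0 (x + √v * g) x
    have e : x + √v * g - x = √v * g := by ring
    rw [e, abs_mul, abs_of_nonneg h.s0] at h1
    have h2 := (abs_le.1 h1).2
    have h3 : Real.exp (m * f (x + √v * g)) ≤ Real.exp (m * f x) * ex M g := by
      unfold ex
      rw [← Real.exp_add]
      apply Real.exp_le_exp.2
      have h4 : m * (√v * |g|) ≤ M * |g| := by
        have a := abs_nonneg g
        calc m * (√v * |g|) = (m * √v) * |g| := by ring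
          _ ≤ (M * 1) * |g| := mul_le_mul_of_nonneg_right
              (mul_le_mul h.hmM h.s1 h.s0 h.M0.le) a
          _ = _ := by ring
      have h5 := mul_le_mul_of_nonneg_left h2 h.hm.le
      have := h.M0
      linarith
    calc |φ (x + √v * g)| * Real.exp (m * f (x + √v * g))
        ≤ (A * ex k g) * (Real.exp (m * f x) * ex M g) :=
          mul_le_mul (hA g) h3 (Real.exp_pos _).le (mul_nonneg hA0 (ex_pos _ _).le)
      _ = A * Real.exp (m * f x) * (ex k g * ex M g) := by ring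
      _ = _ := by rw [ex_mul]
  unfold tE KT
  rw [abs_div, abs_of_pos hdp, div_le_iff₀ hdp]
  have hpos : 0 ≤ A * ((c0 M)⁻¹ * EE (k + M)) :=
    mul_nonneg hA0 (mul_nonneg (inv_nonneg.2 (c0_pos M).le) (EE_nonneg _))
  calc |H (√v) (fun y => φ y * Real.exp (m * f y)) x|
      ≤ (A * Real.exp (m * f x)) * EE (k + M) := hnum
    _ = A * ((c0 M)⁻¹ * EE (k + M)) * (Real.exp (m * f x) * c0 M) := by
        have := (c0_pos M).ne'
        field_simp
    _ ≤ _ := mul_le_mul_of_nonneg_left hden hpos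

theorem tE_id (h : Step M C m v f f1 f2) (x : ℝ) :
    tE m v f (fun y => y - x) x = v * m * tE m v f f1 x := by
  have hst := stein (EG.exp_lip h.sm.lip m) ((h.sm.B1.eg.mul (EG.exp_lip h.sm.lip m)).const_mul m)
    (fun y => h.sm.dexp m y) (√v) x
  unfold tE
  have e1 : H (√v) (fun y => (y - x) * Real.exp (m * f y)) x =
      √v * ∫ g, g * Real.exp (m * f (x + √v * g)) ∂gaussianReal 0 1 := by
    unfold H
    rw [← integral_const_mul]
    congr 1; ext g; ring
  rw [e1, hst, H_const_mul]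
  have := h.ss
  calc √v * (√v * (m * H (√v) (fun x => f1 x * Real.exp (m * f x)) x)) /
        H (√v) (fun y => Real.exp (m * f y)) x =
      (√v * √v) * m * (H (√v) (fun x => f1 x * Real.exp (m * f x)) x /
        H (√v) (fun y => Real.exp (m * f y)) x) := by ring
    _ = _ := by rw [this]

theorem F1_sub (h : Step M C m v f f1 f2) (x : ℝ) :
    |tE m v f f1 x - f1 x| ≤ v * (C * KT M 2 + C * M) := by
  have hc1 := h.sm.c1
  have hegid : EG (fun y : ℝ => y - x) := by
    have h1 : EG (fun y : ℝ => y) := EG.lip fun a b => by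
      have := le_abs_self (a - b); linarith
    exact h1.sub (EG.const x)
  have e1 : tE m v f f1 x - f1 x = tE m v f (fun y => f1 y - f1 x - f2 x * (y - x)) x +
      f2 x * (v * m * tE m v f f1 x) := by
    rw [← h.tE_id x, tE_sub h.sm.lip m v (h.sm.B1.eg.sub (EG.const _)) (hegid.const_mul _),
      tE_sub h.sm.lip m v h.sm.B1.eg (EG.const _), tE_const h.sm.lip, tE_const_mul]
    ring
  have e2 : |tE m v f (fun y => f1 y - f1 x - f2 x * (y - x)) x| ≤ (C * v) * KT M 2 := by
    refine h.tE_le (by fun_prop) fun g => ?_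
    have h1 := taylor h.sm.d2 h.l2 x (√v * g)
    have e : x + √v * g - x = √v * g := by ring
    rw [e]
    refine h1.trans ?_
    rw [mul_pow, sq (√v), h.ss, ← mul_assoc]
    exact mul_le_mul_of_nonneg_left (gsq_le_ex2 g) (mul_nonneg h.C0 h.hv)
  have e3 : |f2 x * (v * m * tE m v f f1 x)| ≤ C * (v * M * 1) := by
    rw [abs_mul, abs_mul, abs_of_nonneg (mul_nonneg h.hv h.hm.le)]
    refine mul_le_mul (h.sm.b2 x) ?_ (by have := h.hv; have := h.hm; positivity) h.C0
    exact mul_le_mul (mul_le_mul_of_nonneg_left h.hmM h.hv)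
      (tE_abs_le h.sm.lip m v h.sm.B1 x) (abs_nonneg _) (mul_nonneg h.hv h.M0.le)
  rw [e1]
  refine (abs_add_le _ _).trans ?_
  linarith

theorem F2_sub (h : Step M C m v f f1 f2) (x : ℝ) :
    |g2 m v f f1 f2 x - f2 x| ≤ √v * (C * KT M 1 + M * (C ^ 2 * KT M 2)) := by
  have hc1 := h.sm.c1
  have hc2 := h.sm.c2
  have e1 : tE m v f f2 x - f2 x = tE m v f (fun y => f2 y - f2 x) x := by
    rw [tE_sub h.sm.lip m v h.sm.B2.eg (EG.const _), tE_const h.sm.lip]
  have e2 : |tE m v f (fun y => f2 y - f2 x) x| ≤ (C * √v) * KT M 1 := by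
    refine h.tE_le (by fun_prop) fun g => ?_
    refine (h.l2 _ _).trans ?_
    have e : x + √v * g - x = √v * g := by ring
    rw [e, abs_mul, abs_of_nonneg h.s0, ← mul_assoc]
    exact mul_le_mul_of_nonneg_left (abs_le_ex1 g) (mul_nonneg h.C0 h.s0)
  have hd : EG (fun y => f1 y - f1 x) := h.sm.B1.eg.sub (EG.const _)
  have e3 : tE m v f (fun y => f1 y ^ 2) x - tE m v f f1 x ^ 2 =
      tE m v f (fun y => (f1 y - f1 x) ^ 2) x - tE m v f (fun y => f1 y - f1 x) x ^ 2 := by
    have e : (fun y => (f1 y - f1 x) ^ 2) =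
        fun y => (f1 y ^ 2 - (2 * f1 x) * f1 y) + f1 x ^ 2 := by
      funext y; ring
    rw [e, tE_add h.sm.lip m v ((h.sm.B1.eg.pow 2).sub (h.sm.B1.eg.const_mul _)) (EG.const _),
      tE_sub h.sm.lip m v (h.sm.B1.eg.pow 2) (h.sm.B1.eg.const_mul _), tE_const_mul,
      tE_const h.sm.lip, tE_sub h.sm.lip m v h.sm.B1.eg (EG.const _), tE_const h.sm.lip]
    ring
  have e4 : |tE m v f (fun y => (f1 y - f1 x) ^ 2) x| ≤ (C ^ 2 * v) * KT M 2 := by
    refine h.tE_le (by fun_prop) fun g => ?_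
    have h1 := h.l1 (x + √v * g) x
    have e : x + √v * g - x = √v * g := by ring
    rw [e] at h1
    rw [abs_pow]
    calc |f1 (x + √v * g) - f1 x| ^ 2 ≤ (C * |√v * g|) ^ 2 :=
          pow_le_pow_left₀ (abs_nonneg _) h1 2
      _ = C ^ 2 * v * g ^ 2 := by
          rw [mul_pow, sq_abs, mul_pow, sq (√v), h.ss]; ring
      _ ≤ _ := mul_le_mul_of_nonneg_left (gsq_le_ex2 g) (mul_nonneg (sq_nonneg _) h.hv)
  have e5 : 0 ≤ tE m v f (fun y => f1 y ^ 2) x - tE m v f f1 x ^ 2 := by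
    have := tE_sq_le h.sm.lip m v h.sm.B1.eg x
    linarith
  have e6 : tE m v f (fun y => f1 y ^ 2) x - tE m v f f1 x ^ 2 ≤ (C ^ 2 * v) * KT M 2 := by
    rw [e3]
    have := le_abs_self (tE m v f (fun y => (f1 y - f1 x) ^ 2) x)
    have := sq_nonneg (tE m v f (fun y => f1 y - f1 x) x)
    linarith
  have e7 : g2 m v f f1 f2 x - f2 x = tE m v f (fun y => f2 y - f2 x) x +
      m * (tE m v f (fun y => f1 y ^ 2) x - tE m v f f1 x ^ 2) := by
    unfold g2; rw [← e1]; ring
  rw [e7]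
  refine (abs_add_le _ _).trans ?_
  have e8 : |m * (tE m v f (fun y => f1 y ^ 2) x - tE m v f f1 x ^ 2)| ≤
      M * ((C ^ 2 * √v) * KT M 2) := by
    rw [abs_mul, abs_of_pos h.hm, abs_of_nonneg e5]
    refine mul_le_mul h.hmM ?_ e5 h.M0.le
    refine e6.trans (mul_le_mul_of_nonneg_right ?_ (KT_nonneg _ _))
    exact mul_le_mul_of_nonneg_left h.vs (sq_nonneg _)
  linarith

theorem F_sub (h : Step M C m v f f1 f2) (x : ℝ) :
    |gaussOp m v f x - f x| ≤ v * (C + M) := by
  obtain ⟨ξ, -, -, he⟩ := gaussOp_mvt h.sm m le_rfl h.hv x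
  rw [gaussOp_var_zero] at he
  rw [he, sub_zero, abs_mul, abs_of_nonneg h.hv]
  refine mul_le_mul_of_nonneg_left ?_ h.hv
  have hb : BC (fun y => f2 y + m * f1 y ^ 2) (C + |m| * 1 ^ 2) :=
    h.sm.B2.add ((h.sm.B1.pow 2).const_mul m)
  have h1 := tE_abs_le h.sm.lip m ξ hb x
  rw [abs_mul, abs_of_pos h.hm] at *
  rw [abs_of_pos (by norm_num : (0:ℝ) < 1 / 2)]
  have := h.hmM
  have := h.C0
  have := h.M0
  nlinarith

theorem Flip (h : Step M C m v f f1 f2) (x y : ℝ) :
    |tE m v f f1 x - tE m v f f1 y| ≤ (C + M) * |x - y| := by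
  have hd : ∀ x, HasDerivAt (tE m v f f1) (g2 m v f f1 f2 x) x := fun x => by
    have := tE_deriv_x h.sm m v h.sm.B1.eg h.sm.B2.eg h.sm.d2 x
    unfold g2
    simp only [sq]
    exact this
  have hb : ∀ x, |g2 m v f f1 f2 x| ≤ C + M := fun x => by
    unfold g2
    have b1 := tE_abs_le h.sm.lip m v h.sm.B2 x
    have b2 := tE_abs_le h.sm.lip m v (h.sm.B1.pow 2) x
    have b3 := tE_sq_le h.sm.lip m v h.sm.B1.eg x
    have b4 := sq_nonneg (tE m v f f1 x)
    rw [one_pow] at b2
    have b5 := (le_abs_self _).trans b2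
    refine (abs_add_le _ _).trans (add_le_add b1 ?_)
    rw [abs_mul, abs_of_pos h.hm, abs_of_nonneg (by linarith)]
    have := h.hmM
    have := h.hm
    nlinarith
  have h1 := Convex.norm_image_sub_le_of_norm_hasDerivWithin_le (f := tE m v f f1)
    (f' := g2 m v f f1 f2) (C := C + M)
    (s := Set.univ) (fun x _ => (hd x).hasDerivWithinAt) (fun x _ => hb x) convex_univ
    (Set.mem_univ y) (Set.mem_univ x)
  simpa [Real.norm_eq_abs] using h1

end Step

/-- the drift -/
def drift (m v : ℝ) (f f1 : ℝ → ℝ) (x : ℝ) : ℝ := m * tE m v f f1 x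

/-- the Euler step -/
def xp (m v : ℝ) (f f1 : ℝ → ℝ) (x g : ℝ) : ℝ := x + v * drift m v f f1 x + √v * g

/-- the exponent of the density ratio -/
def zz (m v : ℝ) (f f1 : ℝ → ℝ) (x g : ℝ) : ℝ :=
  m * (f (xp m v f f1 x g) - gaussOp m v f x) - √v * drift m v f f1 x * g -
    v * drift m v f f1 x ^ 2 / 2

/-- the Euler kernel -/
def KP (m v : ℝ) (f f1 : ℝ → ℝ) (V : ℝ → ℝ) (x : ℝ) : ℝ := ∫ g, V (xp m v f f1 x g) ∂γ

theorem abs_exp_sub_one (z : ℝ) : |Real.exp z - 1| ≤ |z| * Real.exp |z| := by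
  rcases le_total 0 z with hz | hz
  · rw [abs_of_nonneg hz, abs_of_nonneg (by linarith [Real.one_le_exp hz])]
    have h1 := Real.add_one_le_exp (-z)
    have h2 := mul_le_mul_of_nonneg_right h1 (Real.exp_pos z).le
    rw [← Real.exp_add] at h2
    simp at h2
    linarith
  · rw [abs_of_nonpos hz, abs_of_nonpos (by linarith [Real.exp_le_one_iff.2 hz])]
    have h1 := Real.add_one_le_exp z
    have h2 : 1 ≤ Real.exp (-z) := Real.one_le_exp (by linarith)
    nlinarith

/-- constants -/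
def K1 (M C : ℝ) : ℝ := M * C * (M + 1) ^ 2 + M * (C + M) +
  M * (C * KT M 2 + C * M) * (M + 1) + M ^ 2
def K2 (M C : ℝ) : ℝ := M * (M + 1) + M * (C + M) + M + M ^ 2
def K3 (M C : ℝ) : ℝ := C * (M + 1) ^ 2 + (C * KT M 2 + C * M) + C * M +
  (C * KT M 1 + M * (C ^ 2 * KT M 2))
def K4 (M C : ℝ) : ℝ := K1 M C * (M + 1) * EE (K2 M C + 3)

namespace Step

variable {M C m v : ℝ} {f f1 f2 : ℝ → ℝ}

theorem K1_nonneg (h : Step M C m v f f1 f2) : 0 ≤ K1 M C := by
  have := h.M0; have := h.C0; have := KT_nonneg M 2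
  unfold K1; positivity
theorem K3_nonneg (h : Step M C m v f f1 f2) : 0 ≤ K3 M C := by
  have := h.M0; have := h.C0; have := KT_nonneg M 2; have := KT_nonneg M 1
  unfold K3; positivity
theorem K4_nonneg (h : Step M C m v f f1 f2) : 0 ≤ K4 M C := by
  have := h.M0; have := h.K1_nonneg; have := EE_nonneg (K2 M C + 3)
  unfold K4; positivity

theorem drift_le (h : Step M C m v f f1 f2) (x : ℝ) : |drift m v f f1 x| ≤ M := by
  unfold drift
  rw [abs_mul, abs_of_pos h.hm]
  have h1 := tE_abs_le h.sm.lip m v h.sm.B1 x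
  calc m * |tE m v f f1 x| ≤ M * 1 := mul_le_mul h.hmM h1 (abs_nonneg _) h.M0.le
    _ = M := mul_one _

theorem xp_sub (h : Step M C m v f f1 f2) (x g : ℝ) :
    |xp m v f f1 x g - x| ≤ √v * ((M + 1) * (1 + |g|)) := by
  have e : xp m v f f1 x g - x = v * drift m v f f1 x + √v * g := by unfold xp; ring
  rw [e]
  refine (abs_add_le _ _).trans ?_
  rw [abs_mul, abs_mul, abs_of_nonneg h.hv, abs_of_nonneg h.s0]
  have h1 : v * |drift m v f f1 x| ≤ √v * M := mul_le_mul h.vs (h.drift_le x) (abs_nonneg _) h.s0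
  have h2 : √v * M + √v * |g| ≤ √v * ((M + 1) * (1 + |g|)) := by
    rw [← mul_add]
    refine mul_le_mul_of_nonneg_left ?_ h.s0
    have := h.M0; have := abs_nonneg g
    nlinarith
  linarith

theorem xp_sub' (h : Step M C m v f f1 f2) (x g : ℝ) :
    |xp m v f f1 x g - x| ≤ (M + 1) * (1 + |g|) := by
  refine (h.xp_sub x g).trans ?_
  have := h.M0
  have h2 : 0 ≤ (M + 1) * (1 + |g|) := by positivity
  calc √v * ((M + 1) * (1 + |g|)) ≤ 1 * ((M + 1) * (1 + |g|)) :=
        mul_le_mul_of_nonneg_right h.s1 h2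
    _ = _ := one_mul _

theorem xp_sub_sq (h : Step M C m v f f1 f2) (x g : ℝ) :
    (xp m v f f1 x g - x) ^ 2 ≤ v * ((M + 1) ^ 2 * (1 + |g|) ^ 2) := by
  rw [← sq_abs]
  refine (pow_le_pow_left₀ (abs_nonneg _) (h.xp_sub x g) 2).trans (le_of_eq ?_)
  rw [mul_pow, sq (√v), h.ss]; ring

theorem taylor0 (h : Step M C m v f f1 f2) (x g : ℝ) :
    |f (xp m v f f1 x g) - f x - f1 x * (xp m v f f1 x g - x)| ≤
      C * (v * ((M + 1) ^ 2 * (1 + |g|) ^ 2)) := by
  have h1 := taylor h.sm.d1 h.l1 x (xp m v f f1 x g - x)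
  rw [add_sub_cancel] at h1
  exact h1.trans (mul_le_mul_of_nonneg_left (h.xp_sub_sq x g) h.C0)

theorem taylor1 (h : Step M C m v f f1 f2) (x g : ℝ) :
    |f1 (xp m v f f1 x g) - f1 x - f2 x * (xp m v f f1 x g - x)| ≤
      C * (v * ((M + 1) ^ 2 * (1 + |g|) ^ 2)) := by
  have h1 := taylor h.sm.d2 h.l2 x (xp m v f f1 x g - x)
  rw [add_sub_cancel] at h1
  exact h1.trans (mul_le_mul_of_nonneg_left (h.xp_sub_sq x g) h.C0)

theorem zz_le1 (h : Step M C m v f f1 f2) (x g : ℝ) :
    |zz m v f f1 x g| ≤ v * (K1 M C * (1 + |g|) ^ 2) := by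
  set X := xp m v f f1 x g with hX
  set b := drift m v f f1 x with hb
  set F := gaussOp m v f x with hF
  set F1 := tE m v f f1 x with hF1
  have hbF : b = m * F1 := rfl
  have e0 : X - x = v * b + √v * g := by rw [hX]; unfold xp; ring
  have e : zz m v f f1 x g = m * (f X - f x - f1 x * (X - x)) + m * (f x - F) +
      m * (f1 x - F1) * (X - x) + v * b ^ 2 / 2 := by
    unfold zz
    rw [← hX, ← hb, ← hF]
    have : √v * b * g = b * (X - x) - v * b ^ 2 := by rw [e0]; ring
    rw [this, hbF]; ring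
  have a1 := h.taylor0 x g
  have a2 := h.F_sub x
  have a3 := h.F1_sub x
  have a4 := h.xp_sub' x g
  have a5 := h.drift_le x
  rw [← hX] at a1 a4
  rw [← hF, abs_sub_comm] at a2
  rw [← hF1, abs_sub_comm] at a3
  rw [← hb] at a5
  have hM := h.M0
  have hC := h.C0
  have hv := h.hv
  have hg := abs_nonneg g
  have hK := KT_nonneg M 2
  set p := 1 + |g| with hp
  have hp1 : 1 ≤ p := by rw [hp]; linarith
  have hp2 : p ≤ p ^ 2 := by nlinarith
  have hp3 : 1 ≤ p ^ 2 := by nlinarith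
  have t1 : |m * (f X - f x - f1 x * (X - x))| ≤ v * (M * C * (M + 1) ^ 2 * p ^ 2) := by
    rw [abs_mul, abs_of_pos h.hm]
    calc m * |f X - f x - f1 x * (X - x)| ≤ M * (C * (v * ((M + 1) ^ 2 * p ^ 2))) :=
          mul_le_mul h.hmM a1 (abs_nonneg _) hM.le
      _ = _ := by ring
  have t2 : |m * (f x - F)| ≤ v * (M * (C + M) * p ^ 2) := by
    rw [abs_mul, abs_of_pos h.hm]
    calc m * |f x - F| ≤ M * (v * (C + M)) := mul_le_mul h.hmM a2 (abs_nonneg _) hM.le
      _ = v * (M * (C + M) * 1) := by ring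
      _ ≤ _ := by
        refine mul_le_mul_of_nonneg_left ?_ hv
        exact mul_le_mul_of_nonneg_left hp3 (by positivity)
  have t3 : |m * (f1 x - F1) * (X - x)| ≤
      v * (M * (C * KT M 2 + C * M) * (M + 1) * p ^ 2) := by
    rw [abs_mul, abs_mul, abs_of_pos h.hm]
    calc m * |f1 x - F1| * |X - x| ≤ (M * (v * (C * KT M 2 + C * M))) * ((M + 1) * p) :=
          mul_le_mul (mul_le_mul h.hmM a3 (abs_nonneg _) hM.le) a4 (abs_nonneg _) (by positivity)
      _ = v * (M * (C * KT M 2 + C * M) * (M + 1) * p) := by ring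
      _ ≤ _ := by
        refine mul_le_mul_of_nonneg_left ?_ hv
        exact mul_le_mul_of_nonneg_left hp2 (by positivity)
  have t4 : |v * b ^ 2 / 2| ≤ v * (M ^ 2 * p ^ 2) := by
    rw [abs_of_nonneg (by positivity)]
    have : b ^ 2 ≤ M ^ 2 := by
      rw [← sq_abs]; exact pow_le_pow_left₀ (abs_nonneg _) a5 2
    calc v * b ^ 2 / 2 ≤ v * b ^ 2 := by
          have : 0 ≤ v * b ^ 2 := by positivity
          linarith
      _ ≤ v * M ^ 2 := mul_le_mul_of_nonneg_left this hv
      _ = v * (M ^ 2 * 1) := by ring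
      _ ≤ _ := mul_le_mul_of_nonneg_left (mul_le_mul_of_nonneg_left hp3 (sq_nonneg _)) hv
  rw [e]
  refine (abs_add_le _ _).trans ?_
  refine (add_le_add ((abs_add_le _ _).trans (add_le_add ((abs_add_le _ _).trans
    (add_le_add t1 t2)) t3)) t4).trans (le_of_eq ?_)
  unfold K1; ring

theorem zz_le2 (h : Step M C m v f f1 f2) (x g : ℝ) :
    |zz m v f f1 x g| ≤ K2 M C * (1 + |g|) := by
  set X := xp m v f f1 x g with hX
  set b := drift m v f f1 x with hb
  set F := gaussOp m v f x with hF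
  have e : zz m v f f1 x g = m * (f X - f x) + m * (f x - F) - √v * b * g - v * b ^ 2 / 2 := by
    unfold zz
    rw [← hX, ← hb, ← hF]
    ring
  have a1 := (h.l0 X x).trans (h.xp_sub' x g)
  have a2 := h.F_sub x
  have a5 := h.drift_le x
  rw [← hF, abs_sub_comm] at a2
  rw [← hb] at a5
  have hM := h.M0
  have hC := h.C0
  have hv := h.hv
  have hv1 := h.hv1
  have hg := abs_nonneg g
  have t1 : |m * (f X - f x)| ≤ M * ((M + 1) * (1 + |g|)) := by
    rw [abs_mul, abs_of_pos h.hm]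
    exact mul_le_mul h.hmM a1 (abs_nonneg _) hM.le
  have t2 : |m * (f x - F)| ≤ M * (C + M) * (1 + |g|) := by
    rw [abs_mul, abs_of_pos h.hm]
    calc m * |f x - F| ≤ M * (v * (C + M)) := mul_le_mul h.hmM a2 (abs_nonneg _) hM.le
      _ ≤ M * (1 * (C + M)) := by
          refine mul_le_mul_of_nonneg_left ?_ hM.le
          exact mul_le_mul_of_nonneg_right hv1 (by positivity)
      _ = M * (C + M) * 1 := by ring
      _ ≤ _ := mul_le_mul_of_nonneg_left (by linarith) (by positivity)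
  have t3 : |√v * b * g| ≤ M * (1 + |g|) := by
    rw [abs_mul, abs_mul, abs_of_nonneg h.s0]
    calc √v * |b| * |g| ≤ 1 * M * (1 + |g|) :=
          mul_le_mul (mul_le_mul h.s1 a5 (abs_nonneg _) zero_le_one) (by linarith)
            hg (by positivity)
      _ = _ := by ring
  have t4 : |v * b ^ 2 / 2| ≤ M ^ 2 * (1 + |g|) := by
    rw [abs_of_nonneg (by positivity)]
    have : b ^ 2 ≤ M ^ 2 := by
      rw [← sq_abs]; exact pow_le_pow_left₀ (abs_nonneg _) a5 2
    have h2 : v * b ^ 2 ≤ 1 * M ^ 2 := mul_le_mul hv1 this (sq_nonneg _) zero_le_one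
    have h3 : 0 ≤ v * b ^ 2 := by positivity
    have h4 : M ^ 2 * 1 ≤ M ^ 2 * (1 + |g|) :=
      mul_le_mul_of_nonneg_left (by linarith) (sq_nonneg _)
    linarith
  rw [e]
  refine (abs_sub _ _).trans ?_
  refine (add_le_add ((abs_sub _ _).trans (add_le_add ((abs_add_le _ _).trans
    (add_le_add t1 t2)) t3)) t4).trans (le_of_eq ?_)
  unfold K2; ring

theorem rho_sub (h : Step M C m v f f1 f2) (x g : ℝ) :
    |Real.exp (zz m v f f1 x g) - 1| ≤ v * (K1 M C * ex (K2 M C + 2) g) := by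
  refine (abs_exp_sub_one _).trans ?_
  have h1 := h.zz_le1 x g
  have h2 : Real.exp |zz m v f f1 x g| ≤ ex (K2 M C) g := Real.exp_le_exp.2 (h.zz_le2 x g)
  have h3 := h.K1_nonneg
  have h4 := h.hv
  calc |zz m v f f1 x g| * Real.exp |zz m v f f1 x g|
      ≤ (v * (K1 M C * (1 + |g|) ^ 2)) * ex (K2 M C) g :=
        mul_le_mul h1 h2 (Real.exp_pos _).le (by positivity)
    _ ≤ (v * (K1 M C * ex 2 g)) * ex (K2 M C) g := by
        refine mul_le_mul_of_nonneg_right ?_ (ex_pos _ _).le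
        refine mul_le_mul_of_nonneg_left ?_ h4
        exact mul_le_mul_of_nonneg_left (sq_le_ex2 g) h3
    _ = v * (K1 M C * (ex (K2 M C) g * ex 2 g)) := by ring
    _ = _ := by rw [ex_mul]

theorem expF (h : Step M C m v f f1 f2) (x : ℝ) :
    Real.exp (m * gaussOp m v f x) = H (√v) (fun y => Real.exp (m * f y)) x := by
  rw [gaussOp_ne h.hm.ne', ← mul_assoc, mul_inv_cancel₀ h.hm.ne', one_mul,
    Real.exp_log (den_pos h.sm.lip m (√v) x)]

/-- exact change of measure -/
theorem rho_int (h : Step M C m v f f1 f2) (V : ℝ → ℝ) (x : ℝ) :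
    ∫ g, V (xp m v f f1 x g) * Real.exp (zz m v f f1 x g) ∂γ = tE m v f V x := by
  have h1 := shift (fun y => V (x + √v * y) * Real.exp (m * f (x + √v * y)) /
    H (√v) (fun y => Real.exp (m * f y)) x) (√v * drift m v f f1 x)
  have h2 : ∫ y, V (x + √v * y) * Real.exp (m * f (x + √v * y)) /
      H (√v) (fun y => Real.exp (m * f y)) x ∂γ = tE m v f V x := by
    rw [integral_div]; rfl
  rw [h2] at h1
  rw [← h1]
  congr 1
  ext g
  have e1 : x + √v * (g + √v * drift m v f f1 x) = xp m v f f1 x g := by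
    unfold xp
    have := h.ss
    linear_combination (drift m v f f1 x) * this
  rw [e1, ← h.expF x, mul_div_assoc, ← Real.exp_sub, mul_assoc, ← Real.exp_add]
  congr 2
  unfold zz
  rw [mul_pow, sq (√v), h.ss]
  ring

theorem xp_cont_g (x : ℝ) : Continuous (fun g => xp m v f f1 x g) := by
  unfold xp; fun_prop

theorem zz_cont_g (h : Step M C m v f f1 f2) (x : ℝ) :
    Continuous (fun g => zz m v f f1 x g) := by
  have h1 := h.sm.eg.cont
  have h2 := xp_cont_g (m := m) (v := v) (f := f) (f1 := f1) x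
  unfold zz
  fun_prop

theorem rho_one (h : Step M C m v f f1 f2) (x : ℝ) :
    ∫ g, Real.exp (zz m v f f1 x g) ∂γ = 1 := by
  have := h.rho_int (fun _ => 1) x
  simp only [one_mul] at this
  rw [this, tE_const h.sm.lip]

theorem rho_integrable (h : Step M C m v f f1 f2) (x : ℝ) :
    Integrable (fun g => Real.exp (zz m v f f1 x g)) γ := by
  have hc := h.zz_cont_g x
  refine ((ex_int (K2 M C))).mono' (by fun_prop) (Filter.Eventually.of_forall fun g => ?_)
  rw [Real.norm_eq_abs, abs_of_pos (Real.exp_pos _)]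
  exact Real.exp_le_exp.2 ((le_abs_self _).trans (h.zz_le2 x g))

/-- Lipschitz functions: the two kernels agree up to `v^{3/2}` -/
theorem kernel (h : Step M C m v f f1 f2) {V : ℝ → ℝ} {L : ℝ}
    (hV : ∀ x y, |V x - V y| ≤ L * |x - y|) (x : ℝ) :
    |tE m v f V x - KP m v f f1 V x| ≤ v * √v * (L * K4 M C) := by
  have hL : 0 ≤ L := by
    have := hV 0 1
    have h2 := abs_nonneg (V 0 - V 1)
    norm_num at this
    linarith
  have hVc : Continuous V := by
    have : LipschitzWith L.toNNReal V := LipschitzWith.of_dist_le_mul fun x y => by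
      rw [Real.dist_eq, Real.dist_eq, Real.coe_toNNReal _ hL]; exact hV x y
    exact this.continuous
  have hxc := xp_cont_g (m := m) (v := v) (f := f) (f1 := f1) x
  have hzc := h.zz_cont_g x
  have hb : ∀ g, |(Real.exp (zz m v f f1 x g) - 1) * (V (xp m v f f1 x g) - V x)| ≤
      (v * √v * (L * (K1 M C * (M + 1)))) * ex (K2 M C + 3) g := by
    intro g
    rw [abs_mul]
    have h1 := h.rho_sub x g
    have h2 := (hV (xp m v f f1 x g) x).trans
      (mul_le_mul_of_nonneg_left (h.xp_sub x g) hL)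
    have h3 := h.K1_nonneg
    have h4 := h.hv
    have h5 := h.M0
    calc |Real.exp (zz m v f f1 x g) - 1| * |V (xp m v f f1 x g) - V x|
        ≤ (v * (K1 M C * ex (K2 M C + 2) g)) * (L * (√v * ((M + 1) * (1 + |g|)))) :=
          mul_le_mul h1 h2 (abs_nonneg _) (by have := ex_pos (K2 M C + 2) g; positivity)
      _ = (v * √v * (L * (K1 M C * (M + 1)))) * (ex (K2 M C + 2) g * (1 + |g|)) := by ring
      _ ≤ (v * √v * (L * (K1 M C * (M + 1)))) * (ex (K2 M C + 2) g * ex 1 g) := by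
          refine mul_le_mul_of_nonneg_left ?_ (by positivity)
          exact mul_le_mul_of_nonneg_left (le_ex1 g) (ex_pos _ _).le
      _ = _ := by rw [ex_mul]; ring_nf
  have hVb : ∀ g, |V (xp m v f f1 x g)| ≤ (|V x| + L * (M + 1)) * ex 1 g := by
    intro g
    have h2 := (hV (xp m v f f1 x g) x).trans
      (mul_le_mul_of_nonneg_left (h.xp_sub' x g) hL)
    have h3 : |V (xp m v f f1 x g)| ≤ |V x| + L * ((M + 1) * (1 + |g|)) := by
      have := abs_add_le (V x) (V (xp m v f f1 x g) - V x)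
      rw [add_sub_cancel] at this
      linarith
    refine h3.trans ?_
    have h5 := le_ex1 g
    have h6 := one_le_ex (zero_le_one) g
    have h7 := h.M0
    have h8 : L * ((M + 1) * (1 + |g|)) ≤ L * (M + 1) * ex 1 g := by
      rw [← mul_assoc]; exact mul_le_mul_of_nonneg_left h5 (by positivity)
    have h9 : |V x| * 1 ≤ |V x| * ex 1 g := mul_le_mul_of_nonneg_left h6 (abs_nonneg _)
    linarith
  have hVi : Integrable (fun g => V (xp m v f f1 x g)) γ := (int_le_EE (by fun_prop) hVb).1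
  have hVri : Integrable (fun g => V (xp m v f f1 x g) * Real.exp (zz m v f f1 x g)) γ := by
    refine (int_le_EE (A := |V x| + L * (M + 1)) (K := 1 + K2 M C) (by fun_prop) fun g => ?_).1
    rw [abs_mul, abs_of_pos (Real.exp_pos _), ← ex_mul, ← mul_assoc]
    exact mul_le_mul (hVb g) (Real.exp_le_exp.2 ((le_abs_self _).trans (h.zz_le2 x g)))
      (Real.exp_pos _).le ((abs_nonneg _).trans (hVb g))
  have hri := h.rho_integrable x
  have e : tE m v f V x - KP m v f f1 V x =
      ∫ g, (Real.exp (zz m v f f1 x g) - 1) * (V (xp m v f f1 x g) - V x) ∂γ := by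
    have e1 : ∀ g, (Real.exp (zz m v f f1 x g) - 1) * (V (xp m v f f1 x g) - V x) =
        (V (xp m v f f1 x g) * Real.exp (zz m v f f1 x g) - V (xp m v f f1 x g)) -
        (V x * Real.exp (zz m v f f1 x g) - V x) := by intro g; ring
    simp only [e1]
    have i1 : Integrable (fun g => V (xp m v f f1 x g) * Real.exp (zz m v f f1 x g) -
      V (xp m v f f1 x g)) γ := hVri.sub hVi
    have i2 : Integrable (fun g => V x * Real.exp (zz m v f f1 x g) - V x) γ :=
      (hri.const_mul _).sub (integrable_const _)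
    rw [integral_sub i1 i2, integral_sub hVri hVi,
      integral_sub (hri.const_mul _) (integrable_const _), integral_const_mul, h.rho_int,
      h.rho_one, integral_const]
    simp [KP]
  rw [e]
  refine (int_le_EE (by fun_prop) hb).2.trans (le_of_eq ?_)
  unfold K4; ring

theorem KP_lip (h : Step M C m v f f1 f2) {V : ℝ → ℝ} {L : ℝ}
    (hV : ∀ x y, |V x - V y| ≤ L * |x - y|) (x y : ℝ) :
    |KP m v f f1 V x - KP m v f f1 V y| ≤ L * (1 + v * (M * (C + M))) * |x - y| := by
  have hL : 0 ≤ L := by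
    have := hV 0 1
    have h2 := abs_nonneg (V 0 - V 1)
    norm_num at this
    linarith
  have hVc : Continuous V := by
    have : LipschitzWith L.toNNReal V := LipschitzWith.of_dist_le_mul fun x y => by
      rw [Real.dist_eq, Real.dist_eq, Real.coe_toNNReal _ hL]; exact hV x y
    exact this.continuous
  have hVi : ∀ x, Integrable (fun g => V (xp m v f f1 x g)) γ := by
    intro x
    have hxc := xp_cont_g (m := m) (v := v) (f := f) (f1 := f1) x
    refine (int_le_EE (A := |V x| + L * (M + 1)) (K := 1) (by fun_prop) fun g => ?_).1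
    have h2 := (hV (xp m v f f1 x g) x).trans
      (mul_le_mul_of_nonneg_left (h.xp_sub' x g) hL)
    have h3 : |V (xp m v f f1 x g)| ≤ |V x| + L * ((M + 1) * (1 + |g|)) := by
      have := abs_add_le (V x) (V (xp m v f f1 x g) - V x)
      rw [add_sub_cancel] at this
      linarith
    refine h3.trans ?_
    have h5 := le_ex1 g
    have h6 := one_le_ex (zero_le_one) g
    have h7 := h.M0
    have h8 : L * ((M + 1) * (1 + |g|)) ≤ L * (M + 1) * ex 1 g := by
      rw [← mul_assoc]; exact mul_le_mul_of_nonneg_left h5 (by positivity)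
    have h9 : |V x| * 1 ≤ |V x| * ex 1 g := mul_le_mul_of_nonneg_left h6 (abs_nonneg _)
    linarith
  unfold KP
  rw [← integral_sub (hVi x) (hVi y)]
  have hb : ∀ g, |V (xp m v f f1 x g) - V (xp m v f f1 y g)| ≤
      L * (1 + v * (M * (C + M))) * |x - y| := by
    intro g
    refine (hV _ _).trans ?_
    rw [mul_assoc]
    refine mul_le_mul_of_nonneg_left ?_ hL
    have e : xp m v f f1 x g - xp m v f f1 y g =
        (x - y) + v * (m * (tE m v f f1 x - tE m v f f1 y)) := by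
      unfold xp drift; ring
    rw [e]
    refine (abs_add_le _ _).trans ?_
    rw [abs_mul, abs_mul, abs_of_nonneg h.hv, abs_of_pos h.hm]
    have h1 := h.Flip x y
    have h2 : m * |tE m v f f1 x - tE m v f f1 y| ≤ M * ((C + M) * |x - y|) :=
      mul_le_mul h.hmM h1 (abs_nonneg _) h.M0.le
    have h3 := mul_le_mul_of_nonneg_left h2 h.hv
    linarith
  calc |∫ g, (V (xp m v f f1 x g) - V (xp m v f f1 y g)) ∂γ|
      ≤ ∫ g, |V (xp m v f f1 x g) - V (xp m v f f1 y g)| ∂γ := abs_integral_le_integral_abs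
    _ ≤ ∫ _g, L * (1 + v * (M * (C + M))) * |x - y| ∂γ :=
        integral_mono ((hVi x).sub (hVi y)).abs (integrable_const _) hb
    _ = _ := by simp

/-- the one step remainder -/
def _root_.Crest.Agent.R339.D3.RR (m v : ℝ) (f f1 f2 : ℝ → ℝ) (x g : ℝ) : ℝ :=
  f1 (xp m v f f1 x g) - tE m v f f1 x - g2 m v f f1 f2 x * (√v * g)

theorem RR_le (h : Step M C m v f f1 f2) (x g : ℝ) :
    |RR m v f f1 f2 x g| ≤ v * (K3 M C * ex 2 g) := by
  set X := xp m v f f1 x g with hX
  set b := drift m v f f1 x with hb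
  have e0 : X - x = v * b + √v * g := by rw [hX]; unfold xp; ring
  have e : RR m v f f1 f2 x g = (f1 X - f1 x - f2 x * (X - x)) + (f1 x - tE m v f f1 x) +
      f2 x * (v * b) + (f2 x - g2 m v f f1 f2 x) * (√v * g) := by
    unfold RR
    rw [← hX, e0]; ring
  have a1 := h.taylor1 x g
  have a3 := h.F1_sub x
  have a4 := h.F2_sub x
  have a5 := h.drift_le x
  rw [← hX] at a1
  rw [abs_sub_comm] at a3 a4
  rw [← hb] at a5
  have hM := h.M0
  have hC := h.C0
  have hv := h.hv
  have hg := abs_nonneg g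
  have hK := KT_nonneg M 2
  have hK1 := KT_nonneg M 1
  set p := 1 + |g| with hp
  have hp1 : 1 ≤ p := by rw [hp]; linarith
  have hp2 : p ≤ p ^ 2 := by nlinarith
  have hp3 : 1 ≤ p ^ 2 := by nlinarith
  have t2 : |f1 x - tE m v f f1 x| ≤ v * ((C * KT M 2 + C * M) * p ^ 2) := by
    refine a3.trans (mul_le_mul_of_nonneg_left ?_ hv)
    calc C * KT M 2 + C * M = (C * KT M 2 + C * M) * 1 := by ring
      _ ≤ _ := mul_le_mul_of_nonneg_left hp3 (by positivity)
  have t3 : |f2 x * (v * b)| ≤ v * (C * M * p ^ 2) := by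
    rw [abs_mul, abs_mul, abs_of_nonneg hv]
    calc |f2 x| * (v * |b|) ≤ C * (v * M) :=
          mul_le_mul (h.sm.b2 x) (mul_le_mul_of_nonneg_left a5 hv) (by positivity) hC
      _ = v * (C * M * 1) := by ring
      _ ≤ _ := mul_le_mul_of_nonneg_left (mul_le_mul_of_nonneg_left hp3 (by positivity)) hv
  have t4 : |(f2 x - g2 m v f f1 f2 x) * (√v * g)| ≤
      v * ((C * KT M 1 + M * (C ^ 2 * KT M 2)) * p ^ 2) := by
    rw [abs_mul, abs_mul, abs_of_nonneg h.s0]
    have hs := h.s0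
    calc |f2 x - g2 m v f f1 f2 x| * (√v * |g|)
        ≤ (√v * (C * KT M 1 + M * (C ^ 2 * KT M 2))) * (√v * p) :=
          mul_le_mul a4 (mul_le_mul_of_nonneg_left (by rw [hp]; linarith) hs)
            (by positivity) (by positivity)
      _ = (√v * √v) * ((C * KT M 1 + M * (C ^ 2 * KT M 2)) * p) := by ring
      _ = v * ((C * KT M 1 + M * (C ^ 2 * KT M 2)) * p) := by rw [h.ss]
      _ ≤ _ := mul_le_mul_of_nonneg_left (mul_le_mul_of_nonneg_left hp2 (by positivity)) hv
  rw [e]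
  have hsum := (abs_add_le _ _).trans (add_le_add ((abs_add_le _ _).trans
    (add_le_add ((abs_add_le _ _).trans (add_le_add a1 t2)) t3)) t4)
  refine hsum.trans ?_
  have e5 : C * (v * ((M + 1) ^ 2 * p ^ 2)) + v * ((C * KT M 2 + C * M) * p ^ 2) +
      v * (C * M * p ^ 2) + v * ((C * KT M 1 + M * (C ^ 2 * KT M 2)) * p ^ 2) =
      v * (K3 M C * p ^ 2) := by unfold K3; ring
  rw [e5]
  exact mul_le_mul_of_nonneg_left (mul_le_mul_of_nonneg_left (sq_le_ex2 g) h.K3_nonneg) hv

theorem RR_sq (h : Step M C m v f f1 f2) (x : ℝ) :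
    Integrable (fun g => RR m v f f1 f2 x g ^ 2) γ ∧
    ∫ g, RR m v f f1 f2 x g ^ 2 ∂γ ≤ v ^ 2 * (K3 M C ^ 2 * EE 4) := by
  have hc1 := h.sm.c1
  have hxc := xp_cont_g (m := m) (v := v) (f := f) (f1 := f1) x
  have hb : ∀ g, |RR m v f f1 f2 x g ^ 2| ≤ (v ^ 2 * K3 M C ^ 2) * ex 4 g := by
    intro g
    rw [abs_pow]
    have h1 := pow_le_pow_left₀ (abs_nonneg _) (h.RR_le x g) 2
    refine h1.trans (le_of_eq ?_)
    have : ex 4 g = ex 2 g * ex 2 g := by rw [ex_mul]; norm_num
    rw [this]; ring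
  have hcont : Continuous (fun g => RR m v f f1 f2 x g ^ 2) := by
    unfold RR; fun_prop
  have h2 := int_le_EE hcont hb
  refine ⟨h2.1, (le_abs_self _).trans (h2.2.trans (le_of_eq ?_))⟩
  ring

theorem RR_mean (h : Step M C m v f f1 f2) (x : ℝ) :
    Integrable (fun g => RR m v f f1 f2 x g) γ ∧
    |∫ g, RR m v f f1 f2 x g ∂γ| ≤ v * √v * (C * K4 M C) := by
  have hc1 := h.sm.c1
  have hxc := xp_cont_g (m := m) (v := v) (f := f) (f1 := f1) x
  have hi1 : Integrable (fun g => f1 (xp m v f f1 x g)) γ := by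
    refine (integrable_const (1:ℝ)).mono' (by fun_prop) (Filter.Eventually.of_forall fun g => ?_)
    rw [Real.norm_eq_abs]; exact h.sm.b1 _
  have hid : Integrable (fun g : ℝ => g) γ := by
    refine (int_le_EE (A := 1) (K := 1) continuous_id fun g => ?_).1
    rw [one_mul]; exact abs_le_ex1 g
  have hi2 : Integrable (fun g : ℝ => g2 m v f f1 f2 x * (√v * g)) γ :=
    (hid.const_mul _).const_mul _
  have hi3 : Integrable (fun g => f1 (xp m v f f1 x g) - tE m v f f1 x) γ :=
    hi1.sub (integrable_const _)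
  have e : ∫ g, RR m v f f1 f2 x g ∂γ = KP m v f f1 f1 x - tE m v f f1 x := by
    unfold RR
    rw [integral_sub hi3 hi2, integral_sub hi1 (integrable_const _), integral_const_mul,
      integral_const_mul, integral_const]
    have : ∫ g : ℝ, g ∂γ = 0 := by simp
    rw [this]
    simp [KP]
  refine ⟨hi3.sub hi2, ?_⟩
  rw [e, abs_sub_comm]
  exact h.kernel h.l1 x

end Step

end

end Crest.Agent.R339.D3
end

-- ▼ part R339/D3Chain

/-!
# Row 339, (D3): the Euler chain versus the tilted chain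
-/

set_option autoImplicit false

namespace Crest.Agent.R339.D3

open MeasureTheory ProbabilityTheory Real
open Crest.Agent.R164.GC
open Crest.ProbabilityR.InvariantGlass (gaussOp)

noncomputable section

/-- composition of `k` kernels starting with the one of index `r` -/
def comp (P : ℕ → (ℝ → ℝ) → ℝ → ℝ) : ℕ → ℕ → (ℝ → ℝ) → ℝ → ℝ
  | 0, _, V => V
  | k + 1, r, V => P r (comp P k (r + 1) V)

theorem comp_succ' (P : ℕ → (ℝ → ℝ) → ℝ → ℝ) : ∀ (k r : ℕ) (V : ℝ → ℝ),
    comp P (k + 1) r V = comp P k r (P (r + k) V)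
  | 0, r, V => rfl
  | k + 1, r, V => by
    have := comp_succ' P k (r + 1) V
    rw [show r + 1 + k = r + (k + 1) by omega] at this
    show P r (comp P (k + 1) (r + 1) V) = P r (comp P k (r + 1) (P (r + (k + 1)) V))
    rw [this]

/-- the schedule -/
structure Sched (M C : ℝ) (K : ℕ) (h : ℝ) (m v : ℕ → ℝ) (f f1 f2 : ℕ → ℝ → ℝ) : Prop where
  M0 : 0 ≤ M
  C0 : 0 ≤ C
  step : ∀ r < K, Step M C (m r) (v r) (f (r + 1)) (f1 (r + 1)) (f2 (r + 1))
  f1_eq : ∀ r < K, f1 r = tE (m r) (v r) (f (r + 1)) (f1 (r + 1))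
  f2_eq : ∀ r < K, f2 r = g2 (m r) (v r) (f (r + 1)) (f1 (r + 1)) (f2 (r + 1))
  vh : ∀ r < K, v r ≤ h
  vs : ∑ r ∈ Finset.range K, v r ≤ 1

/-- the tilted kernels -/
def Kern (m v : ℕ → ℝ) (f : ℕ → ℝ → ℝ) (r : ℕ) (V : ℝ → ℝ) : ℝ → ℝ :=
  tE (m r) (v r) (f (r + 1)) V

/-- the Euler kernels -/
def Eul (m v : ℕ → ℝ) (f f1 : ℕ → ℝ → ℝ) (r : ℕ) (V : ℝ → ℝ) : ℝ → ℝ :=
  KP (m r) (v r) (f (r + 1)) (f1 (r + 1)) V

theorem cont_of_lip {V : ℝ → ℝ} {L : ℝ} (hV : ∀ x y, |V x - V y| ≤ L * |x - y|) :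
    Continuous V := by
  have hL : 0 ≤ L := by
    have := hV 0 1
    have h2 := abs_nonneg (V 0 - V 1)
    norm_num at this
    linarith
  have : LipschitzWith L.toNNReal V := LipschitzWith.of_dist_le_mul fun x y => by
    rw [Real.dist_eq, Real.dist_eq, Real.coe_toNNReal _ hL]; exact hV x y
  exact this.continuous

theorem lip_nonneg {V : ℝ → ℝ} {L : ℝ} (hV : ∀ x y, |V x - V y| ≤ L * |x - y|) : 0 ≤ L := by
  have := hV 0 1
  have h2 := abs_nonneg (V 0 - V 1)
  norm_num at this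
  linarith

theorem KP_BC {M C m v : ℝ} {f f1 f2 : ℝ → ℝ} (h : Step M C m v f f1 f2) {V : ℝ → ℝ} {L B : ℝ}
    (hV : ∀ x y, |V x - V y| ≤ L * |x - y|) (hB : ∀ x, |V x| ≤ B) :
    BC (KP m v f f1 V) B := by
  refine ⟨cont_of_lip (h.KP_lip hV), fun x => ?_⟩
  unfold KP
  have hc := cont_of_lip hV
  have hx := Step.xp_cont_g (m := m) (v := v) (f := f) (f1 := f1) x
  have hi : Integrable (fun g => V (xp m v f f1 x g)) γ :=
    (integrable_const B).mono' (by fun_prop) (Filter.Eventually.of_forall fun g => by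
      rw [Real.norm_eq_abs]; exact hB _)
  calc |∫ g, V (xp m v f f1 x g) ∂γ| ≤ ∫ g, |V (xp m v f f1 x g)| ∂γ :=
        abs_integral_le_integral_abs
    _ ≤ ∫ _g, B ∂γ := integral_mono hi.abs (integrable_const _) fun g => hB _
    _ = B := by simp

section

variable {M C : ℝ} {K : ℕ} {h : ℝ} {m v : ℕ → ℝ} {f f1 f2 : ℕ → ℝ → ℝ}

/-- the growth constant of Lipschitz norms -/
def gr (M C : ℝ) : ℝ := M * (C + M)

theorem eul_lip (S : Sched M C K h m v f f1 f2) : ∀ (k r : ℕ), r + k ≤ K →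
    ∀ {V : ℝ → ℝ} {L : ℝ}, (∀ x y, |V x - V y| ≤ L * |x - y|) → ∀ x y,
    |comp (Eul m v f f1) k r V x - comp (Eul m v f f1) k r V y| ≤
      (L * Real.exp (gr M C * ∑ i ∈ Finset.range k, v (r + i))) * |x - y|
  | 0, r, _, V, L, hV, x, y => by simpa [comp] using hV x y
  | k + 1, r, hr, V, L, hV, x, y => by
    have h1 := (S.step r (by omega)).KP_lip (eul_lip S k (r + 1) (by omega) hV) x y
    have hL := lip_nonneg hV
    have hs := S.step r (by omega)
    refine h1.trans (mul_le_mul_of_nonneg_right ?_ (abs_nonneg _))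
    have h2 : 1 + v r * (M * (C + M)) ≤ Real.exp (gr M C * v r) := by
      have := Real.add_one_le_exp (gr M C * v r)
      unfold gr at *
      linarith
    have h3 := Real.exp_pos (gr M C * ∑ i ∈ Finset.range k, v (r + 1 + i))
    have h4 : ∑ i ∈ Finset.range (k + 1), v (r + i) =
        ∑ i ∈ Finset.range k, v (r + 1 + i) + v r := by
      rw [Finset.sum_range_succ']
      congr 1
      refine Finset.sum_congr rfl fun i _ => by congr 1; omega
    rw [h4, mul_add (gr M C), Real.exp_add]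
    calc L * Real.exp (gr M C * ∑ i ∈ Finset.range k, v (r + 1 + i)) *
        (1 + v r * (M * (C + M)))
        ≤ L * Real.exp (gr M C * ∑ i ∈ Finset.range k, v (r + 1 + i)) *
          Real.exp (gr M C * v r) := mul_le_mul_of_nonneg_left h2 (by positivity)
      _ = _ := by ring

theorem sum_le (S : Sched M C K h m v f f1 f2) {k r : ℕ} (hr : r + k ≤ K) :
    ∑ i ∈ Finset.range k, v (r + i) ≤ 1 := by
  refine le_trans ?_ S.vs
  have h1 : ∑ i ∈ Finset.range k, v (r + i) = ∑ i ∈ Finset.Ico r (r + k), v i := by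
    rw [Finset.sum_Ico_eq_sum_range]; congr 1; simp
  rw [h1]
  refine Finset.sum_le_sum_of_subset_of_nonneg ?_ fun i hi _ => ?_
  · intro i hi
    rw [Finset.mem_Ico] at hi
    rw [Finset.mem_range]; omega
  · rw [Finset.mem_range] at hi
    exact (S.step i hi).hv

theorem gr_nonneg (S : Sched M C K h m v f f1 f2) : 0 ≤ gr M C := by
  have h1 := S.M0
  have h2 := S.C0
  unfold gr; positivity

theorem eul_lip' (S : Sched M C K h m v f f1 f2) {k r : ℕ} (hr : r + k ≤ K)
    {V : ℝ → ℝ} {L : ℝ} (hV : ∀ x y, |V x - V y| ≤ L * |x - y|) (x y : ℝ) :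
    |comp (Eul m v f f1) k r V x - comp (Eul m v f f1) k r V y| ≤
      (L * Real.exp (gr M C)) * |x - y| := by
  refine (eul_lip S k r hr hV x y).trans (mul_le_mul_of_nonneg_right ?_ (abs_nonneg _))
  refine mul_le_mul_of_nonneg_left (Real.exp_le_exp.2 ?_) (lip_nonneg hV)
  have h1 := gr_nonneg S
  have h2 := sum_le S hr
  nlinarith

theorem eul_BC (S : Sched M C K h m v f f1 f2) : ∀ (k r : ℕ), r + k ≤ K →
    ∀ {V : ℝ → ℝ} {L B : ℝ}, (∀ x y, |V x - V y| ≤ L * |x - y|) → (∀ x, |V x| ≤ B) →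
    BC (comp (Eul m v f f1) k r V) B
  | 0, r, _, V, L, B, hV, hB => ⟨cont_of_lip hV, hB⟩
  | k + 1, r, hr, V, L, B, hV, hB =>
    KP_BC (S.step r (by omega)) (eul_lip' S (k := k) (r := r + 1) (by omega) hV)
      (eul_BC S k (r + 1) (by omega) hV hB).bd

theorem kern_BC (S : Sched M C K h m v f f1 f2) : ∀ (k r : ℕ), r + k ≤ K →
    ∀ {V : ℝ → ℝ} {B : ℝ}, BC V B → BC (comp (Kern m v f) k r V) B
  | 0, r, _, V, B, hB => hB
  | k + 1, r, hr, V, B, hB =>
    tE_BC (S.step r (by omega)).sm.lip _ _ (kern_BC S k (r + 1) (by omega) hB)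

/-- comparison of the compositions -/
theorem cmp (S : Sched M C K h m v f f1 f2) (hh : 0 ≤ h) : ∀ (k r : ℕ), r + k ≤ K →
    ∀ {V : ℝ → ℝ} {L B : ℝ}, (∀ x y, |V x - V y| ≤ L * |x - y|) → (∀ x, |V x| ≤ B) → ∀ x,
    |comp (Kern m v f) k r V x - comp (Eul m v f f1) k r V x| ≤
      (∑ i ∈ Finset.range k, v (r + i)) * (√h * (L * Real.exp (gr M C) * K4 M C))
  | 0, r, _, V, L, B, hV, hB, x => by simp [comp]
  | k + 1, r, hr, V, L, B, hV, hB, x => by
    have hs := S.step r (by omega)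
    have hL := lip_nonneg hV
    set A := comp (Kern m v f) k (r + 1) V with hA
    set E := comp (Eul m v f f1) k (r + 1) V with hE
    have bA : BC A B := kern_BC S k (r + 1) (by omega) ⟨cont_of_lip hV, hB⟩
    have bE : BC E B := eul_BC S k (r + 1) (by omega) hV hB
    have ih := cmp S hh k (r + 1) (by omega) hV hB
    rw [← hA, ← hE] at ih
    have h1 : |Kern m v f r A x - Kern m v f r E x| ≤
        (∑ i ∈ Finset.range k, v (r + 1 + i)) * (√h * (L * Real.exp (gr M C) * K4 M C)) := by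
      unfold Kern
      rw [← tE_sub hs.sm.lip _ _ bA.eg bE.eg]
      exact tE_abs_le hs.sm.lip _ _ (φ := fun y => A y - E y)
        ⟨bA.cont.sub bE.cont, ih⟩ x
    have h2 : |Kern m v f r E x - Eul m v f f1 r E x| ≤
        v r * (√h * (L * Real.exp (gr M C) * K4 M C)) := by
      refine (hs.kernel (eul_lip' S (k := k) (r := r + 1) (by omega) hV) x).trans ?_
      rw [mul_assoc]
      refine mul_le_mul_of_nonneg_left ?_ hs.hv
      have h3 : √(v r) ≤ √h := Real.sqrt_le_sqrt (S.vh r (by omega))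
      refine mul_le_mul_of_nonneg_right h3 ?_
      have := hs.K4_nonneg
      positivity
    have h4 : ∑ i ∈ Finset.range (k + 1), v (r + i) =
        ∑ i ∈ Finset.range k, v (r + 1 + i) + v r := by
      rw [Finset.sum_range_succ']
      congr 1
      refine Finset.sum_congr rfl fun i _ => by congr 1; omega
    have e : comp (Kern m v f) (k + 1) r V x - comp (Eul m v f f1) (k + 1) r V x =
        (Kern m v f r A x - Kern m v f r E x) + (Kern m v f r E x - Eul m v f f1 r E x) := by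
      show Kern m v f r A x - Eul m v f f1 r E x = _
      ring
    rw [e, h4, add_mul]
    exact (abs_add_le _ _).trans (add_le_add h1 h2)

end

/-! ### the chain on a probability space -/

/-- resampling an independent variable -/
theorem indep_int {Ω α : Type*} [MeasurableSpace Ω] [MeasurableSpace α] {P : Measure Ω}
    [IsProbabilityMeasure P] {Y : Ω → α} {ξ : Ω → ℝ} (hY : Measurable Y) (hξ : Measurable ξ)
    (hi : IndepFun Y ξ P) (hl : P.map ξ = γ) {Ψ : α × ℝ → ℝ} (hΨ : Measurable Ψ)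
    (hint : Integrable (fun ω => Ψ (Y ω, ξ ω)) P) :
    ∫ ω, Ψ (Y ω, ξ ω) ∂P = ∫ ω, (∫ t, Ψ (Y ω, t) ∂γ) ∂P := by
  have : IsProbabilityMeasure (P.map Y) := Measure.isProbabilityMeasure_map hY.aemeasurable
  have hprod : P.map (fun ω => (Y ω, ξ ω)) = (P.map Y).prod γ := by
    rw [(indepFun_iff_map_prod_eq_prod_map_map hY.aemeasurable hξ.aemeasurable).1 hi, hl]
  have hm : Measurable (fun ω => (Y ω, ξ ω)) := hY.prodMk hξ
  have h1 : ∫ ω, Ψ (Y ω, ξ ω) ∂P = ∫ p, Ψ p ∂((P.map Y).prod γ) := by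
    rw [← hprod, integral_map hm.aemeasurable hΨ.aestronglyMeasurable]
  have h2 : Integrable Ψ ((P.map Y).prod γ) := by
    rw [← hprod]
    exact (integrable_map_measure hΨ.aestronglyMeasurable hm.aemeasurable).2 hint
  rw [h1, integral_prod _ h2]
  rw [integral_map hY.aemeasurable h2.aestronglyMeasurable.integral_prod_right']

/-- the Euler chain driven by standard Gaussians `ξ` -/
structure Chain {Ω : Type*} [MeasurableSpace Ω] (P : Measure Ω) (K : ℕ) (m v : ℕ → ℝ)
    (f f1 : ℕ → ℝ → ℝ) (x0 : ℝ) (ξ X : ℕ → Ω → ℝ) : Prop where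
  meas : ∀ r < K, Measurable (ξ r)
  law : ∀ r < K, P.map (ξ r) = γ
  indep : ∀ r < K, IndepFun (fun ω (i : Fin r) => ξ i ω) (ξ r) P
  X0 : ∀ ω, X 0 ω = x0
  Xs : ∀ r < K, ∀ ω, X (r + 1) ω = xp (m r) (v r) (f (r + 1)) (f1 (r + 1)) (X r ω) (ξ r ω)

/-- the accumulated remainder -/
def NN {Ω : Type*} (m v : ℕ → ℝ) (f f1 f2 : ℕ → ℝ → ℝ) (ξ X : ℕ → Ω → ℝ) (r : ℕ) (ω : Ω) : ℝ :=
  ∑ i ∈ Finset.range r, RR (m i) (v i) (f (i + 1)) (f1 (i + 1)) (f2 (i + 1)) (X i ω) (ξ i ω)

section

variable {Ω : Type*} [MeasurableSpace Ω] {P : Measure Ω} [IsProbabilityMeasure P]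
  {M C h x0 : ℝ} {K : ℕ} {m v : ℕ → ℝ} {f f1 f2 : ℕ → ℝ → ℝ} {ξ X : ℕ → Ω → ℝ}

theorem drift_cont {M C m v : ℝ} {f f1 f2 : ℝ → ℝ} (h : Step M C m v f f1 f2) :
    Continuous (drift m v f f1) := by
  unfold drift
  exact continuous_const.mul (tE_BC h.sm.lip m v h.sm.B1).cont

theorem xp_cont {M C m v : ℝ} {f f1 f2 : ℝ → ℝ} (h : Step M C m v f f1 f2) :
    Continuous (fun p : ℝ × ℝ => xp m v f f1 p.1 p.2) := by
  have := drift_cont h
  unfold xp
  fun_prop

theorem g2_cont {M C m v : ℝ} {f f1 f2 : ℝ → ℝ} (h : Step M C m v f f1 f2) :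
    Continuous (g2 m v f f1 f2) := by
  unfold g2
  have c1 := (tE_BC h.sm.lip m v h.sm.B2).cont
  have c2 := (tE_BC h.sm.lip m v (h.sm.B1.pow 2)).cont
  have c3 := (tE_BC h.sm.lip m v h.sm.B1).cont
  fun_prop

theorem RR_cont {M C m v : ℝ} {f f1 f2 : ℝ → ℝ} (h : Step M C m v f f1 f2) :
    Continuous (fun p : ℝ × ℝ => RR m v f f1 f2 p.1 p.2) := by
  have h1 := xp_cont h
  have h2 := g2_cont h
  have h3 := (tE_BC h.sm.lip m v h.sm.B1).cont
  have h4 := h.sm.c1
  unfold RR
  fun_prop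

theorem past (S : Sched M C K h m v f f1 f2) (hc : Chain P K m v f f1 x0 ξ X) :
    ∀ r ≤ K, ∃ φ : (Fin r → ℝ) → ℝ × ℝ, Measurable φ ∧
      ∀ ω, (X r ω, NN m v f f1 f2 ξ X r ω) = φ (fun i => ξ i ω)
  | 0, _ => ⟨fun _ => (x0, 0), measurable_const, fun ω => by simp [hc.X0, NN]⟩
  | r + 1, hr => by
    obtain ⟨φ, hφ, he⟩ := past S hc r (by omega)
    have hs := S.step r (by omega)
    refine ⟨fun w => (xp (m r) (v r) (f (r + 1)) (f1 (r + 1)) (φ (fun i => w i.castSucc)).1
      (w (Fin.last r)), (φ (fun i => w i.castSucc)).2 +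
      RR (m r) (v r) (f (r + 1)) (f1 (r + 1)) (f2 (r + 1)) (φ (fun i => w i.castSucc)).1
      (w (Fin.last r))), ?_, fun ω => ?_⟩
    · have h1 : Measurable (fun w : Fin (r + 1) → ℝ => φ (fun i => w i.castSucc)) :=
        hφ.comp (measurable_pi_lambda _ fun i => measurable_pi_apply _)
      have h2 : Measurable (fun w : Fin (r + 1) → ℝ =>
          ((φ (fun i => w i.castSucc)).1, w (Fin.last r))) :=
        (measurable_fst.comp h1).prodMk (measurable_pi_apply _)
      refine ((xp_cont hs).measurable.comp h2).prodMk ?_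
      exact (measurable_snd.comp h1).add ((RR_cont hs).measurable.comp h2)
    · have e1 := he ω
      have e2 : X r ω = (φ fun i : Fin r => ξ i ω).1 := by rw [← e1]
      have e3 : NN m v f f1 f2 ξ X r ω = (φ fun i : Fin r => ξ i ω).2 := by rw [← e1]
      rw [hc.Xs r (by omega) ω]
      unfold NN
      rw [Finset.sum_range_succ]
      have e4 : ∑ i ∈ Finset.range r, RR (m i) (v i) (f (i + 1)) (f1 (i + 1)) (f2 (i + 1))
        (X i ω) (ξ i ω) = NN m v f f1 f2 ξ X r ω := rfl
      rw [e4, e3, e2]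
      simp

theorem meas_past (hc : Chain P K m v f f1 x0 ξ X) {r : ℕ} (hr : r ≤ K) :
    Measurable (fun ω (i : Fin r) => ξ i ω) :=
  measurable_pi_lambda _ fun i => hc.meas i (by have := i.2; omega)

theorem meas_XN (S : Sched M C K h m v f f1 f2) (hc : Chain P K m v f f1 x0 ξ X) {r : ℕ}
    (hr : r ≤ K) : Measurable (fun ω => (X r ω, NN m v f f1 f2 ξ X r ω)) := by
  obtain ⟨φ, hφ, he⟩ := past S hc r hr
  have : (fun ω => (X r ω, NN m v f f1 f2 ξ X r ω)) = φ ∘ (fun ω (i : Fin r) => ξ i ω) := by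
    ext1 ω; exact he ω
  rw [this]
  exact hφ.comp (meas_past hc hr)

theorem indep_XN (S : Sched M C K h m v f f1 f2) (hc : Chain P K m v f f1 x0 ξ X) {r : ℕ}
    (hr : r < K) : IndepFun (fun ω => (X r ω, NN m v f f1 f2 ξ X r ω)) (ξ r) P := by
  obtain ⟨φ, hφ, he⟩ := past S hc r hr.le
  have : (fun ω => (X r ω, NN m v f f1 f2 ξ X r ω)) = φ ∘ (fun ω (i : Fin r) => ξ i ω) := by
    ext1 ω; exact he ω
  rw [this]
  exact (hc.indep r hr).comp hφ measurable_id

theorem meas_X (S : Sched M C K h m v f f1 f2) (hc : Chain P K m v f f1 x0 ξ X) {r : ℕ}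
    (hr : r ≤ K) : Measurable (X r) := measurable_fst.comp (meas_XN S hc hr)

theorem meas_N (S : Sched M C K h m v f f1 f2) (hc : Chain P K m v f f1 x0 ξ X) {r : ℕ}
    (hr : r ≤ K) : Measurable (NN m v f f1 f2 ξ X r) := measurable_snd.comp (meas_XN S hc hr)

/-- one step for one time marginals -/
theorem step_int (S : Sched M C K h m v f f1 f2) (hc : Chain P K m v f f1 x0 ξ X) {r : ℕ}
    (hr : r < K) {V : ℝ → ℝ} {B : ℝ} (hV : BC V B) :
    ∫ ω, V (X (r + 1) ω) ∂P = ∫ ω, Eul m v f f1 r V (X r ω) ∂P := by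
  have hs := S.step r hr
  have hXm := meas_X S hc hr.le
  have hi : IndepFun (X r) (ξ r) P := (indep_XN S hc hr).comp measurable_fst measurable_id
  have hm1 : Measurable (fun p : ℝ × ℝ => V (xp (m r) (v r) (f (r + 1)) (f1 (r + 1)) p.1 p.2)) :=
    (hV.cont.comp (xp_cont hs)).measurable
  have h1 := indep_int hXm (hc.meas r hr) hi (hc.law r hr) hm1 (by
    refine (integrable_const B).mono' ?_ (Filter.Eventually.of_forall fun ω => ?_)
    · exact (hm1.comp (hXm.prodMk (hc.meas r hr))).aestronglyMeasurable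
    · rw [Real.norm_eq_abs]; exact hV.bd _)
  simp only [hc.Xs r hr]
  exact h1

theorem marg (S : Sched M C K h m v f f1 f2) (hc : Chain P K m v f f1 x0 ξ X) :
    ∀ r ≤ K, ∀ {V : ℝ → ℝ} {L B : ℝ}, (∀ x y, |V x - V y| ≤ L * |x - y|) → (∀ x, |V x| ≤ B) →
    ∫ ω, V (X r ω) ∂P = comp (Eul m v f f1) r 0 V x0
  | 0, _, V, L, B, hV, hB => by simp [hc.X0, comp]
  | r + 1, hr, V, L, B, hV, hB => by
    have hs := S.step r (by omega)
    rw [step_int S hc (r := r) (by omega) ⟨cont_of_lip hV, hB⟩, comp_succ', zero_add]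
    exact marg S hc r (by omega) (hs.KP_lip hV) (KP_BC hs hV hB).bd

/-- **one time marginals of the Euler chain** -/
theorem marg_close (S : Sched M C K h m v f f1 f2) (hh : 0 ≤ h)
    (hc : Chain P K m v f f1 x0 ξ X) {r : ℕ} (hr : r ≤ K) {V : ℝ → ℝ} {L B : ℝ}
    (hV : ∀ x y, |V x - V y| ≤ L * |x - y|) (hB : ∀ x, |V x| ≤ B) :
    |∫ ω, V (X r ω) ∂P - comp (Kern m v f) r 0 V x0| ≤
      √h * (L * (Real.exp (gr M C) * K4 M C)) := by
  rw [marg S hc r hr hV hB, abs_sub_comm]
  refine (cmp S hh r 0 (by omega) hV hB x0).trans ?_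
  have h1 := sum_le S (k := r) (r := 0) (by omega)
  have hL := lip_nonneg hV
  have h2 : 0 ≤ √h * (L * Real.exp (gr M C) * K4 M C) := by
    have : 0 ≤ K4 M C := by
      unfold K4 K1
      have := S.M0; have := S.C0; have := KT_nonneg M 2; have := EE_nonneg (K2 M C + 3)
      positivity
    positivity
  calc (∑ i ∈ Finset.range r, v (0 + i)) * (√h * (L * Real.exp (gr M C) * K4 M C))
      ≤ 1 * (√h * (L * Real.exp (gr M C) * K4 M C)) := mul_le_mul_of_nonneg_right h1 h2
    _ = _ := by ring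

/-- the constant of the strong estimate -/
def DD (M C : ℝ) : ℝ := (C * K4 M C) ^ 2 + K3 M C ^ 2 * EE 4

theorem DD_nonneg (M C : ℝ) : 0 ≤ DD M C := by
  unfold DD
  have := EE_nonneg 4
  positivity

theorem NN_sq (S : Sched M C K h m v f f1 f2) (hc : Chain P K m v f f1 x0 ξ X) :
    ∀ r ≤ K, Integrable (fun ω => NN m v f f1 f2 ξ X r ω ^ 2) P ∧
      ∫ ω, NN m v f f1 f2 ξ X r ω ^ 2 ∂P ≤
        DD M C * h * (∑ i ∈ Finset.range r, v i) * Real.exp (∑ i ∈ Finset.range r, v i)
  | 0, _ => by simp [NN]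
  | r + 1, hr => by
    obtain ⟨ih1, ih2⟩ := NN_sq S hc r (by omega)
    have hrK : r < K := by omega
    have hs := S.step r hrK
    set N := NN m v f f1 f2 ξ X r with hN
    set R : ℝ → ℝ → ℝ := RR (m r) (v r) (f (r + 1)) (f1 (r + 1)) (f2 (r + 1)) with hR
    have hXNm := meas_XN S hc hrK.le
    have hXm := meas_X S hc hrK.le
    have hNm : Measurable N := meas_N S hc hrK.le
    have hξm := hc.meas r hrK
    have hind := indep_XN S hc hrK
    have hRc : Continuous (fun p : ℝ × ℝ => R p.1 p.2) := RR_cont hs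
    have hRm : Measurable (fun ω => R (X r ω) (ξ r ω)) := hRc.measurable.comp (hXm.prodMk hξm)
    -- R is square integrable
    have hξint : ∀ a : ℝ, Integrable (fun ω => ex a (ξ r ω)) P := fun a => by
      have h1 : Integrable (ex a) (P.map (ξ r)) := by rw [hc.law r hrK]; exact ex_int a
      exact h1.comp_measurable hξm
    have hR2i : Integrable (fun ω => R (X r ω) (ξ r ω) ^ 2) P := by
      refine ((hξint 4).const_mul (v r ^ 2 * K3 M C ^ 2)).mono'
        (hRm.pow_const 2).aestronglyMeasurable (Filter.Eventually.of_forall fun ω => ?_)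
      rw [Real.norm_eq_abs, abs_pow]
      have h1 := pow_le_pow_left₀ (abs_nonneg _) (hs.RR_le (X r ω) (ξ r ω)) 2
      refine h1.trans (le_of_eq ?_)
      have : ex 4 (ξ r ω) = ex 2 (ξ r ω) * ex 2 (ξ r ω) := by rw [ex_mul]; norm_num
      rw [this]; ring
    have hNRi : Integrable (fun ω => N ω * R (X r ω) (ξ r ω)) P := by
      refine ((ih1.add hR2i)).mono' (hNm.mul hRm).aestronglyMeasurable
        (Filter.Eventually.of_forall fun ω => ?_)
      rw [Real.norm_eq_abs, Pi.add_apply, abs_le]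
      constructor <;> nlinarith [sq_nonneg (N ω - R (X r ω) (ξ r ω)),
        sq_nonneg (N ω + R (X r ω) (ξ r ω)), sq_nonneg (N ω), sq_nonneg (R (X r ω) (ξ r ω))]
    have hNe : ∀ ω, NN m v f f1 f2 ξ X (r + 1) ω = N ω + R (X r ω) (ξ r ω) := fun ω => by
      unfold NN; rw [Finset.sum_range_succ]; rfl
    have hsq : ∀ ω, NN m v f f1 f2 ξ X (r + 1) ω ^ 2 =
        N ω ^ 2 + 2 * (N ω * R (X r ω) (ξ r ω)) + R (X r ω) (ξ r ω) ^ 2 := fun ω => by
      rw [hNe]; ring
    -- resample
    have e1 : ∫ ω, N ω * R (X r ω) (ξ r ω) ∂P = ∫ ω, N ω * ∫ t, R (X r ω) t ∂γ ∂P := by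
      have hm1 : Measurable (fun p : (ℝ × ℝ) × ℝ => p.1.2 * R p.1.1 p.2) := by
        have hm0 : Measurable (fun p : (ℝ × ℝ) × ℝ => (p.1.1, p.2)) :=
          (measurable_fst.comp measurable_fst).prodMk measurable_snd
        have hm2 : Measurable (fun p : (ℝ × ℝ) × ℝ => R p.1.1 p.2) :=
          hRc.measurable.comp hm0
        exact (measurable_snd.comp measurable_fst).mul hm2
      have h1 := indep_int hXNm hξm hind (hc.law r hrK) hm1 hNRi
      refine h1.trans ?_
      congr 1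
      ext ω
      exact integral_const_mul _ _
    have e2 : ∫ ω, R (X r ω) (ξ r ω) ^ 2 ∂P = ∫ ω, (∫ t, R (X r ω) t ^ 2 ∂γ) ∂P := by
      have hm1 : Measurable (fun p : ℝ × ℝ => R p.1 p.2 ^ 2) := hRc.measurable.pow_const 2
      exact indep_int hXm hξm (hind.comp measurable_fst measurable_id) (hc.law r hrK) hm1 hR2i
    have hv := hs.hv
    set c := C * K4 M C with hcdef
    have b1 : ∫ ω, R (X r ω) (ξ r ω) ^ 2 ∂P ≤ v r ^ 2 * (K3 M C ^ 2 * EE 4) := by
      rw [e2]
      have hm2 : StronglyMeasurable (fun x => ∫ t, R x t ^ 2 ∂γ) := by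
        have : StronglyMeasurable (fun p : ℝ × ℝ => R p.1 p.2 ^ 2) :=
          (hRc.measurable.pow_const 2).stronglyMeasurable
        exact this.integral_prod_right'
      have hb : ∀ x, ∫ t, R x t ^ 2 ∂γ ≤ v r ^ 2 * (K3 M C ^ 2 * EE 4) := fun x =>
        (hs.RR_sq x).2
      have hi : Integrable (fun ω => ∫ t, R (X r ω) t ^ 2 ∂γ) P := by
        refine (integrable_const (v r ^ 2 * (K3 M C ^ 2 * EE 4))).mono'
          (hm2.measurable.comp hXm).aestronglyMeasurable (Filter.Eventually.of_forall fun ω => ?_)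
        rw [Real.norm_eq_abs, abs_of_nonneg (integral_nonneg fun t => sq_nonneg _)]
        exact hb _
      calc ∫ ω, (∫ t, R (X r ω) t ^ 2 ∂γ) ∂P ≤ ∫ _ω, v r ^ 2 * (K3 M C ^ 2 * EE 4) ∂P :=
            integral_mono hi (integrable_const _) fun ω => hb _
        _ = _ := by simp
    have b2 : 2 * ∫ ω, N ω * R (X r ω) (ξ r ω) ∂P ≤
        v r * ∫ ω, N ω ^ 2 ∂P + v r ^ 2 * c ^ 2 := by
      rw [e1, ← integral_const_mul, ← integral_const_mul]
      have hb : ∀ x, |∫ t, R x t ∂γ| ≤ v r * √(v r) * c := fun x => (hs.RR_mean x).2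
      have hpt : ∀ ω, 2 * (N ω * ∫ t, R (X r ω) t ∂γ) ≤ v r * N ω ^ 2 + v r ^ 2 * c ^ 2 := by
        intro ω
        have h1 := hb (X r ω)
        set z := ∫ t, R (X r ω) t ∂γ with hz
        have h2 : N ω * z ≤ |N ω| * (v r * √(v r) * c) := by
          calc N ω * z ≤ |N ω * z| := le_abs_self _
            _ = |N ω| * |z| := abs_mul _ _
            _ ≤ _ := mul_le_mul_of_nonneg_left h1 (abs_nonneg _)
        have h3 : √(v r) * √(v r) = v r := hs.ss
        have h4 : 0 ≤ (√(v r) * |N ω| - v r * c) ^ 2 := sq_nonneg _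
        have h5 : (√(v r) * |N ω| - v r * c) ^ 2 = v r * N ω ^ 2 -
            2 * (|N ω| * (v r * √(v r) * c)) + v r ^ 2 * c ^ 2 := by
          rw [sub_sq, mul_pow, sq_abs, sq (√(v r)), h3]; ring
        linarith
      have hm2 : StronglyMeasurable (fun x => ∫ t, R x t ∂γ) :=
        hRc.measurable.stronglyMeasurable.integral_prod_right'
      have hi0 : Integrable (fun ω => N ω * ∫ t, R (X r ω) t ∂γ) P := by
        refine (ih1.add (integrable_const ((v r * √(v r) * c) ^ 2))).mono'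
          (hNm.mul (hm2.measurable.comp hXm)).aestronglyMeasurable
          (Filter.Eventually.of_forall fun ω => ?_)
        rw [Real.norm_eq_abs, Pi.add_apply, abs_mul]
        have h1 := hb (X r ω)
        have h2 : |N ω| * |∫ t, R (X r ω) t ∂γ| ≤ |N ω| * (v r * √(v r) * c) :=
          mul_le_mul_of_nonneg_left h1 (abs_nonneg _)
        have h3 := sq_nonneg (|N ω| - v r * √(v r) * c)
        have h4 := sq_abs (N ω)
        have h5 := sq_nonneg (|N ω|)
        nlinarith [sq_nonneg (v r * √(v r) * c)]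
      calc ∫ ω, 2 * (N ω * ∫ t, R (X r ω) t ∂γ) ∂P
          ≤ ∫ ω, (v r * N ω ^ 2 + v r ^ 2 * c ^ 2) ∂P :=
            integral_mono (hi0.const_mul 2) ((ih1.const_mul _).add (integrable_const _)) hpt
        _ = ∫ ω, v r * N ω ^ 2 ∂P + v r ^ 2 * c ^ 2 := by
            rw [integral_add (ih1.const_mul _) (integrable_const _), integral_const]
            simp
    refine ⟨?_, ?_⟩
    · simp only [hsq]
      exact (ih1.add (hNRi.const_mul 2)).add hR2i
    · simp only [hsq]
      have i1 : Integrable (fun ω => N ω ^ 2 + 2 * (N ω * R (X r ω) (ξ r ω))) P :=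
        ih1.add (hNRi.const_mul 2)
      rw [integral_add i1 hR2i, integral_add ih1 (hNRi.const_mul 2), integral_const_mul]
      set s := ∑ i ∈ Finset.range r, v i with hsdef
      set y := ∫ ω, N ω ^ 2 ∂P with hy
      have hs0 : 0 ≤ s := Finset.sum_nonneg fun i hi =>
        (S.step i (by rw [Finset.mem_range] at hi; omega)).hv
      have hD := DD_nonneg M C
      have hvh := S.vh r hrK
      have hh : 0 ≤ h := hv.trans hvh
      rw [Finset.sum_range_succ, ← hsdef]
      have hexp : 1 + v r ≤ Real.exp (v r) := by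
        have := Real.add_one_le_exp (v r); linarith
      have hexp1 : 1 ≤ Real.exp (s + v r) := Real.one_le_exp (by linarith)
      have hmain : y + 2 * ∫ ω, N ω * R (X r ω) (ξ r ω) ∂P + ∫ ω, R (X r ω) (ξ r ω) ^ 2 ∂P ≤
          (1 + v r) * y + v r ^ 2 * DD M C := by
        unfold DD
        rw [← hcdef]
        linarith
      refine hmain.trans ?_
      have t1 : (1 + v r) * y ≤ Real.exp (v r) * (DD M C * h * s * Real.exp s) :=
        mul_le_mul hexp ih2 (integral_nonneg fun ω => sq_nonneg _) (Real.exp_pos _).le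
      have t2 : v r ^ 2 * DD M C ≤ DD M C * h * v r * Real.exp (s + v r) := by
        have a1 : v r ^ 2 * DD M C ≤ DD M C * h * v r := by
          have := mul_le_mul_of_nonneg_right hvh (mul_nonneg hv hD)
          nlinarith
        have a2 : 0 ≤ DD M C * h * v r := by positivity
        nlinarith
      have e5 : Real.exp (v r) * (DD M C * h * s * Real.exp s) =
          DD M C * h * s * Real.exp (s + v r) := by rw [Real.exp_add]; ring
      rw [e5] at t1
      have e6 : DD M C * h * (s + v r) * Real.exp (s + v r) =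
        DD M C * h * s * Real.exp (s + v r) + DD M C * h * v r * Real.exp (s + v r) := by ring
      rw [e6]
      linarith

theorem NN_eq (S : Sched M C K h m v f f1 f2) (hc : Chain P K m v f f1 x0 ξ X) :
    ∀ r ≤ K, ∀ ω, NN m v f f1 f2 ξ X r ω = f1 r (X r ω) - f1 0 x0 -
      ∑ i ∈ Finset.range r, f2 i (X i ω) * (√(v i) * ξ i ω)
  | 0, _, ω => by simp [NN, hc.X0]
  | r + 1, hr, ω => by
    have ih := NN_eq S hc r (by omega) ω
    have e : NN m v f f1 f2 ξ X (r + 1) ω = NN m v f f1 f2 ξ X r ω +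
        RR (m r) (v r) (f (r + 1)) (f1 (r + 1)) (f2 (r + 1)) (X r ω) (ξ r ω) := by
      unfold NN; rw [Finset.sum_range_succ]
    rw [e, ih, Finset.sum_range_succ]
    unfold RR
    rw [← hc.Xs r (by omega) ω, ← S.f1_eq r (by omega), ← S.f2_eq r (by omega)]
    ring

/-- **strong estimate** -/
theorem strong (S : Sched M C K h m v f f1 f2) (hh : 0 ≤ h) (hc : Chain P K m v f f1 x0 ξ X)
    {r : ℕ} (hr : r ≤ K) :
    Integrable (fun ω => (f1 r (X r ω) - f1 0 x0 -
      ∑ i ∈ Finset.range r, f2 i (X i ω) * (√(v i) * ξ i ω)) ^ 2) P ∧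
    ∫ ω, (f1 r (X r ω) - f1 0 x0 -
      ∑ i ∈ Finset.range r, f2 i (X i ω) * (√(v i) * ξ i ω)) ^ 2 ∂P ≤
      DD M C * Real.exp 1 * h := by
  obtain ⟨h1, h2⟩ := NN_sq S hc r hr
  simp only [NN_eq S hc r hr] at h1 h2
  refine ⟨h1, h2.trans ?_⟩
  have h3 := sum_le S (k := r) (r := 0) (by omega)
  simp only [zero_add] at h3
  have h4 : 0 ≤ ∑ i ∈ Finset.range r, v i := Finset.sum_nonneg fun i hi =>
    (S.step i (by rw [Finset.mem_range] at hi; omega)).hv
  have hD := DD_nonneg M C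
  calc DD M C * h * (∑ i ∈ Finset.range r, v i) * Real.exp (∑ i ∈ Finset.range r, v i)
      ≤ DD M C * h * 1 * Real.exp 1 := by
        refine mul_le_mul ?_ (Real.exp_le_exp.2 h3) (Real.exp_pos _).le (by positivity)
        exact mul_le_mul_of_nonneg_left h3 (by positivity)
    _ = _ := by ring

end

end

end Crest.Agent.R339.D3
private theorem rz_6e8191918a : type_of% @_root_.Crest.Agent.R339.D3.comp.eq_def := @_root_.Crest.Agent.R339.D3.comp.eq_def -- L18
private theorem rz_84e42a2a97 : type_of% @_root_.Crest.Agent.R339.D3.comp.eq_1 := @_root_.Crest.Agent.R339.D3.comp.eq_1 -- L18
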