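import Mathlib
import Crest.Agent.R339.SiteModel
import Crest.Agent.R339.Lim286Def

/-!
# Path expansion of the site-model words (Fock side of the limit theorem)
-/

set_option autoImplicit false

noncomputable section

open scoped ComplexConjugate InnerProductSpace Topology
open Filter Crest.MathPhysics.SpinGlass Crest.Agent.R339.Lim

namespace Crest.Agent.R339.Site

variable {K : Type*} [NormedAddCommGroup K] [InnerProductSpace ℂ K]

lemma Wy_ev (f g : K) : Wy f (ev g) =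
    Complex.exp (-((‖f‖ ^ 2 / 2 : ℝ) : ℂ) - ⟪f, g⟫_ℂ) • ev (f + g) := by
  rw [ev_eq g, map_smul, Wy_coh, coh, smul_smul, smul_smul, ← Complex.exp_add, ← Complex.exp_add]
  congr 2
  have h := @norm_add_sq ℂ _ _ _ _ f g
  rw [h]
  apply Complex.ext
  · simp
    ring
  · simp [-Complex.ofReal_pow]

/-- the unitary after `l` layers -/
def Wd (ι : Sp K →ₗᵢ[ℂ] K) (g b : ℕ → ℝ) : ℕ → USp K
  | 0 => 1
  | l + 1 => moveB (b l) (moveC ι (g l) (Wd ι g b l))

/-- the one-particle vectors of the mean fields -/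
def fv (ι : Sp K →ₗᵢ[ℂ] K) (g b : ℕ → ℝ) (l : ℕ) : K := ι (eVec (Wd ι g b l))

lemma Zop_Zop (v : Sp K) : Zop (Zop v) = v := by
  ext b
  rw [Zop_apply, Zop_apply, smul_smul, ← Complex.ofReal_mul, spinSign_sq]
  simp

lemma Zop_mul_Zop : (Zop : Sp K →L[ℂ] Sp K) * Zop = 1 :=
  ContinuousLinearMap.ext fun v => Zop_Zop v

lemma star_Zop : star (Zop : Sp K →L[ℂ] Sp K) = Zop := by
  rw [Zop, opM_star, star_zM]

lemma norm_Zop_apply (v : Sp K) : ‖Zop v‖ = ‖v‖ :=
  norm_U_apply (⟨Zop, by rw [Unitary.mem_iff, star_Zop, Zop_mul_Zop]; exact ⟨rfl, rfl⟩⟩ : USp K) v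

lemma norm_eVec (U : USp K) : ‖eVec U‖ = 1 := by
  rw [eVec, norm_star_U_apply, norm_Zop_apply, norm_U_apply, norm_Om]

variable (ι : Sp K →ₗᵢ[ℂ] K) (g b : ℕ → ℝ)

lemma norm_fv (l : ℕ) : ‖fv ι g b l‖ = 1 := by
  rw [fv, LinearIsometry.norm_map, norm_eVec]

/-- Heisenberg operators -/
def Hs (l : ℕ) : Sp K →L[ℂ] Sp K :=
  star (Wd ι g b l : Sp K →L[ℂ] Sp K) * Zop * (Wd ι g b l : Sp K →L[ℂ] Sp K)


lemma star_Hs (l : ℕ) : star (Hs ι g b l) = Hs ι g b l := by
  rw [Hs, star_mul, star_mul, star_star, star_Zop, mul_assoc]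

lemma Hs_mul_Hs (l : ℕ) : Hs ι g b l * Hs ι g b l = 1 := by
  rw [Hs]
  have h1 := U_mul_star_self (Wd ι g b l)
  calc _ = star (Wd ι g b l : Sp K →L[ℂ] Sp K) * Zop *
      ((Wd ι g b l : Sp K →L[ℂ] Sp K) * star (Wd ι g b l : Sp K →L[ℂ] Sp K)) * Zop *
      (Wd ι g b l : Sp K →L[ℂ] Sp K) := by simp only [mul_assoc]
    _ = star (Wd ι g b l : Sp K →L[ℂ] Sp K) * (Zop * Zop) * (Wd ι g b l : Sp K →L[ℂ] Sp K) := by
        rw [h1, mul_one, mul_assoc (star (Wd ι g b l : Sp K →L[ℂ] Sp K))]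
    _ = 1 := by rw [Zop_mul_Zop, mul_one, star_U_mul_self]

lemma W_mul_Hs (l : ℕ) : (Wd ι g b l : Sp K →L[ℂ] Sp K) * Hs ι g b l =
    Zop * (Wd ι g b l : Sp K →L[ℂ] Sp K) := by
  rw [Hs, ← mul_assoc, ← mul_assoc, U_mul_star_self, one_mul]

lemma W_mul_Hs_pow (l k : ℕ) : (Wd ι g b l : Sp K →L[ℂ] Sp K) * Hs ι g b l ^ k =
    Zop ^ k * (Wd ι g b l : Sp K →L[ℂ] Sp K) := by
  induction k with
  | zero => simp
  | succ k ih => rw [pow_succ, ← mul_assoc, ih, mul_assoc, W_mul_Hs, ← mul_assoc, ← pow_succ]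

/-- the one-layer unitary -/
def layer (l : ℕ) : USp K := mixU (b l) * costU (g l) (fv ι g b l)

lemma Wd_succ (l : ℕ) : Wd ι g b (l + 1) = layer ι g b l * Wd ι g b l := by
  show mixU (b l) * (costU (g l) (fv ι g b l) * Wd ι g b l) = _
  rw [layer, mul_assoc]

/-- forward vectors with insertions of `Z` -/
def psi (ε : ℕ → ℕ) : ℕ → Sp K
  | 0 => (Zop ^ ε 0 : Sp K →L[ℂ] Sp K) Om
  | l + 1 => (Zop ^ ε (l + 1) : Sp K →L[ℂ] Sp K) ((layer ι g b l : Sp K →L[ℂ] Sp K) (psi ε l))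

/-- ordered products of Heisenberg operators -/
def TT (ε : ℕ → ℕ) : ℕ → (Sp K →L[ℂ] Sp K)
  | 0 => Hs ι g b 0 ^ ε 0
  | l + 1 => Hs ι g b (l + 1) ^ ε (l + 1) * TT ε l

lemma psi_eq (ε : ℕ → ℕ) (M : ℕ) :
    psi ι g b ε M = (Wd ι g b M : Sp K →L[ℂ] Sp K) (TT ι g b ε M Om) := by
  induction M with
  | zero =>
    rw [psi, TT, ← mul_apply_eq_comp, W_mul_Hs_pow]
    rfl
  | succ M ih =>
    have h : (Zop ^ ε (M + 1) : Sp K →L[ℂ] Sp K) * ((layer ι g b M : Sp K →L[ℂ] Sp K) *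
        ((Wd ι g b M : Sp K →L[ℂ] Sp K) * TT ι g b ε M)) =
        (Wd ι g b (M + 1) : Sp K →L[ℂ] Sp K) * (Hs ι g b (M + 1) ^ ε (M + 1) * TT ι g b ε M) := by
      rw [← mul_assoc (Wd ι g b (M + 1) : Sp K →L[ℂ] Sp K), W_mul_Hs_pow, Wd_succ]
      simp only [mul_assoc, Submonoid.coe_mul]
    rw [psi, ih, TT]
    exact DFunLike.congr_fun h Om

lemma inner_U_apply (U : USp K) (v w : Sp K) :
    ⟪(U : Sp K →L[ℂ] Sp K) v, (U : Sp K →L[ℂ] Sp K) w⟫_ℂ = ⟪v, w⟫_ℂ := by
  rw [← ContinuousLinearMap.adjoint_inner_left, ← ContinuousLinearMap.star_eq_adjoint,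
    ← mul_apply_eq_comp, star_U_mul_self]
  rfl

lemma inner_psi (ε ε' : ℕ → ℕ) (M : ℕ) :
    ⟪psi ι g b ε M, psi ι g b ε' M⟫_ℂ = ⟪TT ι g b ε M Om, TT ι g b ε' M Om⟫_ℂ := by
  rw [psi_eq, psi_eq, inner_U_apply]

/-- single insertions -/
def dl (l : ℕ) : ℕ → ℕ := fun m => if m = l then 1 else 0

lemma TT_zero_of (ε : ℕ → ℕ) (M : ℕ) (h : ∀ m ≤ M, ε m = 0) : TT ι g b ε M = 1 := by
  induction M with
  | zero => rw [TT, h 0 le_rfl, pow_zero]
  | succ M ih =>
    rw [TT, h (M + 1) le_rfl, pow_zero, one_mul, ih fun m hm => h m (by omega)]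

lemma TT_congr (ε ε' : ℕ → ℕ) (M : ℕ) (h : ∀ m ≤ M, ε m = ε' m) :
    TT ι g b ε M = TT ι g b ε' M := by
  induction M with
  | zero => rw [TT, TT, h 0 le_rfl]
  | succ M ih => rw [TT, TT, h (M + 1) le_rfl, ih fun m hm => h m (by omega)]

/-- top part of the product with no insertion above level `m`. -/
lemma TT_of_le (ε : ℕ → ℕ) (m M : ℕ) (hm : m ≤ M) (h : ∀ k, m < k → k ≤ M → ε k = 0) :
    TT ι g b ε M = TT ι g b ε m := by
  induction M with
  | zero =>
    obtain rfl : m = 0 := by omega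
    rfl
  | succ M ih =>
    rcases Nat.lt_or_ge m (M + 1) with h1 | h1
    · rw [TT, h (M + 1) h1 le_rfl, pow_zero, one_mul, ih (by omega) fun k hk hk' => h k hk (by omega)]
    · obtain rfl : m = M + 1 := by omega
      rfl

lemma TT_dl (l M : ℕ) (hl : l ≤ M) : TT ι g b (dl l) M = Hs ι g b l := by
  rw [TT_of_le ι g b _ l M hl (fun k hk _ => by simp [dl]; omega)]
  cases l with
  | zero => rw [TT]; simp [dl]
  | succ l =>
    rw [TT, TT_zero_of ι g b _ l (fun m hm => by simp [dl]; omega)]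
    simp [dl]

lemma TT_dl_dl (l l' M : ℕ) (hl : l ≤ M) (_hl' : l' ≤ M) (h : l' < l) :
    TT ι g b (dl l + dl l') M = Hs ι g b l * Hs ι g b l' := by
  rw [TT_of_le ι g b _ l M hl (fun k hk _ => by simp [dl]; omega)]
  cases l with
  | zero => omega
  | succ l =>
    rw [TT, TT_congr ι g b _ (dl l') l (fun m hm => by simp [dl]; omega), TT_dl ι g b l' l (by omega)]
    have : (dl (l + 1) + dl l') (l + 1) = 1 := by simp [dl]; omega
    rw [this, pow_one]

lemma TT_dl_two (l M : ℕ) (hl : l ≤ M) : TT ι g b (dl l + dl l) M = 1 := by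
  rw [TT_of_le ι g b _ l M hl (fun k hk _ => by simp [dl]; omega)]
  cases l with
  | zero => rw [TT]; simp [dl, pow_two, Hs_mul_Hs]
  | succ l =>
    rw [TT, TT_zero_of ι g b _ l (fun m hm => by simp [dl]; omega)]
    simp [dl, pow_two, Hs_mul_Hs]

/-- the contour Gram numbers: `bra` levels increasing, then `ket` levels decreasing. -/
def GF (t t' : Bool × ℕ) : ℂ :=
  match t.1, t'.1 with
  | false, true => ⟪fv ι g b t.2, fv ι g b t'.2⟫_ℂ
  | true, false => ⟪fv ι g b t'.2, fv ι g b t.2⟫_ℂ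
  | false, false => ⟪fv ι g b (min t.2 t'.2), fv ι g b (max t.2 t'.2)⟫_ℂ
  | true, true => ⟪fv ι g b (max t.2 t'.2), fv ι g b (min t.2 t'.2)⟫_ℂ

lemma inner_fv (l m : ℕ) : ⟪fv ι g b l, fv ι g b m⟫_ℂ = ⟪Hs ι g b l Om, Hs ι g b m Om⟫_ℂ := by
  rw [fv, fv, LinearIsometry.inner_map_map]
  rfl

lemma inner_Hs_left (l : ℕ) (v w : Sp K) : ⟪Hs ι g b l v, w⟫_ℂ = ⟪v, Hs ι g b l w⟫_ℂ := by
  conv_lhs => rw [← star_Hs, ContinuousLinearMap.star_eq_adjoint,
    ContinuousLinearMap.adjoint_inner_left]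

/-- The insertion exponents of two slices. -/
def eps (s : Bool) (t : Bool × ℕ) : ℕ → ℕ := if t.1 = s then dl t.2 else 0

lemma inner_Om_Om : ⟪(Om : Sp K), Om⟫_ℂ = 1 := by
  rw [inner_self_eq_norm_sq_to_K, norm_Om]
  simp

lemma inner_fv_self (l : ℕ) : ⟪fv ι g b l, fv ι g b l⟫_ℂ = 1 := by
  rw [inner_self_eq_norm_sq_to_K, norm_fv]
  simp

lemma inner_psi_eps (M : ℕ) (t t' : Bool × ℕ) (ht : t.2 ≤ M) (ht' : t'.2 ≤ M) :
    ⟪psi ι g b (eps false t + eps false t') M, psi ι g b (eps true t + eps true t') M⟫_ℂ =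
      GF ι g b t t' := by
  rw [inner_psi]
  have h0 : TT ι g b (0 + 0) M = 1 := TT_zero_of ι g b _ M (fun m _ => by simp)
  obtain ⟨s, l⟩ := t
  obtain ⟨s', l'⟩ := t'
  simp only at ht ht'
  cases s <;> cases s' <;> simp only [eps, GF, Bool.false_eq_true, Bool.true_eq_false, if_true,
    if_false]
  · rw [h0]
    rcases lt_trichotomy l l' with h | h | h
    · rw [min_eq_left h.le, max_eq_right h.le, add_comm, TT_dl_dl ι g b l' l M ht' ht h,
        mul_apply_eq_comp, inner_Hs_left, inner_fv]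
      rfl
    · subst h
      rw [min_self, max_self, TT_dl_two ι g b l M ht, inner_fv_self]
      exact inner_Om_Om
    · rw [min_eq_right h.le, max_eq_left h.le, TT_dl_dl ι g b l l' M ht ht' h,
        mul_apply_eq_comp, inner_Hs_left, inner_fv]
      rfl
  · rw [add_zero, zero_add, TT_dl ι g b l M ht, TT_dl ι g b l' M ht', inner_fv]
  · rw [add_zero, zero_add, TT_dl ι g b l M ht, TT_dl ι g b l' M ht', inner_fv]
  · rw [h0]
    rcases lt_trichotomy l l' with h | h | h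
    · rw [min_eq_left h.le, max_eq_right h.le, add_comm, TT_dl_dl ι g b l' l M ht' ht h,
        mul_apply_eq_comp, ← inner_Hs_left, inner_fv]
      rfl
    · subst h
      rw [min_self, max_self, TT_dl_two ι g b l M ht, inner_fv_self]
      exact inner_Om_Om
    · rw [min_eq_right h.le, max_eq_left h.le, TT_dl_dl ι g b l l' M ht ht' h,
        mul_apply_eq_comp, ← inner_Hs_left, inner_fv]
      rfl

/-! ### Path expansion -/

/-- coherent path vectors -/
def wk : (M : ℕ) → (Fin (M + 1) → Bool) → Fock K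
  | 0, _ => vac
  | M + 1, y => Wy (((-(g M * spinSign (y (Fin.last M).castSucc)) : ℝ) : ℂ) • fv ι g b M)
      (wk M (fun i => y i.castSucc))

/-- the insertions along a path -/
def ins (ε : ℕ → ℕ) (M : ℕ) (y : Fin (M + 1) → Bool) : ℂ :=
  ∏ l : Fin (M + 1), ((spinSign (y l) : ℝ) : ℂ) ^ ε l

lemma Zop_pow_apply (k : ℕ) (v : Sp K) (s : Bool) :
    (Zop ^ k : Sp K →L[ℂ] Sp K) v s = ((spinSign s : ℝ) : ℂ) ^ k • v s := by
  induction k generalizing v with
  | zero => simp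
  | succ k ih =>
    rw [pow_succ, mul_apply_eq_comp, ih, Zop_apply, smul_smul, pow_succ]

lemma mixU_apply' (β : ℝ) (v : Sp K) (s : Bool) :
    ((mixU β : USp K) : Sp K →L[ℂ] Sp K) v s = ∑ s', mx β s s' • v s' := by
  rw [mixU_apply, Fintype.sum_bool]
  cases s <;> simp [mx, -Complex.ofReal_cos, -Complex.ofReal_sin, sub_eq_add_neg, add_comm]

lemma layer_apply (l : ℕ) (v : Sp K) (s : Bool) :
    (layer ι g b l : Sp K →L[ℂ] Sp K) v s = ∑ s', mx (b l) s s' •
      Wy (((-(g l * spinSign s') : ℝ) : ℂ) • fv ι g b l) (v s') := by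
  show ((mixU (b l) : USp K) : Sp K →L[ℂ] Sp K)
    (((costU (g l) (fv ι g b l) : USp K) : Sp K →L[ℂ] Sp K) v) s = _
  rw [mixU_apply']
  refine Finset.sum_congr rfl fun s' _ => ?_
  rw [costU_apply]

lemma amp_succ (M : ℕ) (y : Fin (M + 2) → Bool) :
    amp b (M + 1) y = amp b M (fun i => y i.castSucc) *
      mx (b M) (y (Fin.last (M + 1))) (y (Fin.last M).castSucc) := by
  rw [amp, Fin.prod_univ_castSucc, amp]
  rfl

lemma ins_succ (ε : ℕ → ℕ) (M : ℕ) (y : Fin (M + 2) → Bool) :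
    ins ε (M + 1) y = ins ε M (fun i => y i.castSucc) *
      ((spinSign (y (Fin.last (M + 1))) : ℝ) : ℂ) ^ ε (M + 1) := by
  rw [ins, Fin.prod_univ_castSucc, ins]
  rfl

lemma sum_snoc {A : Type*} [AddCommMonoid A] (M : ℕ) (F : (Fin (M + 1) → Bool) → A) :
    ∑ y : Fin (M + 1) → Bool, F y = ∑ s : Bool, ∑ y : Fin M → Bool, F (Fin.snoc y s) := by
  rw [← Fintype.sum_prod_type']
  refine (Equiv.sum_comp (Fin.snocEquiv (fun _ => Bool)) F).symm.trans ?_
  rfl

lemma psi_path (ε : ℕ → ℕ) (M : ℕ) (s : Bool) :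
    psi ι g b ε M s = (((1 : ℝ) / Real.sqrt 2 : ℝ) : ℂ) • ∑ y : Fin (M + 1) → Bool,
      (if y (Fin.last M) = s then amp b M y * ins ε M y else 0) • wk ι g b M y := by
  induction M generalizing s with
  | zero =>
    rw [psi, Zop_pow_apply, sum_snoc, Fintype.sum_bool]
    have h1 : (Om : Sp K) s = (((1 : ℝ) / Real.sqrt 2 : ℝ) : ℂ) • vac := rfl
    rw [h1, smul_comm]
    congr 1
    cases s <;> simp [wk, amp, ins, Fin.snoc]
  | succ M ih =>
    rw [psi, Zop_pow_apply, layer_apply, sum_snoc]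
    have h0 : (∑ s' : Bool, ∑ y : Fin (M + 1) → Bool,
        (if (Fin.snoc y s' : Fin (M + 2) → Bool) (Fin.last (M + 1)) = s then
          amp b (M + 1) (Fin.snoc y s' : Fin (M + 2) → Bool) *
            ins ε (M + 1) (Fin.snoc y s' : Fin (M + 2) → Bool) else 0) •
            wk ι g b (M + 1) (Fin.snoc y s' : Fin (M + 2) → Bool)) =
        ∑ y : Fin (M + 1) → Bool, (amp b (M + 1) (Fin.snoc y s : Fin (M + 2) → Bool) *
            ins ε (M + 1) (Fin.snoc y s : Fin (M + 2) → Bool)) •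
            wk ι g b (M + 1) (Fin.snoc y s : Fin (M + 2) → Bool) := by
      rw [Finset.sum_eq_single_of_mem s (Finset.mem_univ _)]
      · refine Finset.sum_congr rfl fun y _ => ?_
        rw [if_pos (Fin.snoc_last _ _)]
      · intro s' _ hs'
        refine Finset.sum_eq_zero fun y _ => ?_
        rw [Fin.snoc_last, if_neg hs', zero_smul]
    have h1 : ∀ s', mx (b M) s s' • Wy (((-(g M * spinSign s') : ℝ) : ℂ) • fv ι g b M)
        (psi ι g b ε M s') = (((1 : ℝ) / Real.sqrt 2 : ℝ) : ℂ) • ∑ y : Fin (M + 1) → Bool,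
          (if y (Fin.last M) = s' then mx (b M) s s' * (amp b M y * ins ε M y) else 0) •
            Wy (((-(g M * spinSign s') : ℝ) : ℂ) • fv ι g b M) (wk ι g b M y) := by
      intro s'
      rw [ih, map_smul, map_sum, smul_comm, Finset.smul_sum]
      congr 1
      refine Finset.sum_congr rfl fun y _ => ?_
      rw [map_smul, smul_smul]
      split_ifs <;> simp
    rw [h0, Finset.sum_congr rfl fun s' _ => h1 s', ← Finset.smul_sum, smul_comm, Finset.sum_comm,
      Finset.smul_sum]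
    congr 1
    refine Finset.sum_congr rfl fun y _ => ?_
    rw [Finset.sum_eq_single_of_mem (y (Fin.last M)) (Finset.mem_univ _)]
    · rw [if_pos rfl, smul_smul, amp_succ, ins_succ, wk]
      simp only [Fin.snoc_last, Fin.snoc_castSucc]
      congr 1
      ring
    · intro s' _ hs'
      rw [if_neg (Ne.symm hs'), zero_smul]

/-! ### Closed form of the coherent path vectors -/

/-- coherent path vectors for real coefficients -/
def wkN (c : ℕ → ℝ) : ℕ → Fock K
  | 0 => vac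
  | M + 1 => Wy ((c M : ℂ) • fv ι g b M) (wkN c M)

/-- the displacement -/
def Fq (c : ℕ → ℝ) (M : ℕ) : K := ∑ l ∈ Finset.range M, (c l : ℂ) • fv ι g b l

/-- the exponent -/
def Aq (c : ℕ → ℝ) (M : ℕ) : ℂ := -(1 / 2) * ∑ l ∈ Finset.range M, ∑ l' ∈ Finset.range M,
  ((c l * c l' : ℝ) : ℂ) * ⟪fv ι g b (max l l'), fv ι g b (min l l')⟫_ℂ

lemma sum_sq_succ (F : ℕ → ℕ → ℂ) (M : ℕ) :
    ∑ l ∈ Finset.range (M + 1), ∑ l' ∈ Finset.range (M + 1), F l l' =
      (∑ l ∈ Finset.range M, ∑ l' ∈ Finset.range M, F l l') +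
        ((∑ l ∈ Finset.range M, F l M) + (∑ l ∈ Finset.range M, F M l) + F M M) := by
  rw [Finset.sum_range_succ, Finset.sum_range_succ,
    Finset.sum_congr rfl fun l _ => Finset.sum_range_succ (fun l' => F l l') M,
    Finset.sum_add_distrib]
  ring

lemma wkN_eq (c : ℕ → ℝ) (M : ℕ) :
    wkN ι g b c M = Complex.exp (Aq ι g b c M) • ev (Fq ι g b c M) := by
  induction M with
  | zero => simp [wkN, Aq, Fq, vac_eq]
  | succ M ih =>
    rw [wkN, ih, map_smul, Wy_ev, smul_smul, ← Complex.exp_add]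
    have h1 : Fq ι g b c (M + 1) = (c M : ℂ) • fv ι g b M + Fq ι g b c M := by
      rw [Fq, Finset.sum_range_succ, add_comm]
      rfl
    have h2 : Aq ι g b c (M + 1) = Aq ι g b c M + (-((‖(c M : ℂ) • fv ι g b M‖ ^ 2 / 2 : ℝ) : ℂ) -
        ⟪(c M : ℂ) • fv ι g b M, Fq ι g b c M⟫_ℂ) := by
      rw [norm_smul, norm_fv, mul_one, Complex.norm_real, Real.norm_eq_abs, sq_abs, Aq, sum_sq_succ,
        Aq, inner_smul_left, Fq, inner_sum, max_self, min_self, inner_fv_self]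
      have h3 : ∀ l ∈ Finset.range M, ((c l * c M : ℝ) : ℂ) *
          ⟪fv ι g b (max l M), fv ι g b (min l M)⟫_ℂ =
          ((c M * c l : ℝ) : ℂ) * ⟪fv ι g b M, fv ι g b l⟫_ℂ := by
        intro l hl
        have := Finset.mem_range.mp hl
        rw [max_eq_right this.le, min_eq_left this.le, mul_comm (c l)]
      have h4 : ∀ l ∈ Finset.range M, ((c M * c l : ℝ) : ℂ) *
          ⟪fv ι g b (max M l), fv ι g b (min M l)⟫_ℂ =
          ((c M * c l : ℝ) : ℂ) * ⟪fv ι g b M, fv ι g b l⟫_ℂ := by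
        intro l hl
        have := Finset.mem_range.mp hl
        rw [max_eq_left this.le, min_eq_right this.le]
      have h5 : (c M : ℂ) * ∑ l ∈ Finset.range M, ⟪fv ι g b M, (c l : ℂ) • fv ι g b l⟫_ℂ =
          ∑ l ∈ Finset.range M, ((c M * c l : ℝ) : ℂ) * ⟪fv ι g b M, fv ι g b l⟫_ℂ := by
        rw [Finset.mul_sum]
        refine Finset.sum_congr rfl fun l _ => ?_
        rw [inner_smul_right]
        push_cast
        ring
      rw [Finset.sum_congr rfl h3, Finset.sum_congr rfl h4, Complex.conj_ofReal, h5]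
      push_cast
      ring
    rw [h1, h2]

lemma inner_wkN (c c' : ℕ → ℝ) (M : ℕ) : ⟪wkN ι g b c M, wkN ι g b c' M⟫_ℂ =
    Complex.exp ((starRingEnd ℂ) (Aq ι g b c M) + Aq ι g b c' M +
      ⟪Fq ι g b c M, Fq ι g b c' M⟫_ℂ) := by
  rw [wkN_eq, wkN_eq, inner_smul_left, inner_smul_right, inner_ev, ← Complex.exp_conj,
    ← Complex.exp_add, ← Complex.exp_add]
  ring_nf

lemma conj_Aq (c : ℕ → ℝ) (M : ℕ) : (starRingEnd ℂ) (Aq ι g b c M) =
    -(1 / 2) * ∑ l ∈ Finset.range M, ∑ l' ∈ Finset.range M,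
  ((c l * c l' : ℝ) : ℂ) * ⟪fv ι g b (min l l'), fv ι g b (max l l')⟫_ℂ := by
  rw [Aq, map_mul, map_sum]
  congr 1
  · rw [show (-(1 / 2) : ℂ) = ((-(1 / 2) : ℝ) : ℂ) by push_cast; ring, Complex.conj_ofReal]
  · refine Finset.sum_congr rfl fun l _ => ?_
    rw [map_sum]
    refine Finset.sum_congr rfl fun l' _ => ?_
    rw [map_mul, Complex.conj_ofReal, inner_conj_symm]

/-- coefficients of a path -/
def cof (M : ℕ) (y : Fin (M + 1) → Bool) (l : ℕ) : ℝ :=
  if h : l < M + 1 then -(g l * spinSign (y ⟨l, h⟩)) else 0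

lemma wkN_congr (c c' : ℕ → ℝ) (M : ℕ) (h : ∀ l < M, c l = c' l) :
    wkN ι g b c M = wkN ι g b c' M := by
  induction M with
  | zero => rfl
  | succ M ih => rw [wkN, wkN, h M (Nat.lt_succ_self M), ih fun l hl => h l (by omega)]

lemma wk_eq (M : ℕ) (y : Fin (M + 1) → Bool) : wk ι g b M y = wkN ι g b (cof g M y) M := by
  induction M with
  | zero => rfl
  | succ M ih =>
    rw [wk, wkN, ih, cof, dif_pos (by omega)]
    rw [wkN_congr ι g b (cof g (M + 1) y) (cof g M fun i => y i.castSucc) M]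
    · rfl
    · intro l hl
      rw [cof, cof, dif_pos (by omega), dif_pos (by omega)]
      rfl

lemma sumPos (M : ℕ) (F : Bool × ℕ → ℂ) (h0 : F (false, M) = 0) (h1 : F (true, M) = 0) :
    ∑ ρ : Pos M, F (ρ.1, (ρ.2 : ℕ)) =
      ∑ l ∈ Finset.range M, F (false, l) + ∑ l ∈ Finset.range M, F (true, l) := by
  rw [Fintype.sum_prod_type, Fintype.sum_bool, add_comm]
  simp only
  rw [Fin.sum_univ_castSucc, Fin.sum_univ_castSucc, Finset.sum_range, Finset.sum_range]
  simp [h0, h1]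

/-- path coefficients on the contour -/
def hh (M : ℕ) (c c' : ℕ → ℝ) (t : Bool × ℕ) : ℝ :=
  if t.2 < M then (if t.1 then c' t.2 else -(c t.2)) else 0

lemma inner_Fq (c c' : ℕ → ℝ) (M : ℕ) : ⟪Fq ι g b c M, Fq ι g b c' M⟫_ℂ =
    ∑ l ∈ Finset.range M, ∑ l' ∈ Finset.range M,
      ((c l * c' l' : ℝ) : ℂ) * ⟪fv ι g b l, fv ι g b l'⟫_ℂ := by
  rw [Fq, Fq, sum_inner]
  refine Finset.sum_congr rfl fun l _ => ?_
  rw [inner_sum]
  refine Finset.sum_congr rfl fun l' _ => ?_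
  rw [inner_smul_left, inner_smul_right, Complex.conj_ofReal]
  push_cast
  ring

lemma sum_hh (c c' : ℕ → ℝ) (M : ℕ) :
    -(1 / 2) * ∑ ρ : Pos M, ∑ ρ' : Pos M, ((hh M c c' (ρ.1, (ρ.2 : ℕ)) *
      hh M c c' (ρ'.1, (ρ'.2 : ℕ)) : ℝ) : ℂ) * GF ι g b (ρ.1, (ρ.2 : ℕ)) (ρ'.1, (ρ'.2 : ℕ)) =
    (starRingEnd ℂ) (Aq ι g b c M) + Aq ι g b c' M + ⟪Fq ι g b c M, Fq ι g b c' M⟫_ℂ := by
  have hM : ∀ s : Bool, hh M c c' (s, M) = 0 := fun s => by simp [hh]
  have h1 : ∀ t : Bool × ℕ, ∑ ρ' : Pos M, ((hh M c c' t *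
      hh M c c' (ρ'.1, (ρ'.2 : ℕ)) : ℝ) : ℂ) * GF ι g b t (ρ'.1, (ρ'.2 : ℕ)) =
      ∑ l' ∈ Finset.range M, ((hh M c c' t * hh M c c' (false, l') : ℝ) : ℂ) * GF ι g b t (false, l') +
      ∑ l' ∈ Finset.range M, ((hh M c c' t * hh M c c' (true, l') : ℝ) : ℂ) * GF ι g b t (true, l') := by
    intro t
    exact sumPos M (fun t' => ((hh M c c' t * hh M c c' t' : ℝ) : ℂ) * GF ι g b t t')
      (by simp [hM]) (by simp [hM])
  have h2 := sumPos M (fun t => ∑ ρ' : Pos M, ((hh M c c' t *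
      hh M c c' (ρ'.1, (ρ'.2 : ℕ)) : ℝ) : ℂ) * GF ι g b t (ρ'.1, (ρ'.2 : ℕ)))
      (by simp [hM]) (by simp [hM])
  rw [h2]
  simp only [h1]
  have hf : ∀ l ∈ Finset.range M, hh M c c' (false, l) = -(c l) := fun l hl => by
    simp [hh, Finset.mem_range.mp hl]
  have ht : ∀ l ∈ Finset.range M, hh M c c' (true, l) = c' l := fun l hl => by
    simp [hh, Finset.mem_range.mp hl]
  rw [conj_Aq, inner_Fq, Aq, Finset.sum_add_distrib, Finset.sum_add_distrib]
  have e1 : ∑ l ∈ Finset.range M, ∑ l' ∈ Finset.range M,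
      ((hh M c c' (false, l) * hh M c c' (false, l') : ℝ) : ℂ) * GF ι g b (false, l) (false, l') =
      ∑ l ∈ Finset.range M, ∑ l' ∈ Finset.range M,
        ((c l * c l' : ℝ) : ℂ) * ⟪fv ι g b (min l l'), fv ι g b (max l l')⟫_ℂ := by
    refine Finset.sum_congr rfl fun l hl => Finset.sum_congr rfl fun l' hl' => ?_
    rw [hf l hl, hf l' hl', neg_mul_neg]
    rfl
  have e2 : ∑ l ∈ Finset.range M, ∑ l' ∈ Finset.range M,
      ((hh M c c' (false, l) * hh M c c' (true, l') : ℝ) : ℂ) * GF ι g b (false, l) (true, l') =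
      -∑ l ∈ Finset.range M, ∑ l' ∈ Finset.range M,
        ((c l * c' l' : ℝ) : ℂ) * ⟪fv ι g b l, fv ι g b l'⟫_ℂ := by
    rw [← Finset.sum_neg_distrib]
    refine Finset.sum_congr rfl fun l hl => ?_
    rw [← Finset.sum_neg_distrib]
    refine Finset.sum_congr rfl fun l' hl' => ?_
    rw [hf l hl, ht l' hl']
    simp only [GF]
    push_cast
    ring
  have e3 : ∑ l ∈ Finset.range M, ∑ l' ∈ Finset.range M,
      ((hh M c c' (true, l) * hh M c c' (false, l') : ℝ) : ℂ) * GF ι g b (true, l) (false, l') =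
      -∑ l ∈ Finset.range M, ∑ l' ∈ Finset.range M,
        ((c l * c' l' : ℝ) : ℂ) * ⟪fv ι g b l, fv ι g b l'⟫_ℂ := by
    rw [Finset.sum_comm, ← Finset.sum_neg_distrib]
    refine Finset.sum_congr rfl fun l hl => ?_
    rw [← Finset.sum_neg_distrib]
    refine Finset.sum_congr rfl fun l' hl' => ?_
    rw [hf l hl, ht l' hl']
    simp only [GF]
    push_cast
    ring
  have e4 : ∑ l ∈ Finset.range M, ∑ l' ∈ Finset.range M,
      ((hh M c c' (true, l) * hh M c c' (true, l') : ℝ) : ℂ) * GF ι g b (true, l) (true, l') =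
      ∑ l ∈ Finset.range M, ∑ l' ∈ Finset.range M,
        ((c' l * c' l' : ℝ) : ℂ) * ⟪fv ι g b (max l l'), fv ι g b (min l l')⟫_ℂ := by
    refine Finset.sum_congr rfl fun l hl => Finset.sum_congr rfl fun l' hl' => ?_
    rw [ht l hl, ht l' hl']
    rfl
  rw [e1, e2, e3, e4]
  ring

lemma gam_spin (M : ℕ) (a : Pos M → Bool) (ρ : Pos M) :
    gam g M ρ * spinSign (a ρ) = hh M (cof g M fun l => a (false, l))
      (cof g M fun l => a (true, l)) (ρ.1, (ρ.2 : ℕ)) := by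
  obtain ⟨s, l⟩ := ρ
  have hl := l.2
  simp only [gam, hh]
  by_cases h : (l : ℕ) < M
  · rw [if_pos h, if_pos h]
    cases s <;> simp [cof, hl]
  · rw [if_neg h, if_neg h, zero_mul]

lemma exponent_eq (M : ℕ) (a : Pos M → Bool) :
    -(1 / 2) * ∑ ρ, ∑ ρ', ((gam g M ρ * gam g M ρ' * spinSign (a ρ) * spinSign (a ρ') : ℝ) : ℂ) *
      GF ι g b (ρ.1, (ρ.2 : ℕ)) (ρ'.1, (ρ'.2 : ℕ)) =
    (starRingEnd ℂ) (Aq ι g b (cof g M fun l => a (false, l)) M) +
      Aq ι g b (cof g M fun l => a (true, l)) M +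
      ⟪Fq ι g b (cof g M fun l => a (false, l)) M, Fq ι g b (cof g M fun l => a (true, l)) M⟫_ℂ := by
  rw [← sum_hh]
  congr 1
  refine Finset.sum_congr rfl fun ρ _ => Finset.sum_congr rfl fun ρ' _ => ?_
  rw [← gam_spin, ← gam_spin]
  congr 2
  ring

/-- `(bra path, ket path)` from a contour path. -/
def pathEquiv (M : ℕ) : (Pos M → Bool) ≃ (Fin (M + 1) → Bool) × (Fin (M + 1) → Bool) :=
  (Equiv.curry Bool (Fin (M + 1)) Bool).trans (Equiv.boolArrowEquivProd (Fin (M + 1) → Bool))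

lemma pathEquiv_apply (M : ℕ) (a : Pos M → Bool) :
    pathEquiv M a = (fun l => a (false, l), fun l => a (true, l)) := rfl

lemma ins_dl (M l : ℕ) (hl : l < M + 1) (y : Fin (M + 1) → Bool) :
    ins (dl l) M y = ((spinSign (y ⟨l, hl⟩) : ℝ) : ℂ) := by
  rw [ins, Finset.prod_eq_single_of_mem (⟨l, hl⟩ : Fin (M + 1)) (Finset.mem_univ _)]
  · simp [dl]
  · intro m _ hm
    have : (m : ℕ) ≠ l := fun h => hm (Fin.ext h)
    simp [dl, this]

lemma ins_zero (M : ℕ) (y : Fin (M + 1) → Bool) : ins 0 M y = 1 := by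
  simp [ins]

lemma ins_add (ε ε' : ℕ → ℕ) (M : ℕ) (y : Fin (M + 1) → Bool) :
    ins (ε + ε') M y = ins ε M y * ins ε' M y := by
  simp [ins, pow_add, Finset.prod_mul_distrib]

lemma conj_ins (ε : ℕ → ℕ) (M : ℕ) (y : Fin (M + 1) → Bool) :
    (starRingEnd ℂ) (ins ε M y) = ins ε M y := by
  rw [ins, map_prod]
  refine Finset.prod_congr rfl fun l _ => ?_
  rw [map_pow, Complex.conj_ofReal]

lemma ins_eps (M : ℕ) (a : Pos M → Bool) (t : Pos M) :
    ins (eps false (t.1, (t.2 : ℕ))) M (fun l => a (false, l)) *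
      ins (eps true (t.1, (t.2 : ℕ))) M (fun l => a (true, l)) = ((spinSign (a t) : ℝ) : ℂ) := by
  obtain ⟨s, l⟩ := t
  cases s
  · simp only [eps, if_true, Bool.false_eq_true, if_false]
    rw [ins_dl M l l.2, ins_zero, mul_one]
  · simp only [eps, if_true, Bool.true_eq_false, if_false]
    rw [ins_dl M l l.2, ins_zero, one_mul]

/-- The Fock side of the limit theorem: the contour Gram numbers satisfy the recursion. -/
theorem GF_recursion (M : ℕ) (t t' : Pos M) :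
    (∑ a : Pos M → Bool, mu b M a * ((spinSign (a t) * spinSign (a t') : ℝ) : ℂ) *
      Complex.exp (-(1 / 2) * ∑ ρ, ∑ ρ',
        ((gam g M ρ * gam g M ρ' * spinSign (a ρ) * spinSign (a ρ') : ℝ) : ℂ) *
          GF ι g b (ρ.1, (ρ.2 : ℕ)) (ρ'.1, (ρ'.2 : ℕ)))) =
      GF ι g b (t.1, (t.2 : ℕ)) (t'.1, (t'.2 : ℕ)) := by
  rw [← inner_psi_eps ι g b M (t.1, (t.2 : ℕ)) (t'.1, (t'.2 : ℕ)) (Nat.lt_succ_iff.mp t.2.2)
    (Nat.lt_succ_iff.mp t'.2.2), PiLp.inner_apply]
  set e1 := eps false (t.1, (t.2 : ℕ)) + eps false (t'.1, (t'.2 : ℕ)) with he1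
  set e2 := eps true (t.1, (t.2 : ℕ)) + eps true (t'.1, (t'.2 : ℕ)) with he2
  have hs : ∀ s : Bool, ⟪psi ι g b e1 M s, psi ι g b e2 M s⟫_ℂ = ∑ y : Fin (M + 1) → Bool,
      ∑ y' : Fin (M + 1) → Bool, (if y (Fin.last M) = s then (if y' (Fin.last M) = s then
        (1 / 2) * ((starRingEnd ℂ) (amp b M y) * amp b M y') * (ins e1 M y * ins e2 M y') *
          ⟪wk ι g b M y, wk ι g b M y'⟫_ℂ else 0) else 0) := by
    intro s
    rw [psi_path, psi_path, inner_smul_left, inner_smul_right, sum_inner, Complex.conj_ofReal,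
      Finset.mul_sum, Finset.mul_sum]
    refine Finset.sum_congr rfl fun y _ => ?_
    rw [inner_sum, Finset.mul_sum, Finset.mul_sum]
    refine Finset.sum_congr rfl fun y' _ => ?_
    rw [inner_smul_left, inner_smul_right]
    have h2 : (((1 : ℝ) / Real.sqrt 2 : ℝ) : ℂ) * (((1 : ℝ) / Real.sqrt 2 : ℝ) : ℂ) = 1 / 2 := by
      rw [← Complex.ofReal_mul, div_mul_div_comm, Real.mul_self_sqrt (by norm_num)]
      push_cast
      ring
    split_ifs
    · rw [map_mul, conj_ins, ← mul_assoc, h2]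
      ring
    · simp
    · simp
    · simp
  rw [Finset.sum_congr rfl fun s _ => hs s, Finset.sum_comm]
  have h3 : ∀ y : Fin (M + 1) → Bool, (∑ s : Bool, ∑ y' : Fin (M + 1) → Bool,
      (if y (Fin.last M) = s then (if y' (Fin.last M) = s then
        (1 / 2) * ((starRingEnd ℂ) (amp b M y) * amp b M y') * (ins e1 M y * ins e2 M y') *
          ⟪wk ι g b M y, wk ι g b M y'⟫_ℂ else 0) else 0)) =
      ∑ y' : Fin (M + 1) → Bool, (if y (Fin.last M) = y' (Fin.last M) then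
        (1 / 2) * ((starRingEnd ℂ) (amp b M y) * amp b M y') * (ins e1 M y * ins e2 M y') *
          ⟪wk ι g b M y, wk ι g b M y'⟫_ℂ else 0) := by
    intro y
    rw [Finset.sum_comm]
    refine Finset.sum_congr rfl fun y' _ => ?_
    rw [Finset.sum_eq_single_of_mem (y (Fin.last M)) (Finset.mem_univ _)]
    · rw [if_pos rfl]
      by_cases h : y (Fin.last M) = y' (Fin.last M)
      · rw [if_pos h, if_pos h.symm]
      · rw [if_neg h, if_neg fun h' => h h'.symm]
    · intro s _ hs'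
      rw [if_neg (Ne.symm hs')]
  rw [Finset.sum_congr rfl fun y _ => h3 y, ← Fintype.sum_prod_type']
  refine Fintype.sum_equiv (pathEquiv M) _ _ fun a => ?_
  rw [pathEquiv_apply, exponent_eq]
  simp only
  rw [wk_eq, wk_eq, inner_wkN, mu]
  have h5 : ins e1 M (fun l => a (false, l)) * ins e2 M (fun l => a (true, l)) =
      ((spinSign (a t) * spinSign (a t') : ℝ) : ℂ) := by
    rw [he1, he2, ins_add, ins_add, Complex.ofReal_mul, ← ins_eps M a t, ← ins_eps M a t']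
    ring
  rw [h5]
  split_ifs
  · ring
  · ring

/-! ### The energy as a contour sum -/

/-- Weyl operator of a path -/
def opW : (M : ℕ) → (Fin (M + 1) → Bool) → BF K
  | 0, _ => 1
  | M + 1, y => Wy (((-(g M * spinSign (y (Fin.last M).castSucc)) : ℝ) : ℂ) • fv ι g b M) *
      (opW M (fun i => y i.castSucc))

/-- Weyl operator of a sequence of coefficients -/
def opN (c : ℕ → ℝ) : ℕ → BF K
  | 0 => 1
  | M + 1 => Wy ((c M : ℂ) • fv ι g b M) * (opN c M)

lemma opN_congr (c c' : ℕ → ℝ) (M : ℕ) (h : ∀ l < M, c l = c' l) :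
    opN ι g b c M = opN ι g b c' M := by
  induction M with
  | zero => rfl
  | succ M ih => rw [opN, opN, h M (Nat.lt_succ_self M), ih fun l hl => h l (by omega)]

lemma opW_eq (M : ℕ) (y : Fin (M + 1) → Bool) : opW ι g b M y = opN ι g b (cof g M y) M := by
  induction M with
  | zero => rfl
  | succ M ih =>
    rw [opW, opN, ih, cof, dif_pos (by omega)]
    rw [opN_congr ι g b (cof g (M + 1) y) (cof g M fun i => y i.castSucc) M]
    · rfl
    · intro l hl
      rw [cof, cof, dif_pos (by omega), dif_pos (by omega)]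
      rfl


lemma Fq_succ (c : ℕ → ℝ) (M : ℕ) :
    Fq ι g b c (M + 1) = (c M : ℂ) • fv ι g b M + Fq ι g b c M := by
  rw [Fq, Finset.sum_range_succ, add_comm]
  rfl

lemma Aq_succ (c : ℕ → ℝ) (M : ℕ) : Aq ι g b c (M + 1) = Aq ι g b c M +
    (-((‖(c M : ℂ) • fv ι g b M‖ ^ 2 / 2 : ℝ) : ℂ) -
        ⟪(c M : ℂ) • fv ι g b M, Fq ι g b c M⟫_ℂ) := by
  rw [norm_smul, norm_fv, mul_one, Complex.norm_real, Real.norm_eq_abs, sq_abs, Aq, sum_sq_succ,
    Aq, inner_smul_left, Fq, inner_sum, max_self, min_self, inner_fv_self]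
  have h3 : ∀ l ∈ Finset.range M, ((c l * c M : ℝ) : ℂ) *
      ⟪fv ι g b (max l M), fv ι g b (min l M)⟫_ℂ =
      ((c M * c l : ℝ) : ℂ) * ⟪fv ι g b M, fv ι g b l⟫_ℂ := by
    intro l hl
    have := Finset.mem_range.mp hl
    rw [max_eq_right this.le, min_eq_left this.le, mul_comm (c l)]
  have h4 : ∀ l ∈ Finset.range M, ((c M * c l : ℝ) : ℂ) *
      ⟪fv ι g b (max M l), fv ι g b (min M l)⟫_ℂ =
      ((c M * c l : ℝ) : ℂ) * ⟪fv ι g b M, fv ι g b l⟫_ℂ := by
    intro l hl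
    have := Finset.mem_range.mp hl
    rw [max_eq_left this.le, min_eq_right this.le]
  have h5 : (c M : ℂ) * ∑ l ∈ Finset.range M, ⟪fv ι g b M, (c l : ℂ) • fv ι g b l⟫_ℂ =
      ∑ l ∈ Finset.range M, ((c M * c l : ℝ) : ℂ) * ⟪fv ι g b M, fv ι g b l⟫_ℂ := by
    rw [Finset.mul_sum]
    refine Finset.sum_congr rfl fun l _ => ?_
    rw [inner_smul_right]
    push_cast
    ring
  rw [Finset.sum_congr rfl h3, Finset.sum_congr rfl h4, Complex.conj_ofReal, h5]
  push_cast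
  ring

lemma opN_ev (c : ℕ → ℝ) (M : ℕ) (h : K) : opN ι g b c M (ev h) =
    Complex.exp (Aq ι g b c M - ⟪Fq ι g b c M, h⟫_ℂ) • ev (Fq ι g b c M + h) := by
  induction M with
  | zero => simp [opN, Aq, Fq]
  | succ M ih =>
    rw [opN, mul_apply_eq_comp, ih, map_smul, Wy_ev, smul_smul, ← Complex.exp_add, Fq_succ, Aq_succ,
      add_assoc]
    congr 2
    rw [inner_add_right, inner_add_left]
    ring

lemma inner_wk_opW_ev (M : ℕ) (y y' : Fin (M + 1) → Bool) (h : K) :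
    ⟪wk ι g b M y, opW ι g b M y' (ev h)⟫_ℂ = ⟪wk ι g b M y, wk ι g b M y'⟫_ℂ *
      Complex.exp (⟪Fq ι g b (cof g M y) M, h⟫_ℂ - ⟪Fq ι g b (cof g M y') M, h⟫_ℂ) := by
  rw [wk_eq, wk_eq, inner_wkN, opW_eq, opN_ev, wkN_eq, inner_smul_left, inner_smul_right, inner_ev,
    ← Complex.exp_conj, ← Complex.exp_add, ← Complex.exp_add, ← Complex.exp_add, inner_add_right]
  ring_nf

lemma inner_wk_opW_one' (M : ℕ) (y y' : Fin (M + 1) → Bool) (f : K) :
    ⟪wk ι g b M y, opW ι g b M y' (one' f)⟫_ℂ = ⟪wk ι g b M y, wk ι g b M y'⟫_ℂ *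
      (⟪Fq ι g b (cof g M y) M, f⟫_ℂ - ⟪Fq ι g b (cof g M y') M, f⟫_ℂ) := by
  have h1 : Tendsto (fun t => ⟪wk ι g b M y, opW ι g b M y' (dq f t)⟫_ℂ) (𝓝[≠] 0)
      (𝓝 ⟪wk ι g b M y, opW ι g b M y' (one' f)⟫_ℂ) := by
    have h2 : Continuous fun v : Fock K => ⟪wk ι g b M y, opW ι g b M y' v⟫_ℂ := by fun_prop
    exact (h2.tendsto _).comp (tendsto_dq f)
  refine tendsto_nhds_unique h1 ?_
  have h2 : Tendsto (fun t : ℝ => (t : ℂ)) (𝓝[≠] 0) (𝓝[≠] 0) := by
    rw [tendsto_nhdsWithin_iff]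
    refine ⟨(Complex.continuous_ofReal.tendsto' 0 0 (by simp)).mono_left nhdsWithin_le_nhds, ?_⟩
    filter_upwards [eventually_mem_nhdsWithin] with t ht
    simpa using ht
  have h3 := ((tendsto_expm1_div (⟪Fq ι g b (cof g M y) M, f⟫_ℂ -
    ⟪Fq ι g b (cof g M y') M, f⟫_ℂ)).comp h2).const_mul ⟪wk ι g b M y, wk ι g b M y'⟫_ℂ
  refine h3.congr fun t => ?_
  rw [dq, map_smul, map_sub, inner_smul_right, inner_sub_right, inner_wk_opW_ev, inner_wk_opW_ev,
    inner_smul_right, inner_smul_right, inner_zero_right, inner_zero_right]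
  simp only [Function.comp, sub_self, Complex.exp_zero, mul_one]
  rw [← mul_sub, div_eq_inv_mul]
  ring

/-- `|+⟩ ⊗ u` -/
def plusT (u : Fock K) : Sp K := WithLp.toLp 2 fun _ => (((1 : ℝ) / Real.sqrt 2 : ℝ) : ℂ) • u

lemma W_path (M : ℕ) (u : Fock K) (s : Bool) :
    (Wd ι g b M : Sp K →L[ℂ] Sp K) (plusT u) s = (((1 : ℝ) / Real.sqrt 2 : ℝ) : ℂ) •
      ∑ y : Fin (M + 1) → Bool, (if y (Fin.last M) = s then amp b M y else 0) •
        opW ι g b M y u := by
  induction M generalizing s with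
  | zero =>
    rw [sum_snoc, Fintype.sum_bool]
    have h1 : (Wd ι g b 0 : Sp K →L[ℂ] Sp K) (plusT u) s =
      (((1 : ℝ) / Real.sqrt 2 : ℝ) : ℂ) • u := rfl
    rw [h1]
    congr 1
    cases s <;> simp [opW, amp, Fin.snoc]
  | succ M ih =>
    have h0 : (Wd ι g b (M + 1) : Sp K →L[ℂ] Sp K) (plusT u) =
      (layer ι g b M : Sp K →L[ℂ] Sp K) ((Wd ι g b M : Sp K →L[ℂ] Sp K) (plusT u)) := by
      rw [Wd_succ]
      rfl
    rw [h0, layer_apply, sum_snoc]
    have h0 : (∑ s' : Bool, ∑ y : Fin (M + 1) → Bool,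
        (if (Fin.snoc y s' : Fin (M + 2) → Bool) (Fin.last (M + 1)) = s then
          amp b (M + 1) (Fin.snoc y s' : Fin (M + 2) → Bool) else 0) •
            opW ι g b (M + 1) (Fin.snoc y s' : Fin (M + 2) → Bool) u) =
        ∑ y : Fin (M + 1) → Bool, (amp b (M + 1) (Fin.snoc y s : Fin (M + 2) → Bool)) •
            opW ι g b (M + 1) (Fin.snoc y s : Fin (M + 2) → Bool) u := by
      rw [Finset.sum_eq_single_of_mem s (Finset.mem_univ _)]
      · refine Finset.sum_congr rfl fun y _ => ?_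
        rw [if_pos (Fin.snoc_last _ _)]
      · intro s' _ hs'
        refine Finset.sum_eq_zero fun y _ => ?_
        rw [Fin.snoc_last, if_neg hs', zero_smul]
    have h1 : ∀ s', mx (b M) s s' • Wy (((-(g M * spinSign s') : ℝ) : ℂ) • fv ι g b M)
        (((Wd ι g b M : Sp K →L[ℂ] Sp K) (plusT u)) s') =
          (((1 : ℝ) / Real.sqrt 2 : ℝ) : ℂ) • ∑ y : Fin (M + 1) → Bool,
          (if y (Fin.last M) = s' then mx (b M) s s' * (amp b M y) else 0) •
            Wy (((-(g M * spinSign s') : ℝ) : ℂ) • fv ι g b M) (opW ι g b M y u) := by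
      intro s'
      rw [ih, map_smul, map_sum, smul_comm, Finset.smul_sum]
      congr 1
      refine Finset.sum_congr rfl fun y _ => ?_
      rw [map_smul, smul_smul]
      split_ifs <;> simp
    rw [h0, Finset.sum_congr rfl fun s' _ => h1 s', ← Finset.smul_sum, Finset.sum_comm]
    congr 1
    refine Finset.sum_congr rfl fun y _ => ?_
    rw [Finset.sum_eq_single_of_mem (y (Fin.last M)) (Finset.mem_univ _)]
    · rw [if_pos rfl, amp_succ, opW, mul_apply_eq_comp]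
      simp only [Fin.snoc_last, Fin.snoc_castSucc]
      congr 1
      ring
    · intro s' _ hs'
      rw [if_neg (Ne.symm hs'), zero_smul]

lemma inner_path (M : ℕ) (α β : (Fin (M + 1) → Bool) → ℂ) (x x' : (Fin (M + 1) → Bool) → Fock K)
    (v w : Sp K)
    (hv : ∀ s, v s = (((1 : ℝ) / Real.sqrt 2 : ℝ) : ℂ) •
      ∑ y : Fin (M + 1) → Bool, (if y (Fin.last M) = s then α y else 0) • x y)
    (hw : ∀ s, w s = (((1 : ℝ) / Real.sqrt 2 : ℝ) : ℂ) •
      ∑ y : Fin (M + 1) → Bool, (if y (Fin.last M) = s then β y else 0) • x' y) :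
    ⟪v, w⟫_ℂ = ∑ y : Fin (M + 1) → Bool, ∑ y' : Fin (M + 1) → Bool,
      (if y (Fin.last M) = y' (Fin.last M) then
        (1 / 2) * ((starRingEnd ℂ) (α y) * β y') * ⟪x y, x' y'⟫_ℂ else 0) := by
  rw [PiLp.inner_apply]
  have hs : ∀ s : Bool, ⟪v s, w s⟫_ℂ = ∑ y : Fin (M + 1) → Bool,
      ∑ y' : Fin (M + 1) → Bool, (if y (Fin.last M) = s then (if y' (Fin.last M) = s then
        (1 / 2) * ((starRingEnd ℂ) (α y) * β y') * ⟪x y, x' y'⟫_ℂ else 0) else 0) := by
    intro s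
    rw [hv, hw, inner_smul_left, inner_smul_right, sum_inner, Complex.conj_ofReal,
      Finset.mul_sum, Finset.mul_sum]
    refine Finset.sum_congr rfl fun y _ => ?_
    rw [inner_sum, Finset.mul_sum, Finset.mul_sum]
    refine Finset.sum_congr rfl fun y' _ => ?_
    rw [inner_smul_left, inner_smul_right]
    have h2 : (((1 : ℝ) / Real.sqrt 2 : ℝ) : ℂ) * (((1 : ℝ) / Real.sqrt 2 : ℝ) : ℂ) = 1 / 2 := by
      rw [← Complex.ofReal_mul, div_mul_div_comm, Real.mul_self_sqrt (by norm_num)]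
      push_cast
      ring
    split_ifs
    · rw [← mul_assoc, h2]
      ring
    · simp
    · simp
    · simp
  rw [Finset.sum_congr rfl fun s _ => hs s, Finset.sum_comm]
  refine Finset.sum_congr rfl fun y _ => ?_
  rw [Finset.sum_comm]
  refine Finset.sum_congr rfl fun y' _ => ?_
  rw [Finset.sum_eq_single_of_mem (y (Fin.last M)) (Finset.mem_univ _)]
  · rw [if_pos rfl]
    by_cases h : y (Fin.last M) = y' (Fin.last M)
    · rw [if_pos h, if_pos h.symm]
    · rw [if_neg h, if_neg fun h' => h h'.symm]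
  · intro s _ hs'
    rw [if_neg (Ne.symm hs')]

lemma inner_psi_path (ε ε' : ℕ → ℕ) (M : ℕ) :
    ⟪psi ι g b ε M, psi ι g b ε' M⟫_ℂ = ∑ y : Fin (M + 1) → Bool, ∑ y' : Fin (M + 1) → Bool,
      (if y (Fin.last M) = y' (Fin.last M) then
        (1 / 2) * ((starRingEnd ℂ) (amp b M y * ins ε M y) * (amp b M y' * ins ε' M y')) *
          ⟪wk ι g b M y, wk ι g b M y'⟫_ℂ else 0) :=
  inner_path M _ _ _ _ _ _ (psi_path ι g b ε M) (psi_path ι g b ε' M)

lemma inner_Fq_right (M : ℕ) (y : Fin (M + 1) → Bool) (f : K) :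
    ⟪Fq ι g b (cof g M y) M, f⟫_ℂ = ∑ l ∈ Finset.range M,
      -((g l : ℂ) * ⟪fv ι g b l, f⟫_ℂ) * ins (dl l) M y := by
  rw [Fq, sum_inner]
  refine Finset.sum_congr rfl fun l hl => ?_
  have hl' := Finset.mem_range.mp hl
  rw [inner_smul_left, Complex.conj_ofReal, cof, dif_pos (by omega), ins_dl M l (by omega)]
  push_cast
  ring

lemma inner_eVec_plusT (M : ℕ) (f : K) : ⟪eVec (Wd ι g b M), plusT (one' f)⟫_ℂ =
    ∑ l ∈ Finset.range M, -((g l : ℂ) * ⟪fv ι g b l, f⟫_ℂ) *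
      (⟪fv ι g b l, fv ι g b M⟫_ℂ - ⟪fv ι g b M, fv ι g b l⟫_ℂ) := by
  have h0 : psi ι g b (dl M) M = Zop ((Wd ι g b M : Sp K →L[ℂ] Sp K) Om) := by
    rw [psi_eq, TT_dl ι g b M M le_rfl, ← mul_apply_eq_comp, W_mul_Hs, mul_apply_eq_comp]
  have h1 : ⟪eVec (Wd ι g b M), plusT (one' f)⟫_ℂ =
      ⟪psi ι g b (dl M) M, (Wd ι g b M : Sp K →L[ℂ] Sp K) (plusT (one' f))⟫_ℂ := by
    rw [h0, eVec, ContinuousLinearMap.star_eq_adjoint, ContinuousLinearMap.adjoint_inner_left]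
  rw [h1, inner_path M _ _ _ _ _ _ (psi_path ι g b (dl M) M) (W_path ι g b M (one' f))]
  have h2 : ∀ l ∈ Finset.range M, ⟪fv ι g b l, fv ι g b M⟫_ℂ =
      ⟪psi ι g b (dl M + dl l) M, psi ι g b 0 M⟫_ℂ := by
    intro l hl
    have hl' := Finset.mem_range.mp hl
    have := inner_psi_eps ι g b M (false, M) (false, l) le_rfl hl'.le
    simp only [eps, GF, if_true, Bool.false_eq_true, if_false, add_zero, min_eq_right hl'.le,
      max_eq_left hl'.le] at this
    exact this.symm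
  have h3 : ∀ l ∈ Finset.range M, ⟪fv ι g b M, fv ι g b l⟫_ℂ =
      ⟪psi ι g b (dl M) M, psi ι g b (dl l) M⟫_ℂ := by
    intro l hl
    have hl' := Finset.mem_range.mp hl
    have := inner_psi_eps ι g b M (false, M) (true, l) le_rfl hl'.le
    simp only [eps, GF, if_true, Bool.false_eq_true, Bool.true_eq_false, if_false, add_zero,
      zero_add] at this
    exact this.symm
  have h4 : ∀ l ∈ Finset.range M, -((g l : ℂ) * ⟪fv ι g b l, f⟫_ℂ) *
      (⟪fv ι g b l, fv ι g b M⟫_ℂ - ⟪fv ι g b M, fv ι g b l⟫_ℂ) =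
      ∑ y : Fin (M + 1) → Bool, ∑ y' : Fin (M + 1) → Bool, -((g l : ℂ) * ⟪fv ι g b l, f⟫_ℂ) *
      ((if y (Fin.last M) = y' (Fin.last M) then
        (1 / 2) * ((starRingEnd ℂ) (amp b M y * ins (dl M) M y) * (amp b M y')) *
          ⟪wk ι g b M y, wk ι g b M y'⟫_ℂ * (ins (dl l) M y - ins (dl l) M y') else 0)) := by
    intro l hl
    rw [h2 l hl, h3 l hl, inner_psi_path, inner_psi_path, ← Finset.sum_sub_distrib, Finset.mul_sum]
    refine Finset.sum_congr rfl fun y _ => ?_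
    rw [← Finset.sum_sub_distrib, Finset.mul_sum]
    refine Finset.sum_congr rfl fun y' _ => ?_
    split_ifs
    · simp only [map_mul, conj_ins, ins_add, ins_zero]
      ring
    · simp
  rw [Finset.sum_congr rfl h4]
  symm
  rw [Finset.sum_comm]
  refine Finset.sum_congr rfl fun y _ => ?_
  rw [Finset.sum_comm]
  refine Finset.sum_congr rfl fun y' _ => ?_
  rw [inner_wk_opW_one', inner_Fq_right, inner_Fq_right, ← Finset.sum_sub_distrib]
  split_ifs
  · rw [Finset.mul_sum, Finset.mul_sum]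
    refine Finset.sum_congr rfl fun l _ => ?_
    ring
  · exact Finset.sum_eq_zero fun l _ => by simp

lemma Sop_apply (v : Sp K) : Sop ι v = -Complex.I • plusT (one' (ι v)) := by
  ext s
  show (((1 : ℝ) / Real.sqrt 2 : ℝ) : ℂ) • one (ι v) = -Complex.I •
    ((((1 : ℝ) / Real.sqrt 2 : ℝ) : ℂ) • one' (ι v))
  rw [one_apply, smul_comm]

/-- the energy of a word in terms of the Gram numbers of the fields. -/
theorem energy_Wd (p : ℕ) : energy ι (Wd ι g b p) =
    -∑ l ∈ Finset.range p, g l * (⟪fv ι g b l, fv ι g b p⟫_ℂ ^ 2).im := by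
  rw [energy, Sop_apply, inner_smul_right]
  have h : ι (eVec (Wd ι g b p)) = fv ι g b p := rfl
  rw [h, inner_eVec_plusT, Finset.mul_sum, Complex.re_sum, ← Finset.sum_neg_distrib]
  refine Finset.sum_congr rfl fun l _ => ?_
  rw [← inner_conj_symm (fv ι g b p) (fv ι g b l)]
  simp only [Complex.mul_re, Complex.mul_im, Complex.neg_re, Complex.neg_im, Complex.I_re,
    Complex.I_im, Complex.sub_re, Complex.sub_im, Complex.conj_re, Complex.conj_im,
    Complex.ofReal_re, Complex.ofReal_im, pow_two]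
  ring

/-- contour form of the energy -/
theorem energy_contour (p : ℕ) : ((energy ι (Wd ι g b p) : ℝ) : ℂ) =
    (Complex.I / 2) * ∑ τ : Pos p, (gam g p τ : ℂ) *
      GF ι g b (true, p) (τ.1, (τ.2 : ℕ)) ^ 2 := by
  have h1 := sumPos p (fun t : Bool × ℕ =>
      ((if t.2 < p then (if t.1 then -(g t.2) else g t.2) else 0 : ℝ) : ℂ) *
        GF ι g b (true, p) t ^ 2) (by simp) (by simp)
  have h1' : ∑ τ : Pos p, (gam g p τ : ℂ) * GF ι g b (true, p) (τ.1, (τ.2 : ℕ)) ^ 2 = _ := h1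
  rw [h1', energy_Wd]
  have h2 : ∀ l ∈ Finset.range p, (((if (false, l).2 < p then
      (if (false, l).1 then -(g (false, l).2) else g (false, l).2) else 0 : ℝ)) : ℂ) *
        GF ι g b (true, p) (false, l) ^ 2 = (g l : ℂ) * ⟪fv ι g b l, fv ι g b p⟫_ℂ ^ 2 := by
    intro l hl
    rw [if_pos (Finset.mem_range.mp hl)]
    rfl
  have h3 : ∀ l ∈ Finset.range p, (((if (true, l).2 < p then
      (if (true, l).1 then -(g (true, l).2) else g (true, l).2) else 0 : ℝ)) : ℂ) *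
        GF ι g b (true, p) (true, l) ^ 2 = -((g l : ℂ) * ⟪fv ι g b p, fv ι g b l⟫_ℂ ^ 2) := by
    intro l hl
    have hl' := Finset.mem_range.mp hl
    rw [if_pos hl']
    simp only [GF, if_true, max_eq_left hl'.le, min_eq_right hl'.le]
    push_cast
    ring
  rw [Finset.sum_congr rfl h2, Finset.sum_congr rfl h3, ← Finset.sum_add_distrib, Finset.mul_sum]
  push_cast
  rw [← Finset.sum_neg_distrib]
  refine Finset.sum_congr rfl fun l _ => ?_
  rw [← inner_conj_symm (fv ι g b p) (fv ι g b l), ← map_pow]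
  set z := ⟪fv ι g b l, fv ι g b p⟫_ℂ ^ 2
  apply Complex.ext
  · simp
    ring
  · simp

/-- words as iterated layers -/
lemma wordU_eq (angles : List (ℝ × ℝ)) (g b : ℕ → ℝ)
    (hg : ∀ l < angles.length, (angles.getD l (0, 0)).1 = g l)
    (hb : ∀ l < angles.length, (angles.getD l (0, 0)).2 = b l) :
    wordU ι angles = Wd ι g b angles.length := by
  induction angles using List.reverseRecOn with
  | nil => rfl
  | append_singleton as a ih =>
    rw [wordU, List.foldl_append, List.foldl_cons, List.foldl_nil, List.length_append,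
      List.length_singleton, Wd]
    have h1 : as.foldl (fun U a => moveB a.2 (moveC ι a.1 U)) 1 = wordU ι as := rfl
    rw [h1, ih]
    · have h2 := hg as.length (by simp)
      have h3 := hb as.length (by simp)
      simp only [List.getD_eq_getElem?_getD] at h2 h3
      simp at h2 h3
      rw [h2, h3]
    · intro l hl
      have := hg l (by simp; omega)
      rw [← this]
      simp [List.getD_eq_getElem?_getD, List.getElem?_append_left hl]
    · intro l hl
      have := hb l (by simp; omega)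
      rw [← this]
      simp [List.getD_eq_getElem?_getD, List.getElem?_append_left hl]

end Crest.Agent.R339.Site
end
private theorem rz_707c1a8482 : type_of% @_root_.Crest.Agent.R339.Site.TT.eq_def := @_root_.Crest.Agent.R339.Site.TT.eq_def -- L103
private theorem rz_f876fa925f : type_of% @_root_.Crest.Agent.R339.Site.TT.eq_1 := @_root_.Crest.Agent.R339.Site.TT.eq_1 -- L103
private theorem rz_eea94ac84d : type_of% @_root_.Crest.Agent.R339.Site.Wd.eq_def := @_root_.Crest.Agent.R339.Site.Wd.eq_def -- L32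
private theorem rz_430bcee5fa : type_of% @_root_.Crest.Agent.R339.Site.Wd.eq_1 := @_root_.Crest.Agent.R339.Site.Wd.eq_1 -- L32
private theorem rz_3f6d4a44e1 : type_of% @_root_.Crest.Agent.R339.Site.opN.eq_def := @_root_.Crest.Agent.R339.Site.opN.eq_def -- L667
private theorem rz_8b02265257 : type_of% @_root_.Crest.Agent.R339.Site.opN.eq_1 := @_root_.Crest.Agent.R339.Site.opN.eq_1 -- L667
private theorem rz_71a5010e5b : type_of% @_root_.Crest.Agent.R339.Site.opW.eq_def := @_root_.Crest.Agent.R339.Site.opW.eq_def -- L661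
private theorem rz_e895f6d198 : type_of% @_root_.Crest.Agent.R339.Site.opW.eq_1 := @_root_.Crest.Agent.R339.Site.opW.eq_1 -- L661
private theorem rz_f5a320d9a8 : type_of% @_root_.Crest.Agent.R339.Site.psi.eq_def := @_root_.Crest.Agent.R339.Site.psi.eq_def -- L98
private theorem rz_33fba67cfb : type_of% @_root_.Crest.Agent.R339.Site.psi.eq_1 := @_root_.Crest.Agent.R339.Site.psi.eq_1 -- L98
private theorem rz_c016418ceb : type_of% @_root_.Crest.Agent.R339.Site.wk.eq_def := @_root_.Crest.Agent.R339.Site.wk.eq_def -- L251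
private theorem rz_c21a518937 : type_of% @_root_.Crest.Agent.R339.Site.wk.eq_1 := @_root_.Crest.Agent.R339.Site.wk.eq_1 -- L251
private theorem rz_c4e2dc900a : type_of% @_root_.Crest.Agent.R339.Site.wkN.eq_def := @_root_.Crest.Agent.R339.Site.wkN.eq_def -- L350
private theorem rz_9976b549da : type_of% @_root_.Crest.Agent.R339.Site.wkN.eq_1 := @_root_.Crest.Agent.R339.Site.wkN.eq_1 -- L350
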