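import Crest.Agent.R339.Refine55A
import Crest.Agent.R339.D3Chain
import Crest.Agent.R339.Lim286Def
import Mathlib
import Crest.Prelude.Def_SpinGlass
import Crest.Agent.R339.GTools
import Crest.Agent.R339.LimFock90

-- ▼ part R339/Refine55B
section

set_option autoImplicit false

namespace Crest.Agent.R339.Ref

open MeasureTheory ProbabilityTheory Filter Topology Set
open scoped Interval
open Crest.Agent.R164.GC hiding Adm
open Crest.Agent.R339.B Crest.Agent.R339.Var Crest.Agent.R339.V4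
open Crest.ProbabilityR.InvariantGlass (gaussOp)

noncomputable section

/-! ### values at the junctions -/

theorem PhiT_zero {β : ℝ} {l : List (ℝ × ℝ)} (hl : ∀ q ∈ l, 0 < q.1 ∧ 0 ≤ q.2) :
    PhiT β l 0 = PhiL β l := by
  cases l with
  | nil => rfl
  | cons q l =>
    have hq := hl q (by simp)
    unfold PhiT
    rw [if_pos hq.2, sub_zero]
    rfl

theorem EX_zero {β : ℝ} {l : List (ℝ × ℝ)} (hl : ∀ q ∈ l, 0 < q.1 ∧ 0 ≤ q.2) (F : ℝ → ℝ) :
    EX β l 0 F = F := by
  cases l with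
  | nil => rfl
  | cons q l =>
    have hq := hl q (by simp)
    unfold EX
    rw [if_pos hq.2, tE_v0]

theorem PhiT_le {β : ℝ} {p : ℝ × ℝ} {l : List (ℝ × ℝ)} {t : ℝ} (h : t ≤ p.2) :
    PhiT β (p :: l) t = gaussOp p.1 (p.2 - t) (PhiL β l) := by
  unfold PhiT; rw [if_pos h]

theorem EX_le {β : ℝ} {p : ℝ × ℝ} {l : List (ℝ × ℝ)} {t : ℝ} (h : t ≤ p.2) (F : ℝ → ℝ) :
    EX β (p :: l) t F = tE p.1 t (gaussOp p.1 (p.2 - t) (PhiL β l)) F := by
  unfold EX; rw [if_pos h]

theorem PhiT_ge {β : ℝ} {p : ℝ × ℝ} {l : List (ℝ × ℝ)} (hp : 0 < p.1)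
    (hl : ∀ q ∈ l, 0 < q.1 ∧ 0 ≤ q.2) {t : ℝ} (h : p.2 ≤ t) :
    PhiT β (p :: l) t = PhiT β l (t - p.2) := by
  rcases h.eq_or_lt with rfl | h
  · rw [PhiT_le le_rfl, sub_self, gaussOp_v0 hp.ne', PhiT_zero hl]
  · conv_lhs => unfold PhiT
    rw [if_neg (not_le.2 h)]

theorem EX_ge {β : ℝ} {p : ℝ × ℝ} {l : List (ℝ × ℝ)} (hp : 0 < p.1)
    (hl : ∀ q ∈ l, 0 < q.1 ∧ 0 ≤ q.2) {t : ℝ} (h : p.2 ≤ t) (F : ℝ → ℝ) :
    EX β (p :: l) t F = tE p.1 p.2 (PhiL β l) (EX β l (t - p.2) F) := by
  rcases h.eq_or_lt with rfl | h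
  · rw [EX_le le_rfl, sub_self, gaussOp_v0 hp.ne', EX_zero hl]
  · conv_lhs => unfold EX
    rw [if_neg (not_le.2 h)]

theorem adm_both {β : ℝ} {l : List (ℝ × ℝ)} (h : Adm β l) : ∀ q ∈ l, 0 < q.1 ∧ 0 ≤ q.2 :=
  fun q hq => ⟨V4.Adm.pos h q hq, V4.Adm.len_nonneg h q hq⟩

/-! ### one block -/


theorem blk_anti {m : ℝ} (hm : 0 ≤ m) {Φ : ℝ → ℝ} (h : Prof Φ) (d x : ℝ) :
    tE m d Φ (deriv (deriv Φ)) x ≤ deriv (deriv (gaussOp m d Φ)) x := by
  rw [h.gaussOp_deriv2]
  have := mul_nonneg hm (var_nonneg h.lip m d h.bd.eg x)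
  simp only
  linarith

/-! ### along the list -/



theorem XX_le {β : ℝ} {p : ℝ × ℝ} {l : List (ℝ × ℝ)} {t : ℝ} (h : t ≤ p.2) (x : ℝ) :
    XX β (p :: l) t x = tE p.1 t (gaussOp p.1 (p.2 - t) (PhiL β l))
      (deriv (deriv (gaussOp p.1 (p.2 - t) (PhiL β l)))) x := by
  unfold XX
  rw [EX_le h, PhiT_le h]

theorem XX_ge {β : ℝ} {p : ℝ × ℝ} {l : List (ℝ × ℝ)} (hp : 0 < p.1)
    (hl : ∀ q ∈ l, 0 < q.1 ∧ 0 ≤ q.2) {t : ℝ} (h : p.2 ≤ t) (x : ℝ) :
    XX β (p :: l) t x = tE p.1 p.2 (PhiL β l) (XX β l (t - p.2)) x := by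
  unfold XX
  rw [EX_ge hp hl h, PhiT_ge hp hl h]



/-- **`E Φ_xx` is nonincreasing in time** -/
theorem XX_anti {β : ℝ} (hβ : 0 < β) : ∀ {l : List (ℝ × ℝ)}, Adm β l → ∀ {t t' : ℝ}, 0 ≤ t →
    t ≤ t' → ∀ x, XX β l t' x ≤ XX β l t x
  | [], _, t, t', _, htt, x => by
    unfold XX EX PhiT
    exact le_rfl
  | p :: l, hA, t, t', ht, htt, x => by
    have hmβ : p.1 ≤ β := hA.2.1.trans hA.2.2.2.head_le
    have hInv : Inv β p.1 (PhiL β l) := (PhiL_inv hβ hA.2.2.2).mono hA.2.1
    have hprof := PhiL_prof hβ l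
    have hb := adm_both hA.2.2.2
    have hblock : ∀ {s s' : ℝ}, 0 ≤ s → s ≤ s' → s' ≤ p.2 →
        XX β (p :: l) s' x ≤ XX β (p :: l) s x := by
      intro s s' hs hss hs'
      set f := gaussOp p.1 (p.2 - s') (PhiL β l) with hf
      have hIf : Inv β p.1 f := hInv.step hA.1 hmβ _
      have e1 : gaussOp p.1 (p.2 - s) (PhiL β l) = gaussOp p.1 (s' - s) f := by
        rw [hf, ← gaussOp_semi hprof hA.1.ne' (by linarith) (by linarith)]
        congr 1
        ring
      rw [XX_le hs', XX_le (hss.trans hs'), ← hf, e1]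
      have e2 : tE p.1 s' f (deriv (deriv f)) =
          tE p.1 s (gaussOp p.1 (s' - s) f) (tE p.1 (s' - s) f (deriv (deriv f))) := by
        rw [← tE_semi hIf.prof hA.1.ne' hs (by linarith) (d2_BC hβ hIf).eg]
        congr 1
        ring
      rw [e2]
      have hI' : Inv β p.1 (gaussOp p.1 (s' - s) f) := hIf.step hA.1 hmβ _
      have hb1 : BC (tE p.1 (s' - s) f (deriv (deriv f))) β :=
        tE_BC hIf.prof.lip _ _ (d2_BC hβ hIf)
      exact tE_mono hI'.prof.lip _ _ hb1.eg (d2_BC hβ hI').eg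
        (fun y => blk_anti hA.1.le hIf.prof _ y) x
    have hrest : ∀ {s s' : ℝ}, p.2 ≤ s → s ≤ s' → XX β (p :: l) s' x ≤ XX β (p :: l) s x := by
      intro s s' hs hss
      rw [XX_ge hA.1 hb (hs.trans hss), XX_ge hA.1 hb hs]
      exact tE_mono hprof.lip _ _ (XX_BC hβ hA.2.2.2 _).eg (XX_BC hβ hA.2.2.2 _).eg
        (fun y => XX_anti hβ hA.2.2.2 (by linarith) (by linarith) y) x
    rcases le_total t' p.2 with h1 | h1
    · exact hblock ht htt h1
    · rcases le_total p.2 t with h2 | h2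
      · exact hrest h2 htt
      · exact (hrest le_rfl h1).trans (hblock ht h2 le_rfl)

/-- comparison with the left Riemann sum -/
theorem XX_riemann {β : ℝ} (hβ : 0 < β) {l : List (ℝ × ℝ)} (hA : Adm β l) {d : ℝ} (hd : 0 ≤ d)
    (x : ℝ) : ∀ R : ℕ, ∫ s in (0:ℝ)..(R:ℝ) * d, XX β l s x ≤
      d * ∑ r ∈ Finset.range R, XX β l ((r:ℝ) * d) x
  | 0 => by simp
  | R + 1 => by
    have ih := XX_riemann hβ hA hd x R
    have hR : (0:ℝ) ≤ (R:ℝ) * d := by positivity
    have hle : (R:ℝ) * d ≤ ((R + 1 : ℕ) : ℝ) * d := by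
      push_cast; nlinarith
    rw [← intervalIntegral.integral_add_adjacent_intervals (XX_ii hβ hA x 0 ((R:ℝ) * d))
      (XX_ii hβ hA x ((R:ℝ) * d) (((R + 1 : ℕ) : ℝ) * d)), Finset.sum_range_succ, mul_add]
    refine add_le_add ih ?_
    have h1 : ∫ s in ((R:ℝ) * d)..(((R + 1 : ℕ) : ℝ) * d), XX β l s x ≤
        ∫ s in ((R:ℝ) * d)..(((R + 1 : ℕ) : ℝ) * d), XX β l ((R:ℝ) * d) x := by
      apply intervalIntegral.integral_mono_on hle (XX_ii hβ hA x _ _) (by simp)
      intro s hs
      exact XX_anti hβ hA hR hs.1 x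
    refine h1.trans ?_
    rw [intervalIntegral.integral_const, smul_eq_mul]
    push_cast
    have : ((R:ℝ) + 1) * d - (R:ℝ) * d = d := by ring
    rw [this]

/-! ### sub-blocks -/

/-- `[t, t+d]` lies in one block of level `μ` -/
def InBlk : List (ℝ × ℝ) → ℝ → ℝ → ℝ → Prop
  | [], _, _, _ => False
  | p :: l, t, d, μ => (t + d ≤ p.2 ∧ μ = p.1) ∨ (p.2 ≤ t ∧ InBlk l (t - p.2) d μ)

theorem InBlk.pos {β : ℝ} : ∀ {l : List (ℝ × ℝ)} {t d μ : ℝ}, InBlk l t d μ → Adm β l →
    0 < μ ∧ μ ≤ β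
  | [], _, _, _, h, _ => h.elim
  | p :: l, t, d, μ, h, hA => by
    rcases h with ⟨_, rfl⟩ | ⟨_, h⟩
    · exact ⟨hA.1, hA.2.1.trans hA.2.2.2.head_le⟩
    · exact h.pos hA.2.2.2

theorem PhiT_blk {β : ℝ} (hβ : 0 < β) : ∀ {l : List (ℝ × ℝ)} {t d μ : ℝ}, Adm β l → 0 ≤ t → 0 ≤ d →
    InBlk l t d μ → PhiT β l t = gaussOp μ d (PhiT β l (t + d))
  | [], _, _, _, _, _, _, h => h.elim
  | p :: l, t, d, μ, hA, ht, hd, h => by
    rcases h with ⟨h1, rfl⟩ | ⟨h1, h2⟩
    · rw [PhiT_le (by linarith), PhiT_le h1,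
        ← gaussOp_semi (PhiL_prof hβ l) hA.1.ne' hd (by linarith)]
      congr 1
      ring
    · have hb := adm_both hA.2.2.2
      rw [PhiT_ge hA.1 hb h1, PhiT_ge hA.1 hb (by linarith),
        PhiT_blk hβ hA.2.2.2 (by linarith) hd h2]
      congr 2
      ring

theorem EX_blk {β : ℝ} (hβ : 0 < β) : ∀ {l : List (ℝ × ℝ)} {t d μ : ℝ}, Adm β l → 0 ≤ t → 0 ≤ d →
    InBlk l t d μ → ∀ {F : ℝ → ℝ}, EG F →
    EX β l (t + d) F = EX β l t (tE μ d (PhiT β l (t + d)) F)
  | [], _, _, _, _, _, _, h, _, _ => h.elim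
  | p :: l, t, d, μ, hA, ht, hd, h, F, hF => by
    rcases h with ⟨h1, rfl⟩ | ⟨h1, h2⟩
    · have hprof := PhiL_prof hβ l
      rw [EX_le h1, EX_le (by linarith), PhiT_le h1,
        tE_semi (hprof.step p.1 (p.2 - (t + d))) hA.1.ne' ht hd hF,
        ← gaussOp_semi hprof hA.1.ne' hd (by linarith)]
      have e : d + (p.2 - (t + d)) = p.2 - t := by ring
      rw [e]
    · have hb := adm_both hA.2.2.2
      have e : t + d - p.2 = t - p.2 + d := by ring
      rw [EX_ge hA.1 hb h1, EX_ge hA.1 hb (by linarith), PhiT_ge hA.1 hb (by linarith), e,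
        EX_blk hβ hA.2.2.2 (by linarith) hd h2 hF]

theorem ofFn_blk {D d s : ℝ} (hs : 0 ≤ s) (hsd : s + d ≤ D) (hD : 0 ≤ D) : ∀ {K : ℕ}
    (m : Fin K → ℝ) (k : Fin K), InBlk (List.ofFn fun k => (m k, D)) ((k:ℕ) * D + s) d (m k)
  | 0, _, k => k.elim0
  | K + 1, m, k => by
    rw [List.ofFn_succ]
    refine Fin.cases ?_ (fun j => ?_) k
    · left
      constructor
      · simp only [Fin.val_zero, Nat.cast_zero]
        linarith
      · rfl
    · right
      have e : ((j.succ : Fin (K + 1)) : ℕ) * D + s - D = (j : ℕ) * D + s := by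
        rw [Fin.val_succ]; push_cast; ring
      refine ⟨?_, ?_⟩
      · show D ≤ _
        rw [Fin.val_succ]
        push_cast
        have : (0:ℝ) ≤ (j:ℕ) := Nat.cast_nonneg _
        nlinarith
      · show InBlk _ (((j.succ : Fin (K + 1)) : ℕ) * D + s - D) d _
        rw [e]
        exact ofFn_blk hs hsd hD (fun k => m k.succ) j

/-- the level at the refined step `r` -/
def mm {K : ℕ} (β : ℝ) (m : Fin K → ℝ) (N r : ℕ) : ℝ := if h : r / N < K then m ⟨r / N, h⟩ else β

theorem grid_blk {K N : ℕ} (hN : 0 < N) {β : ℝ} (m : Fin K → ℝ) {r : ℕ} (hr : r < K * N) :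
    InBlk (grid m) ((r:ℝ) * (1 / ((K:ℝ) * N))) (1 / ((K:ℝ) * N)) (mm β m N r) := by
  have hK : 0 < K := by
    rcases Nat.eq_zero_or_pos K with h | h
    · subst h; simp at hr
    · exact h
  have hK' : (0:ℝ) < K := by exact_mod_cast hK
  have hN' : (0:ℝ) < N := by exact_mod_cast hN
  have hdiv : r / N < K := (Nat.div_lt_iff_lt_mul hN).2 hr
  unfold mm
  rw [dif_pos hdiv]
  have hmod : r % N < N := Nat.mod_lt _ hN
  have hcast : (r:ℝ) = (N:ℝ) * ((r / N : ℕ) : ℝ) + ((r % N : ℕ) : ℝ) := by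
    exact_mod_cast (Nat.div_add_mod r N).symm
  have e : (r:ℝ) * (1 / ((K:ℝ) * N)) =
      (((⟨r / N, hdiv⟩ : Fin K) : ℕ) : ℝ) * (1 / (K:ℝ)) + ((r % N : ℕ) : ℝ) * (1 / ((K:ℝ) * N)) := by
    show _ = ((r / N : ℕ) : ℝ) * (1 / (K:ℝ)) + _
    conv_lhs => rw [hcast]
    field_simp
  rw [e]
  refine ofFn_blk (by positivity) ?_ (by positivity) m ⟨r / N, hdiv⟩
  have h1 : ((r % N : ℕ) : ℝ) + 1 ≤ N := by exact_mod_cast hmod
  have h2 : ((r % N : ℕ) : ℝ) * (1 / ((K:ℝ) * N)) + 1 / ((K:ℝ) * N) =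
      (((r % N : ℕ) : ℝ) + 1) * (1 / ((K:ℝ) * N)) := by ring
  rw [h2]
  calc (((r % N : ℕ) : ℝ) + 1) * (1 / ((K:ℝ) * N)) ≤ (N:ℝ) * (1 / ((K:ℝ) * N)) := by gcongr
    _ = 1 / (K:ℝ) := by field_simp

/-- the refined profile -/
def fr {K : ℕ} (β : ℝ) (m : Fin K → ℝ) (N r : ℕ) : ℝ → ℝ :=
  PhiT β (grid m) ((r:ℝ) * (1 / ((K:ℝ) * N)))

/-- the constant of the schedule -/
def CC (β : ℝ) : ℝ := max β (2 * β ^ 2)

theorem fr_sm {K : ℕ} {β : ℝ} (hβ : 0 < β) {m : Fin K → ℝ} (hA : Adm β (grid m)) (N r : ℕ) :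
    Sm (fr β m N r) (deriv (fr β m N r)) (deriv (deriv (fr β m N r))) (CC β) := by
  obtain ⟨μ, _, _, hI⟩ := PhiT_inv hβ hA ((r:ℝ) * (1 / ((K:ℝ) * N)))
  exact ⟨hI.prof.d1, hI.prof.bd.hasDerivAt, hI.prof.bd.deriv.cont, hI.prof.b1,
    fun x => ((d2_BC hβ hI).bd x).trans (le_max_left _ _)⟩

theorem fr_succ {K : ℕ} {β : ℝ} (hβ : 0 < β) {m : Fin K → ℝ} (hA : Adm β (grid m)) {N : ℕ}
    (hN : 0 < N) {r : ℕ} (hr : r < K * N) :
    fr β m N r = gaussOp (mm β m N r) (1 / ((K:ℝ) * N)) (fr β m N (r + 1)) := by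
  unfold fr
  rw [PhiT_blk hβ hA (by positivity) (by positivity) (grid_blk hN (β := β) m hr)]
  congr 2
  push_cast
  ring

/-- **the refined schedule** -/
theorem sched {K : ℕ} {β : ℝ} (hβ : 0 < β) {m : Fin K → ℝ} (hA : Adm β (grid m)) {N : ℕ}
    (hN : 0 < N) {R : ℕ} (hR : R ≤ K * N) :
    D3.Sched β (CC β) R (1 / ((K:ℝ) * N)) (mm β m N) (fun _ => 1 / ((K:ℝ) * N)) (fr β m N)
      (fun r => deriv (fr β m N r)) (fun r => deriv (deriv (fr β m N r))) := by
  have hprof : ∀ r, Prof (fr β m N r) := fun r => PhiT_prof hβ _ _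
  refine ⟨hβ.le, hβ.le.trans (le_max_left _ _), fun r hr => ?_, fun r hr => ?_, fun r hr => ?_,
    fun r _ => le_rfl, ?_⟩
  · have hpos := (grid_blk hN (β := β) m (hr.trans_le hR)).pos hA
    refine ⟨hpos.1, hpos.2, by positivity, ?_, fr_sm hβ hA N (r + 1), fun x y => ?_⟩
    · have hK : 0 < K := by
        rcases Nat.eq_zero_or_pos K with h | h
        · subst h; omega
        · exact h
      have : (1:ℝ) ≤ (K:ℝ) * N := by exact_mod_cast Nat.mul_pos hK hN
      rw [div_le_one (by linarith)]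
      exact this
    · refine (PhiT_second_lip hβ hA _ x y).trans ?_
      exact mul_le_mul_of_nonneg_right (le_max_right _ _) (abs_nonneg _)
  · conv_lhs => rw [fr_succ hβ hA hN (hr.trans_le hR)]
    exact (hprof (r + 1)).gaussOp_deriv _ _
  · conv_lhs => rw [fr_succ hβ hA hN (hr.trans_le hR)]
    rw [(hprof (r + 1)).gaussOp_deriv2]
    funext x
    unfold g2
    have e : (fun y => deriv (fr β m N (r + 1)) y * deriv (fr β m N (r + 1)) y) =
        fun y => deriv (fr β m N (r + 1)) y ^ 2 := by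
      funext y; ring
    rw [e]
    ring
  · rw [Finset.sum_const, Finset.card_range, nsmul_eq_mul]
    rcases Nat.eq_zero_or_pos K with h | hK
    · subst h
      simp at hR
      subst hR
      simp
    · have hK' : (0:ℝ) < K := by exact_mod_cast hK
      have hN' : (0:ℝ) < N := by exact_mod_cast hN
      rw [mul_one_div, div_le_one (by positivity)]
      exact_mod_cast hR

/-- the composed kernels of the schedule are the tilted expectations -/
theorem comp_eq {K : ℕ} {β : ℝ} (hβ : 0 < β) {m : Fin K → ℝ} (hA : Adm β (grid m)) {N : ℕ}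
    (hN : 0 < N) : ∀ {r : ℕ}, r ≤ K * N → ∀ {V : ℝ → ℝ} {B : ℝ}, BC V B →
    D3.comp (D3.Kern (mm β m N) (fun _ => 1 / ((K:ℝ) * N)) (fr β m N)) r 0 V =
      EX β (grid m) ((r:ℝ) * (1 / ((K:ℝ) * N))) V
  | 0, _, V, B, _ => by
    rw [Nat.cast_zero, zero_mul, EX_zero (adm_both hA)]
    rfl
  | r + 1, hr, V, B, hV => by
    have hstep := EX_blk hβ hA (by positivity) (by positivity)
      (grid_blk hN (β := β) m (show r < K * N by omega)) hV.eg
    have e : ((r + 1 : ℕ) : ℝ) * (1 / ((K:ℝ) * N)) =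
        (r:ℝ) * (1 / ((K:ℝ) * N)) + 1 / ((K:ℝ) * N) := by
      push_cast; ring
    rw [D3.comp_succ', zero_add, e, hstep]
    have hbc : BC (D3.Kern (mm β m N) (fun _ => 1 / ((K:ℝ) * N)) (fr β m N) r V) B :=
      tE_BC (PhiT_prof hβ _ _).lip _ _ hV
    rw [comp_eq hβ hA hN (by omega) hbc]
    unfold D3.Kern fr
    rw [e]

theorem comp_XX {K : ℕ} {β : ℝ} (hβ : 0 < β) {m : Fin K → ℝ} (hA : Adm β (grid m)) {N : ℕ}
    (hN : 0 < N) {r : ℕ} (hr : r ≤ K * N) :
    D3.comp (D3.Kern (mm β m N) (fun _ => 1 / ((K:ℝ) * N)) (fr β m N)) r 0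
      (deriv (deriv (fr β m N r))) 0 = XX β (grid m) ((r:ℝ) * (1 / ((K:ℝ) * N))) 0 := by
  rw [comp_eq hβ hA hN hr ⟨(fr_sm hβ hA N r).c2, (fr_sm hβ hA N r).b2⟩]
  rfl

theorem comp_gg {K : ℕ} {β : ℝ} (hβ : 0 < β) {m : Fin K → ℝ} (hA : Adm β (grid m)) {N : ℕ}
    (hN : 0 < N) {r : ℕ} (hr : r ≤ K * N) :
    D3.comp (D3.Kern (mm β m N) (fun _ => 1 / ((K:ℝ) * N)) (fr β m N)) r 0
      (fun y => deriv (deriv (fr β m N r)) y ^ 2) 0 =
      gg β (grid m) ((r:ℝ) * (1 / ((K:ℝ) * N))) 0 := by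
  have hbc : BC (deriv (deriv (fr β m N r))) (CC β) :=
    ⟨(fr_sm hβ hA N r).c2, (fr_sm hβ hA N r).b2⟩
  rw [comp_eq hβ hA hN hr (hbc.pow 2)]
  rfl

/-- parities and positivity -/
theorem fr_parity {K : ℕ} {β : ℝ} (hβ : 0 < β) {m : Fin K → ℝ} (hA : Adm β (grid m)) (N r : ℕ) :
    (∀ x, deriv (fr β m N r) (-x) = -deriv (fr β m N r) x) ∧
    (∀ x, deriv (deriv (fr β m N r)) (-x) = deriv (deriv (fr β m N r)) x) ∧
    (∀ x, 0 < deriv (deriv (fr β m N r)) x) := by
  obtain ⟨μ, _, _, hI⟩ := PhiT_inv hβ hA ((r:ℝ) * (1 / ((K:ℝ) * N)))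
  exact ⟨hI.odd, deriv_neg_of_odd hI.odd, hI.low.pos⟩

end

end Crest.Agent.R339.Ref
end

-- ▼ part R339/Lim286Gen
section

/-!
R339 part (C1): peeling one site + Tannery in the averaged path functional (general `μ`, `γ`).
-/

set_option autoImplicit false
set_option linter.unusedSectionVars false

namespace Crest.Agent.R339.Lim

open Crest.MathPhysics.SpinGlass MeasureTheory Filter Topology
open scoped BigOperators

section general
variable {P : Type*} [Fintype P] [DecidableEq P]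

lemma ss_self (b : Bool) : spinSign b * spinSign b = 1 := by
  cases b <;> simp [spinSign]


lemma Kf_symm (γ : P → ℝ) (a b : P → Bool) : Kf γ a b = Kf γ b a := by
  unfold Kf
  refine Finset.sum_congr rfl fun τ _ => ?_
  ring

lemma Kf_self {γ : P → ℝ} (hγ : ∑ τ, γ τ = 0) (a : P → Bool) : Kf γ a a = 0 := by
  unfold Kf
  simp [ss_self, hγ]

variable (μ : (P → Bool) → ℂ) (γ : P → ℝ)

lemma FF_add (n N : ℕ) (Ψ Φ : (Fin N → P → Bool) → ℂ) :
    FF μ γ n N (fun a => Ψ a + Φ a) = FF μ γ n N Ψ + FF μ γ n N Φ := by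
  unfold FF
  rw [← Finset.sum_add_distrib]
  refine Finset.sum_congr rfl fun a _ => ?_
  ring

lemma FF_const_mul (n N : ℕ) (c : ℂ) (Ψ : (Fin N → P → Bool) → ℂ) :
    FF μ γ n N (fun a => c * Ψ a) = c * FF μ γ n N Ψ := by
  unfold FF
  rw [Finset.mul_sum]
  refine Finset.sum_congr rfl fun a _ => ?_
  ring

lemma FF_sum {ι : Type*} (s : Finset ι) (n N : ℕ) (Ψ : ι → (Fin N → P → Bool) → ℂ) :
    FF μ γ n N (fun a => ∑ i ∈ s, Ψ i a) = ∑ i ∈ s, FF μ γ n N (Ψ i) := by
  unfold FF
  rw [Finset.sum_comm]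
  refine Finset.sum_congr rfl fun a _ => ?_
  rw [Finset.mul_sum]

lemma Q_perm (n : ℕ) {N : ℕ} (e : Equiv.Perm (Fin N)) (a : Fin N → P → Bool) (τ τ' : P) :
    Q n (a ∘ e) τ τ' = Q n a τ τ' := by
  unfold Q
  congr 1
  exact Equiv.sum_comp e (fun j => spinSign (a j τ) * spinSign (a j τ'))

lemma Qp_perm (n : ℕ) {N : ℕ} (e : Equiv.Perm (Fin N)) (l : List (P × P))
    (a : Fin N → P → Bool) : Qp n l (a ∘ e) = Qp n l a := by
  unfold Qp
  simp only [Q_perm]

lemma wt_perm (n : ℕ) {N : ℕ} (e : Equiv.Perm (Fin N)) (a : Fin N → P → Bool) :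
    wt γ n (a ∘ e) = wt γ n a := by
  unfold wt
  congr 2
  have h : ∀ i, ∑ j, (Kf γ ((a ∘ e) i) ((a ∘ e) j)) ^ 2 = ∑ j, (Kf γ (a (e i)) (a j)) ^ 2 :=
    fun i => Equiv.sum_comp e (fun j => (Kf γ (a (e i)) (a j)) ^ 2)
  rw [Finset.sum_congr rfl fun i _ => h i]
  exact Equiv.sum_comp e (fun i => ∑ j, (Kf γ (a i) (a j)) ^ 2)

lemma FF_perm (n : ℕ) {N : ℕ} (e : Equiv.Perm (Fin N)) (Ψ : (Fin N → P → Bool) → ℂ) :
    FF μ γ n N (fun a => Ψ (a ∘ e)) = FF μ γ n N Ψ := by
  unfold FF
  rw [← Equiv.sum_comp (Equiv.arrowCongr e.symm (Equiv.refl (P → Bool)))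
    (fun a => (∏ j, μ (a j)) * (wt γ n a : ℂ) * Ψ a)]
  refine Finset.sum_congr rfl fun a _ => ?_
  have h1 : (Equiv.arrowCongr e.symm (Equiv.refl (P → Bool))) a = a ∘ e := by
    funext j
    simp [Equiv.arrowCongr]
  rw [h1, wt_perm]
  congr 2
  exact (Equiv.prod_comp e (fun j => μ (a j))).symm

lemma Q_cons (n : ℕ) {N : ℕ} (a0 : P → Bool) (a : Fin N → P → Bool) (τ τ' : P) :
    Q n (Fin.cons a0 a : Fin (N + 1) → P → Bool) τ τ'
      = Q n a τ τ' + (1 / (n : ℝ)) * (spinSign (a0 τ) * spinSign (a0 τ')) := by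
  unfold Q
  rw [Fin.sum_univ_succ]
  simp only [Fin.cons_zero, Fin.cons_succ]
  ring

lemma wt_cons {γ : P → ℝ} (hγ : ∑ τ, γ τ = 0) (n : ℕ) {N : ℕ} (a0 : P → Bool)
    (a : Fin N → P → Bool) :
    wt γ n (Fin.cons a0 a : Fin (N + 1) → P → Bool)
      = Real.exp (∑ q : P × P, (-(1 / 2) * (γ q.1 * γ q.2
          * (spinSign (a0 q.1) * spinSign (a0 q.2)))) * Q n a q.1 q.2) * wt γ n a := by
  unfold wt
  rw [← Real.exp_add]
  congr 1
  have e1 : ∑ i, ∑ j, (Kf γ ((Fin.cons a0 a : Fin (N + 1) → P → Bool) i)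
      ((Fin.cons a0 a : Fin (N + 1) → P → Bool) j)) ^ 2
      = 2 * ∑ j, (Kf γ a0 (a j)) ^ 2 + ∑ i, ∑ j, (Kf γ (a i) (a j)) ^ 2 := by
    rw [Fin.sum_univ_succ]
    simp only [Fin.sum_univ_succ, Fin.cons_zero, Fin.cons_succ, Finset.sum_add_distrib]
    rw [Kf_self hγ]
    have : ∑ x, (Kf γ (a x) a0) ^ 2 = ∑ j, (Kf γ a0 (a j)) ^ 2 :=
      Finset.sum_congr rfl fun x _ => by rw [Kf_symm]
    rw [this]
    ring
  have e2 : ∑ q : P × P, (-(1 / 2) * (γ q.1 * γ q.2
          * (spinSign (a0 q.1) * spinSign (a0 q.2)))) * Q n a q.1 q.2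
      = -(1 / 2) * (1 / (n : ℝ)) * ∑ j, (Kf γ a0 (a j)) ^ 2 := by
    unfold Q Kf
    have h3 : ∀ j : Fin N, (∑ τ, γ τ * (spinSign (a0 τ) * spinSign (a j τ))) ^ 2
        = ∑ q : P × P, (γ q.1 * γ q.2 * (spinSign (a0 q.1) * spinSign (a0 q.2)))
            * (spinSign (a j q.1) * spinSign (a j q.2)) := by
      intro j
      rw [sq, Finset.sum_mul_sum, Fintype.sum_prod_type]
      refine Finset.sum_congr rfl fun x _ => Finset.sum_congr rfl fun y _ => ?_
      ring
    simp_rw [h3]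
    rw [Finset.sum_comm, Finset.mul_sum]
    refine Finset.sum_congr rfl fun q _ => ?_
    simp_rw [← Finset.mul_sum]
    ring
  rw [e1, e2]
  ring

/-- the exponent produced by peeling a site with path `a0`. -/
noncomputable def cof (γ : P → ℝ) (a0 : P → Bool) (q : P × P) : ℝ :=
  -(1 / 2) * (γ q.1 * γ q.2 * (spinSign (a0 q.1) * spinSign (a0 q.2)))

/-- linear form in the overlaps -/
noncomputable def Xf (cc : P × P → ℝ) (n : ℕ) {N : ℕ} (a : Fin N → P → Bool) : ℂ :=
  ∑ q : P × P, (cc q : ℂ) * ((Q n a q.1 q.2 : ℝ) : ℂ)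

lemma FF_succ {γ : P → ℝ} (hγ : ∑ τ, γ τ = 0) (n N : ℕ)
    (Ψ : (Fin (N + 1) → P → Bool) → ℂ) :
    FF μ γ n (N + 1) Ψ
      = ∑ a0, μ a0 * FF μ γ n N
          (fun a => Complex.exp (Xf (cof γ a0) n a) * Ψ (Fin.cons a0 a)) := by
  unfold FF
  rw [← Equiv.sum_comp (Fin.consEquiv (fun _ : Fin (N + 1) => (P → Bool)))
    (fun a => (∏ j, μ (a j)) * (wt γ n a : ℂ) * Ψ a), Fintype.sum_prod_type]
  refine Finset.sum_congr rfl fun a0 _ => ?_
  rw [Finset.mul_sum]
  refine Finset.sum_congr rfl fun a _ => ?_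
  have h1 : (Fin.consEquiv (fun _ : Fin (N + 1) => (P → Bool))) (a0, a)
      = (Fin.cons a0 a : Fin (N + 1) → P → Bool) := rfl
  rw [h1, wt_cons hγ, Fin.prod_univ_succ]
  simp only [Fin.cons_zero, Fin.cons_succ]
  have h2 : ((Real.exp (∑ q : P × P, (-(1 / 2) * (γ q.1 * γ q.2
          * (spinSign (a0 q.1) * spinSign (a0 q.2)))) * Q n a q.1 q.2) * wt γ n a : ℝ) : ℂ)
      = Complex.exp (Xf (cof γ a0) n a) * (wt γ n a : ℂ) := by
    unfold Xf cof
    push_cast
    rfl
  rw [h2]
  ring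

lemma Qp_nil (n : ℕ) {N : ℕ} (a : Fin N → P → Bool) : Qp n [] a = 1 := by
  simp [Qp]

lemma Qp_cons (n : ℕ) {N : ℕ} (q : P × P) (l : List (P × P)) (a : Fin N → P → Bool) :
    Qp n (q :: l) a = ((Q n a q.1 q.2 : ℝ) : ℂ) * Qp n l a := by
  simp [Qp]

lemma Qp_append (n : ℕ) {N : ℕ} (k l : List (P × P)) (a : Fin N → P → Bool) :
    Qp n (k ++ l) a = Qp n k a * Qp n l a := by
  simp [Qp]

/-- the shifted product coming from the peeled site. -/
noncomputable def Qs (a0 : P → Bool) (n : ℕ) {N : ℕ} (l : List (P × P))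
    (a : Fin N → P → Bool) : ℂ :=
  (l.map (fun q => ((Q n a q.1 q.2 : ℝ) : ℂ)
    + (1 / (n : ℂ)) * ((spinSign (a0 q.1) * spinSign (a0 q.2) : ℝ) : ℂ))).prod

lemma Qs_nil (a0 : P → Bool) (n : ℕ) {N : ℕ} (a : Fin N → P → Bool) : Qs a0 n [] a = 1 := by
  simp [Qs]

lemma Qs_cons (a0 : P → Bool) (n : ℕ) {N : ℕ} (q : P × P) (l : List (P × P))
    (a : Fin N → P → Bool) :
    Qs a0 n (q :: l) a = (((Q n a q.1 q.2 : ℝ) : ℂ)
      + (1 / (n : ℂ)) * ((spinSign (a0 q.1) * spinSign (a0 q.2) : ℝ) : ℂ)) * Qs a0 n l a := by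
  simp [Qs]

lemma Qp_Fcons (n : ℕ) {N : ℕ} (l : List (P × P)) (a0 : P → Bool) (a : Fin N → P → Bool) :
    Qp n l (Fin.cons a0 a : Fin (N + 1) → P → Bool) = Qs a0 n l a := by
  unfold Qp Qs
  congr 1
  refine List.map_congr_left fun q _ => ?_
  rw [Q_cons]
  push_cast
  ring

/-- PEEL: one overlap factor is replaced by one peeled site. -/
lemma FF_Qp_peel {γ : P → ℝ} (hγ : ∑ τ, γ τ = 0) (n N : ℕ) (q : P × P) (l : List (P × P)) :
    FF μ γ n (N + 1) (Qp n (q :: l))
      = (((N : ℂ) + 1) / (n : ℂ)) * ∑ a0, (μ a0 * ((spinSign (a0 q.1) * spinSign (a0 q.2) : ℝ) : ℂ))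
          * FF μ γ n N (fun a => Complex.exp (Xf (cof γ a0) n a) * Qs a0 n l a) := by
  have h1 : ∀ j : Fin (N + 1),
      FF μ γ n (N + 1) (fun a => ((spinSign (a j q.1) * spinSign (a j q.2) : ℝ) : ℂ) * Qp n l a)
      = FF μ γ n (N + 1)
          (fun a => ((spinSign (a 0 q.1) * spinSign (a 0 q.2) : ℝ) : ℂ) * Qp n l a) := by
    intro j
    rw [← FF_perm μ γ n (Equiv.swap 0 j)
      (fun a => ((spinSign (a j q.1) * spinSign (a j q.2) : ℝ) : ℂ) * Qp n l a)]
    congr 1
    funext a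
    rw [Qp_perm]
    simp
  have h2 : (fun a : Fin (N + 1) → P → Bool => Qp n (q :: l) a)
      = fun a => (1 / (n : ℂ)) * ∑ j : Fin (N + 1),
          ((spinSign (a j q.1) * spinSign (a j q.2) : ℝ) : ℂ) * Qp n l a := by
    funext a
    rw [Qp_cons, ← Finset.sum_mul]
    unfold Q
    push_cast
    ring
  have h3 : FF μ γ n (N + 1) (Qp n (q :: l)) = FF μ γ n (N + 1) (fun a => Qp n (q :: l) a) := rfl
  rw [h3, h2, FF_const_mul, FF_sum, Finset.sum_congr rfl (fun j _ => h1 j), Finset.sum_const,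
    Finset.card_univ, Fintype.card_fin, FF_succ μ hγ]
  rw [nsmul_eq_mul]
  have h4 : ∀ a0 : P → Bool, μ a0 * FF μ γ n N (fun a => Complex.exp (Xf (cof γ a0) n a)
        * (((spinSign ((Fin.cons a0 a : Fin (N + 1) → P → Bool) 0 q.1)
            * spinSign ((Fin.cons a0 a : Fin (N + 1) → P → Bool) 0 q.2) : ℝ) : ℂ)
          * Qp n l (Fin.cons a0 a : Fin (N + 1) → P → Bool)))
      = (μ a0 * ((spinSign (a0 q.1) * spinSign (a0 q.2) : ℝ) : ℂ))
          * FF μ γ n N (fun a => Complex.exp (Xf (cof γ a0) n a) * Qs a0 n l a) := by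
    intro a0
    rw [mul_assoc, ← FF_const_mul μ γ n N ((spinSign (a0 q.1) * spinSign (a0 q.2) : ℝ) : ℂ)]
    congr 2
    funext a
    rw [Qp_Fcons, Fin.cons_zero]
    ring
  rw [Finset.sum_congr rfl fun a0 _ => h4 a0]
  push_cast
  ring

end general

end Crest.Agent.R339.Lim
end

-- ▼ part R339/Lim286Tan
section

/-!
R339 part (C1): Tannery in the power series of the peeled exponential.
-/

set_option autoImplicit false
set_option linter.unusedSectionVars false

namespace Crest.Agent.R339.Lim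

open Crest.MathPhysics.SpinGlass MeasureTheory Filter Topology
open scoped BigOperators

section general
variable {P : Type*} [Fintype P] [DecidableEq P]
variable (μ : (P → Bool) → ℂ) (γ : P → ℝ)

/-- uniform bound hypothesis -/
def BddQ : Prop := ∀ (n N : ℕ), N ≤ n → ∀ l : List (P × P), ‖FF μ γ n N (Qp n l)‖ ≤ 1

/-- sum of the absolute values of the coefficients -/
noncomputable def cn (cc : P × P → ℝ) : ℝ := ∑ q, |cc q|


lemma FF_pow_succ (cc : P × P → ℝ) (n N r : ℕ) (l : List (P × P)) :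
    FF μ γ n N (fun a => Xf cc n a ^ (r + 1) * Qp n l a)
      = ∑ q : P × P, (cc q : ℂ) * FF μ γ n N (fun a => Xf cc n a ^ r * Qp n (q :: l) a) := by
  simp_rw [← FF_const_mul]
  rw [← FF_sum]
  congr 1
  funext a
  simp_rw [Qp_cons]
  rw [pow_succ]
  conv_lhs => rw [Xf]
  rw [Finset.mul_sum, Finset.sum_mul]
  refine Finset.sum_congr rfl fun q _ => ?_
  rw [← Xf]
  ring

lemma FF_pow_bound (hB : BddQ μ γ) (cc : P × P → ℝ) {n N : ℕ} (hN : N ≤ n) (r : ℕ) :
    ∀ l : List (P × P), ‖FF μ γ n N (fun a => Xf cc n a ^ r * Qp n l a)‖ ≤ cn cc ^ r := by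
  induction r with
  | zero =>
    intro l
    simpa using hB n N hN l
  | succ r ih =>
    intro l
    rw [FF_pow_succ, pow_succ']
    refine (norm_sum_le _ _).trans ?_
    unfold cn
    rw [Finset.sum_mul]
    refine Finset.sum_le_sum fun q _ => ?_
    rw [norm_mul]
    have h1 : ‖(cc q : ℂ)‖ = |cc q| := by simp
    rw [h1]
    exact mul_le_mul_of_nonneg_left (ih (q :: l)) (abs_nonneg _)

lemma FF_exp_hasSum (cc : P × P → ℝ) (n N : ℕ) (Ψ : (Fin N → P → Bool) → ℂ) :
    HasSum (fun r : ℕ => ((r.factorial : ℂ))⁻¹ * FF μ γ n N (fun a => Xf cc n a ^ r * Ψ a))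
      (FF μ γ n N (fun a => Complex.exp (Xf cc n a) * Ψ a)) := by
  have h0 : ∀ a : Fin N → P → Bool,
      HasSum (fun r : ℕ => (∏ j, μ (a j)) * (wt γ n a : ℂ)
        * (((r.factorial : ℂ))⁻¹ * (Xf cc n a ^ r * Ψ a)))
      ((∏ j, μ (a j)) * (wt γ n a : ℂ) * (Complex.exp (Xf cc n a) * Ψ a)) := by
    intro a
    refine HasSum.mul_left _ ?_
    have h1 : HasSum (fun r : ℕ => ((r.factorial : ℂ))⁻¹ * Xf cc n a ^ r)
        (Complex.exp (Xf cc n a)) := by
      have := NormedSpace.exp_series_hasSum_exp' (𝕂 := ℂ) (Xf cc n a)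
      rw [← Complex.exp_eq_exp_ℂ] at this
      simpa [smul_eq_mul] using this
    have h2 := h1.mul_right (Ψ a)
    simpa [mul_assoc] using h2
  have h3 := hasSum_sum (s := (Finset.univ : Finset (Fin N → P → Bool))) (fun a _ => h0 a)
  have h4 : (fun r : ℕ => ((r.factorial : ℂ))⁻¹ * FF μ γ n N (fun a => Xf cc n a ^ r * Ψ a))
      = fun r : ℕ => ∑ a, (∏ j, μ (a j)) * (wt γ n a : ℂ)
        * (((r.factorial : ℂ))⁻¹ * (Xf cc n a ^ r * Ψ a)) := by
    funext r
    unfold FF
    rw [Finset.mul_sum]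
    refine Finset.sum_congr rfl fun a _ => ?_
    ring
  rw [h4]
  exact h3

lemma FF_exp_bound (hB : BddQ μ γ) (cc : P × P → ℝ) {n N : ℕ} (hN : N ≤ n)
    (l : List (P × P)) :
    ‖FF μ γ n N (fun a => Complex.exp (Xf cc n a) * Qp n l a)‖ ≤ Real.exp (cn cc) := by
  have h1 := FF_exp_hasSum μ γ cc n N (Qp n l)
  have h2 : HasSum (fun r : ℕ => ((r.factorial : ℝ))⁻¹ * cn cc ^ r) (Real.exp (cn cc)) := by
    have := NormedSpace.exp_series_hasSum_exp' (𝕂 := ℝ) (cn cc)
    rw [← Real.exp_eq_exp_ℝ] at this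
    simpa [smul_eq_mul] using this
  rw [← h1.tsum_eq, ← h2.tsum_eq]
  refine tsum_of_norm_bounded h2.summable.hasSum fun r => ?_
  rw [norm_mul]
  have h3 : ‖((r.factorial : ℂ))⁻¹‖ = ((r.factorial : ℝ))⁻¹ := by
    rw [norm_inv]; simp
  rw [h3]
  exact mul_le_mul_of_nonneg_left (FF_pow_bound μ γ hB cc hN r l) (by positivity)

/-- convergence of the powers of the linear form. -/
lemma conv_pow (cc : P × P → ℝ) (low : P × P → Prop) (hcc : ∀ q, ¬ low q → cc q = 0)
    (G : P × P → ℂ) (B : ℂ) (t : List (P × P)) (c : ℕ)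
    (H : ∀ k : List (P × P), (∀ q ∈ k, low q) →
      Tendsto (fun N => FF μ γ (N + c) N (Qp (N + c) (k ++ t))) atTop
        (𝓝 ((k.map G).prod * B))) (r : ℕ) :
    ∀ k : List (P × P), (∀ q ∈ k, low q) →
      Tendsto (fun N => FF μ γ (N + c) N (fun a => Xf cc (N + c) a ^ r * Qp (N + c) (k ++ t) a))
        atTop (𝓝 ((∑ q, (cc q : ℂ) * G q) ^ r * ((k.map G).prod * B))) := by
  induction r with
  | zero =>
    intro k hk
    simpa using H k hk
  | succ r ih =>
    intro k hk
    have h1 : (fun N => FF μ γ (N + c) N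
        (fun a => Xf cc (N + c) a ^ (r + 1) * Qp (N + c) (k ++ t) a))
        = fun N => ∑ q : P × P, (cc q : ℂ) * FF μ γ (N + c) N
          (fun a => Xf cc (N + c) a ^ r * Qp (N + c) ((q :: k) ++ t) a) := by
      funext N
      rw [FF_pow_succ]
      rfl
    rw [h1]
    have h2 : (∑ q, (cc q : ℂ) * G q) ^ (r + 1) * ((k.map G).prod * B)
        = ∑ q, (cc q : ℂ) * ((∑ q, (cc q : ℂ) * G q) ^ r * (((q :: k).map G).prod * B)) := by
      rw [pow_succ', Finset.sum_mul, Finset.sum_mul]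
      refine Finset.sum_congr rfl fun q _ => ?_
      rw [List.map_cons, List.prod_cons]
      ring
    rw [h2]
    refine tendsto_finset_sum _ fun q _ => ?_
    by_cases hq : low q
    · refine Tendsto.const_mul _ (ih (q :: k) ?_)
      intro q' hq'
      rcases List.mem_cons.1 hq' with rfl | h
      · exact hq
      · exact hk q' h
    · rw [hcc q hq]
      simp

lemma conv_exp (hB : BddQ μ γ) (cc : P × P → ℝ) (low : P × P → Prop)
    (hcc : ∀ q, ¬ low q → cc q = 0)
    (G : P × P → ℂ) (B : ℂ) (t : List (P × P)) (c : ℕ)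
    (H : ∀ k : List (P × P), (∀ q ∈ k, low q) →
      Tendsto (fun N => FF μ γ (N + c) N (Qp (N + c) (k ++ t))) atTop
        (𝓝 ((k.map G).prod * B)))
    (k : List (P × P)) (hk : ∀ q ∈ k, low q) :
    Tendsto (fun N => FF μ γ (N + c) N
        (fun a => Complex.exp (Xf cc (N + c) a) * Qp (N + c) (k ++ t) a))
      atTop (𝓝 (Complex.exp (∑ q, (cc q : ℂ) * G q) * ((k.map G).prod * B))) := by
  have h1 : ∀ N : ℕ, FF μ γ (N + c) N
        (fun a => Complex.exp (Xf cc (N + c) a) * Qp (N + c) (k ++ t) a)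
      = ∑' r : ℕ, ((r.factorial : ℂ))⁻¹ * FF μ γ (N + c) N
          (fun a => Xf cc (N + c) a ^ r * Qp (N + c) (k ++ t) a) :=
    fun N => (FF_exp_hasSum μ γ cc (N + c) N (Qp (N + c) (k ++ t))).tsum_eq.symm
  have h2 : Complex.exp (∑ q, (cc q : ℂ) * G q) * ((k.map G).prod * B)
      = ∑' r : ℕ, ((r.factorial : ℂ))⁻¹
          * ((∑ q, (cc q : ℂ) * G q) ^ r * ((k.map G).prod * B)) := by
    have := NormedSpace.exp_series_hasSum_exp' (𝕂 := ℂ) (∑ q, (cc q : ℂ) * G q)
    rw [← Complex.exp_eq_exp_ℂ] at this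
    have h3 := (this.mul_right ((k.map G).prod * B)).tsum_eq
    rw [← h3]
    simp [smul_eq_mul, mul_assoc]
  simp_rw [h1]
  rw [h2]
  have h4 : Summable (fun r : ℕ => ((r.factorial : ℝ))⁻¹ * cn cc ^ r) := by
    have := NormedSpace.exp_series_hasSum_exp' (𝕂 := ℝ) (cn cc)
    have h5 := this.summable
    simpa [smul_eq_mul] using h5
  refine tendsto_tsum_of_dominated_convergence h4 ?_ ?_
  · intro r
    exact Tendsto.const_mul _ (conv_pow μ γ cc low hcc G B t c H r k hk)
  · refine Eventually.of_forall fun N r => ?_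
    rw [norm_mul]
    have h3 : ‖((r.factorial : ℂ))⁻¹‖ = ((r.factorial : ℝ))⁻¹ := by
      rw [norm_inv]; simp
    rw [h3]
    exact mul_le_mul_of_nonneg_left (FF_pow_bound μ γ hB cc (Nat.le_add_right N c) r _)
      (by positivity)

lemma tendsto_one_div_nat_add (c : ℕ) :
    Tendsto (fun N : ℕ => (1 / ((N + c : ℕ) : ℂ))) atTop (𝓝 0) := by
  have h1 : Tendsto (fun N : ℕ => (1 / ((N : ℕ) : ℂ))) atTop (𝓝 0) := by
    rw [tendsto_zero_iff_norm_tendsto_zero]
    simpa using tendsto_inv_atTop_nhds_zero_nat (𝕜 := ℝ)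
  exact h1.comp (tendsto_add_atTop_nat c)

/-- replacing the shifted product by the product costs `O(1/n)`. -/
lemma shift_diff (hB : BddQ μ γ) (cc : P × P → ℝ) (a0 : P → Bool) (c : ℕ)
    (l : List (P × P)) : ∀ k : List (P × P),
    Tendsto (fun N => FF μ γ (N + c) N
        (fun a => Complex.exp (Xf cc (N + c) a) * (Qp (N + c) k a * Qs a0 (N + c) l a))
      - FF μ γ (N + c) N
        (fun a => Complex.exp (Xf cc (N + c) a) * Qp (N + c) (k ++ l) a))
      atTop (𝓝 0) := by
  induction l with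
  | nil =>
    intro k
    simp [Qs_nil]
  | cons q l ih =>
    intro k
    set e : ℂ := ((spinSign (a0 q.1) * spinSign (a0 q.2) : ℝ) : ℂ) with he
    have h1 : ∀ N : ℕ, FF μ γ (N + c) N
        (fun a => Complex.exp (Xf cc (N + c) a) * (Qp (N + c) k a * Qs a0 (N + c) (q :: l) a))
        = FF μ γ (N + c) N
          (fun a => Complex.exp (Xf cc (N + c) a)
            * (Qp (N + c) (k ++ [q]) a * Qs a0 (N + c) l a))
        + ((1 / ((N + c : ℕ) : ℂ)) * e) * FF μ γ (N + c) N
          (fun a => Complex.exp (Xf cc (N + c) a) * (Qp (N + c) k a * Qs a0 (N + c) l a)) := by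
      intro N
      rw [← FF_const_mul, ← FF_add]
      congr 1
      funext a
      rw [Qs_cons, Qp_append, Qp_cons, Qp_nil]
      ring
    have h2 : ∀ N : ℕ, FF μ γ (N + c) N
        (fun a => Complex.exp (Xf cc (N + c) a) * Qp (N + c) (k ++ q :: l) a)
        = FF μ γ (N + c) N
        (fun a => Complex.exp (Xf cc (N + c) a) * Qp (N + c) ((k ++ [q]) ++ l) a) := by
      intro N
      rw [List.append_assoc]
      rfl
    simp_rw [h1, h2]
    have h3 := ih (k ++ [q])
    have h4 := ih k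
    -- boundedness of the unshifted functional
    have h5 : Tendsto (fun N => ((1 / ((N + c : ℕ) : ℂ)) * e) * FF μ γ (N + c) N
          (fun a => Complex.exp (Xf cc (N + c) a) * (Qp (N + c) k a * Qs a0 (N + c) l a)))
        atTop (𝓝 0) := by
      have h6 : Tendsto (fun N : ℕ => ((1 / ((N + c : ℕ) : ℂ)) * e)) atTop (𝓝 0) := by
        have := (tendsto_one_div_nat_add c).mul_const e
        simpa using this
      have h7 : IsBoundedUnder (· ≤ ·) atTop (norm ∘ (fun N => FF μ γ (N + c) N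
          (fun a => Complex.exp (Xf cc (N + c) a) * Qp (N + c) (k ++ l) a))) := by
        refine ⟨Real.exp (cn cc), ?_⟩
        rw [eventually_map]
        exact Eventually.of_forall fun N =>
          FF_exp_bound μ γ hB cc (Nat.le_add_right N c) (k ++ l)
      have h8 : Tendsto (fun N : ℕ => ((1 / ((N + c : ℕ) : ℂ)) * e) * FF μ γ (N + c) N
          (fun a => Complex.exp (Xf cc (N + c) a) * Qp (N + c) (k ++ l) a)) atTop (𝓝 0) :=
        h6.zero_mul_isBoundedUnder_le h7
      have h9 := (h6.mul h4).add h8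
      have h10 : (fun N : ℕ => ((1 / ((N + c : ℕ) : ℂ)) * e) * FF μ γ (N + c) N
          (fun a => Complex.exp (Xf cc (N + c) a) * (Qp (N + c) k a * Qs a0 (N + c) l a)))
          = fun N : ℕ => ((1 / ((N + c : ℕ) : ℂ)) * e) * (FF μ γ (N + c) N
        (fun a => Complex.exp (Xf cc (N + c) a) * (Qp (N + c) k a * Qs a0 (N + c) l a))
      - FF μ γ (N + c) N
        (fun a => Complex.exp (Xf cc (N + c) a) * Qp (N + c) (k ++ l) a))
        + ((1 / ((N + c : ℕ) : ℂ)) * e) * FF μ γ (N + c) N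
          (fun a => Complex.exp (Xf cc (N + c) a) * Qp (N + c) (k ++ l) a) := by
        funext N
        ring
      rw [h10]
      simpa using h9
    have h6 := h3.add h5
    rw [add_zero] at h6
    refine h6.congr fun N => ?_
    ring

/-- the fixed point map at one slice pair -/
noncomputable def Gnext (G : P × P → ℂ) (q : P × P) : ℂ :=
  ∑ a0 : P → Bool, (μ a0 * ((spinSign (a0 q.1) * spinSign (a0 q.2) : ℝ) : ℂ))
    * Complex.exp (∑ q' : P × P, ((cof γ a0 q' : ℝ) : ℂ) * G q')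

lemma tendsto_ratio (c : ℕ) :
    Tendsto (fun N : ℕ => (((N : ℂ) + 1) / ((N + (c + 1) : ℕ) : ℂ))) atTop (𝓝 1) := by
  have h1 : Tendsto (fun N : ℕ => (1 : ℂ) - (c : ℂ) * (1 / ((N + (c + 1) : ℕ) : ℂ))) atTop
      (𝓝 1) := by
    have := (tendsto_one_div_nat_add (c + 1)).const_mul (c : ℂ)
    have h2 := this.const_sub (1 : ℂ)
    simpa using h2
  refine h1.congr fun N => ?_
  have h3 : ((N + (c + 1) : ℕ) : ℂ) ≠ 0 := by
    exact_mod_cast (by omega : N + (c + 1) ≠ 0)
  field_simp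
  push_cast
  ring

/-- MAIN general step: convergence for `low` lists implies convergence for all lists. -/
theorem conv_general (hγ : ∑ τ, γ τ = 0) (hB : BddQ μ γ)
    (low : P × P → Prop) (hlow : ∀ q : P × P, γ q.1 ≠ 0 → γ q.2 ≠ 0 → low q)
    (G : P × P → ℂ)
    (H : ∀ k : List (P × P), (∀ q ∈ k, low q) → ∀ c : ℕ,
      Tendsto (fun N => FF μ γ (N + c) N (Qp (N + c) k)) atTop (𝓝 ((k.map G).prod)))
    (t : List (P × P)) :
    ∀ k : List (P × P), (∀ q ∈ k, low q) → ∀ c : ℕ,
      Tendsto (fun N => FF μ γ (N + c) N (Qp (N + c) (k ++ t))) atTop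
        (𝓝 ((k.map G).prod * (t.map (Gnext μ γ G)).prod)) := by
  induction t with
  | nil =>
    intro k hk c
    simpa using H k hk c
  | cons q t ih =>
    intro k hk c
    rw [← tendsto_add_atTop_iff_nat 1]
    have e1 : ∀ N : ℕ, FF μ γ (N + 1 + c) (N + 1) (Qp (N + 1 + c) (k ++ q :: t))
        = (((N : ℂ) + 1) / ((N + (c + 1) : ℕ) : ℂ)) * ∑ a0,
          (μ a0 * ((spinSign (a0 q.1) * spinSign (a0 q.2) : ℝ) : ℂ))
          * FF μ γ (N + (c + 1)) N (fun a => Complex.exp (Xf (cof γ a0) (N + (c + 1)) a)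
              * Qs a0 (N + (c + 1)) (k ++ t) a) := by
      intro N
      have h1 : N + 1 + c = N + (c + 1) := by omega
      rw [h1]
      have h2 : (Qp (N + (c + 1)) (k ++ q :: t) : (Fin (N + 1) → P → Bool) → ℂ)
          = Qp (N + (c + 1)) (q :: (k ++ t)) := by
        funext a
        rw [Qp_append, Qp_cons, Qp_cons, Qp_append]
        ring
      rw [h2, FF_Qp_peel μ hγ]
    simp_rw [e1]
    have e2 : ∀ a0 : P → Bool, Tendsto (fun N => FF μ γ (N + (c + 1)) N
        (fun a => Complex.exp (Xf (cof γ a0) (N + (c + 1)) a)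
              * Qs a0 (N + (c + 1)) (k ++ t) a)) atTop
        (𝓝 (Complex.exp (∑ q', ((cof γ a0 q' : ℝ) : ℂ) * G q')
          * ((k.map G).prod * (t.map (Gnext μ γ G)).prod))) := by
      intro a0
      have hcc : ∀ q', ¬ low q' → cof γ a0 q' = 0 := by
        intro q' hq'
        by_cases h1 : γ q'.1 = 0
        · simp [cof, h1]
        · by_cases h2 : γ q'.2 = 0
          · simp [cof, h2]
          · exact absurd (hlow q' h1 h2) hq'
      have h1 := conv_exp μ γ hB (cof γ a0) low hcc G ((t.map (Gnext μ γ G)).prod) t (c + 1)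
        (fun k' hk' => ih k' hk' (c + 1)) k hk
      have h2 := shift_diff μ γ hB (cof γ a0) a0 (c + 1) (k ++ t) []
      have h3 := h2.add h1
      rw [zero_add] at h3
      refine h3.congr fun N => ?_
      simp [Qp_nil]
    have e3 : Tendsto (fun N : ℕ => ∑ a0,
          (μ a0 * ((spinSign (a0 q.1) * spinSign (a0 q.2) : ℝ) : ℂ))
          * FF μ γ (N + (c + 1)) N (fun a => Complex.exp (Xf (cof γ a0) (N + (c + 1)) a)
              * Qs a0 (N + (c + 1)) (k ++ t) a)) atTop
        (𝓝 (∑ a0, (μ a0 * ((spinSign (a0 q.1) * spinSign (a0 q.2) : ℝ) : ℂ))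
          * (Complex.exp (∑ q', ((cof γ a0 q' : ℝ) : ℂ) * G q')
          * ((k.map G).prod * (t.map (Gnext μ γ G)).prod)))) :=
      tendsto_finset_sum _ fun a0 _ => Tendsto.const_mul _ (e2 a0)
    have e4 := (tendsto_ratio c).mul e3
    rw [one_mul] at e4
    have e5 : (∑ a0, (μ a0 * ((spinSign (a0 q.1) * spinSign (a0 q.2) : ℝ) : ℂ))
          * (Complex.exp (∑ q', ((cof γ a0 q' : ℝ) : ℂ) * G q')
          * ((k.map G).prod * (t.map (Gnext μ γ G)).prod)))
        = (k.map G).prod * ((q :: t).map (Gnext μ γ G)).prod := by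
      rw [List.map_cons, List.prod_cons]
      have : Gnext μ γ G q = ∑ a0 : P → Bool,
          (μ a0 * ((spinSign (a0 q.1) * spinSign (a0 q.2) : ℝ) : ℂ))
            * Complex.exp (∑ q' : P × P, ((cof γ a0 q' : ℝ) : ℂ) * G q') := rfl
      rw [this, Finset.sum_mul, Finset.mul_sum]
      refine Finset.sum_congr rfl fun a0 _ => ?_
      ring
    rw [e5] at e4
    exact e4

end general

end Crest.Agent.R339.Lim
end

-- ▼ part R339/Lim286Circ
section

/-!
R339 part (C1): the circuit weights, dropping the top layer, and the limit theorem.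
-/

set_option autoImplicit false
set_option linter.unusedSectionVars false

namespace Crest.Agent.R339.Lim

open Crest.MathPhysics.SpinGlass MeasureTheory Filter Topology
open scoped BigOperators

/-- restriction of a site path to the lower levels. -/
def rst (M : ℕ) (a : Pos (M + 1) → Bool) : Pos M → Bool := fun τ => a (τ.1, τ.2.castSucc)

/-- extension of a site path by two top values. -/
def ext (M : ℕ) (a : Pos M → Bool) (u : Bool × Bool) : Pos (M + 1) → Bool :=
  fun τ => (Fin.snoc (α := fun _ => Bool) (fun l => a (τ.1, l)) (if τ.1 then u.2 else u.1)) τ.2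

lemma rst_ext (M : ℕ) (a : Pos M → Bool) (u : Bool × Bool) : rst M (ext M a u) = a := by
  funext τ
  simp [rst, ext]

/-- splitting off the top values. -/
def splitTop (M : ℕ) : (Pos (M + 1) → Bool) ≃ (Pos M → Bool) × (Bool × Bool) where
  toFun a := (rst M a, (a (false, Fin.last (M + 1)), a (true, Fin.last (M + 1))))
  invFun p := ext M p.1 p.2
  left_inv a := by
    funext τ
    obtain ⟨s, l⟩ := τ
    refine Fin.lastCases ?_ (fun i => ?_) l
    · cases s <;> simp [ext]
    · simp [ext, rst]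
  right_inv p := by
    obtain ⟨a, u, v⟩ := p
    simp only [rst_ext]
    simp [ext]

lemma amp_succ (b : ℕ → ℝ) (M : ℕ) (y : Fin (M + 2) → Bool) :
    amp b (M + 1) y = amp b M (fun l => y l.castSucc)
      * mx (b M) (y (Fin.last (M + 1))) (y (Fin.last M).castSucc) := by
  unfold amp
  rw [Fin.prod_univ_castSucc]
  simp only [Fin.val_castSucc, Fin.val_last, Fin.succ_castSucc, Fin.succ_last]

lemma mx_sum (b : ℝ) (x y : Bool) :
    ∑ u : Bool, (starRingEnd ℂ) (mx b u x) * mx b u y = if x = y then 1 else 0 := by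
  have h : ((Real.cos b : ℝ) : ℂ) * ((Real.cos b : ℝ) : ℂ)
      + ((Real.sin b : ℝ) : ℂ) * ((Real.sin b : ℝ) : ℂ) = 1 := by
    rw [← Complex.ofReal_mul, ← Complex.ofReal_mul, ← Complex.ofReal_add]
    have : Real.cos b * Real.cos b + Real.sin b * Real.sin b = 1 := by
      have := Real.cos_sq_add_sin_sq b
      nlinarith
    rw [this]
    simp
  rw [Fintype.sum_bool]
  cases x <;> cases y <;> simp only [mx, map_neg, map_mul, Complex.conj_I, Complex.conj_ofReal,
    if_true, if_false, Bool.false_eq_true, Bool.true_eq_false, reduceIte, reduceCtorEq]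
  · linear_combination h + (-((Real.sin b : ℝ) : ℂ) * ((Real.sin b : ℝ) : ℂ)) * Complex.I_mul_I
  · ring
  · ring
  · linear_combination h + (-((Real.sin b : ℝ) : ℂ) * ((Real.sin b : ℝ) : ℂ)) * Complex.I_mul_I

lemma mu_ext (b : ℕ → ℝ) (M : ℕ) (a : Pos M → Bool) (u v : Bool) :
    mu b (M + 1) (ext M a (u, v))
      = (1 / 2) * (starRingEnd ℂ (amp b M (fun l => a (false, l))) * amp b M (fun l => a (true, l)))
        * ((if u = v then 1 else 0) * (starRingEnd ℂ (mx (b M) u (a (false, Fin.last M)))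
          * mx (b M) v (a (true, Fin.last M)))) := by
  unfold mu
  rw [amp_succ, amp_succ]
  have h1 : ∀ l : Fin (M + 1), ext M a (u, v) (false, l.castSucc) = a (false, l) := by
    intro l; simp [ext]
  have h2 : ∀ l : Fin (M + 1), ext M a (u, v) (true, l.castSucc) = a (true, l) := by
    intro l; simp [ext]
  have h3 : ext M a (u, v) (false, Fin.last (M + 1)) = u := by simp [ext]
  have h4 : ext M a (u, v) (true, Fin.last (M + 1)) = v := by simp [ext]
  simp only [h1, h2, h3, h4, map_mul]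
  ring

lemma mu_sum_top (b : ℕ → ℝ) (M : ℕ) (a : Pos M → Bool) :
    ∑ u : Bool × Bool, mu b (M + 1) (ext M a u) = mu b M a := by
  rw [Fintype.sum_prod_type]
  simp_rw [mu_ext]
  have h : ∀ u : Bool, ∑ v : Bool,
      (1 / 2) * (starRingEnd ℂ (amp b M (fun l => a (false, l))) * amp b M (fun l => a (true, l)))
        * ((if u = v then 1 else 0) * (starRingEnd ℂ (mx (b M) u (a (false, Fin.last M)))
          * mx (b M) v (a (true, Fin.last M))))
      = (1 / 2) * (starRingEnd ℂ (amp b M (fun l => a (false, l))) * amp b M (fun l => a (true, l)))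
        * ((starRingEnd ℂ (mx (b M) u (a (false, Fin.last M)))
          * mx (b M) u (a (true, Fin.last M)))) := by
    intro u
    rw [← Finset.mul_sum]
    congr 1
    simp
  rw [Finset.sum_congr rfl fun u _ => h u, ← Finset.mul_sum, mx_sum]
  unfold mu
  ring

lemma gam_castSucc_lt (g : ℕ → ℝ) (M : ℕ) (s : Bool) (l : Fin (M + 1)) (hl : (l : ℕ) < M) :
    gam g (M + 1) (s, l.castSucc) = gam g M (s, l) := by
  have h1 : (l : ℕ) < M + 1 := by omega
  simp only [gam, Fin.val_castSucc, h1, hl, if_true]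

lemma gam_last (g : ℕ → ℝ) (M : ℕ) (s : Bool) : gam g M (s, Fin.last M) = 0 := by
  simp [gam]

lemma gam_sum (g : ℕ → ℝ) (M : ℕ) : ∑ τ, gam g M τ = 0 := by
  rw [Fintype.sum_prod_type, Fintype.sum_bool, ← Finset.sum_add_distrib]
  refine Finset.sum_eq_zero fun l _ => ?_
  unfold gam
  by_cases h : (l : ℕ) < M <;> simp [h]

lemma Kf_succ (g : ℕ → ℝ) (M : ℕ) (a a' : Pos (M + 1) → Bool)
    (h1 : a (false, (Fin.last M).castSucc) = a (true, (Fin.last M).castSucc))
    (h2 : a' (false, (Fin.last M).castSucc) = a' (true, (Fin.last M).castSucc)) :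
    Kf (gam g (M + 1)) a a' = Kf (gam g M) (rst M a) (rst M a') := by
  unfold Kf
  rw [Fintype.sum_prod_type, Fintype.sum_bool, Fintype.sum_prod_type, Fintype.sum_bool,
    ← Finset.sum_add_distrib, ← Finset.sum_add_distrib, Fin.sum_univ_castSucc]
  have h3 : gam g (M + 1) (true, Fin.last (M + 1)) = 0 := gam_last g (M + 1) true
  have h4 : gam g (M + 1) (false, Fin.last (M + 1)) = 0 := gam_last g (M + 1) false
  rw [h3, h4, zero_mul, zero_mul, add_zero, add_zero]
  refine Finset.sum_congr rfl fun l _ => ?_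
  by_cases hl : (l : ℕ) < M
  · rw [gam_castSucc_lt g M true l hl, gam_castSucc_lt g M false l hl]
    rfl
  · have hl' : l = Fin.last M := by
      apply Fin.ext
      have := l.2
      simp only [Fin.val_last]
      omega
    subst hl'
    rw [gam_last, gam_last]
    have h5 : gam g (M + 1) (true, (Fin.last M).castSucc) = -(g M) := by simp [gam]
    have h6 : gam g (M + 1) (false, (Fin.last M).castSucc) = g M := by simp [gam]
    rw [h5, h6, h1, h2]
    ring

lemma mu_eq_zero (b : ℕ → ℝ) (M : ℕ) (a : Pos M → Bool)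
    (h : a (false, Fin.last M) ≠ a (true, Fin.last M)) : mu b M a = 0 := by
  simp [mu, h]

/-- DROP: a function that ignores the top slices only sees the shorter circuit. -/
theorem FF_drop (g b : ℕ → ℝ) (M n N : ℕ) (Ψ : (Fin N → Pos M → Bool) → ℂ) :
    FF (mu b (M + 1)) (gam g (M + 1)) n N (fun a => Ψ (fun j => rst M (a j)))
      = FF (mu b M) (gam g M) n N Ψ := by
  classical
  unfold FF
  rw [← Equiv.sum_comp ((Equiv.arrowProdEquivProdArrow (Fin N) (fun _ => Pos M → Bool)
      (fun _ => Bool × Bool)).symm.trans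
      (Equiv.arrowCongr (Equiv.refl (Fin N)) (splitTop M).symm))]
  rw [Fintype.sum_prod_type]
  refine Finset.sum_congr rfl fun a _ => ?_
  have h0 : ∀ u : Fin N → Bool × Bool,
      ((Equiv.arrowProdEquivProdArrow (Fin N) (fun _ => Pos M → Bool)
      (fun _ => Bool × Bool)).symm.trans
      (Equiv.arrowCongr (Equiv.refl (Fin N)) (splitTop M).symm)) (a, u)
      = fun j => ext M (a j) (u j) := by
    intro u
    funext j
    rfl
  simp_rw [h0, rst_ext]
  by_cases hs : ∀ j, a j (false, Fin.last M) = a j (true, Fin.last M)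
  · have hw : ∀ u : Fin N → Bool × Bool,
        wt (gam g (M + 1)) n (fun j => ext M (a j) (u j)) = wt (gam g M) n a := by
      intro u
      unfold wt
      congr 2
      refine Finset.sum_congr rfl fun i _ => Finset.sum_congr rfl fun j _ => ?_
      rw [Kf_succ g M _ _ ?_ ?_, rst_ext, rst_ext]
      · simpa [ext] using hs i
      · simpa [ext] using hs j
    simp_rw [hw]
    rw [← Finset.sum_mul, ← Finset.sum_mul]
    congr 2
    have h1 : ∏ j, mu b M (a j) = ∏ j, ∑ u : Bool × Bool, mu b (M + 1) (ext M (a j) u) :=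
      Finset.prod_congr rfl fun j _ => (mu_sum_top b M (a j)).symm
    rw [h1, Finset.prod_univ_sum, Fintype.piFinset_univ]
  · obtain ⟨j, hj⟩ := not_forall.1 hs
    have h1 : ∏ j, mu b M (a j) = 0 :=
      Finset.prod_eq_zero (Finset.mem_univ j) (mu_eq_zero b M _ hj)
    rw [h1, zero_mul, zero_mul]
    -- the sum over the tops at site `j` vanishes; but the weight depends on the lower part only
    have hw : ∀ u : Fin N → Bool × Bool,
        wt (gam g (M + 1)) n (fun j => ext M (a j) (u j))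
          = wt (gam g (M + 1)) n (fun j => ext M (a j) (false, false)) := by
      intro u
      unfold wt
      congr 2
      refine Finset.sum_congr rfl fun i _ => Finset.sum_congr rfl fun j _ => ?_
      congr 1
      unfold Kf
      refine Finset.sum_congr rfl fun τ _ => ?_
      obtain ⟨s, l⟩ := τ
      refine Fin.lastCases ?_ (fun l => ?_) l
      · rw [gam_last]; simp
      · simp [ext]
    simp_rw [hw]
    rw [← Finset.sum_mul, ← Finset.sum_mul]
    have h2 : ∑ u : Fin N → Bool × Bool, ∏ j, mu b (M + 1) (ext M (a j) (u j)) = 0 := by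
      have h3 : ∏ j, ∑ u : Bool × Bool, mu b (M + 1) (ext M (a j) u) = 0 :=
        Finset.prod_eq_zero (Finset.mem_univ j) (by rw [mu_sum_top]; exact mu_eq_zero b M _ hj)
      rw [Finset.prod_univ_sum, Fintype.piFinset_univ] at h3
      exact h3
    rw [h2, zero_mul, zero_mul]

lemma FF_Qp_nil_zero (g b : ℕ → ℝ) (n N : ℕ) :
    FF (mu b 0) (gam g 0) n N (Qp n []) = 1 := by
  unfold FF
  have h1 : ∀ a : Fin N → Pos 0 → Bool, wt (gam g 0) n a = 1 := by
    intro a
    unfold wt
    have : ∀ i j, Kf (gam g 0) (a i) (a j) = 0 := by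
      intro i j
      unfold Kf
      refine Finset.sum_eq_zero fun τ _ => ?_
      simp [gam]
    simp [this]
  simp_rw [h1, Qp_nil]
  simp only [Complex.ofReal_one, mul_one]
  have h2 : ∑ a : Pos 0 → Bool, mu b 0 a = 1 := by
    have h3 : ∀ a : Pos 0 → Bool, mu b 0 a
        = (1 / 2) * (if a (false, 0) = a (true, 0) then 1 else 0) := by
      intro a
      simp [mu, amp]
    simp_rw [h3]
    rw [← Finset.mul_sum]
    have h4 : ∑ a : Pos 0 → Bool, (if a (false, 0) = a (true, 0) then (1 : ℂ) else 0) = 2 := by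
      let e : (Pos 0 → Bool) ≃ Bool × Bool :=
        { toFun := fun a => (a (false, 0), a (true, 0))
          invFun := fun p τ => if τ.1 then p.2 else p.1
          left_inv := by
            intro a
            funext τ
            obtain ⟨s, l⟩ := τ
            have hl : l = 0 := by
              apply Fin.ext
              have := l.2
              simp only [Fin.val_zero]
              omega
            subst hl
            cases s <;> simp
          right_inv := by
            intro p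
            simp }
      have h5 : ∑ a : Pos 0 → Bool, (if a (false, 0) = a (true, 0) then (1 : ℂ) else 0)
          = ∑ p : Bool × Bool, (if p.1 = p.2 then (1 : ℂ) else 0) :=
        Equiv.sum_comp e (fun p : Bool × Bool => if p.1 = p.2 then (1 : ℂ) else 0)
      rw [h5, Fintype.sum_prod_type, Fintype.sum_bool, Fintype.sum_bool, Fintype.sum_bool]
      norm_num
    rw [h4]
    norm_num
  calc ∑ a : Fin N → Pos 0 → Bool, ∏ j, mu b 0 (a j)
      = ∏ _j : Fin N, ∑ a : Pos 0 → Bool, mu b 0 a := by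
        rw [Finset.prod_univ_sum, Fintype.piFinset_univ]
    _ = 1 := by rw [h2]; simp

/-- the consistent family hypothesis (fixed point equations of the overlap numbers). -/
def GCons (g b : ℕ → ℝ) (G : Bool × ℕ → Bool × ℕ → ℂ) : Prop :=
  ∀ (M : ℕ) (t t' : Pos M),
    (∑ a : Pos M → Bool, mu b M a * ((spinSign (a t) * spinSign (a t') : ℝ) : ℂ)
      * Complex.exp (-(1 / 2) * ∑ ρ : Pos M, ∑ ρ' : Pos M,
        ((gam g M ρ * gam g M ρ' * spinSign (a ρ) * spinSign (a ρ') : ℝ) : ℂ)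
          * G (ρ.1, (ρ.2 : ℕ)) (ρ'.1, (ρ'.2 : ℕ))))
      = G (t.1, (t.2 : ℕ)) (t'.1, (t'.2 : ℕ))

/-- the family restricted to the slices of height `M`. -/
def GR (G : Bool × ℕ → Bool × ℕ → ℂ) (M : ℕ) (q : Pos M × Pos M) : ℂ :=
  G (q.1.1, (q.1.2 : ℕ)) (q.2.1, (q.2.2 : ℕ))

lemma Gnext_GR {g b : ℕ → ℝ} {G : Bool × ℕ → Bool × ℕ → ℂ} (hG : GCons g b G) (M : ℕ)
    (q : Pos M × Pos M) : Gnext (mu b M) (gam g M) (GR G M) q = GR G M q := by
  have h := hG M q.1 q.2
  unfold GR at *
  rw [← h]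
  unfold Gnext
  refine Finset.sum_congr rfl fun a _ => ?_
  congr 2
  rw [Fintype.sum_prod_type, Finset.mul_sum]
  refine Finset.sum_congr rfl fun ρ _ => ?_
  rw [Finset.mul_sum]
  refine Finset.sum_congr rfl fun ρ' _ => ?_
  unfold cof
  push_cast
  ring

/-- a pair of slices of height `M` seen in height `M+1`. -/
def lft (M : ℕ) (q : Pos M × Pos M) : Pos (M + 1) × Pos (M + 1) :=
  ((q.1.1, q.1.2.castSucc), (q.2.1, q.2.2.castSucc))

lemma low_lift (M : ℕ) : ∀ k : List (Pos (M + 1) × Pos (M + 1)),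
    (∀ q ∈ k, (q.1.2 : ℕ) < M + 1 ∧ (q.2.2 : ℕ) < M + 1) →
    ∃ k' : List (Pos M × Pos M), k = k'.map (lft M) := by
  intro k
  induction k with
  | nil => intro _; exact ⟨[], rfl⟩
  | cons q k ih =>
    intro h
    obtain ⟨k', hk'⟩ := ih (fun q' hq' => h q' (List.mem_cons_of_mem _ hq'))
    have hq := h q (by simp)
    refine ⟨((q.1.1, ⟨q.1.2, hq.1⟩), (q.2.1, ⟨q.2.2, hq.2⟩)) :: k', ?_⟩
    rw [List.map_cons, ← hk']
    rfl

/-- **Limit theorem for the overlaps**, for every shift `c`. -/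
theorem tendsto_FF_shift {g b : ℕ → ℝ} {G : Bool × ℕ → Bool × ℕ → ℂ} (hG : GCons g b G)
    (hB : ∀ M, BddQ (mu b M) (gam g M)) (M : ℕ) :
    ∀ (l : List (Pos M × Pos M)) (c : ℕ),
      Tendsto (fun N => FF (mu b M) (gam g M) (N + c) N (Qp (N + c) l)) atTop
        (𝓝 ((l.map (GR G M)).prod)) := by
  induction M with
  | zero =>
    intro l c
    have h := conv_general (mu b 0) (gam g 0) (gam_sum g 0) (hB 0) (fun _ => False)
      (fun q h1 _ => absurd (by simp [gam]) h1) (GR G 0)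
      (by
        intro k hk c
        have : k = [] := by
          cases k with
          | nil => rfl
          | cons q k => exact absurd (hk q (by simp)) (by simp)
        subst this
        simp_rw [FF_Qp_nil_zero]
        simp) l [] (by simp) c
    have h2 : (l.map (Gnext (mu b 0) (gam g 0) (GR G 0))) = l.map (GR G 0) :=
      List.map_congr_left fun q _ => Gnext_GR hG 0 q
    rw [h2] at h
    simpa using h
  | succ M ih =>
    intro l c
    have h := conv_general (mu b (M + 1)) (gam g (M + 1)) (gam_sum g (M + 1)) (hB (M + 1))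
      (fun q => (q.1.2 : ℕ) < M + 1 ∧ (q.2.2 : ℕ) < M + 1)
      (by
        intro q h1 h2
        constructor
        · by_contra h3
          exact h1 (by simp [gam, h3])
        · by_contra h3
          exact h2 (by simp [gam, h3]))
      (GR G (M + 1))
      (by
        intro k hk c
        -- rewrite the low list as the image of a list of pairs of slices of height `M`
        obtain ⟨k', rfl⟩ := low_lift M k hk
        have h1 : ∀ N : ℕ, FF (mu b (M + 1)) (gam g (M + 1)) (N + c) N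
            (Qp (N + c) (k'.map (lft M)))
            = FF (mu b M) (gam g M) (N + c) N (Qp (N + c) k') := by
          intro N
          rw [← FF_drop g b M (N + c) N (Qp (N + c) k')]
          congr 1
          funext a
          unfold Qp
          rw [List.map_map]
          rfl
        simp_rw [h1]
        have h2 : ((k'.map (lft M)).map (GR G (M + 1))) = k'.map (GR G M) := by
          rw [List.map_map]
          rfl
        rw [h2]
        exact ih k' c) l [] (by simp) c
    have h2 : (l.map (Gnext (mu b (M + 1)) (gam g (M + 1)) (GR G (M + 1))))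
        = l.map (GR G (M + 1)) :=
      List.map_congr_left fun q _ => Gnext_GR hG (M + 1) q
    rw [h2] at h
    simpa using h

/-- **Limit theorem for the overlaps.** -/
theorem tendsto_FF {g b : ℕ → ℝ} {G : Bool × ℕ → Bool × ℕ → ℂ} (hG : GCons g b G)
    (hB : ∀ M, BddQ (mu b M) (gam g M)) (p : ℕ) (l : List (Pos p × Pos p)) :
    Tendsto (fun n => FF (mu b p) (gam g p) n n (Qp n l)) atTop (𝓝 ((l.map (GR G p)).prod)) :=
  tendsto_FF_shift hG hB p l 0

end Crest.Agent.R339.Lim
end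

-- ▼ part R339/En220A
section

/-!
R339 part (C1), helper220: exact Gaussian averages of exponentials of the couplings.
-/

set_option autoImplicit false

namespace Crest.Agent.R339.En

open MeasureTheory ProbabilityTheory Complex
open Crest.MathPhysics.SpinGlass
open scoped BigOperators

noncomputable section

theorem int_cexp (t : ℝ) :
    ∫ x, cexp (I * ((t * x : ℝ) : ℂ)) ∂(gaussianReal 0 1) = ((Real.exp (-(t ^ 2) / 2) : ℝ) : ℂ) := by
  have h := charFun_gaussianReal (μ := 0) (v := 1) t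
  rw [charFun_apply_real] at h
  have h2 : ∫ x, cexp (I * ((t * x : ℝ) : ℂ)) ∂(gaussianReal 0 1)
      = ∫ x, cexp (t * x * I) ∂(gaussianReal 0 1) := by
    congr 1; ext x; congr 1; push_cast; ring
  rw [h2, h]
  push_cast
  congr 1
  simp
  ring

theorem integrable_cexp (t : ℝ) :
    Integrable (fun x : ℝ => cexp (I * ((t * x : ℝ) : ℂ))) (gaussianReal 0 1) := by
  refine (integrable_const (1 : ℝ)).mono' ?_ (Filter.Eventually.of_forall fun x => ?_)
  · exact Continuous.aestronglyMeasurable (by fun_prop)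
  · rw [mul_comm, norm_exp_ofReal_mul_I]

theorem integrable_x_cexp (t : ℝ) :
    Integrable (fun x : ℝ => (x : ℂ) * cexp (I * ((t * x : ℝ) : ℂ))) (gaussianReal 0 1) := by
  have hx : Integrable (fun x : ℝ => x) (gaussianReal 0 1) := Guerra.integrable_id_γ
  refine hx.norm.mono' ?_ (Filter.Eventually.of_forall fun x => ?_)
  · exact Continuous.aestronglyMeasurable (by fun_prop)
  · rw [norm_mul, mul_comm I, norm_exp_ofReal_mul_I, mul_one, Complex.norm_real]

theorem int_x_cexp (t : ℝ) :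
    ∫ x, (x : ℂ) * cexp (I * ((t * x : ℝ) : ℂ)) ∂(gaussianReal 0 1)
      = I * t * ((Real.exp (-(t ^ 2) / 2) : ℝ) : ℂ) := by
  have hre : ∫ x, x * Real.cos (t * x) ∂(gaussianReal 0 1)
      = ∫ x, -(Real.sin (t * x)) * t ∂(gaussianReal 0 1) := by
    refine Guerra.stein1 (f := fun x => Real.cos (t * x)) (C := 1) (C' := |t|) (fun x => ?_)
      (by fun_prop) (fun x => Real.abs_cos_le_one _) (fun x => ?_)
    · have := ((hasDerivAt_id' x).const_mul t).cos
      simpa using this
    · rw [abs_mul, abs_neg]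
      exact mul_le_of_le_one_left (abs_nonneg _) (Real.abs_sin_le_one _)
  have him : ∫ x, x * Real.sin (t * x) ∂(gaussianReal 0 1)
      = ∫ x, Real.cos (t * x) * t ∂(gaussianReal 0 1) := by
    refine Guerra.stein1 (f := fun x => Real.sin (t * x)) (C := 1) (C' := |t|) (fun x => ?_)
      (by fun_prop) (fun x => Real.abs_sin_le_one _) (fun x => ?_)
    · have := ((hasDerivAt_id' x).const_mul t).sin
      simpa using this
    · rw [abs_mul]
      exact mul_le_of_le_one_left (abs_nonneg _) (Real.abs_cos_le_one _)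
  have hI := integrable_x_cexp t
  have hI1 := integrable_cexp t
  have ire : ∀ {f : ℝ → ℂ}, Integrable f (gaussianReal 0 1) →
      ∫ x, (f x).re ∂(gaussianReal 0 1) = (∫ x, f x ∂(gaussianReal 0 1)).re := fun h =>
    Complex.reCLM.integral_comp_comm h
  have iim : ∀ {f : ℝ → ℂ}, Integrable f (gaussianReal 0 1) →
      ∫ x, (f x).im ∂(gaussianReal 0 1) = (∫ x, f x ∂(gaussianReal 0 1)).im := fun h =>
    Complex.imCLM.integral_comp_comm h
  have hre1 : ∀ x : ℝ, (cexp (I * ((t * x : ℝ) : ℂ))).re = Real.cos (t * x) := by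
    intro x; rw [mul_comm, Complex.exp_ofReal_mul_I_re]
  have him1 : ∀ x : ℝ, (cexp (I * ((t * x : ℝ) : ℂ))).im = Real.sin (t * x) := by
    intro x; rw [mul_comm, Complex.exp_ofReal_mul_I_im]
  have e0 := int_cexp t
  have r1 : ∫ x, Real.cos (t * x) ∂(gaussianReal 0 1) = Real.exp (-(t ^ 2) / 2) := by
    have := congrArg Complex.re e0
    rw [Complex.ofReal_re, ← ire hI1] at this
    rw [← this]
    simp_rw [hre1]
  have r2 : ∫ x, Real.sin (t * x) ∂(gaussianReal 0 1) = 0 := by
    have := congrArg Complex.im e0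
    rw [Complex.ofReal_im, ← iim hI1] at this
    simp_rw [him1] at this
    exact this
  apply Complex.ext
  · rw [← ire hI]
    have : ∀ x : ℝ, ((x : ℂ) * cexp (I * ((t * x : ℝ) : ℂ))).re = x * Real.cos (t * x) := by
      intro x
      rw [Complex.mul_re, Complex.ofReal_re, Complex.ofReal_im, hre1, him1]; ring
    simp_rw [this]
    rw [hre, integral_mul_const, integral_neg, r2]
    simp only [Complex.mul_re, Complex.mul_im, Complex.I_re, Complex.I_im, Complex.ofReal_re,
      Complex.ofReal_im]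
    ring
  · rw [← iim hI]
    have : ∀ x : ℝ, ((x : ℂ) * cexp (I * ((t * x : ℝ) : ℂ))).im = x * Real.sin (t * x) := by
      intro x
      rw [Complex.mul_im, Complex.ofReal_re, Complex.ofReal_im, hre1, him1]; ring
    simp_rw [this]
    rw [him, integral_mul_const, r1]
    simp only [Complex.mul_re, Complex.mul_im, Complex.I_re, Complex.I_im, Complex.ofReal_re,
      Complex.ofReal_im]
    ring

/-- Fubini for products of one-coordinate functions of the coupling array. -/
theorem prod_int (n : ℕ) (f : Fin n → Fin n → ℝ → ℂ) :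
    ∫ J, ∏ i, ∏ j, f i j (J i j) ∂(gaussianCouplings n)
      = ∏ i, ∏ j, ∫ x, f i j x ∂(gaussianReal 0 1) := by
  unfold gaussianCouplings
  rw [integral_fintype_prod_eq_prod (f := fun (i : Fin n) (r : Fin n → ℝ) => ∏ j, f i j (r j))]
  refine Finset.prod_congr rfl fun i _ => ?_
  rw [integral_fintype_prod_eq_prod]

/-- phase `∑_{i<j} c_{ij} J_{ij}` -/
def ph (n : ℕ) (c J : Fin n → Fin n → ℝ) : ℝ :=
  ∑ i, ∑ j, if i < j then c i j * J i j else 0

/-- `∑_{i<j} c_{ij}^2` -/
def sq (n : ℕ) (c : Fin n → Fin n → ℝ) : ℝ :=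
  ∑ i, ∑ j, if i < j then (c i j) ^ 2 else 0

theorem exp_ph (n : ℕ) (c J : Fin n → Fin n → ℝ) :
    cexp (I * (ph n c J : ℂ)) =
      ∏ i, ∏ j, cexp (I * ((((if i < j then c i j else 0) * J i j : ℝ)) : ℂ)) := by
  unfold ph
  simp_rw [← Complex.exp_sum]
  congr 1
  push_cast
  rw [Finset.mul_sum]
  refine Finset.sum_congr rfl fun i _ => ?_
  rw [Finset.mul_sum]
  refine Finset.sum_congr rfl fun j _ => ?_
  split_ifs <;> simp

theorem prod_gauss (n : ℕ) (c : Fin n → Fin n → ℝ) :
    ∏ i, ∏ j, ((Real.exp (-((if i < j then c i j else 0) ^ 2) / 2) : ℝ) : ℂ)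
      = ((Real.exp (-(1 / 2) * sq n c) : ℝ) : ℂ) := by
  unfold sq
  rw [Finset.mul_sum]
  simp_rw [← Complex.ofReal_prod, ← Real.exp_sum]
  congr 2
  refine Finset.sum_congr rfl fun i _ => ?_
  rw [Finset.mul_sum]
  refine Finset.sum_congr rfl fun j _ => ?_
  split_ifs <;> simp
  ring

theorem avg_exp (n : ℕ) (c : Fin n → Fin n → ℝ) :
    ∫ J, cexp (I * (ph n c J : ℂ)) ∂(gaussianCouplings n)
      = ((Real.exp (-(1 / 2) * sq n c) : ℝ) : ℂ) := by
  simp_rw [exp_ph]
  rw [prod_int n (fun i j x => cexp (I * ((((if i < j then c i j else 0) * x : ℝ)) : ℂ)))]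
  simp_rw [int_cexp]
  exact prod_gauss n c

theorem avg_J_exp (n : ℕ) (c : Fin n → Fin n → ℝ) (k l : Fin n) (hkl : k < l) :
    ∫ J, (J k l : ℂ) * cexp (I * (ph n c J : ℂ)) ∂(gaussianCouplings n)
      = I * (c k l) * ((Real.exp (-(1 / 2) * sq n c) : ℝ) : ℂ) := by
  have h1 : ∀ J : Fin n → Fin n → ℝ, (J k l : ℂ) * cexp (I * (ph n c J : ℂ)) =
      ∏ i, ∏ j, ((if i = k ∧ j = l then (J i j : ℂ) else 1) *
        cexp (I * ((((if i < j then c i j else 0) * J i j : ℝ)) : ℂ))) := by
    intro J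
    rw [exp_ph]
    simp_rw [Finset.prod_mul_distrib]
    congr 1
    rw [Finset.prod_eq_single k, Finset.prod_eq_single l]
    · simp
    · intro b _ hb; simp [hb]
    · intro h; exact absurd (Finset.mem_univ _) h
    · intro b _ hb
      refine Finset.prod_eq_one fun j _ => ?_
      simp [hb]
    · intro h; exact absurd (Finset.mem_univ _) h
  simp_rw [h1]
  rw [prod_int n (fun i j x => (if i = k ∧ j = l then (x : ℂ) else 1) *
    cexp (I * ((((if i < j then c i j else 0) * x : ℝ)) : ℂ)))]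
  have h2 : ∀ i j : Fin n, ∫ x : ℝ, (if i = k ∧ j = l then (x : ℂ) else 1) *
      cexp (I * ((((if i < j then c i j else 0) * x : ℝ)) : ℂ)) ∂(gaussianReal 0 1)
      = (if i = k ∧ j = l then I * (c k l) else 1) *
        ((Real.exp (-((if i < j then c i j else 0) ^ 2) / 2) : ℝ) : ℂ) := by
    intro i j
    by_cases h : i = k ∧ j = l
    · obtain ⟨rfl, rfl⟩ := h
      simp only [and_self, if_true, hkl]
      rw [int_x_cexp]
    · simp only [h, if_false, one_mul]
      rw [int_cexp]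
  simp_rw [h2, Finset.prod_mul_distrib]
  rw [prod_gauss]
  congr 1
  rw [Finset.prod_eq_single k, Finset.prod_eq_single l]
  · simp
  · intro b _ hb; simp [hb]
  · intro h; exact absurd (Finset.mem_univ _) h
  · intro b _ hb
    refine Finset.prod_eq_one fun j _ => ?_
    simp [hb]
  · intro h; exact absurd (Finset.mem_univ _) h

theorem integrable_exp_ph (n : ℕ) (c : Fin n → Fin n → ℝ) :
    Integrable (fun J => cexp (I * (ph n c J : ℂ))) (gaussianCouplings n) := by
  have : IsProbabilityMeasure (gaussianCouplings n) := by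
    unfold gaussianCouplings; infer_instance
  refine (integrable_const (1 : ℝ)).mono' ?_ (Filter.Eventually.of_forall fun x => ?_)
  · refine Continuous.aestronglyMeasurable ?_
    unfold ph
    refine Complex.continuous_exp.comp (continuous_const.mul (Complex.continuous_ofReal.comp ?_))
    refine continuous_finsetSum _ fun i _ => continuous_finsetSum _ fun j _ => ?_
    split_ifs
    · fun_prop
    · exact continuous_const
  · rw [mul_comm, norm_exp_ofReal_mul_I]

theorem integrable_J (n : ℕ) (k l : Fin n) :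
    Integrable (fun J : Fin n → Fin n → ℝ => J k l) (gaussianCouplings n) := by
  unfold gaussianCouplings
  have h1 : Integrable (fun r : Fin n → ℝ => r l) (Measure.pi fun _ : Fin n => gaussianReal 0 1) :=
    integrable_comp_eval (μ := fun _ : Fin n => gaussianReal 0 1) (i := l)
      (f := fun x : ℝ => x) Guerra.integrable_id_γ
  exact integrable_comp_eval (μ := fun _ : Fin n => Measure.pi fun _ : Fin n => gaussianReal 0 1)
    (i := k) (f := fun r : Fin n → ℝ => r l) h1

theorem integrable_J_exp_ph (n : ℕ) (c : Fin n → Fin n → ℝ) (k l : Fin n) :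
    Integrable (fun J : Fin n → Fin n → ℝ => (J k l : ℂ) * cexp (I * (ph n c J : ℂ)))
      (gaussianCouplings n) := by
  refine (integrable_J n k l).norm.mono' ?_ (Filter.Eventually.of_forall fun x => ?_)
  · exact ((integrable_J n k l).ofReal (𝕜 := ℂ)).aestronglyMeasurable.mul
      (integrable_exp_ph n c).aestronglyMeasurable
  · rw [norm_mul, mul_comm I, norm_exp_ofReal_mul_I, mul_one, Complex.norm_real]

end

end Crest.Agent.R339.En
end

-- ▼ part R339/En220B
section

/-!
R339 part (C1), helper220: path sums of the layered circuit at a fixed coupling array.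
-/

set_option autoImplicit false

namespace Crest.Agent.R339.En

open MeasureTheory ProbabilityTheory Complex
open Crest.MathPhysics.SpinGlass Crest.Agent.R339.Lim
open scoped BigOperators ComplexConjugate

noncomputable section

section path

variable {C : Type*} [Fintype C]

/-- layered vector: `vec (M+1) = T_M (F_M · vec M)`. -/
def vec (T : ℕ → C → C → ℂ) (F : ℕ → C → ℂ) (v0 : C → ℂ) : ℕ → C → ℂ
  | 0 => v0
  | (M + 1) => fun σ => ∑ τ, T M σ τ * (F M τ * vec T F v0 M τ)

/-- amplitude of a path -/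
def pamp (T : ℕ → C → C → ℂ) (F : ℕ → C → ℂ) (v0 : C → ℂ) (M : ℕ) (y : Fin (M + 1) → C) : ℂ :=
  v0 (y 0) * ∏ l : Fin M, (T l (y l.succ) (y l.castSucc) * F l (y l.castSucc))

theorem path_sum (T : ℕ → C → C → ℂ) (F : ℕ → C → ℂ) (v0 : C → ℂ) (M : ℕ) (h : C → ℂ) :
    ∑ y : Fin (M + 1) → C, pamp T F v0 M y * h (y (Fin.last M))
      = ∑ σ, vec T F v0 M σ * h σ := by
  induction M generalizing h with
  | zero =>
    refine Fintype.sum_equiv (Equiv.funUnique (Fin 1) C) _ _ fun y => ?_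
    simp [pamp, vec]
  | succ M ih =>
    rw [← (Fin.snocEquiv (fun _ : Fin (M + 2) => C)).sum_comp, Fintype.sum_prod_type]
    have key : ∀ (σ : C) (y : Fin (M + 1) → C),
        pamp T F v0 (M + 1) ((Fin.snocEquiv (fun _ : Fin (M + 2) => C)) (σ, y)) *
          h ((Fin.snocEquiv (fun _ : Fin (M + 2) => C)) (σ, y) (Fin.last (M + 1)))
        = pamp T F v0 M y * (T M σ (y (Fin.last M)) * F M (y (Fin.last M))) * h σ := by
      intro σ y
      have e1 : ∀ i : Fin (M + 1), (Fin.snocEquiv (fun _ : Fin (M + 2) => C)) (σ, y) i.castSucc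
          = y i := by
        intro i
        simp [Fin.snocEquiv]
      have e2 : (Fin.snocEquiv (fun _ : Fin (M + 2) => C)) (σ, y) (Fin.last (M + 1)) = σ := by
        simp [Fin.snocEquiv]
      have e0 : (Fin.snocEquiv (fun _ : Fin (M + 2) => C)) (σ, y) 0 = y 0 := by
        have := e1 0
        simpa using this
      unfold pamp
      rw [Fin.prod_univ_castSucc, e0, e2]
      have e3 : ∀ l : Fin M, (Fin.snocEquiv (fun _ : Fin (M + 2) => C)) (σ, y) l.castSucc.succ
          = y l.succ := by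
        intro l
        rw [Fin.succ_castSucc]
        exact e1 _
      have e4 : (Fin.snocEquiv (fun _ : Fin (M + 2) => C)) (σ, y) (Fin.last M).succ = σ := by
        rw [Fin.succ_last]; exact e2
      rw [e4]
      simp_rw [e3, e1]
      simp only [Fin.val_castSucc, Fin.val_last]
      ring
    simp_rw [key]
    have h2 : ∀ σ : C, ∑ y : Fin (M + 1) → C,
        pamp T F v0 M y * (T M σ (y (Fin.last M)) * F M (y (Fin.last M))) * h σ
        = vec T F v0 (M + 1) σ * h σ := by
      intro σ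
      rw [← Finset.sum_mul, ih (fun τ => T M σ τ * F M τ)]
      congr 1
      simp only [vec]
      refine Finset.sum_congr rfl fun τ _ => ?_
      ring
    simp_rw [h2]

theorem vec_congr {T T' : ℕ → C → C → ℂ} {F F' : ℕ → C → ℂ} {v0 : C → ℂ} (M : ℕ)
    (hT : ∀ l < M, T l = T' l) (hF : ∀ l < M, F l = F' l) :
    vec T F v0 M = vec T' F' v0 M := by
  induction M with
  | zero => rfl
  | succ M ih =>
    have := ih (fun l hl => hT l (by omega)) (fun l hl => hF l (by omega))
    simp only [vec, this, hT M (by omega), hF M (by omega)]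

/-- two-sided path sum -/
theorem two_sided [DecidableEq C] (T : ℕ → C → C → ℂ) (FL FR : ℕ → C → ℂ) (v0 : C → ℂ) (M : ℕ)
    (H : C → ℂ) :
    ∑ yL : Fin (M + 1) → C, ∑ yR : Fin (M + 1) → C,
      conj (pamp T FL v0 M yL) * pamp T FR v0 M yR *
        ((if yL (Fin.last M) = yR (Fin.last M) then 1 else 0) * H (yR (Fin.last M)))
      = ∑ σ, conj (vec T FL v0 M σ) * vec T FR v0 M σ * H σ := by
  have h1 : ∀ yL : Fin (M + 1) → C, ∑ yR : Fin (M + 1) → C,
      conj (pamp T FL v0 M yL) * pamp T FR v0 M yR *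
        ((if yL (Fin.last M) = yR (Fin.last M) then 1 else 0) * H (yR (Fin.last M)))
      = conj (pamp T FL v0 M yL) *
        (vec T FR v0 M (yL (Fin.last M)) * H (yL (Fin.last M))) := by
    intro yL
    simp_rw [mul_assoc]
    rw [← Finset.mul_sum]
    congr 1
    rw [path_sum T FR v0 M (fun τ => (if yL (Fin.last M) = τ then 1 else 0) * H τ)]
    rw [Finset.sum_eq_single (yL (Fin.last M))]
    · simp
    · intro b _ hb
      rw [if_neg (Ne.symm hb)]; ring
    · intro h; exact absurd (Finset.mem_univ _) h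
  simp_rw [h1]
  have h2 := path_sum T FL v0 M (fun τ => conj (vec T FR v0 M τ * H τ))
  have h3 := congrArg conj h2
  rw [map_sum, map_sum] at h3
  simp only [map_mul, Complex.conj_conj] at h3 ⊢
  rw [h3]
  refine Finset.sum_congr rfl fun σ _ => ?_
  ring

end path

end

end Crest.Agent.R339.En
private theorem rz_59c7d7f82e : type_of% @_root_.Crest.Agent.R339.En.vec.eq_def := @_root_.Crest.Agent.R339.En.vec.eq_def -- L25
private theorem rz_28bc6385fc : type_of% @_root_.Crest.Agent.R339.En.vec.eq_1 := @_root_.Crest.Agent.R339.En.vec.eq_1 -- L25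
end

-- ▼ part R339/En220C
section

/-!
R339 part (C1), helper220: the circuit path sum on configurations at a fixed coupling array.
-/

set_option autoImplicit false

namespace Crest.Agent.R339.En

open MeasureTheory ProbabilityTheory Complex
open Crest.MathPhysics.SpinGlass Crest.Agent.R339.Lim
open scoped BigOperators ComplexConjugate

noncomputable section

/-- energy of a configuration of `N` spins with normalisation `1/√n`. -/
def Ee (n N : ℕ) (J : Fin N → Fin N → ℝ) (σ : Fin N → Bool) : ℝ :=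
  (1 / Real.sqrt n) * ∑ i, ∑ j, if i < j then J i j * spinSign (σ i) * spinSign (σ j) else 0

theorem Ee_self (n : ℕ) (J : Fin n → Fin n → ℝ) (σ : Fin n → Bool) :
    Ee n n J σ = pairEnergy n J σ := rfl

/-- mixer matrix -/
def Tm (N : ℕ) (b : ℕ → ℝ) (l : ℕ) (σ τ : Fin N → Bool) : ℂ := ∏ j, mx (b l) (σ j) (τ j)

/-- cost phase times an extra factor -/
def Fc (n N : ℕ) (J : Fin N → Fin N → ℝ) (g : ℕ → ℝ) (D : ℕ → (Fin N → Bool) → ℂ) (l : ℕ)
    (σ : Fin N → Bool) : ℂ := cexp (-(I * (g l : ℂ) * (Ee n N J σ : ℂ))) * D l σ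

/-- coefficients of the phase of a family of site paths -/
def cK {M : ℕ} (n N : ℕ) (g : ℕ → ℝ) (a : Fin N → Pos M → Bool) (i j : Fin N) : ℝ :=
  (1 / Real.sqrt n) * Kf (gam g M) (a i) (a j)

theorem theta_gen {P : Type*} [Fintype P] [DecidableEq P] (n N : ℕ) (γ : P → ℝ)
    (J : Fin N → Fin N → ℝ) (a : Fin N → P → Bool) :
    ph N (fun i j => (1 / Real.sqrt n) * Kf γ (a i) (a j)) J
      = ∑ τ, γ τ * Ee n N J (fun j => a j τ) := by
  unfold ph Ee Kf
  have h1 : ∀ τ : P, γ τ * ((1 / Real.sqrt n) * ∑ i : Fin N, ∑ j : Fin N,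
      if i < j then J i j * spinSign (a i τ) * spinSign (a j τ) else 0)
      = ∑ i : Fin N, ∑ j : Fin N, if i < j then
        (1 / Real.sqrt n) * (γ τ * (spinSign (a i τ) * spinSign (a j τ))) * J i j else 0 := by
    intro τ
    rw [Finset.mul_sum, Finset.mul_sum]
    refine Finset.sum_congr rfl fun i _ => ?_
    rw [Finset.mul_sum, Finset.mul_sum]
    refine Finset.sum_congr rfl fun j _ => ?_
    split_ifs
    · ring
    · simp
  simp_rw [h1]
  conv_rhs => rw [Finset.sum_comm]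
  refine Finset.sum_congr rfl fun i _ => ?_
  conv_rhs => rw [Finset.sum_comm]
  refine Finset.sum_congr rfl fun j _ => ?_
  split_ifs
  · rw [Finset.mul_sum, Finset.sum_mul]
  · simp

theorem sum_gam {M : ℕ} (g : ℕ → ℝ) (f : Pos M → ℝ) :
    ∑ τ, gam g M τ * f τ = (∑ l : Fin M, g l * f (false, l.castSucc))
      - ∑ l : Fin M, g l * f (true, l.castSucc) := by
  rw [Fintype.sum_prod_type, Fintype.sum_bool, Fin.sum_univ_castSucc, Fin.sum_univ_castSucc]
  have e1 : ∀ s : Bool, gam g M (s, Fin.last M) = 0 := by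
    intro s; simp [gam]
  have e2 : ∀ l : Fin M, gam g M (true, l.castSucc) = -(g l) := by
    intro l; simp [gam]
  have e3 : ∀ l : Fin M, gam g M (false, l.castSucc) = g l := by
    intro l; simp [gam]
  simp only [e1, e2, e3, zero_mul, add_zero, neg_mul, Finset.sum_neg_distrib]
  ring

/-- a family of two-sided site paths is a pair of configuration paths -/
def pathEquiv (N M : ℕ) :
    (Fin N → Pos M → Bool) ≃ (Fin (M + 1) → Fin N → Bool) × (Fin (M + 1) → Fin N → Bool) where
  toFun a := (fun l j => a j (false, l), fun l j => a j (true, l))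
  invFun p := fun j τ => if τ.1 then p.2 τ.2 j else p.1 τ.2 j
  left_inv := by
    intro a; funext j τ
    obtain ⟨s, l⟩ := τ
    cases s <;> simp
  right_inv := by
    intro p
    obtain ⟨p, q⟩ := p
    simp

theorem prod_mu (N M : ℕ) (b : ℕ → ℝ) (yL yR : Fin (M + 1) → Fin N → Bool) :
    ∏ j, mu b M ((pathEquiv N M).symm (yL, yR) j)
      = (if yL (Fin.last M) = yR (Fin.last M) then 1 else 0) *
        (conj (plusState N (yL 0)) * plusState N (yR 0)) *
        (conj (∏ l : Fin M, Tm N b l (yL l.succ) (yL l.castSucc)) *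
          ∏ l : Fin M, Tm N b l (yR l.succ) (yR l.castSucc)) := by
  have h1 : ∀ j, mu b M ((pathEquiv N M).symm (yL, yR) j) =
      (1 / 2) * (if yL (Fin.last M) j = yR (Fin.last M) j then 1 else 0) *
        (conj (∏ l : Fin M, mx (b l) (yL l.succ j) (yL l.castSucc j)) *
          ∏ l : Fin M, mx (b l) (yR l.succ j) (yR l.castSucc j)) := by
    intro j
    simp [mu, amp, pathEquiv]
  simp_rw [h1, Finset.prod_mul_distrib, ← map_prod]
  have e1 : ∏ j : Fin N, (if yL (Fin.last M) j = yR (Fin.last M) j then (1 : ℂ) else 0)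
      = if yL (Fin.last M) = yR (Fin.last M) then 1 else 0 := by
    rw [Finset.prod_ite_zero]
    simp [funext_iff]
  have e2 : ∀ y : Fin (M + 1) → Fin N → Bool,
      ∏ j : Fin N, ∏ l : Fin M, mx (b l) (y l.succ j) (y l.castSucc j)
      = ∏ l : Fin M, Tm N b l (y l.succ) (y l.castSucc) := by
    intro y
    rw [Finset.prod_comm]; rfl
  have e3 : ∀ σ τ : Fin N → Bool, conj (plusState N σ) * plusState N τ
      = ∏ _j : Fin N, (1 / 2 : ℂ) := by
    intro σ τ
    unfold plusState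
    rw [Finset.prod_const, Finset.card_univ, Fintype.card_fin, map_pow, ← mul_pow,
      Complex.conj_ofReal, ← Complex.ofReal_mul]
    congr 1
    have : (1 / Real.sqrt 2) * (1 / Real.sqrt 2) = 1 / 2 := by
      rw [div_mul_div_comm, one_mul, Real.mul_self_sqrt (by norm_num)]
    rw [this]; push_cast; ring
  rw [e1, e2, e2, ← e3 (yL 0) (yR 0)]
  ring

theorem main_path (n N M : ℕ) (J : Fin N → Fin N → ℝ) (g b : ℕ → ℝ)
    (DL DR : ℕ → (Fin N → Bool) → ℂ) (H : (Fin N → Bool) → ℂ) :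
    ∑ a : Fin N → Pos M → Bool, (∏ j, mu b M (a j)) *
        cexp (I * (ph N (cK n N g a) J : ℂ)) *
        ((∏ l : Fin M, DL l (fun j => a j (false, l.castSucc))) *
          (∏ l : Fin M, DR l (fun j => a j (true, l.castSucc)))) *
        H (fun j => a j (true, Fin.last M))
      = ∑ σ, conj (vec (Tm N b) (Fc n N J g (fun l σ => conj (DL l σ))) (plusState N) M σ) *
          vec (Tm N b) (Fc n N J g DR) (plusState N) M σ * H σ := by
  rw [← two_sided, ← (pathEquiv N M).symm.sum_comp, Fintype.sum_prod_type]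
  refine Finset.sum_congr rfl fun yL _ => Finset.sum_congr rfl fun yR _ => ?_
  rw [prod_mu]
  have ea : ∀ l : Fin (M + 1), (fun j => (pathEquiv N M).symm (yL, yR) j (false, l)) = yL l := by
    intro l; funext j; simp [pathEquiv]
  have eb : ∀ l : Fin (M + 1), (fun j => (pathEquiv N M).symm (yL, yR) j (true, l)) = yR l := by
    intro l; funext j; simp [pathEquiv]
  have ht : (ph N (cK n N g ((pathEquiv N M).symm (yL, yR))) J : ℝ) =
      (∑ l : Fin M, g l * Ee n N J (yL l.castSucc)) -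
        ∑ l : Fin M, g l * Ee n N J (yR l.castSucc) := by
    have := theta_gen n N (gam g M) J ((pathEquiv N M).symm (yL, yR))
    rw [sum_gam] at this
    simp_rw [ea, eb] at this
    exact this
  simp_rw [ea, eb]
  have hexp : cexp (I * (ph N (cK n N g ((pathEquiv N M).symm (yL, yR))) J : ℂ)) =
      conj (∏ l : Fin M, cexp (-(I * (g l : ℂ) * (Ee n N J (yL l.castSucc) : ℂ)))) *
        ∏ l : Fin M, cexp (-(I * (g l : ℂ) * (Ee n N J (yR l.castSucc) : ℂ))) := by
    rw [ht, ← Complex.exp_sum, ← Complex.exp_sum, ← Complex.exp_conj, ← Complex.exp_add]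
    congr 1
    push_cast
    rw [map_sum, mul_sub, Finset.mul_sum, Finset.mul_sum, sub_eq_add_neg, ← Finset.sum_neg_distrib]
    congr 1
    · refine Finset.sum_congr rfl fun l _ => ?_
      simp only [map_neg, map_mul, Complex.conj_I, Complex.conj_ofReal]
      ring
    · refine Finset.sum_congr rfl fun l _ => ?_
      ring
  rw [hexp]
  unfold pamp Fc
  simp only [Finset.prod_mul_distrib, map_mul, map_prod, Complex.conj_conj]
  ring

end

end Crest.Agent.R339.En
end

-- ▼ part R339/En220D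
section

/-!
R339 part (C1), helper220: contraction bounds and (III.1) `FF_Qp_norm_le`.
-/

set_option autoImplicit false

namespace Crest.Agent.R339.En

open MeasureTheory ProbabilityTheory Complex
open Crest.MathPhysics.SpinGlass Crest.Agent.R339.Lim
open scoped BigOperators ComplexConjugate

noncomputable section

theorem spinSign_mul_self (x : Bool) : spinSign x * spinSign x = 1 := by
  cases x <;> simp [spinSign]

theorem abs_spinSign (x : Bool) : |spinSign x| = 1 := by
  cases x <;> simp [spinSign]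

theorem norm_spinSign (x : Bool) : ‖((spinSign x : ℝ) : ℂ)‖ = 1 := by
  rw [Complex.norm_real, Real.norm_eq_abs, abs_spinSign]

theorem mx_unitary (β : ℝ) (y y' : Bool) :
    ∑ x : Bool, conj (mx β x y) * mx β x y' = if y = y' then 1 else 0 := by
  have hcs : ((Real.cos β : ℝ) : ℂ) * ((Real.cos β : ℝ) : ℂ) +
      ((Real.sin β : ℝ) : ℂ) * ((Real.sin β : ℝ) : ℂ) = 1 := by
    rw [← Complex.ofReal_mul, ← Complex.ofReal_mul, ← Complex.ofReal_add]
    norm_cast
    have := Real.cos_sq_add_sin_sq β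
    nlinarith
  have hI : I * I = -1 := Complex.I_mul_I
  rw [Fintype.sum_bool]
  cases y <;> cases y' <;>
    simp only [mx, Bool.true_eq_false, Bool.false_eq_true, if_true, if_false, map_neg, map_mul,
      Complex.conj_I, Complex.conj_ofReal] <;> first
      | linear_combination hcs - ((Real.sin β : ℝ) : ℂ) * ((Real.sin β : ℝ) : ℂ) * hI
      | ring

theorem Tm_unitary (N : ℕ) (b : ℕ → ℝ) (l : ℕ) (τ τ' : Fin N → Bool) :
    ∑ σ, conj (Tm N b l σ τ) * Tm N b l σ τ' = if τ = τ' then 1 else 0 := by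
  unfold Tm
  simp_rw [map_prod, ← Finset.prod_mul_distrib]
  have h := Finset.prod_univ_sum (fun _ : Fin N => (Finset.univ : Finset Bool))
    (fun j x => conj (mx (b l) x (τ j)) * mx (b l) x (τ' j))
  rw [Fintype.piFinset_univ] at h
  rw [← h]
  simp_rw [mx_unitary]
  rw [Finset.prod_ite_zero]
  simp [funext_iff]

section
variable {C : Type*} [Fintype C]

/-- squared norm -/
def nsq (v : C → ℂ) : ℝ := ∑ σ, ‖v σ‖ ^ 2


theorem nsq_eq (v : C → ℂ) : ((nsq v : ℝ) : ℂ) = ∑ σ, conj (v σ) * v σ := by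
  unfold nsq
  push_cast
  refine Finset.sum_congr rfl fun σ _ => ?_
  rw [Complex.conj_mul']

theorem nsq_apply_unitary [DecidableEq C] (T : C → C → ℂ)
    (hT : ∀ τ τ', ∑ σ, conj (T σ τ) * T σ τ' = if τ = τ' then 1 else 0) (u : C → ℂ) :
    nsq (fun σ => ∑ τ, T σ τ * u τ) = nsq u := by
  have : ((nsq (fun σ => ∑ τ, T σ τ * u τ) : ℝ) : ℂ) = ((nsq u : ℝ) : ℂ) := by
    rw [nsq_eq, nsq_eq]
    simp_rw [map_sum, map_mul, Finset.sum_mul_sum]
    rw [Finset.sum_comm]
    refine Finset.sum_congr rfl fun τ _ => ?_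
    rw [Finset.sum_comm]
    have h2 : ∀ τ' : C, ∑ σ, conj (T σ τ) * conj (u τ) * (T σ τ' * u τ')
        = conj (u τ) * u τ' * (if τ = τ' then 1 else 0) := by
      intro τ'
      rw [← hT τ τ', Finset.mul_sum]
      refine Finset.sum_congr rfl fun σ _ => ?_
      ring
    simp_rw [h2]
    rw [Finset.sum_eq_single τ]
    · simp
    · intro b _ hb; rw [if_neg (Ne.symm hb)]; ring
    · intro h; exact absurd (Finset.mem_univ _) h
  exact_mod_cast this

theorem nsq_mul_le (F v : C → ℂ) (hF : ∀ σ, ‖F σ‖ ≤ 1) : nsq (fun σ => F σ * v σ) ≤ nsq v := by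
  unfold nsq
  refine Finset.sum_le_sum fun σ _ => ?_
  rw [norm_mul, mul_pow]
  have h1 : ‖F σ‖ ^ 2 ≤ 1 := pow_le_one₀ (norm_nonneg _) (hF σ)
  nlinarith [sq_nonneg ‖v σ‖]

theorem nsq_vec_le [DecidableEq C] (T : ℕ → C → C → ℂ)
    (hT : ∀ l τ τ', ∑ σ, conj (T l σ τ) * T l σ τ' = if τ = τ' then 1 else 0)
    (F : ℕ → C → ℂ) (hF : ∀ l σ, ‖F l σ‖ ≤ 1) (v0 : C → ℂ) (M : ℕ) :
    nsq (vec T F v0 M) ≤ nsq v0 := by
  induction M with
  | zero => exact le_rfl
  | succ M ih =>
    refine le_trans ?_ ih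
    simp only [vec]
    rw [nsq_apply_unitary (T M) (hT M) (fun τ => F M τ * vec T F v0 M τ)]
    exact nsq_mul_le _ _ (hF M)

theorem norm_sum_three_le (w v H : C → ℂ) (hw : nsq w ≤ 1) (hv : nsq v ≤ 1)
    (hH : ∀ σ, ‖H σ‖ ≤ 1) : ‖∑ σ, conj (w σ) * v σ * H σ‖ ≤ 1 := by
  refine (norm_sum_le _ _).trans ?_
  have h1 : ∀ σ, ‖conj (w σ) * v σ * H σ‖ ≤ (‖w σ‖ ^ 2 + ‖v σ‖ ^ 2) / 2 := by
    intro σ
    rw [norm_mul, norm_mul, RCLike.norm_conj]
    have h2 : ‖w σ‖ * ‖v σ‖ * ‖H σ‖ ≤ ‖w σ‖ * ‖v σ‖ :=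
      mul_le_of_le_one_right (mul_nonneg (norm_nonneg _) (norm_nonneg _)) (hH σ)
    nlinarith [sq_nonneg (‖w σ‖ - ‖v σ‖)]
  refine (Finset.sum_le_sum fun σ _ => h1 σ).trans ?_
  rw [← Finset.sum_div, Finset.sum_add_distrib]
  unfold nsq at hw hv
  linarith

end

theorem nsq_plus (N : ℕ) : nsq (plusState N) = 1 := by
  unfold nsq plusState
  rw [Finset.sum_const, Finset.card_univ]
  simp only [Fintype.card_fun, Fintype.card_bool, Fintype.card_fin, nsmul_eq_mul, norm_pow,
    Complex.norm_real, Real.norm_eq_abs]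
  rw [abs_of_pos (by positivity), ← pow_mul, mul_comm N 2, pow_mul, div_pow, one_pow,
    Real.sq_sqrt (by norm_num)]
  push_cast
  rw [← mul_pow]
  norm_num

theorem norm_Fc (n N : ℕ) (J : Fin N → Fin N → ℝ) (g : ℕ → ℝ) (D : ℕ → (Fin N → Bool) → ℂ)
    (l : ℕ) (σ : Fin N → Bool) : ‖Fc n N J g D l σ‖ = ‖D l σ‖ := by
  unfold Fc
  rw [norm_mul]
  have : -(I * (g l : ℂ) * (Ee n N J σ : ℂ)) = ((-(g l * Ee n N J σ) : ℝ) : ℂ) * I := by
    push_cast; ring
  rw [this, norm_exp_ofReal_mul_I, one_mul]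

/-- admissible bounded insertions -/
def Adm (N M : ℕ) (b : ℕ → ℝ) (Φ : (Fin N → Pos M → Bool) → ℂ) : Prop :=
  ∃ (DL DR : ℕ → (Fin N → Bool) → ℂ) (H : (Fin N → Bool) → ℂ),
    (∀ l σ, ‖DL l σ‖ ≤ 1) ∧ (∀ l σ, ‖DR l σ‖ ≤ 1) ∧ (∀ σ, ‖H σ‖ ≤ 1) ∧
    ∀ a, (∏ j, mu b M (a j)) * Φ a = (∏ j, mu b M (a j)) *
      ((∏ l : Fin M, DL l (fun j => a j (false, l.castSucc))) *
        (∏ l : Fin M, DR l (fun j => a j (true, l.castSucc))) *
        H (fun j => a j (true, Fin.last M)))

theorem Adm_one (N M : ℕ) (b : ℕ → ℝ) : Adm N M b (fun _ => 1) :=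
  ⟨fun _ _ => 1, fun _ _ => 1, fun _ => 1, by simp, by simp, by simp, by simp⟩

theorem mu_top {M : ℕ} (b : ℕ → ℝ) (N : ℕ) (a : Fin N → Pos M → Bool) (j : Fin N) :
    (∏ i, mu b M (a i)) * ((spinSign (a j (false, Fin.last M)) : ℝ) : ℂ)
      = (∏ i, mu b M (a i)) * ((spinSign (a j (true, Fin.last M)) : ℝ) : ℂ) := by
  by_cases h : a j (false, Fin.last M) = a j (true, Fin.last M)
  · rw [h]
  · have : ∏ i, mu b M (a i) = 0 := by
      refine Finset.prod_eq_zero (Finset.mem_univ j) ?_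
      simp [mu, h]
    rw [this, zero_mul, zero_mul]

theorem prod_upd {M : ℕ} (f : Fin M → ℂ) (k : Fin M) (x : Fin M → ℂ) :
    ∏ l : Fin M, (f l * if (l : ℕ) = (k : ℕ) then x l else 1) = (∏ l, f l) * x k := by
  rw [Finset.prod_mul_distrib]
  congr 1
  rw [Finset.prod_eq_single k]
  · simp
  · intro l _ hl
    rw [if_neg (fun h => hl (Fin.ext h))]
  · intro h; exact absurd (Finset.mem_univ _) h

theorem Adm_mul {N M : ℕ} {b : ℕ → ℝ} {Φ : (Fin N → Pos M → Bool) → ℂ} (h : Adm N M b Φ)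
    (j : Fin N) (τ : Pos M) : Adm N M b (fun a => Φ a * ((spinSign (a j τ) : ℝ) : ℂ)) := by
  obtain ⟨DL, DR, H, hL, hR, hH, he⟩ := h
  obtain ⟨s, t⟩ := τ
  have hnorm : ∀ (x y : ℂ), ‖x‖ ≤ 1 → ‖y‖ ≤ 1 → ‖x * y‖ ≤ 1 := by
    intro x y hx hy
    rw [norm_mul]
    exact mul_le_one₀ hx (norm_nonneg _) hy
  by_cases htop : t = Fin.last M
  · subst htop
    refine ⟨DL, DR, fun σ => H σ * ((spinSign (σ j) : ℝ) : ℂ), hL, hR,
      fun σ => hnorm _ _ (hH σ) (norm_spinSign _).le, fun a => ?_⟩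
    have h1 : (∏ i, mu b M (a i)) * (Φ a * ((spinSign (a j (s, Fin.last M)) : ℝ) : ℂ))
        = (∏ i, mu b M (a i)) * (Φ a * ((spinSign (a j (true, Fin.last M)) : ℝ) : ℂ)) := by
      cases s
      · linear_combination (Φ a) * mu_top b N a j
      · rfl
    rw [h1]
    linear_combination ((spinSign (a j (true, Fin.last M)) : ℝ) : ℂ) * he a
  · obtain ⟨k, rfl⟩ : ∃ k : Fin M, k.castSucc = t :=
      ⟨t.castPred htop, Fin.castSucc_castPred t htop⟩
    cases s
    · refine ⟨fun l σ => DL l σ * (if l = (k : ℕ) then ((spinSign (σ j) : ℝ) : ℂ) else 1),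
        DR, H, fun l σ => hnorm _ _ (hL l σ) ?_, hR, hH, fun a => ?_⟩
      · split_ifs
        · exact (norm_spinSign _).le
        · simp
      · rw [prod_upd (fun l => DL l (fun j => a j (false, l.castSucc))) k
          (fun l => ((spinSign (a j (false, l.castSucc)) : ℝ) : ℂ))]
        linear_combination ((spinSign (a j (false, k.castSucc)) : ℝ) : ℂ) * he a
    · refine ⟨DL, fun l σ => DR l σ * (if l = (k : ℕ) then ((spinSign (σ j) : ℝ) : ℂ) else 1),
        H, hL, fun l σ => hnorm _ _ (hR l σ) ?_, hH, fun a => ?_⟩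
      · split_ifs
        · exact (norm_spinSign _).le
        · simp
      · rw [prod_upd (fun l => DR l (fun j => a j (true, l.castSucc))) k
          (fun l => ((spinSign (a j (true, l.castSucc)) : ℝ) : ℂ))]
        linear_combination ((spinSign (a j (true, k.castSucc)) : ℝ) : ℂ) * he a

/-- path functional at fixed couplings -/
def GJ (n N M : ℕ) (J : Fin N → Fin N → ℝ) (g b : ℕ → ℝ) (Φ : (Fin N → Pos M → Bool) → ℂ) : ℂ :=
  ∑ a : Fin N → Pos M → Bool, (∏ j, mu b M (a j)) * cexp (I * (ph N (cK n N g a) J : ℂ)) * Φ a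

theorem GJ_Adm_le (n N M : ℕ) (J : Fin N → Fin N → ℝ) (g b : ℕ → ℝ)
    (Φ : (Fin N → Pos M → Bool) → ℂ) (h : Adm N M b Φ) : ‖GJ n N M J g b Φ‖ ≤ 1 := by
  obtain ⟨DL, DR, H, hL, hR, hH, he⟩ := h
  have h1 : GJ n N M J g b Φ = ∑ σ,
      conj (vec (Tm N b) (Fc n N J g (fun l σ => conj (DL l σ))) (plusState N) M σ) *
          vec (Tm N b) (Fc n N J g DR) (plusState N) M σ * H σ := by
    rw [← main_path]
    unfold GJ
    refine Finset.sum_congr rfl fun a _ => ?_
    linear_combination (cexp (I * (ph N (cK n N g a) J : ℂ))) * he a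
  rw [h1]
  refine norm_sum_three_le _ _ _ ?_ ?_ hH
  · rw [← nsq_plus N]
    refine nsq_vec_le _ (Tm_unitary N b) _ (fun l σ => ?_) _ _
    rw [norm_Fc, RCLike.norm_conj]
    exact hL l σ
  · rw [← nsq_plus N]
    refine nsq_vec_le _ (Tm_unitary N b) _ (fun l σ => ?_) _ _
    rw [norm_Fc]
    exact hR l σ

theorem GJ_Qp_le (n N M : ℕ) (hNn : N ≤ n) (J : Fin N → Fin N → ℝ) (g b : ℕ → ℝ)
    (l : List (Pos M × Pos M)) (Φ : (Fin N → Pos M → Bool) → ℂ) (h : Adm N M b Φ) :
    ‖GJ n N M J g b (fun a => Φ a * Qp n l a)‖ ≤ 1 := by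
  induction l generalizing Φ with
  | nil =>
    simp only [Qp, List.map_nil, List.prod_nil, mul_one]
    exact GJ_Adm_le n N M J g b Φ h
  | cons q l ih =>
    have h1 : GJ n N M J g b (fun a => Φ a * Qp n (q :: l) a) =
        (1 / (n : ℂ)) * ∑ j : Fin N, GJ n N M J g b (fun a => (Φ a * ((spinSign (a j q.1) : ℝ) : ℂ)
          * ((spinSign (a j q.2) : ℝ) : ℂ)) * Qp n l a) := by
      unfold GJ
      rw [Finset.sum_comm, Finset.mul_sum]
      refine Finset.sum_congr rfl fun a _ => ?_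
      have h2 : Qp n (q :: l) a = (1 / (n : ℂ)) * (∑ j, ((spinSign (a j q.1) : ℝ) : ℂ)
          * ((spinSign (a j q.2) : ℝ) : ℂ)) * Qp n l a := by
        simp only [Qp, List.map_cons, List.prod_cons, Q]
        push_cast
        ring
      beta_reduce
      have h3 : ∑ j : Fin N, (∏ i, mu b M (a i)) * cexp (I * (ph N (cK n N g a) J : ℂ)) *
          (Φ a * ((spinSign (a j q.1) : ℝ) : ℂ) * ((spinSign (a j q.2) : ℝ) : ℂ) * Qp n l a)
          = (∏ i, mu b M (a i)) * cexp (I * (ph N (cK n N g a) J : ℂ)) * Φ a * Qp n l a *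
            (∑ j, ((spinSign (a j q.1) : ℝ) : ℂ) * ((spinSign (a j q.2) : ℝ) : ℂ)) := by
        rw [Finset.mul_sum]
        refine Finset.sum_congr rfl fun j _ => ?_
        ring
      rw [h2, h3]
      ring
    rw [h1, norm_mul]
    have h3 : ‖∑ j : Fin N, GJ n N M J g b (fun a => (Φ a * ((spinSign (a j q.1) : ℝ) : ℂ)
          * ((spinSign (a j q.2) : ℝ) : ℂ)) * Qp n l a)‖ ≤ N := by
      refine (norm_sum_le _ _).trans ?_
      refine (Finset.sum_le_sum fun j _ => ih _ (Adm_mul (Adm_mul h j q.1) j q.2)).trans ?_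
      simp
    have h4 : ‖(1 / (n : ℂ))‖ = 1 / (n : ℝ) := by simp
    rw [h4]
    rcases Nat.eq_zero_or_pos n with hn | hn
    · subst hn; simp
    · have hn' : (0 : ℝ) < n := by exact_mod_cast hn
      calc 1 / (n : ℝ) * _ ≤ 1 / (n : ℝ) * N := by gcongr
        _ ≤ 1 := by
          rw [one_div, inv_mul_le_iff₀ hn', mul_one]
          exact_mod_cast hNn

theorem sum_symm {N : ℕ} (f : Fin N → Fin N → ℝ) (hs : ∀ i j, f i j = f j i) (h0 : ∀ i, f i i = 0) :
    ∑ i, ∑ j, f i j = 2 * ∑ i, ∑ j, if i < j then f i j else 0 := by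
  have h1 : ∀ i j, f i j = (if i < j then f i j else 0) + (if j < i then f j i else 0) := by
    intro i j
    rcases lt_trichotomy i j with h | h | h
    · simp [h, h.not_gt]
    · subst h; simp [h0]
    · simp [h, h.not_gt, hs i j]
  have h2 : ∑ i, ∑ j, f i j = (∑ i, ∑ j, if i < j then f i j else 0) +
      ∑ i, ∑ j, (if j < i then f j i else 0) := by
    rw [← Finset.sum_add_distrib]
    refine Finset.sum_congr rfl fun i _ => ?_
    rw [← Finset.sum_add_distrib]
    exact Finset.sum_congr rfl fun j _ => h1 i j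
  have h3 : ∑ i : Fin N, ∑ j : Fin N, (if j < i then f j i else 0)
      = ∑ i, ∑ j, if i < j then f i j else 0 := Finset.sum_comm
  rw [h2, h3]; ring

theorem Kf_comm {M : ℕ} (γ : Pos M → ℝ) (a b : Pos M → Bool) : Kf γ a b = Kf γ b a := by
  unfold Kf
  refine Finset.sum_congr rfl fun τ _ => ?_
  ring

theorem Kf_self {M : ℕ} (g : ℕ → ℝ) (a : Pos M → Bool) : Kf (gam g M) a a = 0 := by
  unfold Kf
  simp_rw [spinSign_mul_self]
  rw [sum_gam g (fun _ => 1)]
  simp

theorem wt_eq (n N M : ℕ) (g : ℕ → ℝ) (a : Fin N → Pos M → Bool) :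
    wt (gam g M) n a = Real.exp (-(1 / 2) * sq N (cK n N g a)) := by
  unfold wt
  congr 1
  have h := sum_symm (fun i j => (Kf (gam g M) (a i) (a j)) ^ 2)
    (fun i j => by rw [Kf_comm]) (fun i => by rw [Kf_self]; ring)
  have h2 : sq N (cK n N g a) = (1 / (n : ℝ)) *
      ∑ i, ∑ j, if i < j then (Kf (gam g M) (a i) (a j)) ^ 2 else 0 := by
    unfold sq cK
    rw [Finset.mul_sum]
    refine Finset.sum_congr rfl fun i _ => ?_
    rw [Finset.mul_sum]
    refine Finset.sum_congr rfl fun j _ => ?_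
    split_ifs
    · rw [mul_pow, div_pow, one_pow, Real.sq_sqrt (Nat.cast_nonneg n)]
    · simp
  rw [h2, h]
  ring

theorem FF_eq_integral (n N M : ℕ) (g b : ℕ → ℝ) (Ψ : (Fin N → Pos M → Bool) → ℂ) :
    FF (mu b M) (gam g M) n N Ψ = ∫ J, GJ n N M J g b Ψ ∂(gaussianCouplings N) := by
  unfold GJ
  rw [integral_finsetSum _ (fun a _ => ?_)]
  · unfold FF
    refine Finset.sum_congr rfl fun a _ => ?_
    rw [integral_mul_const, integral_const_mul, avg_exp, wt_eq]
  · exact ((integrable_exp_ph N (cK n N g a)).const_mul _).mul_const _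

/-- (III.1) -/
theorem FF_Qp_norm_le (g b : ℕ → ℝ) (M n N : ℕ) (hNn : N ≤ n) (l : List (Pos M × Pos M)) :
    ‖FF (mu b M) (gam g M) n N (Qp n l)‖ ≤ 1 := by
  rw [FF_eq_integral]
  have : IsProbabilityMeasure (gaussianCouplings N) := by
    unfold gaussianCouplings; infer_instance
  have h := norm_integral_le_of_norm_le_const (μ := gaussianCouplings N) (C := 1)
    (f := fun J => GJ n N M J g b (Qp n l)) (Filter.Eventually.of_forall fun J => by
      have := GJ_Qp_le n N M hNn J g b l (fun _ => 1) (Adm_one N M b)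
      simpa using this)
  simpa using h

end

end Crest.Agent.R339.En
end

-- ▼ part R339/En220E
section

/-!
R339 part (C1), helper220: (III.2) `energy_eq`, the averaged energy as a path functional.
-/

set_option autoImplicit false

namespace Crest.Agent.R339.En

open MeasureTheory ProbabilityTheory Complex
open Crest.MathPhysics.SpinGlass Crest.Agent.R339.Lim
open scoped BigOperators ComplexConjugate

noncomputable section

/-- cost angle of layer `l` -/
def gA (angles : List (ℝ × ℝ)) (l : ℕ) : ℝ := (angles.getD l (0, 0)).1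
/-- mixer angle of layer `l` -/
def bA (angles : List (ℝ × ℝ)) (l : ℕ) : ℝ := (angles.getD l (0, 0)).2

theorem gA_append (angles : List (ℝ × ℝ)) (x : ℝ × ℝ) (l : ℕ) (hl : l < angles.length) :
    gA (angles ++ [x]) l = gA angles l := by
  unfold gA
  rw [List.getD_append _ _ _ _ hl]

theorem bA_append (angles : List (ℝ × ℝ)) (x : ℝ × ℝ) (l : ℕ) (hl : l < angles.length) :
    bA (angles ++ [x]) l = bA angles l := by
  unfold bA
  rw [List.getD_append _ _ _ _ hl]

theorem gA_last (angles : List (ℝ × ℝ)) (x : ℝ × ℝ) :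
    gA (angles ++ [x]) angles.length = x.1 := by
  unfold gA
  rw [List.getD_append_right _ _ _ _ le_rfl]
  simp

theorem bA_last (angles : List (ℝ × ℝ)) (x : ℝ × ℝ) :
    bA (angles ++ [x]) angles.length = x.2 := by
  unfold bA
  rw [List.getD_append_right _ _ _ _ le_rfl]
  simp

theorem altState_append (n : ℕ) (J : Fin n → Fin n → ℝ) (angles : List (ℝ × ℝ)) (x : ℝ × ℝ) :
    alternatingState n J (angles ++ [x]) =
      mixerRotation n x.2 (costRotation n J x.1 (alternatingState n J angles)) := by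
  unfold alternatingState
  rw [List.foldl_append]
  rfl

theorem altState_eq (n : ℕ) (J : Fin n → Fin n → ℝ) (angles : List (ℝ × ℝ)) :
    alternatingState n J angles =
      vec (Tm n (bA angles)) (Fc n n J (gA angles) (fun _ _ => 1)) (plusState n)
        angles.length := by
  induction angles using List.reverseRecOn with
  | nil => rfl
  | append_singleton angles x ih =>
    rw [altState_append, ih, List.length_append, List.length_singleton]
    have h1 : vec (Tm n (bA (angles ++ [x]))) (Fc n n J (gA (angles ++ [x])) (fun _ _ => 1))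
        (plusState n) angles.length
        = vec (Tm n (bA angles)) (Fc n n J (gA angles) (fun _ _ => 1)) (plusState n)
          angles.length := by
      refine vec_congr _ (fun l hl => ?_) (fun l hl => ?_)
      · unfold Tm
        rw [bA_append _ _ _ hl]
      · unfold Fc
        rw [gA_append _ _ _ hl]
    funext σ
    simp only [vec]
    rw [h1]
    unfold mixerRotation costRotation
    refine Finset.sum_congr rfl fun τ _ => ?_
    have e1 : (∏ j, if σ j = τ j then ((Real.cos x.2 : ℝ) : ℂ) else -(I * ((Real.sin x.2 : ℝ) : ℂ)))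
        = Tm n (bA (angles ++ [x])) angles.length σ τ := by
      unfold Tm
      rw [bA_last]
      rfl
    have e2 : cexp (-(I * (x.1 : ℂ) * (pairEnergy n J τ : ℂ)))
        = Fc n n J (gA (angles ++ [x])) (fun _ _ => 1) angles.length τ := by
      unfold Fc
      rw [gA_last, mul_one, Ee_self]
    rw [e1, e2]

theorem energy_fixed (n : ℕ) (J : Fin n → Fin n → ℝ) (angles : List (ℝ × ℝ)) :
    ((expectedEnergy n J (alternatingState n J angles) : ℝ) : ℂ) =
      GJ n n angles.length J (gA angles) (bA angles)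
        (fun a => ((Ee n n J (fun j => a j (true, Fin.last angles.length)) : ℝ) : ℂ)) := by
  have h := main_path n n angles.length J (gA angles) (bA angles) (fun _ _ => 1) (fun _ _ => 1)
    (fun σ => ((Ee n n J σ : ℝ) : ℂ))
  unfold GJ
  simp only [map_one, Finset.prod_const_one, mul_one] at h
  rw [h, ← altState_eq]
  unfold expectedEnergy
  push_cast
  refine Finset.sum_congr rfl fun σ _ => ?_
  rw [Complex.conj_mul', Ee_self]

theorem sum_SK {n M : ℕ} (g : ℕ → ℝ) (a : Fin n → Pos M → Bool) (hn : 0 < n) (t : Pos M) :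
    (∑ i, ∑ j, if i < j then spinSign (a i t) * spinSign (a j t) * Kf (gam g M) (a i) (a j) else 0)
      = (1 / 2) * (n : ℝ) ^ 2 * ∑ τ, gam g M τ * (Q n a t τ) ^ 2 := by
  have h := sum_symm (fun i j => spinSign (a i t) * spinSign (a j t) * Kf (gam g M) (a i) (a j))
    (fun i j => by rw [Kf_comm]; ring) (fun i => by rw [Kf_self]; ring)
  have h2 : ∑ i, ∑ j, spinSign (a i t) * spinSign (a j t) * Kf (gam g M) (a i) (a j)
      = (n : ℝ) ^ 2 * ∑ τ, gam g M τ * (Q n a t τ) ^ 2 := by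
    have h3 : ∀ τ, gam g M τ * (Q n a t τ) ^ 2 = (1 / (n : ℝ)) ^ 2 * (gam g M τ *
        ∑ i, ∑ j, (spinSign (a i t) * spinSign (a i τ)) * (spinSign (a j t) * spinSign (a j τ))) := by
      intro τ
      unfold Q
      rw [← Finset.sum_mul_sum]
      ring
    simp_rw [h3]
    rw [← Finset.mul_sum, ← mul_assoc, ← mul_pow, mul_one_div_cancel (by positivity), one_pow,
      one_mul]
    unfold Kf
    simp_rw [Finset.mul_sum]
    rw [Finset.sum_comm' (t' := Finset.univ) (s' := fun _ => Finset.univ) (by simp)]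
    rw [Finset.sum_comm]
    conv_rhs => rw [Finset.sum_comm]
    refine Finset.sum_congr rfl fun i _ => ?_
    conv_rhs => rw [Finset.sum_comm]
    refine Finset.sum_congr rfl fun j _ => ?_
    refine Finset.sum_congr rfl fun τ _ => ?_
    ring
  linarith

theorem avg_energy_path (n M : ℕ) (hn : 0 < n) (g : ℕ → ℝ) (a : Fin n → Pos M → Bool) (t : Pos M) :
    ∫ J, cexp (I * (ph n (cK n n g a) J : ℂ)) * ((Ee n n J (fun j => a j t) : ℝ) : ℂ)
        ∂(gaussianCouplings n)
      = (wt (gam g M) n a : ℂ) * ((n : ℂ) * (I / 2) * ∑ τ, (gam g M τ : ℂ) * (Q n a t τ : ℂ) ^ 2) := by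
  have h1 : ∀ J : Fin n → Fin n → ℝ,
      cexp (I * (ph n (cK n n g a) J : ℂ)) * ((Ee n n J (fun j => a j t) : ℝ) : ℂ)
      = ∑ i, ∑ j, if i < j then
        ((1 / Real.sqrt n * (spinSign (a i t) * spinSign (a j t)) : ℝ) : ℂ) *
          ((J i j : ℂ) * cexp (I * (ph n (cK n n g a) J : ℂ))) else 0 := by
    intro J
    unfold Ee
    push_cast
    rw [Finset.mul_sum, Finset.mul_sum]
    refine Finset.sum_congr rfl fun i _ => ?_
    rw [Finset.mul_sum, Finset.mul_sum]
    refine Finset.sum_congr rfl fun j _ => ?_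
    split_ifs
    · push_cast; ring
    · simp
  simp_rw [h1]
  have hint : ∀ i j : Fin n, Integrable (fun J : Fin n → Fin n → ℝ => if i < j then
        ((1 / Real.sqrt n * (spinSign (a i t) * spinSign (a j t)) : ℝ) : ℂ) *
          ((J i j : ℂ) * cexp (I * (ph n (cK n n g a) J : ℂ))) else 0) (gaussianCouplings n) := by
    intro i j
    split_ifs
    · exact (integrable_J_exp_ph n _ i j).const_mul _
    · exact integrable_zero _ _ _
  rw [integral_finsetSum _ (fun i _ => integrable_finsetSum _ fun j _ => hint i j)]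
  simp_rw [integral_finsetSum _ (fun j _ => hint _ j)]
  have h2 : ∀ i j : Fin n, ∫ J : Fin n → Fin n → ℝ, (if i < j then
        ((1 / Real.sqrt n * (spinSign (a i t) * spinSign (a j t)) : ℝ) : ℂ) *
          ((J i j : ℂ) * cexp (I * (ph n (cK n n g a) J : ℂ))) else 0) ∂(gaussianCouplings n)
      = (I * (wt (gam g M) n a : ℂ) * (1 / n : ℂ)) * (((if i < j then
        spinSign (a i t) * spinSign (a j t) * Kf (gam g M) (a i) (a j) else 0) : ℝ) : ℂ) := by
    intro i j
    split_ifs with hij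
    · rw [integral_const_mul, avg_J_exp n _ i j hij, ← wt_eq]
      have hs : ((1 / Real.sqrt n : ℝ) : ℂ) * ((1 / Real.sqrt n : ℝ) : ℂ) = (1 / n : ℂ) := by
        rw [← Complex.ofReal_mul, div_mul_div_comm, one_mul, Real.mul_self_sqrt (Nat.cast_nonneg n)]
        push_cast; rfl
      unfold cK
      rw [← hs]
      push_cast
      ring
    · simp
  simp_rw [h2, ← Finset.mul_sum]
  have h3 := sum_SK g a hn t
  have h4 : (∑ i : Fin n, ∑ j : Fin n, (((if i < j then
        spinSign (a i t) * spinSign (a j t) * Kf (gam g M) (a i) (a j) else 0) : ℝ) : ℂ))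
      = (((1 / 2) * (n : ℝ) ^ 2 * ∑ τ, gam g M τ * (Q n a t τ) ^ 2 : ℝ) : ℂ) := by
    rw [← h3]; push_cast; rfl
  rw [h4]
  push_cast
  have hn' : (n : ℂ) ≠ 0 := by exact_mod_cast hn.ne'
  field_simp

/-- (III.2) -/
theorem energy_eq (n : ℕ) (hn : 1 ≤ n) (angles : List (ℝ × ℝ)) :
    (((∫ J, expectedEnergy n J (alternatingState n J angles) ∂(gaussianCouplings n)) / n : ℝ) : ℂ)
      = (I / 2) * ∑ τ, (gam (gA angles) angles.length τ : ℂ) *
        FF (mu (bA angles) angles.length) (gam (gA angles) angles.length) n n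
          (fun a => (Q n a (true, Fin.last angles.length) τ : ℂ) ^ 2) := by
  have hn' : (n : ℂ) ≠ 0 := by exact_mod_cast (by omega : n ≠ 0)
  rw [Complex.ofReal_div, ← integral_complex_ofReal]
  simp_rw [energy_fixed]
  unfold GJ
  rw [integral_finsetSum _ (fun a _ => ?_)]
  · have h1 : ∀ a : Fin n → Pos angles.length → Bool,
        ∫ J, (∏ j, mu (bA angles) angles.length (a j)) *
          cexp (I * (ph n (cK n n (gA angles) a) J : ℂ)) *
          ((Ee n n J (fun j => a j (true, Fin.last angles.length)) : ℝ) : ℂ) ∂(gaussianCouplings n)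
        = (∏ j, mu (bA angles) angles.length (a j)) *
          ((wt (gam (gA angles) angles.length) n a : ℂ) * ((n : ℂ) * (I / 2) *
            ∑ τ, (gam (gA angles) angles.length τ : ℂ) *
              (Q n a (true, Fin.last angles.length) τ : ℂ) ^ 2)) := by
      intro a
      rw [← avg_energy_path n angles.length (by omega) (gA angles) a, ← integral_const_mul]
      refine integral_congr_ae (Filter.Eventually.of_forall fun J => ?_)
      ring
    simp_rw [h1]
    unfold FF
    simp_rw [Finset.mul_sum]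
    rw [Finset.sum_comm]
    simp_rw [Complex.ofReal_natCast, Finset.sum_div]
    refine Finset.sum_congr rfl fun τ _ => ?_
    refine Finset.sum_congr rfl fun a _ => ?_
    field_simp
  · simp_rw [mul_assoc]
    refine Integrable.const_mul ?_ _
    have h1 : ∀ J : Fin n → Fin n → ℝ,
        cexp (I * (ph n (cK n n (gA angles) a) J : ℂ)) *
          ((Ee n n J (fun j => a j (true, Fin.last angles.length)) : ℝ) : ℂ)
        = ∑ i, ∑ j, if i < j then
          ((1 / Real.sqrt n * (spinSign (a i (true, Fin.last angles.length)) *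
            spinSign (a j (true, Fin.last angles.length))) : ℝ) : ℂ) *
            ((J i j : ℂ) * cexp (I * (ph n (cK n n (gA angles) a) J : ℂ))) else 0 := by
      intro J
      unfold Ee
      push_cast
      rw [Finset.mul_sum, Finset.mul_sum]
      refine Finset.sum_congr rfl fun i _ => ?_
      rw [Finset.mul_sum, Finset.mul_sum]
      refine Finset.sum_congr rfl fun j _ => ?_
      split_ifs
      · push_cast; ring
      · simp
    simp_rw [h1]
    refine integrable_finsetSum _ fun i _ => integrable_finsetSum _ fun j _ => ?_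
    split_ifs
    · exact (integrable_J_exp_ph n _ i j).const_mul _
    · exact integrable_zero _ _ _

end

end Crest.Agent.R339.En
end

-- ▼ part R339/LimMain90

/-!
# The limit theorem for plain words: glue
-/

set_option autoImplicit false

noncomputable section

open scoped ComplexConjugate InnerProductSpace Topology
open Filter Crest.MathPhysics.SpinGlass Crest.Agent.R339.Lim MeasureTheory

namespace Crest.Agent.R339.Site

variable {K : Type*} [NormedAddCommGroup K] [InnerProductSpace ℂ K]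

lemma GCons_GF (ι : Sp K →ₗᵢ[ℂ] K) (g b : ℕ → ℝ) : GCons g b (GF ι g b) :=
  fun M t t' => GF_recursion ι g b M t t'

/-- (III.2) -/
def EnergyEq : Prop := ∀ (angles : List (ℝ × ℝ)) (n : ℕ), 1 ≤ n →
  (((∫ J, expectedEnergy n J (alternatingState n J angles) ∂(gaussianCouplings n)) / n : ℝ) : ℂ) =
    (Complex.I / 2) * ∑ τ : Pos angles.length,
      (gam (fun l => (angles.getD l (0, 0)).1) angles.length τ : ℂ) *
      FF (mu (fun l => (angles.getD l (0, 0)).2) angles.length)
        (gam (fun l => (angles.getD l (0, 0)).1) angles.length) n n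
        (fun a => ((Q n a (true, Fin.last angles.length) τ : ℝ) : ℂ) ^ 2)

theorem tendsto_energy_of (hB : ∀ g b : ℕ → ℝ, ∀ M, BddQ (mu b M) (gam g M)) (hE : EnergyEq)
    (ι : Sp K →ₗᵢ[ℂ] K) (angles : List (ℝ × ℝ)) :
    Tendsto (fun n : ℕ => (∫ J, expectedEnergy n J (alternatingState n J angles)
      ∂(gaussianCouplings n)) / n) atTop (𝓝 (energy ι (wordU ι angles))) := by
  set p := angles.length with hp
  set g : ℕ → ℝ := fun l => (angles.getD l (0, 0)).1 with hg
  set b : ℕ → ℝ := fun l => (angles.getD l (0, 0)).2 with hb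
  have hw : wordU ι angles = Wd ι g b p := wordU_eq ι angles g b (fun _ _ => rfl) (fun _ _ => rfl)
  rw [hw]
  have h1 : ∀ τ : Pos p, Tendsto (fun n => FF (mu b p) (gam g p) n n
      (fun a => ((Q n a (true, Fin.last p) τ : ℝ) : ℂ) ^ 2)) atTop
      (𝓝 (GF ι g b (true, p) (τ.1, (τ.2 : ℕ)) ^ 2)) := by
    intro τ
    have := tendsto_FF (GCons_GF ι g b) (hB g b) p
      [((true, Fin.last p), τ), ((true, Fin.last p), τ)]
    have h2 : (([((true, Fin.last p), τ), ((true, Fin.last p), τ)] : List (Pos p × Pos p)).map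
        (GR (GF ι g b) p)).prod = GF ι g b (true, p) (τ.1, (τ.2 : ℕ)) ^ 2 := by
      simp [GR, pow_two]
    rw [h2] at this
    refine this.congr fun n => ?_
    congr 1
    funext a
    simp [Qp, pow_two]
  have h3 : Tendsto (fun n => (Complex.I / 2) * ∑ τ : Pos p, (gam g p τ : ℂ) *
      FF (mu b p) (gam g p) n n (fun a => ((Q n a (true, Fin.last p) τ : ℝ) : ℂ) ^ 2)) atTop
      (𝓝 ((energy ι (Wd ι g b p) : ℝ) : ℂ)) := by
    rw [energy_contour]
    exact (tendsto_finsetSum _ fun τ _ => (h1 τ).const_mul _).const_mul _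
  have h4 : Tendsto (fun n : ℕ => (((∫ J, expectedEnergy n J (alternatingState n J angles)
      ∂(gaussianCouplings n)) / n : ℝ) : ℂ)) atTop (𝓝 ((energy ι (Wd ι g b p) : ℝ) : ℂ)) := by
    refine h3.congr' ?_
    filter_upwards [eventually_ge_atTop 1] with n hn
    exact (hE angles n hn).symm
  have h5 := (Complex.continuous_re.tendsto _).comp h4
  exact h5

theorem bddQ_all (g b : ℕ → ℝ) (M : ℕ) : BddQ (mu b M) (gam g M) :=
  fun n N hNn l => En.FF_Qp_norm_le g b M n N hNn l

theorem energyEq_all : EnergyEq := by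
  intro angles n hn
  exact En.energy_eq n hn angles

/-- **(C1)** For every one-particle space `K` and every isometry `ι : Sp K → K`, the averaged
energy per spin of an alternating word converges to the site-model energy of the word. -/
theorem tendsto_energy (ι : Sp K →ₗᵢ[ℂ] K) (angles : List (ℝ × ℝ)) :
    Tendsto (fun n : ℕ => (∫ J, expectedEnergy n J (alternatingState n J angles)
      ∂(gaussianCouplings n)) / n) atTop (𝓝 (energy ι (wordU ι angles))) :=
  tendsto_energy_of bddQ_all energyEq_all ι angles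

end Crest.Agent.R339.Site
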