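import Crest.Agent.R339.Kahane

-- ▼ part R339/Trig716a
section

/-!
# Row 339, part (C)/(K): Gaussian laws with a given covariance matrix

`gl Q` is the centred Gaussian law on `ι → ℝ` with covariance matrix `Q` (for `Q` positive
semidefinite).  We prove: the characteristic function, dependence only on the relevant block of
`Q`, continuity in `Q` (with test functions of linear growth which converge continuously), and
the Gaussian integration by parts formula.
-/

set_option autoImplicit false
set_option linter.unusedSectionVars false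

namespace Crest.Agent.R339.Trig

open MeasureTheory ProbabilityTheory Filter Topology Matrix
open Crest.Agent.R339.Guerra (G lin dual)
open scoped MatrixOrder Matrix.Norms.L2Operator

noncomputable section

variable {ι : Type*} [Fintype ι] [DecidableEq ι]

/-- the square root of a positive semidefinite matrix -/
def rt (Q : Matrix ι ι ℝ) : ι → ι → ℝ := fun i j => (CFC.sqrt Q : Matrix ι ι ℝ) i j

/-- the centred Gaussian law with covariance matrix `Q` -/
def gl (Q : Matrix ι ι ℝ) : Measure (ι → ℝ) := (G ι).map (lin (rt Q))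

theorem integral_gl (Q : Matrix ι ι ℝ) {E : Type*} [NormedAddCommGroup E] [NormedSpace ℝ E]
    {f : (ι → ℝ) → E} (hf : StronglyMeasurable f) :
    ∫ x, f x ∂gl Q = ∫ g, f (lin (rt Q) g) ∂G ι := by
  unfold gl
  rw [integral_map (Guerra.continuous_lin _).measurable.aemeasurable hf.aestronglyMeasurable]

instance (Q : Matrix ι ι ℝ) : IsProbabilityMeasure (gl Q) :=
  Measure.isProbabilityMeasure_map (Guerra.continuous_lin _).measurable.aemeasurable

theorem integrable_norm_G : Integrable (fun g : ι → ℝ => ‖g‖) (G ι) := by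
  have h : Integrable (fun g : ι → ℝ => ∑ j, |g j|) (G ι) :=
    integrable_finsetSum _ fun j _ => (Guerra.integrable_coord j).abs
  refine h.mono' (by fun_prop) (Eventually.of_forall fun g => ?_)
  rw [norm_norm]
  rw [pi_norm_le_iff_of_nonneg (by positivity)]
  intro i
  exact Finset.single_le_sum (f := fun j => |g j|) (fun b _ => abs_nonneg _) (Finset.mem_univ i)

theorem norm_lin_le' (A : ι → ι → ℝ) (g : ι → ℝ) :
    ‖lin A g‖ ≤ (∑ a, ∑ j, |A a j|) * (Fintype.card ι * ‖g‖) := by
  refine (Guerra.norm_lin_le A g).trans ?_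
  refine mul_le_mul_of_nonneg_left ?_ (by positivity)
  calc ∑ j, |g j| ≤ ∑ _j : ι, ‖g‖ := Finset.sum_le_sum fun j _ => norm_le_pi_norm g j
    _ = _ := by simp


theorem integrable_gl_bdd (Q : Matrix ι ι ℝ) {f : (ι → ℝ) → ℝ} (hf : StronglyMeasurable f) {C : ℝ}
    (hC : ∀ x, |f x| ≤ C) : Integrable f (gl Q) :=
  (integrable_const C).mono' hf.aestronglyMeasurable (Eventually.of_forall hC)

/-- the square root is symmetric -/
theorem rt_symm (Q : Matrix ι ι ℝ) (i j : ι) : rt Q i j = rt Q j i := by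
  have h := (CFC.sqrt_nonneg Q).isSelfAdjoint
  have h2 : star (CFC.sqrt Q) = CFC.sqrt Q := h
  have := congrFun (congrFun h2 j) i
  rw [Matrix.star_apply] at this
  simpa [rt] using this

theorem sum_rt {Q : Matrix ι ι ℝ} (hQ : Q.PosSemidef) (i j : ι) :
    ∑ k, rt Q i k * rt Q j k = Q i j := by
  have h : (CFC.sqrt Q : Matrix ι ι ℝ) * CFC.sqrt Q = Q := CFC.sqrt_mul_sqrt_self _ hQ.nonneg
  conv_rhs => rw [← h]
  rw [Matrix.mul_apply]
  refine Finset.sum_congr rfl fun k _ => ?_
  rw [rt_symm Q j k]; rfl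

/-- the characteristic function of `gl Q` -/
theorem charFun_gl {Q : Matrix ι ι ℝ} (hQ : Q.PosSemidef) (a : ι → ℝ) :
    ∫ x, Complex.exp (((∑ i, a i * x i : ℝ) : ℂ) * Complex.I) ∂gl Q =
      Complex.exp (((-(∑ i, ∑ j, a i * Q i j * a j) / 2 : ℝ) : ℂ)) := by
  rw [integral_gl Q (Continuous.stronglyMeasurable (by fun_prop))]
  set b : ι → ℝ := fun k => ∑ i, a i * rt Q i k with hb
  have h1 : ∀ g : ι → ℝ, ∑ i, a i * lin (rt Q) g i = ∑ k, b k * g k := by
    intro g
    simp only [lin, hb, Finset.sum_mul, Finset.mul_sum]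
    rw [Finset.sum_comm]
    refine Finset.sum_congr rfl fun k _ => Finset.sum_congr rfl fun i _ => by ring
  have h2 : ∀ g : ι → ℝ, Complex.exp (((∑ i, a i * lin (rt Q) g i : ℝ) : ℂ) * Complex.I) =
      ∏ k, Complex.exp (((b k * g k : ℝ) : ℂ) * Complex.I) := by
    intro g
    rw [h1, Complex.ofReal_sum, Finset.sum_mul, Complex.exp_sum]
  simp_rw [h2]
  rw [integral_fintype_prod_eq_prod (f := fun k (x : ℝ) =>
    Complex.exp (((b k * x : ℝ) : ℂ) * Complex.I))]
  have h3 : ∀ k, ∫ x : ℝ, Complex.exp (((b k * x : ℝ) : ℂ) * Complex.I) ∂gaussianReal 0 1 =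
      Complex.exp (((-(b k)^2/2 : ℝ) : ℂ)) := by
    intro k
    have := charFun_gaussianReal (μ := 0) (v := 1) (b k)
    rw [charFun_apply_real] at this
    simp only [Complex.ofReal_mul]
    rw [this]
    congr 1
    push_cast
    ring
  simp_rw [h3]
  rw [← Complex.exp_sum, ← Complex.ofReal_sum]
  congr 2
  have h4 : ∑ k, b k ^ 2 = ∑ i, ∑ j, a i * Q i j * a j := by
    simp only [hb, sq, Finset.sum_mul_sum]
    rw [Finset.sum_comm]
    refine Finset.sum_congr rfl fun i _ => ?_
    rw [Finset.sum_comm]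
    refine Finset.sum_congr rfl fun j _ => ?_
    rw [← sum_rt hQ i j, Finset.mul_sum, Finset.sum_mul]
    refine Finset.sum_congr rfl fun k _ => by ring
  rw [← h4, neg_div, Finset.sum_div, ← Finset.sum_neg_distrib]
  refine Finset.sum_congr rfl fun k _ => by ring

theorem measurable_cexp (a : ι → ℝ) : StronglyMeasurable (fun x : ι → ℝ =>
    Complex.exp (((∑ i, a i * x i : ℝ) : ℂ) * Complex.I)) :=
  Continuous.stronglyMeasurable (by fun_prop)




/-- a probability measure is determined by its characteristic function -/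
theorem eq_of_charFun {μ ν : Measure (ι → ℝ)} [IsProbabilityMeasure μ] [IsProbabilityMeasure ν]
    (h : ∀ a : ι → ℝ, ∫ x, Complex.exp (((∑ i, a i * x i : ℝ) : ℂ) * Complex.I) ∂μ =
      ∫ x, Complex.exp (((∑ i, a i * x i : ℝ) : ℂ) * Complex.I) ∂ν) : μ = ν := by
  refine Measure.ext_of_charFunDual ?_
  ext L
  rw [charFunDual_apply, charFunDual_apply]
  obtain ⟨a, hL⟩ : ∃ a : ι → ℝ, ∀ x : ι → ℝ, L x = ∑ i, a i * x i := by
    refine ⟨fun i => L (Pi.single i 1), fun x => ?_⟩
    have hx : x = ∑ i, x i • (Pi.single i (1 : ℝ) : ι → ℝ) := by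
      funext j
      rw [Finset.sum_apply, Finset.sum_eq_single j]
      · simp
      · intro b _ hb
        simp [Pi.single_eq_of_ne (Ne.symm hb)]
      · intro h; exact absurd (Finset.mem_univ j) h
    calc L x = L (∑ i, x i • (Pi.single i (1 : ℝ) : ι → ℝ)) := by rw [← hx]
      _ = _ := by
        rw [map_sum]
        refine Finset.sum_congr rfl fun i _ => ?_
        rw [map_smul, smul_eq_mul, mul_comm]
  simp_rw [hL]
  exact h a

/-- continuous convergence of a sequence of functions -/
def CC {E F : Type*} [TopologicalSpace E] [TopologicalSpace F] (f : ℕ → E → F) (f0 : E → F) :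
    Prop := ∀ (xn : ℕ → E) (x : E), Tendsto xn atTop (𝓝 x) →
      Tendsto (fun n => f n (xn n)) atTop (𝓝 (f0 x))

theorem continuousOn_rt : ContinuousOn (fun Q : Matrix ι ι ℝ => (CFC.sqrt Q : Matrix ι ι ℝ))
    {Q | Q.PosSemidef} := by
  have h := CFC.continuousOn_sqrt (A := Matrix ι ι ℝ)
  refine h.mono ?_
  intro Q hQ
  exact hQ.nonneg

theorem tendsto_rt {Qn : ℕ → Matrix ι ι ℝ} {Q : Matrix ι ι ℝ} (hn : ∀ n, (Qn n).PosSemidef)
    (hQ : Q.PosSemidef) (h : ∀ i j, Tendsto (fun n => Qn n i j) atTop (𝓝 (Q i j))) (i j : ι) :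
    Tendsto (fun n => rt (Qn n) i j) atTop (𝓝 (rt Q i j)) := by
  have h1 : Tendsto Qn atTop (𝓝 Q) := tendsto_pi_nhds.2 fun i => tendsto_pi_nhds.2 fun j => h i j
  have h2 := (continuousOn_rt (ι := ι) Q hQ).tendsto
  have h3 : Tendsto Qn atTop (𝓝[{Q | Q.PosSemidef}] Q) :=
    tendsto_nhdsWithin_iff.2 ⟨h1, Eventually.of_forall hn⟩
  have h4 := h2.comp h3
  exact tendsto_pi_nhds.1 (tendsto_pi_nhds.1 h4 i) j

/-- **Continuity of Gaussian expectations in the covariance and the integrand.** -/
theorem tendsto_integral_gl {Qn : ℕ → Matrix ι ι ℝ} {Q : Matrix ι ι ℝ}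
    (hn : ∀ n, (Qn n).PosSemidef) (hQ : Q.PosSemidef)
    (h : ∀ i j, Tendsto (fun n => Qn n i j) atTop (𝓝 (Q i j)))
    {f : ℕ → (ι → ℝ) → ℝ} {f0 : (ι → ℝ) → ℝ} (hf : ∀ n, StronglyMeasurable (f n))
    (hf0 : StronglyMeasurable f0) {C : ℝ} (hC : ∀ n x, |f n x| ≤ C * (1 + ‖x‖))
    (hcc : CC f f0) :
    Tendsto (fun n => ∫ x, f n x ∂gl (Qn n)) atTop (𝓝 (∫ x, f0 x ∂gl Q)) := by
  have hrt := tendsto_rt hn hQ h
  rw [integral_gl Q hf0]
  have e : (fun n => ∫ x, f n x ∂gl (Qn n)) =
      fun n => ∫ g, f n (lin (rt (Qn n)) g) ∂G ι := by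
    funext n; rw [integral_gl (Qn n) (hf n)]
  rw [e]
  have hC0 : 0 ≤ C := by
    have := hC 0 0
    simp only [norm_zero, add_zero, mul_one] at this
    exact (abs_nonneg _).trans this
  -- bound of the entries
  obtain ⟨B, hB⟩ : ∃ B : ℝ, ∀ n, ∑ a, ∑ j, |rt (Qn n) a j| ≤ B := by
    have ht : Tendsto (fun n => ∑ a, ∑ j, |rt (Qn n) a j|) atTop
        (𝓝 (∑ a, ∑ j, |rt Q a j|)) :=
      tendsto_finsetSum _ fun a _ => tendsto_finsetSum _ fun j _ => (hrt a j).abs
    obtain ⟨B, hB⟩ := ht.bddAbove_range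
    exact ⟨B, fun n => hB ⟨n, rfl⟩⟩
  have hB0 : 0 ≤ B := le_trans (by positivity) (hB 0)
  refine tendsto_integral_of_dominated_convergence
    (fun g => C * (1 + B * (Fintype.card ι * ‖g‖))) (fun n => ?_) ?_ (fun n => ?_) ?_
  · exact ((hf n).comp_measurable (Guerra.continuous_lin _).measurable).aestronglyMeasurable
  · refine Integrable.const_mul ?_ _
    refine (integrable_const _).add ?_
    exact (integrable_norm_G.const_mul _).const_mul _
  · refine Eventually.of_forall fun g => ?_
    refine (hC _ _).trans ?_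
    have h1 := norm_lin_le' (rt (Qn n)) g
    have h2 := mul_le_mul_of_nonneg_right (hB n)
      (show 0 ≤ (Fintype.card ι : ℝ) * ‖g‖ by positivity)
    have h3 := h1.trans h2
    gcongr
  · refine Eventually.of_forall fun g => ?_
    refine hcc _ _ ?_
    rw [tendsto_pi_nhds]
    intro i
    exact tendsto_finsetSum _ fun j _ => (hrt i j).mul_const _

/-- expectations of functions of a block only depend on the block of the covariance -/
theorem integral_gl_congr {Q Q' : Matrix ι ι ℝ} (hQ : Q.PosSemidef) (hQ' : Q'.PosSemidef)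
    {s : Set ι} (h : ∀ i ∈ s, ∀ j ∈ s, Q i j = Q' i j) {f : (ι → ℝ) → ℝ}
    (hf : StronglyMeasurable f) (hd : DependsOn f s) :
    ∫ x, f x ∂gl Q = ∫ x, f x ∂gl Q' := by
  classical
  let P : (ι → ℝ) → (ι → ℝ) := fun x i => if i ∈ s then x i else 0
  have hP : Measurable P := by
    refine measurable_pi_lambda _ fun i => ?_
    by_cases hi : i ∈ s
    · simp only [P, if_pos hi]; exact measurable_pi_apply i
    · simp only [P, if_neg hi]; exact measurable_const
  have hfP : ∀ x, f x = f (P x) := fun x => hd fun i hi => by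
    simp only [P, if_pos hi]
  have key : (gl Q).map P = (gl Q').map P := by
    have i1 : IsProbabilityMeasure ((gl Q).map P) :=
      Measure.isProbabilityMeasure_map hP.aemeasurable
    have i2 : IsProbabilityMeasure ((gl Q').map P) :=
      Measure.isProbabilityMeasure_map hP.aemeasurable
    refine eq_of_charFun fun a => ?_
    rw [integral_map hP.aemeasurable (measurable_cexp a).aestronglyMeasurable,
      integral_map hP.aemeasurable (measurable_cexp a).aestronglyMeasurable]
    have e : ∀ x, ∑ i, a i * P x i = ∑ i, (P a i) * x i := by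
      intro x
      refine Finset.sum_congr rfl fun i _ => ?_
      by_cases hi : i ∈ s
      · simp only [P, if_pos hi]
      · simp only [P, if_neg hi, mul_zero, zero_mul]
    simp_rw [e]
    rw [charFun_gl hQ, charFun_gl hQ']
    congr 4
    refine Finset.sum_congr rfl fun i _ => Finset.sum_congr rfl fun j _ => ?_
    by_cases hi : i ∈ s
    · by_cases hj : j ∈ s
      · rw [h i hi j hj]
      · simp only [P, if_neg hj, mul_zero]
    · simp only [P, if_neg hi, zero_mul]
  calc ∫ x, f x ∂gl Q = ∫ x, f (P x) ∂gl Q := by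
        refine integral_congr_ae (Eventually.of_forall fun x => ?_)
        exact hfP x
    _ = ∫ x, f x ∂(gl Q).map P := (integral_map hP.aemeasurable hf.aestronglyMeasurable).symm
    _ = ∫ x, f x ∂(gl Q').map P := by rw [key]
    _ = ∫ x, f (P x) ∂gl Q' := integral_map hP.aemeasurable hf.aestronglyMeasurable
    _ = ∫ x, f x ∂gl Q' := by
        refine integral_congr_ae (Eventually.of_forall fun x => ?_)
        exact (hfP x).symm

/-- **Gaussian integration by parts**: `E[x_i f] = ∑_j Q_ij E[∂_j f]` for bounded `f` with bounded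
partial derivatives -/
theorem ibp_gl {Q : Matrix ι ι ℝ} (hQ : Q.PosSemidef) {f : (ι → ℝ) → ℝ}
    {p : ι → (ι → ℝ) → ℝ} {C : ℝ} (hf : ∀ x, HasFDerivAt f (dual fun j => p j x) x)
    (hp : ∀ j, Continuous (p j)) (hC : ∀ x, |f x| ≤ C) (hCp : ∀ j x, |p j x| ≤ C) (i : ι) :
    ∫ x, x i * f x ∂gl Q = ∑ j, Q i j * ∫ x, p j x ∂gl Q := by
  have hfc : Continuous f := continuous_iff_continuousAt.2 fun x => (hf x).continuousAt
  rw [integral_gl Q (Continuous.stronglyMeasurable (by fun_prop))]
  have h1 : ∀ k, ∫ g, g k * f (lin (rt Q) g) ∂G ι =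
      ∑ j, rt Q j k * ∫ x, p j x ∂gl Q := by
    intro k
    have hd : ∀ g : ι → ℝ, HasDerivAt (fun t => f (lin (rt Q) (Function.update g k t)))
        (∑ j, p j (lin (rt Q) g) * rt Q j k) (g k) := by
      intro g
      have h2 := Guerra.hasDerivAt_lin_update (rt Q) g k (g k)
      have h3 := hf (lin (rt Q) (Function.update g k (g k)))
      have h4 := h3.comp_hasDerivAt (g k) h2
      rw [Function.update_eq_self, Guerra.dual_apply] at h4
      exact h4
    have h5 := Guerra.steinG (ι := ι) k (f := fun g => f (lin (rt Q) g))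
      (f' := fun g => ∑ j, p j (lin (rt Q) g) * rt Q j k)
      (hfc.comp (Guerra.continuous_lin _))
      ((continuous_finsetSum _ fun j _ => ((hp j).comp (Guerra.continuous_lin _)).mul
        continuous_const).measurable) hd (C := C) (C' := ∑ j, C * |rt Q j k|)
      (fun g => hC _) (fun g => by
        refine (Finset.abs_sum_le_sum_abs _ _).trans (Finset.sum_le_sum fun j _ => ?_)
        rw [abs_mul]
        exact mul_le_mul_of_nonneg_right (hCp _ _) (abs_nonneg _))
    rw [h5]
    rw [integral_finsetSum]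
    · refine Finset.sum_congr rfl fun j _ => ?_
      rw [integral_mul_const, mul_comm, integral_gl Q (hp j).stronglyMeasurable]
    · intro j _
      refine Integrable.mul_const ?_ _
      exact (integrable_const C).mono'
        ((hp j).comp (Guerra.continuous_lin _)).aestronglyMeasurable
        (Eventually.of_forall fun g => hCp _ _)
  have h6 : ∀ g : ι → ℝ, lin (rt Q) g i * f (lin (rt Q) g) =
      ∑ k, rt Q i k * (g k * f (lin (rt Q) g)) := by
    intro g
    simp only [lin]
    rw [Finset.sum_mul]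
    refine Finset.sum_congr rfl fun k _ => by ring
  simp_rw [h6]
  rw [integral_finsetSum]
  · simp_rw [integral_const_mul, h1, Finset.mul_sum]
    rw [Finset.sum_comm]
    refine Finset.sum_congr rfl fun j _ => ?_
    rw [← sum_rt hQ i j, Finset.sum_mul]
    refine Finset.sum_congr rfl fun k _ => by ring
  · intro k _
    refine Integrable.const_mul ?_ _
    refine ((Guerra.integrable_coord k).abs.const_mul C).mono' ?_
      (Eventually.of_forall fun g => ?_)
    · exact ((continuous_apply k).mul (hfc.comp (Guerra.continuous_lin _))).aestronglyMeasurable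
    · rw [Real.norm_eq_abs, abs_mul, mul_comm]
      exact mul_le_mul_of_nonneg_right (hC _) (abs_nonneg _)

end

end Crest.Agent.R339.Trig
end

-- ▼ part R339/Trig716b
section

/-!
# Row 339, part (C)/(K): the state-evolution recursion

A scheme with `m` messages is a family `F i : (Fin (m+1) → ℝ) → ℝ`, `i < m`, where `F i` depends
only on the labels `0, …, i`.  The label `0` is a standard Gaussian, independent of the others; the
label `i+1` is the field of the message `F i`.  So the covariance `Q` is the fixed point of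
`step F`.
-/

set_option autoImplicit false
set_option linter.unusedSectionVars false

namespace Crest.Agent.R339.Trig

open MeasureTheory ProbabilityTheory Filter Topology Matrix
open Crest.Agent.R339.Guerra (G lin dual)

noncomputable section

variable {m : ℕ}

/-- one step of state evolution -/
def step (F : Fin m → (Fin (m + 1) → ℝ) → ℝ) (Q : Matrix (Fin (m + 1)) (Fin (m + 1)) ℝ) :
    Matrix (Fin (m + 1)) (Fin (m + 1)) ℝ :=
  Matrix.of fun i j => Fin.cases (Fin.cases 1 (fun _ => 0) j)
    (fun i' => Fin.cases 0 (fun j' => ∫ x, F i' x * F j' x ∂gl Q) j) i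

@[simp] theorem step_zero_zero (F : Fin m → (Fin (m + 1) → ℝ) → ℝ)
    (Q : Matrix (Fin (m + 1)) (Fin (m + 1)) ℝ) : step F Q 0 0 = 1 := rfl

@[simp] theorem step_zero_succ (F : Fin m → (Fin (m + 1) → ℝ) → ℝ)
    (Q : Matrix (Fin (m + 1)) (Fin (m + 1)) ℝ) (j : Fin m) : step F Q 0 j.succ = 0 := rfl

@[simp] theorem step_succ_zero (F : Fin m → (Fin (m + 1) → ℝ) → ℝ)
    (Q : Matrix (Fin (m + 1)) (Fin (m + 1)) ℝ) (j : Fin m) : step F Q j.succ 0 = 0 := rfl

@[simp] theorem step_succ_succ (F : Fin m → (Fin (m + 1) → ℝ) → ℝ)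
    (Q : Matrix (Fin (m + 1)) (Fin (m + 1)) ℝ) (i j : Fin m) :
    step F Q i.succ j.succ = ∫ x, F i x * F j x ∂gl Q := rfl

/-- the conditions on the messages: measurable, bounded by `C`, causal -/
structure Adm (F : Fin m → (Fin (m + 1) → ℝ) → ℝ) (C : ℝ) : Prop where
  meas : ∀ i, StronglyMeasurable (F i)
  bdd : ∀ i x, |F i x| ≤ C
  causal : ∀ i, DependsOn (F i) {j | j ≤ i.castSucc}

theorem Adm.nonneg {F : Fin m → (Fin (m + 1) → ℝ) → ℝ} {C : ℝ} (h : Adm F C) (i : Fin m) :
    0 ≤ C := (abs_nonneg _).trans (h.bdd i 0)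

theorem Adm.int {F : Fin m → (Fin (m + 1) → ℝ) → ℝ} {C : ℝ} (h : Adm F C)
    (Q : Matrix (Fin (m + 1)) (Fin (m + 1)) ℝ) (i j : Fin m) :
    Integrable (fun x => F i x * F j x) (gl Q) := by
  refine integrable_gl_bdd Q ((h.meas i).mul (h.meas j)) (C := C * C) fun x => ?_
  rw [abs_mul]
  exact mul_le_mul (h.bdd i x) (h.bdd j x) (abs_nonneg _) (h.nonneg i)

theorem step_posSemidef {F : Fin m → (Fin (m + 1) → ℝ) → ℝ} {C : ℝ} (h : Adm F C)
    (Q : Matrix (Fin (m + 1)) (Fin (m + 1)) ℝ) : (step F Q).PosSemidef := by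
  refine Matrix.PosSemidef.of_dotProduct_mulVec_nonneg ?_ fun v => ?_
  · ext i j
    rw [Matrix.conjTranspose_apply]
    simp only [star_trivial]
    refine Fin.cases ?_ (fun i' => ?_) i
    · refine Fin.cases ?_ (fun j' => ?_) j
      · rfl
      · simp
    · refine Fin.cases ?_ (fun j' => ?_) j
      · simp
      · simp only [step_succ_succ]
        simp_rw [mul_comm]
  · have e : star v ⬝ᵥ (step F Q) *ᵥ v =
        v 0 * v 0 + ∫ x, (∑ i : Fin m, v i.succ * F i x) ^ 2 ∂gl Q := by
      have h1 : ∀ x, (∑ i : Fin m, v i.succ * F i x) ^ 2 =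
          ∑ i : Fin m, ∑ j : Fin m, v i.succ * v j.succ * (F i x * F j x) := by
        intro x
        rw [sq, Finset.sum_mul_sum]
        refine Finset.sum_congr rfl fun i _ => Finset.sum_congr rfl fun j _ => by ring
      simp_rw [h1]
      rw [integral_finsetSum _ fun i _ => integrable_finsetSum _ fun j _ =>
        (h.int Q i j).const_mul _]
      simp_rw [integral_finsetSum _ fun j _ => (h.int Q _ j).const_mul _, integral_const_mul]
      simp only [dotProduct, mulVec, star_trivial, Fin.sum_univ_succ, step_zero_zero,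
        step_zero_succ, step_succ_zero, step_succ_succ]
      simp [Finset.mul_sum]
      refine Finset.sum_congr rfl fun i _ => Finset.sum_congr rfl fun j _ => by ring
    rw [e]
    have : 0 ≤ ∫ x, (∑ i : Fin m, v i.succ * F i x) ^ 2 ∂gl Q :=
      integral_nonneg fun x => sq_nonneg _
    nlinarith [mul_self_nonneg (v 0)]

/-- the covariance matrix of the labels -/
def cov (F : Fin m → (Fin (m + 1) → ℝ) → ℝ) : Matrix (Fin (m + 1)) (Fin (m + 1)) ℝ :=
  (step F)^[m + 1] 1

theorem iterate_posSemidef {F : Fin m → (Fin (m + 1) → ℝ) → ℝ} {C : ℝ} (h : Adm F C)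
    {Q : Matrix (Fin (m + 1)) (Fin (m + 1)) ℝ} (hQ : Q.PosSemidef) (k : ℕ) :
    ((step F)^[k] Q).PosSemidef := by
  cases k with
  | zero => exact hQ
  | succ k =>
    rw [Function.iterate_succ_apply']
    exact step_posSemidef h _

theorem cov_posSemidef {F : Fin m → (Fin (m + 1) → ℝ) → ℝ} {C : ℝ} (h : Adm F C) :
    (cov F).PosSemidef := iterate_posSemidef h Matrix.PosSemidef.one _

/-- the first `k` rows and columns of the `k`-th iterate do not depend on the start -/
theorem iterate_agree {F : Fin m → (Fin (m + 1) → ℝ) → ℝ} {C : ℝ} (h : Adm F C)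
    {Q Q' : Matrix (Fin (m + 1)) (Fin (m + 1)) ℝ} (hQ : Q.PosSemidef) (hQ' : Q'.PosSemidef)
    (k : ℕ) : ∀ i j : Fin (m + 1), (i : ℕ) < k → (j : ℕ) < k →
      (step F)^[k] Q i j = (step F)^[k] Q' i j := by
  induction k with
  | zero => intro i j hi _; exact absurd hi (Nat.not_lt_zero _)
  | succ k ih =>
    intro i j hi hj
    rw [Function.iterate_succ_apply', Function.iterate_succ_apply']
    revert hi hj
    refine Fin.cases ?_ (fun i' => ?_) i
    · refine Fin.cases ?_ (fun j' => ?_) j
      · intro _ _; rfl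
      · intro _ _; rfl
    · refine Fin.cases ?_ (fun j' => ?_) j
      · intro _ _; rfl
      · intro hi hj
        rw [step_succ_succ, step_succ_succ]
        refine integral_gl_congr (iterate_posSemidef h hQ k) (iterate_posSemidef h hQ' k)
          (s := {l | (l : ℕ) < k}) (fun a ha b hb => ih a b ha hb)
          ((h.meas i').mul (h.meas j')) ?_
        intro x y hxy
        have e1 : F i' x = F i' y := h.causal i' fun l hl => hxy l (by
          simp only [Set.mem_ofPred_eq, Fin.le_def, Fin.val_castSucc] at hl ⊢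
          simp only [Fin.val_succ] at hi
          omega)
        have e2 : F j' x = F j' y := h.causal j' fun l hl => hxy l (by
          simp only [Set.mem_ofPred_eq, Fin.le_def, Fin.val_castSucc] at hl ⊢
          simp only [Fin.val_succ] at hj
          omega)
        simp only [e1, e2]

theorem iterate_eq {F : Fin m → (Fin (m + 1) → ℝ) → ℝ} {C : ℝ} (h : Adm F C)
    {Q Q' : Matrix (Fin (m + 1)) (Fin (m + 1)) ℝ} (hQ : Q.PosSemidef) (hQ' : Q'.PosSemidef) :
    (step F)^[m + 1] Q = (step F)^[m + 1] Q' := by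
  ext i j
  exact iterate_agree h hQ hQ' (m + 1) i j i.2 j.2

/-- `cov F` is a fixed point of the recursion -/
theorem step_cov {F : Fin m → (Fin (m + 1) → ℝ) → ℝ} {C : ℝ} (h : Adm F C) :
    step F (cov F) = cov F := by
  unfold cov
  rw [← Function.iterate_succ_apply' (step F), Function.iterate_succ_apply]
  exact iterate_eq h (step_posSemidef h _) Matrix.PosSemidef.one

/-- `cov F` is the only fixed point of the recursion -/
theorem eq_cov {F : Fin m → (Fin (m + 1) → ℝ) → ℝ} {C : ℝ} (h : Adm F C)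
    {Q : Matrix (Fin (m + 1)) (Fin (m + 1)) ℝ} (hQ : step F Q = Q) : Q = cov F := by
  have h1 : (step F)^[m + 1] Q = Q := Function.iterate_fixed hQ _
  rw [← h1]
  refine iterate_eq h ?_ Matrix.PosSemidef.one
  rw [← hQ]
  exact step_posSemidef h _

theorem tendsto_step {F : ℕ → Fin m → (Fin (m + 1) → ℝ) → ℝ} {F0 : Fin m → (Fin (m + 1) → ℝ) → ℝ}
    {C : ℝ} (h : ∀ n, Adm (F n) C) (h0 : Adm F0 C) (hcc : ∀ i, CC (fun n => F n i) (F0 i))
    {Qn : ℕ → Matrix (Fin (m + 1)) (Fin (m + 1)) ℝ} {Q : Matrix (Fin (m + 1)) (Fin (m + 1)) ℝ}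
    (hn : ∀ n, (Qn n).PosSemidef) (hQ : Q.PosSemidef)
    (hQn : ∀ i j, Tendsto (fun n => Qn n i j) atTop (𝓝 (Q i j))) (i j : Fin (m + 1)) :
    Tendsto (fun n => step (F n) (Qn n) i j) atTop (𝓝 (step F0 Q i j)) := by
  refine Fin.cases ?_ (fun i' => ?_) i
  · refine Fin.cases ?_ (fun j' => ?_) j
    · exact tendsto_const_nhds
    · exact tendsto_const_nhds
  · refine Fin.cases ?_ (fun j' => ?_) j
    · exact tendsto_const_nhds
    · simp only [step_succ_succ]
      refine tendsto_integral_gl hn hQ hQn (C := C * C)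
        (fun n => ((h n).meas i').mul ((h n).meas j')) ((h0.meas i').mul (h0.meas j'))
        (fun n x => ?_) (fun xn x hx => (hcc i' xn x hx).mul (hcc j' xn x hx))
      have hC0 := h0.nonneg i'
      rw [abs_mul]
      calc |F n i' x| * |F n j' x| ≤ C * C :=
            mul_le_mul ((h n).bdd i' x) ((h n).bdd j' x) (abs_nonneg _) hC0
        _ ≤ C * C * (1 + ‖x‖) := by
            have : 0 ≤ C * C * ‖x‖ := by positivity
            nlinarith

/-- the covariance matrix depends continuously on the messages -/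
theorem tendsto_cov {F : ℕ → Fin m → (Fin (m + 1) → ℝ) → ℝ} {F0 : Fin m → (Fin (m + 1) → ℝ) → ℝ}
    {C : ℝ} (h : ∀ n, Adm (F n) C) (h0 : Adm F0 C) (hcc : ∀ i, CC (fun n => F n i) (F0 i))
    (i j : Fin (m + 1)) :
    Tendsto (fun n => cov (F n) i j) atTop (𝓝 (cov F0 i j)) := by
  unfold cov
  have key : ∀ k : ℕ, ∀ i j : Fin (m + 1),
      Tendsto (fun n => (step (F n))^[k] 1 i j) atTop (𝓝 ((step F0)^[k] 1 i j)) := by
    intro k
    induction k with
    | zero => intro i j; exact tendsto_const_nhds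
    | succ k ih =>
      intro i j
      simp_rw [Function.iterate_succ_apply']
      exact tendsto_step h h0 hcc (fun n => iterate_posSemidef (h n) Matrix.PosSemidef.one k)
        (iterate_posSemidef h0 Matrix.PosSemidef.one k) ih i j
  exact key (m + 1) i j

end

end Crest.Agent.R339.Trig
end

-- ▼ part R339/Trig716c
section

/-!
# Row 339, part (C)/(K): odd trigonometric polynomials

`TP ι` is the type of explicit odd real trigonometric polynomials
`x ↦ ∑ k, c k * sin (∑ i, a k i * x i)`.  Every bounded continuous odd function is the limit, in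
the sense of continuous convergence (`CC`), of a uniformly bounded sequence of them.
-/

set_option autoImplicit false
set_option linter.unusedSectionVars false

namespace Crest.Agent.R339.Trig

open MeasureTheory ProbabilityTheory Filter Topology Matrix
open Crest.Agent.R339.Guerra (G lin dual)

noncomputable section

/-- odd real trigonometric polynomials, as data -/
structure TP (ι : Type*) where
  /-- number of terms -/
  N : ℕ
  /-- coefficients -/
  c : Fin N → ℝ
  /-- frequencies -/
  a : Fin N → ι → ℝ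

variable {ι : Type*} [Fintype ι]

/-- the function -/
def TP.ev (T : TP ι) (x : ι → ℝ) : ℝ := ∑ k, T.c k * Real.sin (∑ i, T.a k i * x i)

/-- the partial derivatives -/
def TP.d (T : TP ι) (j : ι) (x : ι → ℝ) : ℝ :=
  ∑ k, T.c k * T.a k j * Real.cos (∑ i, T.a k i * x i)

theorem TP.continuous_ev (T : TP ι) : Continuous T.ev := by
  unfold TP.ev; fun_prop

theorem TP.continuous_d (T : TP ι) (j : ι) : Continuous (T.d j) := by
  unfold TP.d; fun_prop


theorem TP.abs_ev_le (T : TP ι) (x : ι → ℝ) : |T.ev x| ≤ ∑ k, |T.c k| := by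
  unfold TP.ev
  refine (Finset.abs_sum_le_sum_abs _ _).trans (Finset.sum_le_sum fun k _ => ?_)
  rw [abs_mul]
  exact mul_le_of_le_one_right (abs_nonneg _) (Real.abs_sin_le_one _)

theorem TP.abs_d_le (T : TP ι) (j : ι) (x : ι → ℝ) : |T.d j x| ≤ ∑ k, |T.c k * T.a k j| := by
  unfold TP.d
  refine (Finset.abs_sum_le_sum_abs _ _).trans (Finset.sum_le_sum fun k _ => ?_)
  rw [abs_mul]
  exact mul_le_of_le_one_right (abs_nonneg _) (Real.abs_cos_le_one _)

theorem hasFDerivAt_linear (a : ι → ℝ) (x : ι → ℝ) :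
    HasFDerivAt (fun x : ι → ℝ => ∑ i, a i * x i) (dual a) x := by
  have h := (dual a).hasFDerivAt (x := x)
  refine h.congr_of_eventuallyEq (Eventually.of_forall fun y => ?_)
  simp

theorem TP.hasFDerivAt (T : TP ι) (x : ι → ℝ) :
    HasFDerivAt T.ev (dual fun j => T.d j x) x := by
  have h : HasFDerivAt T.ev (∑ k, T.c k • (Real.cos (∑ i, T.a k i * x i) • dual (T.a k))) x := by
    unfold TP.ev
    refine HasFDerivAt.fun_sum fun k _ => ?_
    exact ((hasFDerivAt_linear (T.a k) x).sin).const_mul (T.c k)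
  refine h.congr_fderiv ?_
  ext v
  simp only [_root_.sum_apply, _root_.smul_apply, Guerra.dual_apply,
    smul_eq_mul, TP.d, Finset.sum_mul, Finset.mul_sum]
  rw [Finset.sum_comm]
  refine Finset.sum_congr rfl fun j _ => Finset.sum_congr rfl fun k _ => by ring

theorem TP.hasFDerivAt_sin (T : TP ι) (x : ι → ℝ) :
    HasFDerivAt (fun x => Real.sin (T.ev x)) (dual fun j => Real.cos (T.ev x) * T.d j x) x := by
  refine (T.hasFDerivAt x).sin.congr_fderiv ?_
  ext v
  simp only [_root_.smul_apply, Guerra.dual_apply, smul_eq_mul, Finset.mul_sum]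
  refine Finset.sum_congr rfl fun j _ => by ring

/-- restriction of the frequencies to a set of coordinates -/
def TP.res (T : TP ι) (s : ι → Prop) [DecidablePred s] : TP ι where
  N := T.N
  c := T.c
  a := fun k i => if s i then T.a k i else 0

theorem TP.res_ev (T : TP ι) (s : ι → Prop) [DecidablePred s] (x : ι → ℝ) :
    (T.res s).ev x = T.ev (fun i => if s i then x i else 0) := by
  unfold TP.ev TP.res
  refine Finset.sum_congr rfl fun k _ => ?_
  have h : ∑ i, (if s i then T.a k i else 0) * x i =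
      ∑ i, T.a k i * (if s i then x i else 0) :=
    Finset.sum_congr rfl fun i _ => by by_cases h : s i <;> simp [h]
  simp only [h]

/-! ### Complex exponential sums -/

/-- the character with frequency `a` -/
def ex (a : ι → ℝ) : (ι → ℝ) → ℂ := fun x => Complex.exp (((∑ i, a i * x i : ℝ) : ℂ) * Complex.I)

theorem ex_mul (a b : ι → ℝ) : ex a * ex b = ex (a + b) := by
  funext x
  have e : ∑ i, (a + b) i * x i = ∑ i, a i * x i + ∑ i, b i * x i := by
    rw [← Finset.sum_add_distrib]
    exact Finset.sum_congr rfl fun i _ => by rw [Pi.add_apply, add_mul]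
  rw [Pi.mul_apply]
  unfold ex
  rw [e, Complex.ofReal_add, add_mul, Complex.exp_add]

/-- finite linear combinations of characters -/
def ES (ι : Type*) [Fintype ι] : Submodule ℂ ((ι → ℝ) → ℂ) := Submodule.span ℂ (Set.range ex)

theorem ex_mem (a : ι → ℝ) : ex a ∈ ES ι := Submodule.subset_span ⟨a, rfl⟩

theorem ES_mul {f g : (ι → ℝ) → ℂ} (hf : f ∈ ES ι) (hg : g ∈ ES ι) : f * g ∈ ES ι := by
  unfold ES at hf
  induction hf using Submodule.span_induction with
  | mem x h =>
    obtain ⟨a, rfl⟩ := h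
    unfold ES at hg
    induction hg using Submodule.span_induction with
    | mem y h =>
      obtain ⟨b, rfl⟩ := h
      rw [ex_mul]; exact ex_mem _
    | zero => rw [mul_zero]; exact (ES ι).zero_mem
    | add y z _ _ hy hz => rw [mul_add]; exact (ES ι).add_mem hy hz
    | smul c y _ hy => rw [mul_smul_comm]; exact (ES ι).smul_mem _ hy
  | zero => rw [zero_mul]; exact (ES ι).zero_mem
  | add y z _ _ hy hz => rw [add_mul]; exact (ES ι).add_mem hy hz
  | smul c y _ hy => rw [smul_mul_assoc]; exact (ES ι).smul_mem _ hy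

theorem ES_const (c : ℂ) : (fun _ => c : (ι → ℝ) → ℂ) ∈ ES ι := by
  have h : (fun _ => c : (ι → ℝ) → ℂ) = c • ex (0 : ι → ℝ) := by
    funext x
    simp [ex]
  rw [h]
  exact (ES ι).smul_mem _ (ex_mem _)

theorem ES_sin [DecidableEq ι] (i : ι) (r : ℝ) :
    (fun x : ι → ℝ => ((Real.sin (x i / r) : ℝ) : ℂ)) ∈ ES ι := by
  have h : (fun x : ι → ℝ => ((Real.sin (x i / r) : ℝ) : ℂ)) =
      (Complex.I / 2) • ex (Pi.single i (-1 / r)) + (-Complex.I / 2) • ex (Pi.single i (1 / r)) := by
    funext x
    have e : ∀ t : ℝ, ∑ j, (Pi.single i t : ι → ℝ) j * x j = t * x i := by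
      intro t
      rw [Finset.sum_eq_single i]
      · simp
      · intro b _ hb; simp [Pi.single_eq_of_ne hb]
      · intro h; exact absurd (Finset.mem_univ i) h
    simp only [Pi.add_apply, Pi.smul_apply, ex, e, smul_eq_mul]
    rw [Complex.ofReal_sin, Complex.sin]
    have e1 : ((-1 / r * x i : ℝ) : ℂ) * Complex.I = -((x i / r : ℝ) : ℂ) * Complex.I := by
      push_cast; ring
    have e2 : ((1 / r * x i : ℝ) : ℂ) * Complex.I = ((x i / r : ℝ) : ℂ) * Complex.I := by
      push_cast; ring
    rw [e1, e2]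
    ring
  rw [h]
  exact (ES ι).add_mem ((ES ι).smul_mem _ (ex_mem _)) ((ES ι).smul_mem _ (ex_mem _))

/-- the odd part of a real exponential sum is in `TP` -/
theorem exists_TP_of_ES {f : (ι → ℝ) → ℝ} (hf : (fun x => ((f x : ℝ) : ℂ)) ∈ ES ι) :
    ∃ T : TP ι, ∀ x, T.ev x = (f x - f (-x)) / 2 := by
  classical
  obtain ⟨l, hl⟩ := (Finsupp.mem_span_range_iff_exists_finsupp.1 hf)
  have hl' : ∀ x, ((f x : ℝ) : ℂ) = ∑ a ∈ l.support, l a * ex a x := by
    intro x
    have := congrFun hl x
    rw [← this]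
    rw [Finsupp.sum, Finset.sum_apply]
    rfl
  let e := l.support.equivFin
  refine ⟨⟨l.support.card, fun k => - (l (e.symm k).1).im, fun k => (e.symm k).1⟩, fun x => ?_⟩
  have h1 : (((f x - f (-x)) / 2 : ℝ) : ℂ) =
      ∑ a ∈ l.support, l a * (Complex.I * ((Real.sin (∑ i, a i * x i) : ℝ) : ℂ)) := by
    push_cast
    rw [hl' x, hl' (-x), ← Finset.sum_sub_distrib, Finset.sum_div]
    refine Finset.sum_congr rfl fun a _ => ?_
    have e1 : ∑ i, a i * (-x) i = - ∑ i, a i * x i := by
      rw [← Finset.sum_neg_distrib]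
      exact Finset.sum_congr rfl fun i _ => by simp
    simp only [ex, e1]
    set t := ∑ i, a i * x i with ht
    have e2 : Complex.I * ((Real.sin t : ℝ) : ℂ) = (Complex.exp ((t : ℂ) * Complex.I) -
        Complex.exp (((-t : ℝ) : ℂ) * Complex.I)) / 2 := by
      rw [Complex.ofReal_sin, Complex.sin]
      push_cast
      have := Complex.I_sq
      linear_combination (-(Complex.exp (-(t:ℂ) * Complex.I) - Complex.exp ((t:ℂ) * Complex.I)) / 2
        * -1) * this
    have e3 : ((Real.sin t : ℝ) : ℂ) = Complex.sin (t : ℂ) := Complex.ofReal_sin t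
    have e4 : (∑ i, (a i : ℂ) * (x i : ℂ)) = (t : ℂ) := by rw [ht]; push_cast; rfl
    rw [e4, ← e3, e2]
    ring
  have h2 := congrArg Complex.re h1
  rw [Complex.ofReal_re, Complex.re_sum] at h2
  rw [h2]
  unfold TP.ev
  simp only
  have h3 : ∑ a ∈ l.support, (l a * (Complex.I * ((Real.sin (∑ i, a i * x i) : ℝ) : ℂ))).re =
      ∑ a ∈ l.support, (-(l a).im) * Real.sin (∑ i, a i * x i) := by
    refine Finset.sum_congr rfl fun a _ => ?_
    generalize Real.sin (∑ i, a i * x i) = t
    simp [Complex.mul_re, Complex.mul_im]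
  rw [h3, ← Finset.sum_coe_sort l.support (fun a => (-(l a).im) * Real.sin (∑ i, a i * x i))]
  exact (Equiv.sum_comp e.symm (fun a : l.support => (-(l a.1).im) *
    Real.sin (∑ i, a.1 i * x i)))

/-! ### Approximation -/

/-- the point `sin (x / R)` of the cube -/
def cube (R : ℝ) (x : ι → ℝ) : ι → Set.Icc (-1 : ℝ) 1 := fun i =>
  ⟨Real.sin (x i / R), Real.neg_one_le_sin _, Real.sin_le_one _⟩

/-- the coordinate functions on the cube -/
def crd (i : ι) : C(ι → Set.Icc (-1 : ℝ) 1, ℝ) := ⟨fun y => (y i : ℝ), by fun_prop⟩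

theorem crd_separates : (Algebra.adjoin ℝ (Set.range (crd (ι := ι)))).SeparatesPoints := by
  intro y z hyz
  obtain ⟨i, hi⟩ : ∃ i, y i ≠ z i := by
    by_contra h
    push Not at h
    exact hyz (funext h)
  refine ⟨crd i, ⟨crd i, Algebra.subset_adjoin ⟨i, rfl⟩, rfl⟩, ?_⟩
  simpa [crd] using fun h => hi (Subtype.ext h)

theorem comp_cube_mem (R : ℝ) {p : C(ι → Set.Icc (-1 : ℝ) 1, ℝ)}
    (hp : p ∈ Algebra.adjoin ℝ (Set.range (crd (ι := ι)))) :
    (fun x : ι → ℝ => ((p (cube R x) : ℝ) : ℂ)) ∈ ES ι := by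
  classical
  induction hp using Algebra.adjoin_induction with
  | mem x hx =>
    obtain ⟨i, rfl⟩ := hx
    exact ES_sin i R
  | algebraMap r => exact ES_const (r : ℂ)
  | add x y _ _ hx hy =>
    have h := (ES ι).add_mem hx hy
    convert h using 1
    funext z
    simp
  | mul x y _ _ hx hy =>
    have h := ES_mul hx hy
    convert h using 1
    funext z
    simp

theorem exists_TP {F : (ι → ℝ) → ℝ} (hF : Continuous F) (hodd : ∀ x, F (-x) = - F x) {C : ℝ}
    (hC : ∀ x, |F x| ≤ C) {R δ : ℝ} (hR : 0 < R) (hδ : 0 < δ) :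
    ∃ T : TP ι, (∀ x, |T.ev x| ≤ C + δ) ∧ ∀ x, ‖x‖ ≤ R → |T.ev x - F x| ≤ δ := by
  let f : C(ι → Set.Icc (-1 : ℝ) 1, ℝ) :=
    ⟨fun y => F (fun i => R * Real.arcsin (y i)), by fun_prop⟩
  obtain ⟨g, hg⟩ := ContinuousMap.exists_mem_subalgebra_near_continuousMap_of_separatesPoints
    (Algebra.adjoin ℝ (Set.range (crd (ι := ι)))) crd_separates f δ hδ
  obtain ⟨T, hT⟩ := exists_TP_of_ES (comp_cube_mem R g.2)
  have hfo : ∀ x : ι → ℝ, f (cube R (-x)) = - f (cube R x) := by
    intro x
    have : (fun i => R * Real.arcsin (cube R (-x) i)) =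
        -(fun i => R * Real.arcsin (cube R x i)) := by
      funext i
      simp only [cube, Pi.neg_apply]
      rw [neg_div, Real.sin_neg, Real.arcsin_neg]
      ring
    change F (fun i => R * Real.arcsin (cube R (-x) i)) = - F (fun i => R * Real.arcsin (cube R x i))
    rw [this, hodd]
  have hgf : ∀ y, |(g : C(ι → Set.Icc (-1 : ℝ) 1, ℝ)) y - f y| ≤ δ := by
    intro y
    have h1 := ContinuousMap.norm_coe_le_norm ((g : C(ι → Set.Icc (-1 : ℝ) 1, ℝ)) - f) y
    rw [ContinuousMap.sub_apply, Real.norm_eq_abs] at h1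
    exact h1.trans hg.le
  have hTf : ∀ x, |T.ev x - f (cube R x)| ≤ δ := by
    intro x
    rw [hT]
    have h1 := hgf (cube R x)
    have h2 := hgf (cube R (-x))
    rw [hfo] at h2
    rw [abs_le] at *
    constructor <;> linarith [h1.1, h1.2, h2.1, h2.2]
  refine ⟨T, fun x => ?_, fun x hx => ?_⟩
  · have h1 := hTf x
    have h2 : |f (cube R x)| ≤ C := hC _
    have h3 : |T.ev x| ≤ |T.ev x - f (cube R x)| + |f (cube R x)| := by
      have := abs_add_le (T.ev x - f (cube R x)) (f (cube R x))
      simpa using this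
    linarith
  · have h1 : f (cube R x) = F x := by
      change F (fun i => R * Real.arcsin (cube R x i)) = F x
      congr 1
      funext i
      simp only [cube]
      have h2 : |x i| ≤ R := (norm_le_pi_norm x i).trans hx
      rw [abs_le] at h2
      have h3 : x i / R ≤ 1 := by rw [div_le_one hR]; exact h2.2
      have h4 : -1 ≤ x i / R := by rw [le_div_iff₀ hR]; linarith [h2.1]
      have hpi := Real.pi_gt_three
      rw [Real.arcsin_sin (by linarith) (by linarith)]
      field_simp
    rw [← h1]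
    exact hTf x

/-- a bounded continuous odd function is the continuous limit of a uniformly bounded sequence of
odd trigonometric polynomials; causality can be preserved -/
theorem exists_TP_seq {F : (ι → ℝ) → ℝ} (hF : Continuous F) (hodd : ∀ x, F (-x) = - F x) {C : ℝ}
    (hC : ∀ x, |F x| ≤ C) (s : ι → Prop) [DecidablePred s] (hd : DependsOn F {i | s i}) :
    ∃ T : ℕ → TP ι, (∀ n x, |(T n).ev x| ≤ C + 1) ∧ CC (fun n => (T n).ev) F ∧
      ∀ n k i, ¬ s i → (T n).a k i = 0 := by
  have h := fun n : ℕ => exists_TP hF hodd hC (R := (n : ℝ) + 1) (δ := 1 / ((n : ℝ) + 1))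
    (by positivity) (by positivity)
  choose T hT1 hT2 using h
  refine ⟨fun n => (T n).res s, fun n x => ?_, ?_, fun n k i hi => ?_⟩
  · rw [TP.res_ev]
    refine (hT1 n _).trans ?_
    have : 1 / ((n : ℝ) + 1) ≤ 1 := by
      rw [div_le_one (by positivity)]
      have : (0 : ℝ) ≤ n := Nat.cast_nonneg n
      linarith
    linarith
  · intro xn x hx
    simp only [TP.res_ev]
    set yn : ℕ → ι → ℝ := fun n i => if s i then xn n i else 0 with hyn
    set y : ι → ℝ := fun i => if s i then x i else 0 with hy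
    have hyt : Tendsto yn atTop (𝓝 y) := by
      rw [tendsto_pi_nhds]
      intro i
      by_cases hi : s i
      · simp only [hyn, hy, if_pos hi]
        exact (tendsto_pi_nhds.1 hx) i
      · simp only [hyn, hy, if_neg hi]
        exact tendsto_const_nhds
    have hFy : F x = F y := hd fun i hi => by
      have hi' : s i := hi
      simp only [hy, if_pos hi']
    rw [hFy]
    have h1 : Tendsto (fun n => F (yn n)) atTop (𝓝 (F y)) := (hF.tendsto y).comp hyt
    have h2 : Tendsto (fun n => (T n).ev (yn n) - F (yn n)) atTop (𝓝 0) := by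
      obtain ⟨B, hB⟩ := (hyt.norm).bddAbove_range
      have hB' : ∀ n, ‖yn n‖ ≤ B := fun n => hB ⟨n, rfl⟩
      refine squeeze_zero_norm' (a := fun n : ℕ => 1 / ((n : ℝ) + 1)) ?_
        tendsto_one_div_add_atTop_nhds_zero_nat
      filter_upwards [eventually_ge_atTop ⌈B⌉₊] with n hn
      rw [Real.norm_eq_abs]
      refine hT2 n _ ?_
      have : B ≤ n := (Nat.le_ceil B).trans (by exact_mod_cast hn)
      linarith [hB' n]
    have h3 := h2.add h1
    simpa using h3
  · simp [TP.res, hi]

end

end Crest.Agent.R339.Trig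
end

-- ▼ part R339/Trig716d

/-!
# Row 339, part (C)/(K): trigonometric schemes

A `TrigScheme m` is the interface between the classical and the quantum part: the messages are odd
real trigonometric polynomials of the labels, the final rotation angle `Th` as well.  `value` is the
energy of the final state.  The theorem `exists_trigScheme` approximates every bounded continuous
odd causal scheme with nondegenerate covariance.
-/

set_option autoImplicit false
set_option linter.unusedSectionVars false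

namespace Crest.Agent.R339.Trig

open MeasureTheory ProbabilityTheory Filter Topology Matrix
open Crest.Agent.R339.Guerra (G lin dual)

noncomputable section

/-- a scheme of trigonometric messages -/
structure TrigScheme (m : ℕ) where
  /-- the messages -/
  T : Fin m → TP (Fin (m + 1))
  /-- the final rotation angle -/
  Th : TP (Fin (m + 1))
  /-- message `i` depends only on the labels `0, …, i` -/
  causal : ∀ i k j, i.castSucc < j → (T i).a k j = 0

namespace TrigScheme

variable {m : ℕ} (S : TrigScheme m)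

/-- the messages as functions -/
def msg (i : Fin m) : (Fin (m + 1) → ℝ) → ℝ := (S.T i).ev

/-- the covariance of the labels -/
def Q : Matrix (Fin (m + 1)) (Fin (m + 1)) ℝ := cov S.msg

/-- the final magnetisation `sin Θ` -/
def out (x : Fin (m + 1) → ℝ) : ℝ := Real.sin (S.Th.ev x)

/-- the partial derivatives of the final magnetisation -/
def dout (j : Fin (m + 1)) (x : Fin (m + 1) → ℝ) : ℝ := Real.cos (S.Th.ev x) * S.Th.d j x

/-- the energy of the final state -/
def value : ℝ := ∑ j : Fin m, (∫ x, S.dout j.succ x ∂gl S.Q) * (∫ x, S.msg j x * S.out x ∂gl S.Q)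

theorem adm : ∃ C, Adm S.msg C := by
  refine ⟨∑ i, ∑ k, |(S.T i).c k|, fun i => (TP.continuous_ev _).stronglyMeasurable, fun i x => ?_,
    fun i => ?_⟩
  · refine ((S.T i).abs_ev_le x).trans ?_
    exact Finset.single_le_sum (f := fun i => ∑ k, |(S.T i).c k|)
      (fun i _ => Finset.sum_nonneg fun k _ => abs_nonneg _) (Finset.mem_univ i)
  · intro x y hxy
    unfold msg TP.ev
    refine Finset.sum_congr rfl fun k _ => ?_
    have h : ∑ j, (S.T i).a k j * x j = ∑ j, (S.T i).a k j * y j := by
      refine Finset.sum_congr rfl fun j _ => ?_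
      by_cases hj : j ≤ i.castSucc
      · rw [hxy j hj]
      · rw [S.causal i k j (not_le.1 hj), zero_mul, zero_mul]
    rw [h]

theorem posSemidef_Q : S.Q.PosSemidef := by
  obtain ⟨C, h⟩ := S.adm
  exact cov_posSemidef h

theorem step_Q : step S.msg S.Q = S.Q := by
  obtain ⟨C, h⟩ := S.adm
  exact step_cov h

@[simp] theorem Q_zero_zero : S.Q 0 0 = 1 := by
  rw [← S.step_Q]; rfl

@[simp] theorem Q_zero_succ (j : Fin m) : S.Q 0 j.succ = 0 := by
  rw [← S.step_Q]; rfl

@[simp] theorem Q_succ_zero (j : Fin m) : S.Q j.succ 0 = 0 := by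
  rw [← S.step_Q]; rfl

theorem Q_succ_succ (i j : Fin m) : S.Q i.succ j.succ = ∫ x, S.msg i x * S.msg j x ∂gl S.Q := by
  conv_lhs => rw [← S.step_Q]
  rfl


theorem continuous_out : Continuous S.out := Real.continuous_sin.comp S.Th.continuous_ev

theorem continuous_dout (j : Fin (m + 1)) : Continuous (S.dout j) :=
  (Real.continuous_cos.comp S.Th.continuous_ev).mul (S.Th.continuous_d j)

theorem abs_out_le (x : Fin (m + 1) → ℝ) : |S.out x| ≤ 1 := Real.abs_sin_le_one _

/-- Gaussian integration by parts for the final magnetisation -/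
theorem ibp_out (i : Fin (m + 1)) :
    ∫ x, x i * S.out x ∂gl S.Q = ∑ j, S.Q i j * ∫ x, S.dout j x ∂gl S.Q := by
  refine ibp_gl S.posSemidef_Q (f := S.out) (p := S.dout)
    (C := 1 + ∑ j, ∑ k, |S.Th.c k * S.Th.a k j|) (fun x => S.Th.hasFDerivAt_sin x)
    S.continuous_dout (fun x => ?_) (fun j x => ?_) i
  · have : 0 ≤ ∑ j, ∑ k, |S.Th.c k * S.Th.a k j| :=
      Finset.sum_nonneg fun j _ => Finset.sum_nonneg fun k _ => abs_nonneg _
    linarith [S.abs_out_le x]
  · have h1 : |S.dout j x| ≤ ∑ k, |S.Th.c k * S.Th.a k j| := by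
      unfold dout
      rw [abs_mul]
      refine le_trans (mul_le_of_le_one_left (abs_nonneg _) (Real.abs_cos_le_one _)) ?_
      exact S.Th.abs_d_le j x
    have h2 := Finset.single_le_sum (f := fun j => ∑ k, |S.Th.c k * S.Th.a k j|)
      (fun j _ => Finset.sum_nonneg fun k _ => abs_nonneg _) (Finset.mem_univ j)
    linarith

end TrigScheme

/-- the value of a general scheme in the derivative-free form -/
def genValue {m : ℕ} (F : Fin m → (Fin (m + 1) → ℝ) → ℝ) (out : (Fin (m + 1) → ℝ) → ℝ)
    (Q : Matrix (Fin (m + 1)) (Fin (m + 1)) ℝ) : ℝ :=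
  ∑ j : Fin m, (Q⁻¹ *ᵥ fun i => ∫ x, x i * out x ∂gl Q) j.succ * ∫ x, F j x * out x ∂gl Q

theorem tendsto_inv_mulVec {ι : Type*} [Fintype ι] [DecidableEq ι] {Qn : ℕ → Matrix ι ι ℝ}
    {Q : Matrix ι ι ℝ} (hQ : IsUnit Q.det)
    (h : ∀ i j, Tendsto (fun n => Qn n i j) atTop (𝓝 (Q i j))) {v : ℕ → ι → ℝ} {v0 : ι → ℝ}
    (hv : ∀ i, Tendsto (fun n => v n i) atTop (𝓝 (v0 i))) (i : ι) :
    Tendsto (fun n => ((Qn n)⁻¹ *ᵥ v n) i) atTop (𝓝 ((Q⁻¹ *ᵥ v0) i)) := by
  have h1 : Tendsto Qn atTop (𝓝 Q) := tendsto_pi_nhds.2 fun i => tendsto_pi_nhds.2 fun j => h i j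
  have h2 : Tendsto (fun n => (Qn n)⁻¹) atTop (𝓝 Q⁻¹) := by
    simp_rw [Matrix.inv_def, Ring.inverse_eq_inv']
    refine Tendsto.smul ?_ ?_
    · refine Tendsto.inv₀ ?_ hQ.ne_zero
      exact (continuous_id.matrix_det.tendsto Q).comp h1
    · exact (continuous_id.matrix_adjugate.tendsto Q).comp h1
  refine tendsto_finsetSum _ fun j _ => ?_
  exact (tendsto_pi_nhds.1 (tendsto_pi_nhds.1 h2 i) j).mul (hv j)

/-- **Approximation of a bounded continuous odd causal scheme by trigonometric schemes.** -/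
theorem exists_trigScheme {m : ℕ} {F : Fin m → (Fin (m + 1) → ℝ) → ℝ} {C : ℝ} (hA : Adm F C)
    (hF : ∀ i, Continuous (F i)) (hFo : ∀ i x, F i (-x) = - F i x)
    {g : (Fin (m + 1) → ℝ) → ℝ} (hg : Continuous g) (hgo : ∀ x, g (-x) = - g x)
    (hg1 : ∀ x, |g x| ≤ 1) (hQ : IsUnit (cov F).det) {ε : ℝ} (hε : 0 < ε) :
    ∃ S : TrigScheme m, genValue F g (cov F) - ε ≤ S.value := by
  -- the messages
  have h1 := fun i : Fin m => exists_TP_seq (hF i) (hFo i) (hA.bdd i)
    (fun j => j ≤ i.castSucc) (hA.causal i)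
  choose T hT1 hT2 hT3 using h1
  -- the angle
  have hθc : Continuous fun x => Real.arcsin (g x) := Real.continuous_arcsin.comp hg
  have hθo : ∀ x, Real.arcsin (g (-x)) = - Real.arcsin (g x) := by
    intro x; rw [hgo, Real.arcsin_neg]
  have hθb : ∀ x, |Real.arcsin (g x)| ≤ Real.pi / 2 := fun x =>
    abs_le.2 ⟨Real.neg_pi_div_two_le_arcsin _, Real.arcsin_le_pi_div_two _⟩
  obtain ⟨Θ, hΘ1, hΘ2, -⟩ := exists_TP_seq hθc hθo hθb (fun _ => True) (fun x y hxy => by
    have : x = y := funext fun i => hxy i trivial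
    rw [this])
  let S : ℕ → TrigScheme m := fun n =>
    ⟨fun i => T i n, Θ n, fun i k j hj => hT3 i n k j (not_le.2 hj)⟩
  have hAn : ∀ n, Adm (S n).msg (C + 1) := fun n =>
    ⟨fun i => (TP.continuous_ev _).stronglyMeasurable, fun i x => hT1 i n x,
      (Classical.choose_spec (S n).adm).causal⟩
  have hA0 : Adm F (C + 1) := ⟨hA.meas, fun i x => (hA.bdd i x).trans (by linarith), hA.causal⟩
  have hcov : ∀ i j, Tendsto (fun n => (S n).Q i j) atTop (𝓝 (cov F i j)) :=
    tendsto_cov hAn hA0 hT2
  have hout : CC (fun n => (S n).out) g := by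
    intro xn x hx
    have h := (Real.continuous_sin.tendsto _).comp (hΘ2 xn x hx)
    rw [Real.sin_arcsin (abs_le.1 (hg1 x)).1 (abs_le.1 (hg1 x)).2] at h
    exact h
  have hPn : ∀ n, ((S n).Q).PosSemidef := fun n => (S n).posSemidef_Q
  have hP0 : (cov F).PosSemidef := cov_posSemidef hA
  -- convergence of the first moments
  have hE : ∀ i, Tendsto (fun n => ∫ x, x i * (S n).out x ∂gl (S n).Q) atTop
      (𝓝 (∫ x, x i * g x ∂gl (cov F))) := by
    intro i
    refine tendsto_integral_gl hPn hP0 hcov (C := 1)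
      (fun n => ((continuous_apply i).mul (S n).continuous_out).stronglyMeasurable)
      ((continuous_apply i).mul hg).stronglyMeasurable (fun n x => ?_) (fun xn x hx => ?_)
    · rw [abs_mul, one_mul]
      have h1 : |x i| ≤ ‖x‖ := norm_le_pi_norm x i
      have h2 := (S n).abs_out_le x
      have h3 : |x i| * |(S n).out x| ≤ |x i| * 1 := by gcongr
      linarith
    · exact ((tendsto_pi_nhds.1 hx) i).mul (hout xn x hx)
  -- the derivatives
  have hD : ∀ j, Tendsto (fun n => ∫ x, (S n).dout j x ∂gl (S n).Q) atTop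
      (𝓝 (((cov F)⁻¹ *ᵥ fun i => ∫ x, x i * g x ∂gl (cov F)) j)) := by
    intro j
    have h1 := tendsto_inv_mulVec hQ hcov hE j
    refine h1.congr' ?_
    have hdet : Tendsto (fun n => ((S n).Q).det) atTop (𝓝 (cov F).det) := by
      have h1 : Tendsto (fun n => (S n).Q) atTop (𝓝 (cov F)) :=
        tendsto_pi_nhds.2 fun i => tendsto_pi_nhds.2 fun j => hcov i j
      exact (continuous_id.matrix_det.tendsto _).comp h1
    filter_upwards [hdet.eventually_ne hQ.ne_zero] with n hn
    have h2 : (fun i => ∫ x, x i * (S n).out x ∂gl (S n).Q) =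
        (S n).Q *ᵥ fun j => ∫ x, (S n).dout j x ∂gl (S n).Q := by
      funext i
      exact (S n).ibp_out i
    rw [h2, Matrix.mulVec_mulVec, Matrix.nonsing_inv_mul _ (isUnit_iff_ne_zero.2 hn),
      Matrix.one_mulVec]
  have hM : ∀ j, Tendsto (fun n => ∫ x, (S n).msg j x * (S n).out x ∂gl (S n).Q) atTop
      (𝓝 (∫ x, F j x * g x ∂gl (cov F))) := by
    intro j
    refine tendsto_integral_gl hPn hP0 hcov (C := C + 1)
      (fun n => ((TP.continuous_ev _).mul (S n).continuous_out).stronglyMeasurable)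
      ((hF j).mul hg).stronglyMeasurable (fun n x => ?_) (fun xn x hx => ?_)
    · rw [abs_mul]
      have h0 := (hA.nonneg j)
      have h1 := (hAn n).bdd j x
      have h2 := (S n).abs_out_le x
      calc |(S n).msg j x| * |(S n).out x| ≤ (C + 1) * 1 :=
            mul_le_mul h1 h2 (abs_nonneg _) (by linarith)
        _ ≤ (C + 1) * (1 + ‖x‖) := by
            have := norm_nonneg x
            nlinarith
    · exact (hT2 j xn x hx).mul (hout xn x hx)
  have hV : Tendsto (fun n => (S n).value) atTop (𝓝 (genValue F g (cov F))) := by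
    unfold TrigScheme.value genValue
    exact tendsto_finsetSum _ fun j _ => (hD j.succ).mul (hM j)
  obtain ⟨n, hn⟩ := ((tendsto_order.1 hV).1 _ (sub_lt_self _ hε)).exists
  exact ⟨S n, hn.le⟩

end

end Crest.Agent.R339.Trig
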