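import Crest.Agent.R339.B107PhiL

-- ▼ part R339/B107Block
section

/-!
Row 339 (helper107): calculus inside one block of the Parisi scheme.

`Wk Φ m k v x = H (√v) (w₀^{(k)}) x`, `w₀ = e^{mΦ}`, `Dk = Wk k / Wk 0`; `UG` = jointly continuous
functions of exponential growth, locally uniformly in `v`; `TB F LF Fx` = test functions, with
generator `LF = -∂_v F + ½ F'' + D₁ F'`. Derivative of `τ ↦ ∫ H (√τ) (W F)(d-τ) dν`.
-/

set_option autoImplicit false

namespace Crest.Agent.R339.B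

open MeasureTheory ProbabilityTheory Filter Topology Set
open Crest.Agent.R164.GC
open Crest.ProbabilityR.InvariantGlass (gaussOp)

noncomputable section

/-- joint differentiability from continuous partial derivatives -/
theorem hasFDerivAt_of_partial {f f1 f2 : ℝ → ℝ → ℝ} {v x : ℝ}
    (d1 : ∀ᶠ p : ℝ × ℝ in 𝓝 (v, x), HasDerivAt (fun s => f s p.2) (f1 p.1 p.2) p.1)
    (d2 : ∀ᶠ p : ℝ × ℝ in 𝓝 (v, x), HasDerivAt (fun y => f p.1 y) (f2 p.1 p.2) p.2)
    (c1 : Continuous fun p : ℝ × ℝ => f1 p.1 p.2) (c2 : Continuous fun p : ℝ × ℝ => f2 p.1 p.2) :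
    HasFDerivAt (fun p : ℝ × ℝ => f p.1 p.2)
      ((ContinuousLinearMap.toSpanSingleton ℝ (f1 v x)).coprod
        (ContinuousLinearMap.toSpanSingleton ℝ (f2 v x))) (v, x) := by
  have h := hasStrictFDerivAt_uncurry_coprod (𝕜 := ℝ) (u := (v, x)) (f := f)
    (f₁ := fun a b => ContinuousLinearMap.toSpanSingleton ℝ (f1 a b))
    (f₂ := fun a b => ContinuousLinearMap.toSpanSingleton ℝ (f2 a b))
    (by
      filter_upwards [d1] with p hp
      exact hp.hasFDerivAt)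
    (by
      filter_upwards [d2] with p hp
      exact hp.hasFDerivAt)
    (by
      refine Continuous.continuousAt ?_
      have : Continuous fun c : ℝ => ContinuousLinearMap.toSpanSingleton ℝ c :=
        (ContinuousLinearMap.toSpanSingletonCLE (𝕜 := ℝ) (E := ℝ)).continuous
      exact this.comp c1)
    (by
      refine Continuous.continuousAt ?_
      have : Continuous fun c : ℝ => ContinuousLinearMap.toSpanSingleton ℝ c :=
        (ContinuousLinearMap.toSpanSingletonCLE (𝕜 := ℝ) (E := ℝ)).continuous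
      exact this.comp c2)
  exact h.hasFDerivAt

/-- chain rule along a curve -/
theorem hasDerivAt_curve {f f1 f2 : ℝ → ℝ → ℝ} {a b : ℝ → ℝ} {a' b' τ : ℝ}
    (d1 : ∀ᶠ p : ℝ × ℝ in 𝓝 (a τ, b τ), HasDerivAt (fun s => f s p.2) (f1 p.1 p.2) p.1)
    (d2 : ∀ᶠ p : ℝ × ℝ in 𝓝 (a τ, b τ), HasDerivAt (fun y => f p.1 y) (f2 p.1 p.2) p.2)
    (c1 : Continuous fun p : ℝ × ℝ => f1 p.1 p.2) (c2 : Continuous fun p : ℝ × ℝ => f2 p.1 p.2)
    (ha : HasDerivAt a a' τ) (hb : HasDerivAt b b' τ) :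
    HasDerivAt (fun τ => f (a τ) (b τ)) (f1 (a τ) (b τ) * a' + f2 (a τ) (b τ) * b') τ := by
  have h := hasFDerivAt_of_partial d1 d2 c1 c2
  have h2 := h.comp_hasDerivAt τ (ha.prodMk hb)
  refine h2.congr_deriv ?_
  simp [ContinuousLinearMap.coprod_apply, ContinuousLinearMap.toSpanSingleton_apply]
  ring

/-! ### locally uniform exponential growth -/

/-- jointly continuous, exponential growth in `x` locally uniformly in `v` -/
structure UG (G : ℝ → ℝ → ℝ) : Prop where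
  cont : Continuous fun p : ℝ × ℝ => G p.1 p.2
  bd : ∀ d : ℝ, ∃ K A : ℝ, 0 ≤ K ∧ 0 ≤ A ∧ ∀ v x, v ≤ d → |G v x| ≤ K * Real.exp (A * |x|)

theorem UG.eg {G : ℝ → ℝ → ℝ} (h : UG G) (v : ℝ) : EG (G v) := by
  obtain ⟨K, A, hK, hA, hb⟩ := h.bd v
  exact ⟨h.cont.comp (by fun_prop : Continuous fun x : ℝ => (v, x)), K, A, hK, hA,
    fun x => hb v x le_rfl⟩

theorem UG.const (c : ℝ) : UG (fun _ _ => c) :=
  ⟨continuous_const, fun _ => ⟨|c|, 0, abs_nonneg c, le_rfl, fun v x _ => by simp⟩⟩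

theorem UG.add {G G' : ℝ → ℝ → ℝ} (h : UG G) (h' : UG G') : UG (fun v x => G v x + G' v x) := by
  refine ⟨h.cont.add h'.cont, fun d => ?_⟩
  obtain ⟨K, A, hK, hA, hb⟩ := h.bd d
  obtain ⟨K', A', hK', hA', hb'⟩ := h'.bd d
  refine ⟨K + K', A + A', by positivity, by positivity, fun v x hv => ?_⟩
  have h1 : Real.exp (A * |x|) ≤ Real.exp ((A + A') * |x|) := by
    refine Real.exp_le_exp.2 ?_
    have := abs_nonneg x
    nlinarith
  have h2 : Real.exp (A' * |x|) ≤ Real.exp ((A + A') * |x|) := by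
    refine Real.exp_le_exp.2 ?_
    have := abs_nonneg x
    nlinarith
  calc |G v x + G' v x| ≤ |G v x| + |G' v x| := abs_add_le _ _
    _ ≤ K * Real.exp (A * |x|) + K' * Real.exp (A' * |x|) := add_le_add (hb v x hv) (hb' v x hv)
    _ ≤ K * Real.exp ((A + A') * |x|) + K' * Real.exp ((A + A') * |x|) :=
        add_le_add (mul_le_mul_of_nonneg_left h1 hK) (mul_le_mul_of_nonneg_left h2 hK')
    _ = _ := by ring

theorem UG.mul {G G' : ℝ → ℝ → ℝ} (h : UG G) (h' : UG G') : UG (fun v x => G v x * G' v x) := by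
  refine ⟨h.cont.mul h'.cont, fun d => ?_⟩
  obtain ⟨K, A, hK, hA, hb⟩ := h.bd d
  obtain ⟨K', A', hK', hA', hb'⟩ := h'.bd d
  refine ⟨K * K', A + A', by positivity, by positivity, fun v x hv => ?_⟩
  calc |G v x * G' v x| = |G v x| * |G' v x| := abs_mul _ _
    _ ≤ (K * Real.exp (A * |x|)) * (K' * Real.exp (A' * |x|)) :=
        mul_le_mul (hb v x hv) (hb' v x hv) (abs_nonneg _) (by positivity)
    _ = K * K' * (Real.exp (A * |x|) * Real.exp (A' * |x|)) := by ring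
    _ = _ := by rw [← Real.exp_add]; ring_nf

theorem UG.congr {G G' : ℝ → ℝ → ℝ} (h : UG G) (e : ∀ v x, G' v x = G v x) : UG G' := by
  have : G' = G := by funext v x; exact e v x
  rw [this]; exact h

theorem UG.const_mul {G : ℝ → ℝ → ℝ} (c : ℝ) (h : UG G) : UG (fun v x => c * G v x) :=
  (UG.const c).mul h

theorem UG.neg {G : ℝ → ℝ → ℝ} (h : UG G) : UG (fun v x => -G v x) :=
  (h.const_mul (-1)).congr fun v x => by ring

theorem UG.sub {G G' : ℝ → ℝ → ℝ} (h : UG G) (h' : UG G') : UG (fun v x => G v x - G' v x) :=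
  (h.add h'.neg).congr fun v x => by ring

theorem UG.pow {G : ℝ → ℝ → ℝ} (h : UG G) (n : ℕ) : UG (fun v x => G v x ^ n) := by
  induction n with
  | zero => exact (UG.const 1).congr fun v x => by simp
  | succ n ih => exact (ih.mul h).congr fun v x => by rw [pow_succ]

theorem UG.id : UG (fun _ x => x) := by
  refine ⟨continuous_snd, fun d => ⟨1, 1, zero_le_one, zero_le_one, fun v x _ => ?_⟩⟩
  rw [one_mul, one_mul]
  have := Real.add_one_le_exp |x|
  linarith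

/-! ### the functions of a block -/

/-- `w₀ = e^{mΦ}` -/
def w0 (Φ : ℝ → ℝ) (m x : ℝ) : ℝ := Real.exp (m * Φ x)

/-- the heat flow of the derivatives of `w₀` -/
def Wk (Φ : ℝ → ℝ) (m : ℝ) (k : ℕ) (v x : ℝ) : ℝ := H (Real.sqrt v) (iteratedDeriv k (w0 Φ m)) x

/-- the ratios `w^{(k)} / w` -/
def Dk (Φ : ℝ → ℝ) (m : ℝ) (k : ℕ) (v x : ℝ) : ℝ := Wk Φ m k v x / Wk Φ m 0 v x

section Block

variable {Φ : ℝ → ℝ} (h : Prof Φ) (m : ℝ)
include h

theorem w0_egs : EGS (w0 Φ m) := h.exp_egs m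

theorem w0_iter (k : ℕ) : ∃ P : ℝ → ℝ, BD P ∧
    ∀ x, iteratedDeriv k (w0 Φ m) x = P x * Real.exp (m * Φ x) := by
  induction k with
  | zero => exact ⟨fun _ => 1, BD.const 1, fun x => by simp [w0]⟩
  | succ k ih =>
    obtain ⟨P, hP, e⟩ := ih
    refine ⟨fun x => deriv P x + P x * (m * deriv Φ x),
      hP.deriv.add (hP.mul (h.bd.const_mul m)), fun x => ?_⟩
    rw [iteratedDeriv_succ]
    have : iteratedDeriv k (w0 Φ m) = fun x => P x * Real.exp (m * Φ x) := funext e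
    rw [this]
    have h1 := (hP.hasDerivAt x).fun_mul ((h.d1 x).const_mul m).exp
    rw [h1.deriv]
    ring

theorem Wk_pos (v x : ℝ) : 0 < Wk Φ m 0 v x := by
  unfold Wk
  rw [iteratedDeriv_zero]
  exact den_pos h.lip m _ x

theorem Wk_cont (k : ℕ) : Continuous fun p : ℝ × ℝ => Wk Φ m k p.1 p.2 := by
  unfold Wk
  have hs : Continuous (fun p : ℝ × ℝ => (Real.sqrt p.1, p.2)) := by fun_prop
  exact (H_continuous ((w0_egs h m).iter k).eg).comp hs

theorem Wk_dx (k : ℕ) (v x : ℝ) :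
    HasDerivAt (fun y => Wk Φ m k v y) (Wk Φ m (k + 1) v x) x := by
  unfold Wk
  have := H_hasDerivAt ((w0_egs h m).iter k) (Real.sqrt v) x
  rw [← iteratedDeriv_succ] at this
  exact this

theorem Wk_dv (k : ℕ) {v : ℝ} (hv : 0 < v) (x : ℝ) :
    HasDerivAt (fun s => Wk Φ m k s x) (1 / 2 * Wk Φ m (k + 2) v x) v := by
  unfold Wk
  have hE := (w0_egs h m).iter
  have e1 : deriv (iteratedDeriv k (w0 Φ m)) = iteratedDeriv (k + 1) (w0 Φ m) :=
    (iteratedDeriv_succ).symm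
  have e2 : deriv (iteratedDeriv (k + 1) (w0 Φ m)) = iteratedDeriv (k + 2) (w0 Φ m) :=
    (iteratedDeriv_succ).symm
  exact H_deriv_v (hE k).eg (hE (k + 1)).eg (hE (k + 2)).eg
    (fun x => by rw [← e1]; exact (hE k).hasDerivAt x)
    (fun x => by rw [← e2]; exact (hE (k + 1)).hasDerivAt x) hv x

omit h in
/-- uniform exponential growth of the Gaussian averages -/
theorem UG_heat {φ : ℝ → ℝ} (hφ : EG φ) : UG (fun v x => H (Real.sqrt v) φ x) := by
  refine ⟨(H_continuous hφ).comp (by fun_prop : Continuous fun p : ℝ × ℝ => (√p.1, p.2)),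
    fun d => ?_⟩
  obtain ⟨K, A, hK, hA, hb⟩ := hφ.bd
  have hI : 0 ≤ ∫ g, Real.exp (A * Real.sqrt d * |g|) ∂gaussianReal 0 1 :=
    integral_nonneg fun g => (Real.exp_pos _).le
  refine ⟨K * ∫ g, Real.exp (A * Real.sqrt d * |g|) ∂gaussianReal 0 1, A, by positivity, hA,
    fun v x hv => ?_⟩
  have hs : |Real.sqrt v| ≤ Real.sqrt d := by
    rw [abs_of_nonneg (Real.sqrt_nonneg v)]
    exact Real.sqrt_le_sqrt hv
  unfold H
  calc |∫ g, φ (x + Real.sqrt v * g) ∂gaussianReal 0 1|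
      ≤ ∫ g, |φ (x + Real.sqrt v * g)| ∂gaussianReal 0 1 := abs_integral_le_integral_abs
    _ ≤ ∫ g, K * Real.exp (A * |x|) * Real.exp (A * Real.sqrt d * |g|) ∂gaussianReal 0 1 :=
        integral_mono (hφ.int _ x).abs ((integrable_exp_abs _).const_mul _)
          fun g => shift_bd hK hA hb le_rfl hs g
    _ = _ := by rw [integral_const_mul]; ring

theorem Wk_ug (k : ℕ) : UG (Wk Φ m k) := UG_heat ((w0_egs h m).iter k).eg

theorem Dk_bdd (k : ℕ) : ∃ C, ∀ v x, |Dk Φ m k v x| ≤ C := by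
  obtain ⟨P, hP, e⟩ := w0_iter h m k
  obtain ⟨C, hC⟩ := hP.bc
  refine ⟨C, fun v x => ?_⟩
  have := tE_abs_le h.lip m v hC x
  have e2 : Dk Φ m k v x = tE m v Φ P x := by
    unfold Dk Wk tE
    rw [iteratedDeriv_zero]
    have : iteratedDeriv k (w0 Φ m) = fun y => P y * Real.exp (m * Φ y) := funext e
    rw [this]
    rfl
  rw [e2]
  exact this

theorem Dk_ug (k : ℕ) : UG (Dk Φ m k) := by
  obtain ⟨C, hC⟩ := Dk_bdd h m k
  refine ⟨(Wk_cont h m k).div (Wk_cont h m 0) fun p => (Wk_pos h m _ _).ne', fun d => ?_⟩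
  exact ⟨C, 0, (abs_nonneg _).trans (hC 0 0), le_rfl, fun v x _ => by simpa using hC v x⟩

theorem Dk_dx (k : ℕ) (v x : ℝ) : HasDerivAt (fun y => Dk Φ m k v y)
    (Dk Φ m (k + 1) v x - Dk Φ m k v x * Dk Φ m 1 v x) x := by
  have h1 := (Wk_dx h m k v x).fun_div (Wk_dx h m 0 v x) (Wk_pos h m v x).ne'
  refine h1.congr_deriv ?_
  unfold Dk
  have := (Wk_pos h m v x).ne'
  field_simp

theorem Dk_dv (k : ℕ) {v : ℝ} (hv : 0 < v) (x : ℝ) : HasDerivAt (fun s => Dk Φ m k s x)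
    (1 / 2 * (Dk Φ m (k + 2) v x - Dk Φ m k v x * Dk Φ m 2 v x)) v := by
  have h1 := (Wk_dv h m k hv x).fun_div (Wk_dv h m 0 hv x) (Wk_pos h m v x).ne'
  refine h1.congr_deriv ?_
  unfold Dk
  have := (Wk_pos h m v x).ne'
  field_simp

end Block

/-- test functions of a block: `LF` is the generator applied to `F`, `Fx` the derivative -/
def TB (Φ : ℝ → ℝ) (m : ℝ) (F LF Fx : ℝ → ℝ → ℝ) : Prop :=
  ∃ Fv Fxx : ℝ → ℝ → ℝ,
    (∀ v x, 0 < v → HasDerivAt (fun s => F s x) (Fv v x) v) ∧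
    (∀ v x, HasDerivAt (fun y => F v y) (Fx v x) x) ∧
    (∀ v x, HasDerivAt (fun y => Fx v y) (Fxx v x) x) ∧
    UG F ∧ UG Fv ∧ UG Fx ∧ UG Fxx ∧
    ∀ v x, LF v x = -Fv v x + 1 / 2 * Fxx v x + Dk Φ m 1 v x * Fx v x

section TBsec

variable {Φ : ℝ → ℝ} {m : ℝ} {F LF Fx G LG Gx : ℝ → ℝ → ℝ}

theorem TB.ug (h : TB Φ m F LF Fx) : UG F := by
  obtain ⟨_, _, _, _, _, h, _⟩ := h
  exact h


theorem TB.dx (h : TB Φ m F LF Fx) (v x : ℝ) : HasDerivAt (fun y => F v y) (Fx v x) x := by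
  obtain ⟨_, _, _, h, _⟩ := h
  exact h v x

theorem TB.ugL (h : TB Φ m F LF Fx) (hΦ : Prof Φ) : UG LF := by
  obtain ⟨Fv, Fxx, _, _, _, h0, hv, hx, hxx, e⟩ := h
  exact ((hv.neg.add (hxx.const_mul (1 / 2))).add ((Dk_ug hΦ m 1).mul hx)).congr e

theorem TB.congr {F' LF' Fx' : ℝ → ℝ → ℝ} (h : TB Φ m F LF Fx) (e1 : ∀ v x, F' v x = F v x)
    (e2 : ∀ v x, LF' v x = LF v x) (e3 : ∀ v x, Fx' v x = Fx v x) : TB Φ m F' LF' Fx' := by
  have h1 : F' = F := by funext v x; exact e1 v x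
  have h2 : LF' = LF := by funext v x; exact e2 v x
  have h3 : Fx' = Fx := by funext v x; exact e3 v x
  rw [h1, h2, h3]; exact h

theorem TB.const (c : ℝ) : TB Φ m (fun _ _ => c) (fun _ _ => 0) (fun _ _ => 0) :=
  ⟨fun _ _ => 0, fun _ _ => 0, fun v x _ => hasDerivAt_const v c, fun v x => hasDerivAt_const x c,
    fun v x => hasDerivAt_const x 0, UG.const c, UG.const 0, UG.const 0, UG.const 0,
    fun v x => by ring⟩

theorem TB.add (hF : TB Φ m F LF Fx) (hG : TB Φ m G LG Gx) :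
    TB Φ m (fun v x => F v x + G v x) (fun v x => LF v x + LG v x)
      (fun v x => Fx v x + Gx v x) := by
  obtain ⟨Fv, Fxx, a1, a2, a3, a4, a5, a6, a7, a8⟩ := hF
  obtain ⟨Gv, Gxx, b1, b2, b3, b4, b5, b6, b7, b8⟩ := hG
  refine ⟨fun v x => Fv v x + Gv v x, fun v x => Fxx v x + Gxx v x,
    fun v x hv => (a1 v x hv).fun_add (b1 v x hv), fun v x => (a2 v x).fun_add (b2 v x),
    fun v x => (a3 v x).fun_add (b3 v x), a4.add b4, a5.add b5, a6.add b6, a7.add b7,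
    fun v x => ?_⟩
  beta_reduce
  rw [a8, b8]
  ring

theorem TB.mul (hF : TB Φ m F LF Fx) (hG : TB Φ m G LG Gx) :
    TB Φ m (fun v x => F v x * G v x)
      (fun v x => F v x * LG v x + G v x * LF v x + Fx v x * Gx v x)
      (fun v x => Fx v x * G v x + F v x * Gx v x) := by
  obtain ⟨Fv, Fxx, a1, a2, a3, a4, a5, a6, a7, a8⟩ := hF
  obtain ⟨Gv, Gxx, b1, b2, b3, b4, b5, b6, b7, b8⟩ := hG
  refine ⟨fun v x => Fv v x * G v x + F v x * Gv v x,
    fun v x => Fxx v x * G v x + Fx v x * Gx v x + (Fx v x * Gx v x + F v x * Gxx v x),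
    fun v x hv => (a1 v x hv).fun_mul (b1 v x hv), fun v x => (a2 v x).fun_mul (b2 v x),
    fun v x => ((a3 v x).fun_mul (b2 v x)).fun_add ((a2 v x).fun_mul (b3 v x)),
    a4.mul b4, (a5.mul b4).add (a4.mul b5), (a6.mul b4).add (a4.mul b6),
    ((a7.mul b4).add (a6.mul b6)).add ((a6.mul b6).add (a4.mul b7)), fun v x => ?_⟩
  beta_reduce
  rw [a8, b8]
  ring

theorem TB.const_mul (c : ℝ) (hF : TB Φ m F LF Fx) :
    TB Φ m (fun v x => c * F v x) (fun v x => c * LF v x) (fun v x => c * Fx v x) :=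
  ((TB.const c).mul hF).congr (fun _ _ => rfl) (fun v x => by ring) (fun v x => by ring)

theorem TB.sub (hF : TB Φ m F LF Fx) (hG : TB Φ m G LG Gx) :
    TB Φ m (fun v x => F v x - G v x) (fun v x => LF v x - LG v x)
      (fun v x => Fx v x - Gx v x) :=
  (hF.add (hG.const_mul (-1))).congr (fun v x => by ring) (fun v x => by ring)
    (fun v x => by ring)

/-- the ratios are martingales -/
theorem tb_Dk (h : Prof Φ) (m : ℝ) (k : ℕ) : TB Φ m (Dk Φ m k) (fun _ _ => 0)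
    (fun v x => Dk Φ m (k + 1) v x - Dk Φ m k v x * Dk Φ m 1 v x) := by
  refine ⟨fun v x => 1 / 2 * (Dk Φ m (k + 2) v x - Dk Φ m k v x * Dk Φ m 2 v x),
    fun v x => (Dk Φ m (k + 1 + 1) v x - Dk Φ m (k + 1) v x * Dk Φ m 1 v x) -
      ((Dk Φ m (k + 1) v x - Dk Φ m k v x * Dk Φ m 1 v x) * Dk Φ m 1 v x +
        Dk Φ m k v x * (Dk Φ m (1 + 1) v x - Dk Φ m 1 v x * Dk Φ m 1 v x)),
    fun v x hv => Dk_dv h m k hv x, fun v x => Dk_dx h m k v x,
    fun v x => (Dk_dx h m (k + 1) v x).fun_sub ((Dk_dx h m k v x).fun_mul (Dk_dx h m 1 v x)),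
    Dk_ug h m k,
    ((Dk_ug h m (k + 2)).sub ((Dk_ug h m k).mul (Dk_ug h m 2))).const_mul _,
    (Dk_ug h m (k + 1)).sub ((Dk_ug h m k).mul (Dk_ug h m 1)),
    ((Dk_ug h m (k + 1 + 1)).sub ((Dk_ug h m (k + 1)).mul (Dk_ug h m 1))).sub
      ((((Dk_ug h m (k + 1)).sub ((Dk_ug h m k).mul (Dk_ug h m 1))).mul (Dk_ug h m 1)).add
        ((Dk_ug h m k).mul ((Dk_ug h m (1 + 1)).sub ((Dk_ug h m 1).mul (Dk_ug h m 1))))),
    fun v x => ?_⟩
  show (0 : ℝ) = _
  have e1 : k + 1 + 1 = k + 2 := rfl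
  have e2 : 1 + 1 = 2 := rfl
  rw [e1, e2]
  ring

/-- the coordinate -/
theorem tb_id (Φ : ℝ → ℝ) (m : ℝ) : TB Φ m (fun _ x => x) (Dk Φ m 1) (fun _ _ => 1) :=
  ⟨fun _ _ => 0, fun _ _ => 0, fun v x _ => hasDerivAt_const v x, fun v x => hasDerivAt_id' x,
    fun v x => hasDerivAt_const x 1, UG.id, UG.const 0, UG.const 1, UG.const 0,
    fun v x => by ring⟩

end TBsec

end

end Crest.Agent.R339.B
end

-- ▼ part R339/B107Gen
section

/-!
Row 339 (helper107): differentiation of expectations inside a block.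
-/

set_option autoImplicit false

namespace Crest.Agent.R339.B

open MeasureTheory ProbabilityTheory Filter Topology Set
open Crest.Agent.R164.GC
open Crest.ProbabilityR.InvariantGlass (gaussOp)

noncomputable section

/-- all exponential moments -/
def EM (ν : Measure ℝ) : Prop := ∀ A : ℝ, Integrable (fun x => Real.exp (A * |x|)) ν

theorem EM.of_eg {ν : Measure ℝ} (hν : EM ν) {φ : ℝ → ℝ} (hφ : EG φ) : Integrable φ ν := by
  obtain ⟨K, A, _, _, hb⟩ := hφ.bd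
  refine Integrable.mono' ((hν A).const_mul K) hφ.cont.aestronglyMeasurable
    (Eventually.of_forall fun x => ?_)
  rw [Real.norm_eq_abs]
  exact hb x

theorem EM.dirac (a : ℝ) : EM (Measure.dirac a) := fun A => integrable_dirac (by simp)

theorem EM.smul {ν : Measure ℝ} (hν : EM ν) {c : ENNReal} (hc : c ≠ ⊤) : EM (c • ν) :=
  fun A => (hν A).smul_measure hc

/-- differentiation under the Gaussian integral, first form -/
theorem heat_deriv {Ψ Ψv Ψx Ψxx : ℝ → ℝ → ℝ}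
    (hv : ∀ v x, 0 < v → HasDerivAt (fun s => Ψ s x) (Ψv v x) v)
    (hx : ∀ v x, HasDerivAt (fun y => Ψ v y) (Ψx v x) x)
    (hxx : ∀ v x, HasDerivAt (fun y => Ψx v y) (Ψxx v x) x)
    (u : UG Ψ) (uv : UG Ψv) (ux : UG Ψx) (uxx : UG Ψxx) {d τ : ℝ} (h0 : 0 < τ) (h1 : τ < d)
    (x : ℝ) : HasDerivAt (fun τ => H (√τ) (Ψ (d - τ)) x)
      (H (√τ) (fun y => -Ψv (d - τ) y + 1 / 2 * Ψxx (d - τ) y) x) τ := by
  obtain ⟨K, A, hK, hA, hb⟩ := uv.bd d
  obtain ⟨K', A', hK', hA', hb'⟩ := ux.bd d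
  set ε := min τ (d - τ) / 2 with hε
  have hε0 : 0 < ε := by
    have : 0 < min τ (d - τ) := lt_min h0 (sub_pos.2 h1)
    linarith
  have hball : ∀ s ∈ Metric.ball τ ε, τ / 2 < s ∧ s < d ∧ 0 < s := by
    intro s hs
    rw [Metric.mem_ball, Real.dist_eq, abs_lt] at hs
    have m1 : min τ (d - τ) ≤ τ := min_le_left _ _
    have m2 : min τ (d - τ) ≤ d - τ := min_le_right _ _
    refine ⟨by linarith, by linarith, by linarith⟩
  have hd0 : 0 < d := h0.trans h1
  have hcv := uv.cont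
  have hcx := ux.cont
  have hc := u.cont
  -- the derivative of the integrand
  have hderiv : ∀ g : ℝ, ∀ s, 0 < s → s < d → HasDerivAt (fun τ => Ψ (d - τ) (x + √τ * g))
      (-Ψv (d - s) (x + √s * g) + Ψx (d - s) (x + √s * g) * (g / (2 * √s))) s := by
    intro g s hs0 hsd
    have ha : HasDerivAt (fun τ : ℝ => d - τ) (-1) s := by
      simpa using (hasDerivAt_id s).const_sub d
    have hb : HasDerivAt (fun τ : ℝ => x + √τ * g) (1 / (2 * √s) * g) s :=
      ((Real.hasDerivAt_sqrt hs0.ne').mul_const g).const_add x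
    have hmem : ∀ᶠ p : ℝ × ℝ in 𝓝 (d - s, x + √s * g), 0 < p.1 := by
      have : IsOpen {p : ℝ × ℝ | 0 < p.1} := isOpen_lt continuous_const continuous_fst
      exact this.mem_nhds (show (0 : ℝ) < d - s by linarith)
    have := hasDerivAt_curve (f := Ψ) (f1 := Ψv) (f2 := Ψx) (a := fun τ => d - τ)
      (b := fun τ => x + √τ * g) (τ := s)
      (by filter_upwards [hmem] with p hp using hv p.1 p.2 hp)
      (Eventually.of_forall fun p => hx p.1 p.2) hcv hcx ha hb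
    refine this.congr_deriv ?_
    ring
  have key := (hasDerivAt_integral_of_dominated_loc_of_deriv_le (μ := gaussianReal 0 1)
    (F := fun τ g => Ψ (d - τ) (x + √τ * g))
    (F' := fun s g => -Ψv (d - s) (x + √s * g) + Ψx (d - s) (x + √s * g) * (g / (2 * √s)))
    (bound := fun g => K * Real.exp (A * |x|) * Real.exp (A * √d * |g|) +
      K' * Real.exp (A' * |x|) / (2 * √(τ / 2)) * (|g| * Real.exp (A' * √d * |g|)))
    (Metric.ball_mem_nhds τ hε0) ?_ ((u.eg (d - τ)).int (√τ) x) ?_ ?_ ?_ ?_).2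
  · refine key.congr_deriv ?_
    have i1 : Integrable (fun g => -Ψv (d - τ) (x + √τ * g)) (gaussianReal 0 1) :=
      ((uv.eg (d - τ)).int (√τ) x).neg
    have i2 : Integrable (fun g => Ψx (d - τ) (x + √τ * g) * (g / (2 * √τ)))
        (gaussianReal 0 1) := by
      have := ((ux.eg (d - τ)).int_mul (√τ) x).const_mul (1 / (2 * √τ))
      refine this.congr (Eventually.of_forall fun g => ?_)
      simp only
      ring
    rw [integral_add i1 i2]
    have e2 : ∫ g, Ψx (d - τ) (x + √τ * g) * (g / (2 * √τ)) ∂gaussianReal 0 1 =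
        1 / 2 * H (√τ) (Ψxx (d - τ)) x := by
      have hst := stein (ux.eg (d - τ)) (uxx.eg (d - τ)) (hxx (d - τ)) (√τ) x
      have e3 : ∫ g, Ψx (d - τ) (x + √τ * g) * (g / (2 * √τ)) ∂gaussianReal 0 1 =
          1 / (2 * √τ) * ∫ g, g * Ψx (d - τ) (x + √τ * g) ∂gaussianReal 0 1 := by
        rw [← integral_const_mul]
        refine integral_congr_ae (Eventually.of_forall fun g => ?_)
        simp only
        ring
      rw [e3, hst]
      have : √τ ≠ 0 := (Real.sqrt_pos.2 h0).ne'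
      field_simp
    rw [e2]
    have e4 := H_add (t := √τ) (x := x) (uv.eg (d - τ)).neg ((uxx.eg (d - τ)).const_mul (1 / 2))
    rw [e4, H_const_mul]
    rfl
  · refine Eventually.of_forall fun s => ?_
    have : Continuous fun g : ℝ => Ψ (d - s) (x + √s * g) :=
      hc.comp (by fun_prop : Continuous fun g : ℝ => (d - s, x + √s * g))
    exact this.aestronglyMeasurable
  · have c1 : Continuous fun g : ℝ => Ψv (d - τ) (x + √τ * g) :=
      hcv.comp (by fun_prop : Continuous fun g : ℝ => (d - τ, x + √τ * g))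
    have c2 : Continuous fun g : ℝ => Ψx (d - τ) (x + √τ * g) :=
      hcx.comp (by fun_prop : Continuous fun g : ℝ => (d - τ, x + √τ * g))
    exact (c1.neg.add (c2.mul (by fun_prop))).aestronglyMeasurable
  · refine Eventually.of_forall fun g s hs => ?_
    obtain ⟨s1, s2, s3⟩ := hball s hs
    rw [Real.norm_eq_abs]
    have hsq : |√s| ≤ √d := by
      rw [abs_of_nonneg (Real.sqrt_nonneg s)]
      exact Real.sqrt_le_sqrt s2.le
    have b1 : |Ψv (d - s) (x + √s * g)| ≤ K * Real.exp (A * |x|) * Real.exp (A * √d * |g|) :=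
      shift_bd (φ := Ψv (d - s)) hK hA (fun y => hb _ y (by linarith)) le_rfl hsq g
    have b2 : |Ψx (d - s) (x + √s * g)| ≤ K' * Real.exp (A' * |x|) * Real.exp (A' * √d * |g|) :=
      shift_bd (φ := Ψx (d - s)) hK' hA' (fun y => hb' _ y (by linarith)) le_rfl hsq g
    have b3 : |g / (2 * √s)| ≤ |g| / (2 * √(τ / 2)) := by
      rw [abs_div, abs_of_pos (by positivity : (0 : ℝ) < 2 * √s)]
      refine div_le_div_of_nonneg_left (abs_nonneg g) (by positivity) ?_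
      exact mul_le_mul_of_nonneg_left (Real.sqrt_le_sqrt s1.le) (by norm_num)
    calc |-Ψv (d - s) (x + √s * g) + Ψx (d - s) (x + √s * g) * (g / (2 * √s))|
        ≤ |-Ψv (d - s) (x + √s * g)| + |Ψx (d - s) (x + √s * g) * (g / (2 * √s))| :=
          abs_add_le _ _
      _ = |Ψv (d - s) (x + √s * g)| + |Ψx (d - s) (x + √s * g)| * |g / (2 * √s)| := by
          rw [abs_neg, abs_mul]
      _ ≤ K * Real.exp (A * |x|) * Real.exp (A * √d * |g|) +
          (K' * Real.exp (A' * |x|) * Real.exp (A' * √d * |g|)) * (|g| / (2 * √(τ / 2))) :=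
          add_le_add b1 (mul_le_mul b2 b3 (abs_nonneg _) (by positivity))
      _ = _ := by ring
  · exact ((integrable_exp_abs _).const_mul _).add ((integrable_mul_exp_abs _).const_mul _)
  · refine Eventually.of_forall fun g s hs => ?_
    obtain ⟨s1, s2, s3⟩ := hball s hs
    exact hderiv g s s3 s2

/-- uniform growth bound for the forward average -/
theorem heat_bound {G : ℝ → ℝ → ℝ} (u : UG G) (d D : ℝ) : ∃ K A : ℝ, 0 ≤ K ∧ 0 ≤ A ∧
    ∀ τ x, τ ≤ D → d - τ ≤ D → |H (√τ) (G (d - τ)) x| ≤ K * Real.exp (A * |x|) := by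
  obtain ⟨K, A, hK, hA, hb⟩ := u.bd D
  have hI : 0 ≤ ∫ g, Real.exp (A * √D * |g|) ∂gaussianReal 0 1 :=
    integral_nonneg fun g => (Real.exp_pos _).le
  refine ⟨K * ∫ g, Real.exp (A * √D * |g|) ∂gaussianReal 0 1, A, by positivity, hA,
    fun τ x h1 h2 => ?_⟩
  have hs : |√τ| ≤ √D := by
    rw [abs_of_nonneg (Real.sqrt_nonneg τ)]
    exact Real.sqrt_le_sqrt h1
  unfold H
  calc |∫ g, G (d - τ) (x + √τ * g) ∂gaussianReal 0 1|
      ≤ ∫ g, |G (d - τ) (x + √τ * g)| ∂gaussianReal 0 1 := abs_integral_le_integral_abs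
    _ ≤ ∫ g, K * Real.exp (A * |x|) * Real.exp (A * √D * |g|) ∂gaussianReal 0 1 :=
        integral_mono ((u.eg (d - τ)).int _ x).abs ((integrable_exp_abs _).const_mul _)
          fun g => shift_bd (φ := G (d - τ)) hK hA (fun y => hb _ y h2) le_rfl hs g
    _ = _ := by rw [integral_const_mul]; ring

/-- joint continuity of the forward average -/
theorem heat_cont {G : ℝ → ℝ → ℝ} (u : UG G) (d : ℝ) :
    Continuous fun p : ℝ × ℝ => H (√p.1) (G (d - p.1)) p.2 := by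
  have hc := u.cont
  rw [continuous_iff_continuousAt]
  intro p
  obtain ⟨K, A, hK, hA, hb⟩ := u.bd (d - p.1 + 1)
  unfold H
  refine continuousAt_of_dominated (bound := fun g => K * Real.exp (A * (|p.2| + 1)) *
    Real.exp (A * √(p.1 + 1) * |g|)) ?_ ?_ ?_ ?_
  · refine Eventually.of_forall fun q => ?_
    have : Continuous fun g : ℝ => G (d - q.1) (q.2 + √q.1 * g) :=
      hc.comp (by fun_prop : Continuous fun g : ℝ => (d - q.1, q.2 + √q.1 * g))
    exact this.aestronglyMeasurable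
  · have hB : Metric.ball p 1 ∈ 𝓝 p := Metric.ball_mem_nhds p one_pos
    filter_upwards [hB] with q hq
    rw [Metric.mem_ball, Prod.dist_eq, max_lt_iff, Real.dist_eq, Real.dist_eq] at hq
    obtain ⟨q1, q2⟩ := hq
    rw [abs_lt] at q1
    refine Eventually.of_forall fun g => ?_
    rw [Real.norm_eq_abs]
    refine shift_bd (φ := G (d - q.1)) hK hA (fun y => hb _ y (by linarith)) ?_ ?_ g
    · have := abs_sub_abs_le_abs_sub q.2 p.2
      linarith
    · rw [abs_of_nonneg (Real.sqrt_nonneg _)]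
      exact Real.sqrt_le_sqrt (by linarith)
  · exact (integrable_exp_abs _).const_mul _
  · refine Eventually.of_forall fun g => ?_
    have : Continuous fun q : ℝ × ℝ => G (d - q.1) (q.2 + √q.1 * g) :=
      hc.comp (by fun_prop : Continuous fun q : ℝ × ℝ => (d - q.1, q.2 + √q.1 * g))
    exact this.continuousAt

/-- the forward average is of exponential growth -/
theorem heat_eg {G : ℝ → ℝ → ℝ} (u : UG G) (d τ : ℝ) : EG fun x => H (√τ) (G (d - τ)) x :=
  H_eg (u.eg _) _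

/-- expectation at forward time `τ` in a block of length `d`, started from `ν` -/
def EE (Φ : ℝ → ℝ) (m d : ℝ) (ν : Measure ℝ) (F : ℝ → ℝ → ℝ) (τ : ℝ) : ℝ :=
  ∫ x, H (√τ) (fun y => Wk Φ m 0 (d - τ) y * F (d - τ) y) x ∂ν

section EEsec

variable {Φ : ℝ → ℝ} (h : Prof Φ) (m : ℝ)
include h

/-- **The block calculus lemma**, pointwise in the starting point. -/
theorem EX_deriv {F LF Fx : ℝ → ℝ → ℝ} (hF : TB Φ m F LF Fx) {d τ : ℝ} (h0 : 0 < τ) (h1 : τ < d)
    (x : ℝ) : HasDerivAt (fun τ => H (√τ) (fun y => Wk Φ m 0 (d - τ) y * F (d - τ) y) x)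
      (H (√τ) (fun y => Wk Φ m 0 (d - τ) y * LF (d - τ) y) x) τ := by
  obtain ⟨Fv, Fxx, a1, a2, a3, a4, a5, a6, a7, a8⟩ := hF
  have hW := Wk_ug h m
  have key := heat_deriv (Ψ := fun v y => Wk Φ m 0 v y * F v y)
    (Ψv := fun v y => 1 / 2 * Wk Φ m 2 v y * F v y + Wk Φ m 0 v y * Fv v y)
    (Ψx := fun v y => Wk Φ m 1 v y * F v y + Wk Φ m 0 v y * Fx v y)
    (Ψxx := fun v y => (Wk Φ m 2 v y * F v y + Wk Φ m 1 v y * Fx v y) +
      (Wk Φ m 1 v y * Fx v y + Wk Φ m 0 v y * Fxx v y))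
    (fun v y hv => (Wk_dv h m 0 hv y).fun_mul (a1 v y hv))
    (fun v y => (Wk_dx h m 0 v y).fun_mul (a2 v y))
    (fun v y => ((Wk_dx h m 1 v y).fun_mul (a2 v y)).fun_add
      ((Wk_dx h m 0 v y).fun_mul (a3 v y)))
    ((hW 0).mul a4) ((((hW 2).const_mul (1 / 2)).mul a4).add ((hW 0).mul a5))
    (((hW 1).mul a4).add ((hW 0).mul a6))
    ((((hW 2).mul a4).add ((hW 1).mul a6)).add (((hW 1).mul a6).add ((hW 0).mul a7))) h0 h1 x
  refine key.congr_deriv ?_
  congr 1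
  funext y
  rw [a8]
  unfold Dk
  have := (Wk_pos h m (d - τ) y).ne'
  field_simp
  ring

/-- **The block calculus lemma.** -/
theorem EE_deriv {F LF Fx : ℝ → ℝ → ℝ} (hF : TB Φ m F LF Fx) {ν : Measure ℝ} (hν : EM ν)
    {d τ : ℝ} (h0 : 0 < τ) (h1 : τ < d) :
    HasDerivAt (EE Φ m d ν F) (EE Φ m d ν LF τ) τ := by
  have hW := Wk_ug h m 0
  have uF := hW.mul hF.ug
  have uL := hW.mul (hF.ugL h)
  obtain ⟨K, A, hK, hA, hb⟩ := heat_bound uL d d
  set ε := min τ (d - τ) with hε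
  have hε0 : 0 < ε := lt_min h0 (sub_pos.2 h1)
  have hball : ∀ s ∈ Metric.ball τ ε, 0 < s ∧ s < d := by
    intro s hs
    rw [Metric.mem_ball, Real.dist_eq, abs_lt] at hs
    have m1 : min τ (d - τ) ≤ τ := min_le_left _ _
    have m2 : min τ (d - τ) ≤ d - τ := min_le_right _ _
    exact ⟨by linarith, by linarith⟩
  unfold EE
  refine (hasDerivAt_integral_of_dominated_loc_of_deriv_le (μ := ν)
    (F' := fun s x => H (√s) (fun y => Wk Φ m 0 (d - s) y * LF (d - s) y) x)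
    (bound := fun x => K * Real.exp (A * |x|))
    (Metric.ball_mem_nhds τ hε0) ?_ (hν.of_eg (heat_eg uF d τ)) ?_ ?_ ((hν A).const_mul K) ?_).2
  · exact Eventually.of_forall fun s => (heat_eg uF d s).cont.aestronglyMeasurable
  · exact (heat_eg uL d τ).cont.aestronglyMeasurable
  · refine Eventually.of_forall fun x s hs => ?_
    obtain ⟨s1, s2⟩ := hball s hs
    rw [Real.norm_eq_abs]
    exact hb s x s2.le (by linarith)
  · refine Eventually.of_forall fun x s hs => ?_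
    obtain ⟨s1, s2⟩ := hball s hs
    exact EX_deriv h m hF s1 s2 x

/-- continuity of expectations -/
theorem EE_cont {F : ℝ → ℝ → ℝ} (hF : UG F) {ν : Measure ℝ} (hν : EM ν) (d : ℝ) :
    Continuous (EE Φ m d ν F) := by
  have uF := (Wk_ug h m 0).mul hF
  rw [continuous_iff_continuousAt]
  intro τ
  obtain ⟨K, A, hK, hA, hb⟩ := heat_bound uF d (|d| + |τ| + 1)
  unfold EE
  refine continuousAt_of_dominated (bound := fun x => K * Real.exp (A * |x|)) ?_ ?_
    ((hν A).const_mul K) ?_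
  · exact Eventually.of_forall fun s => (heat_eg uF d s).cont.aestronglyMeasurable
  · have hB : Metric.ball τ 1 ∈ 𝓝 τ := Metric.ball_mem_nhds τ one_pos
    filter_upwards [hB] with s hs
    rw [Metric.mem_ball, Real.dist_eq, abs_lt] at hs
    refine Eventually.of_forall fun x => ?_
    rw [Real.norm_eq_abs]
    have h1 := le_abs_self τ
    have h2 := neg_abs_le τ
    have h3 := le_abs_self d
    have h4 := abs_nonneg d
    exact hb s x (by linarith) (by linarith)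
  · refine Eventually.of_forall fun x => ?_
    exact ((heat_cont uF d).comp (by fun_prop : Continuous fun s : ℝ => (s, x))).continuousAt

end EEsec

end

end Crest.Agent.R339.B
end

-- ▼ part R339/B107U

/-!
Row 339 (helper107): the derivatives `U k` of the Parisi function inside a block as test functions,
and the derivatives of `E u_x²`, `E u_xx²`, `E x u_x`, `E u` in time.
-/

set_option autoImplicit false

namespace Crest.Agent.R339.B

open MeasureTheory ProbabilityTheory Filter Topology Set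
open Crest.Agent.R164.GC
open Crest.ProbabilityR.InvariantGlass (gaussOp)

noncomputable section

/-- `U Φ m 0 v = u(v,·)`, `U Φ m k v = ∂_x^k u(v,·)` where `u(v,·) = gaussOp m v Φ` -/
def U (Φ : ℝ → ℝ) (m : ℝ) (k : ℕ) (v x : ℝ) : ℝ := iteratedDeriv k (gaussOp m v Φ) x

theorem U_zero (Φ : ℝ → ℝ) (m v : ℝ) : U Φ m 0 v = gaussOp m v Φ := by
  funext x; simp [U]

theorem U_one (Φ : ℝ → ℝ) (m v : ℝ) : U Φ m 1 v = deriv (gaussOp m v Φ) := by
  funext x; simp [U]

theorem U_succ (Φ : ℝ → ℝ) (m : ℝ) (k : ℕ) (v : ℝ) : U Φ m (k + 1) v = deriv (U Φ m k v) := by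
  funext x
  unfold U
  rw [iteratedDeriv_succ]

theorem U_two (Φ : ℝ → ℝ) (m v : ℝ) : U Φ m 2 v = deriv (deriv (gaussOp m v Φ)) := by
  rw [U_succ, U_one]

theorem U_three (Φ : ℝ → ℝ) (m v : ℝ) :
    U Φ m 3 v = deriv (deriv (deriv (gaussOp m v Φ))) := by
  rw [U_succ, U_two]

section Usec

variable {Φ : ℝ → ℝ} (h : Prof Φ) {m : ℝ} (hm : m ≠ 0)
include h


include hm

omit h in
theorem U0_eq (v x : ℝ) : U Φ m 0 v x = m⁻¹ * Real.log (Wk Φ m 0 v x) := by
  rw [U_zero, gaussOp_ne hm]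
  unfold Wk
  rw [iteratedDeriv_zero]
  rfl

theorem W0_eq (v x : ℝ) : Wk Φ m 0 v x = Real.exp (m * U Φ m 0 v x) := by
  rw [U0_eq hm, ← mul_assoc, mul_inv_cancel₀ hm, one_mul, Real.exp_log (Wk_pos h m v x)]

theorem U1_eq (v x : ℝ) : U Φ m 1 v x = m⁻¹ * Dk Φ m 1 v x := by
  rw [U_succ]
  have e : U Φ m 0 v = fun x => m⁻¹ * Real.log (Wk Φ m 0 v x) := funext (U0_eq hm v)
  rw [e]
  have h1 := ((Wk_dx h m 0 v x).log (Wk_pos h m v x).ne').const_mul m⁻¹
  rw [h1.deriv]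
  rfl

theorem U2_eq (v x : ℝ) : U Φ m 2 v x = m⁻¹ * (Dk Φ m 2 v x - Dk Φ m 1 v x ^ 2) := by
  rw [U_succ]
  have e : U Φ m 1 v = fun x => m⁻¹ * Dk Φ m 1 v x := funext (U1_eq h hm v)
  rw [e, ((Dk_dx h m 1 v x).const_mul m⁻¹).deriv]
  ring

theorem U3_eq (v x : ℝ) : U Φ m 3 v x = m⁻¹ * (Dk Φ m 3 v x - 3 * Dk Φ m 1 v x * Dk Φ m 2 v x +
    2 * Dk Φ m 1 v x ^ 3) := by
  rw [U_succ]
  have e : U Φ m 2 v = fun x => m⁻¹ * (Dk Φ m 2 v x - Dk Φ m 1 v x ^ 2) := funext (U2_eq h hm v)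
  rw [e, (((Dk_dx h m 2 v x).fun_sub ((Dk_dx h m 1 v x).fun_pow 2)).const_mul m⁻¹).deriv]
  norm_num
  left
  ring

theorem U4_eq (v x : ℝ) : U Φ m 4 v x = m⁻¹ * (Dk Φ m 4 v x - 4 * Dk Φ m 1 v x * Dk Φ m 3 v x -
    3 * Dk Φ m 2 v x ^ 2 + 12 * Dk Φ m 1 v x ^ 2 * Dk Φ m 2 v x - 6 * Dk Φ m 1 v x ^ 4) := by
  rw [U_succ]
  have e : U Φ m 3 v = fun x => m⁻¹ * (Dk Φ m 3 v x - 3 * Dk Φ m 1 v x * Dk Φ m 2 v x +
    2 * Dk Φ m 1 v x ^ 3) := funext (U3_eq h hm v)
  have h1 := (((Dk_dx h m 3 v x).fun_sub (((Dk_dx h m 1 v x).const_mul 3).fun_mul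
    (Dk_dx h m 2 v x))).fun_add (((Dk_dx h m 1 v x).fun_pow 3).const_mul 2)).const_mul m⁻¹
  rw [e, h1.deriv]
  norm_num
  left
  ring

/-! ### test functions -/

omit hm in
theorem tb_D1sq : TB Φ m (fun v x => Dk Φ m 1 v x ^ 2)
    (fun v x => (Dk Φ m 2 v x - Dk Φ m 1 v x ^ 2) ^ 2)
    (fun v x => 2 * Dk Φ m 1 v x * (Dk Φ m 2 v x - Dk Φ m 1 v x ^ 2)) := by
  have h1 := tb_Dk h m 1
  exact (h1.mul h1).congr (fun v x => by ring) (fun v x => by ring) (fun v x => by ring)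

theorem tb_U1 : TB Φ m (U Φ m 1) (fun _ _ => 0) (U Φ m 2) :=
  ((tb_Dk h m 1).const_mul m⁻¹).congr (U1_eq h hm) (fun v x => by ring)
    (fun v x => by rw [U2_eq h hm]; ring)

theorem tb_U2 : TB Φ m (U Φ m 2) (fun v x => -m * U Φ m 2 v x ^ 2) (U Φ m 3) :=
  (((tb_Dk h m 2).sub (tb_D1sq h)).const_mul m⁻¹).congr (U2_eq h hm)
    (fun v x => by
      rw [U2_eq h hm]
      field_simp
      ring)
    (fun v x => by rw [U3_eq h hm]; ring)

theorem tb_U3 : TB Φ m (U Φ m 3) (fun v x => -3 * m * U Φ m 2 v x * U Φ m 3 v x) (U Φ m 4) := by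
  have h1 := tb_Dk h m 1
  have h2 := tb_Dk h m 2
  have h3 := tb_Dk h m 3
  have h12 := (h1.mul h2).const_mul 3
  have h13 := (h1.mul (tb_D1sq h)).const_mul 2
  refine (((h3.sub h12).add h13).const_mul m⁻¹).congr
    (fun v x => by rw [U3_eq h hm]; ring)
    (fun v x => by
      rw [U2_eq h hm, U3_eq h hm]
      field_simp
      ring)
    (fun v x => by rw [U4_eq h hm]; ring)

/-- locally uniform growth of `u` -/
theorem U0_ug : UG (U Φ m 0) := by
  have hc : Continuous fun p : ℝ × ℝ => U Φ m 0 p.1 p.2 := by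
    have e : (fun p : ℝ × ℝ => U Φ m 0 p.1 p.2) =
        fun p : ℝ × ℝ => m⁻¹ * Real.log (Wk Φ m 0 p.1 p.2) :=
      funext fun p => U0_eq hm p.1 p.2
    rw [e]
    exact continuous_const.mul ((Wk_cont h m 0).log fun p => (Wk_pos h m _ _).ne')
  refine ⟨hc, fun d => ?_⟩
  have hc0 : Continuous fun v => U Φ m 0 v 0 :=
    hc.comp (by fun_prop : Continuous fun v : ℝ => (v, (0 : ℝ)))
  obtain ⟨C, hC⟩ := (isCompact_Icc (a := (0 : ℝ)) (b := |d|)).exists_bound_of_continuousOn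
    hc0.continuousOn
  have hC0 : 0 ≤ C := (norm_nonneg _).trans (hC 0 ⟨le_rfl, abs_nonneg d⟩)
  have hb : ∀ v, v ≤ d → |U Φ m 0 v 0| ≤ C := by
    intro v hv
    by_cases h0 : 0 ≤ v
    · exact hC v ⟨h0, hv.trans (le_abs_self d)⟩
    · have e : U Φ m 0 v 0 = U Φ m 0 0 0 := by
        rw [U0_eq hm, U0_eq hm]
        unfold Wk
        rw [Real.sqrt_eq_zero_of_nonpos (not_le.1 h0).le, Real.sqrt_zero]
      rw [e]
      exact hC 0 ⟨le_rfl, abs_nonneg d⟩
  refine ⟨C + 1, 1, by positivity, zero_le_one, fun v x hv => ?_⟩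
  have hl := (h.step m v).lip
  have h1 := hl x 0
  have h2 := hl 0 x
  rw [sub_zero] at h1
  rw [zero_sub, abs_neg] at h2
  have h3 : |U Φ m 0 v x| ≤ |U Φ m 0 v 0| + |x| := by
    rw [U_zero, abs_le]
    constructor
    · have := neg_abs_le (gaussOp m v Φ 0); linarith
    · have := le_abs_self (gaussOp m v Φ 0); linarith
  have h4 := hb v hv
  have h5 := Real.add_one_le_exp |x|
  have h6 := abs_nonneg x
  rw [one_mul]
  nlinarith

theorem tb_U0 : TB Φ m (U Φ m 0) (fun v x => m / 2 * U Φ m 1 v x ^ 2) (U Φ m 1) := by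
  refine ⟨fun v x => m⁻¹ * (1 / 2 * Dk Φ m 2 v x), U Φ m 2, fun v x hv => ?_, fun v x => ?_,
    fun v x => ?_, U0_ug h hm, ((Dk_ug h m 2).const_mul _).const_mul _, (tb_U1 h hm).ug,
    (tb_U2 h hm).ug, fun v x => ?_⟩
  · have e : (fun s => U Φ m 0 s x) = fun s => m⁻¹ * Real.log (Wk Φ m 0 s x) :=
      funext fun s => U0_eq hm s x
    rw [e]
    have h1 := ((Wk_dv h m 0 hv x).log (Wk_pos h m v x).ne').const_mul m⁻¹
    refine h1.congr_deriv ?_
    unfold Dk
    ring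
  · have := (h.step m v).d1 x
    rw [U_zero, U_one]
    exact this
  · rw [U_one, U_two]
    exact (h.step m v).bd.hasDerivAt x
  · beta_reduce
    rw [U1_eq h hm, U2_eq h hm]
    field_simp
    ring

theorem tb_U1sq : TB Φ m (fun v x => U Φ m 1 v x ^ 2) (fun v x => U Φ m 2 v x ^ 2)
    (fun v x => 2 * U Φ m 1 v x * U Φ m 2 v x) :=
  ((tb_U1 h hm).mul (tb_U1 h hm)).congr (fun v x => by ring) (fun v x => by ring)
    (fun v x => by ring)

theorem tb_U2sq : TB Φ m (fun v x => U Φ m 2 v x ^ 2)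
    (fun v x => U Φ m 3 v x ^ 2 - 2 * m * U Φ m 2 v x ^ 3)
    (fun v x => 2 * U Φ m 2 v x * U Φ m 3 v x) :=
  ((tb_U2 h hm).mul (tb_U2 h hm)).congr (fun v x => by ring) (fun v x => by ring)
    (fun v x => by ring)

theorem tb_LU2sq : TB Φ m (fun v x => U Φ m 3 v x ^ 2 - 2 * m * U Φ m 2 v x ^ 3)
    (fun v x => U Φ m 4 v x ^ 2 - 12 * m * U Φ m 2 v x * U Φ m 3 v x ^ 2 +
      6 * m ^ 2 * U Φ m 2 v x ^ 4)
    (fun v x => 2 * U Φ m 3 v x * U Φ m 4 v x - 6 * m * U Φ m 2 v x ^ 2 * U Φ m 3 v x) :=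
  (((tb_U3 h hm).mul (tb_U3 h hm)).sub (((tb_U2 h hm).mul (tb_U2sq h hm)).const_mul
    (2 * m))).congr (fun v x => by ring) (fun v x => by ring) (fun v x => by ring)

theorem tb_XU1 : TB Φ m (fun v x => x * U Φ m 1 v x)
    (fun v x => m * U Φ m 1 v x ^ 2 + U Φ m 2 v x)
    (fun v x => U Φ m 1 v x + x * U Φ m 2 v x) :=
  ((tb_id Φ m).mul (tb_U1 h hm)).congr (fun v x => by ring)
    (fun v x => by
      rw [U1_eq h hm]
      field_simp
      ring)
    (fun v x => by ring)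

/-! ### derivatives of expectations -/

variable {ν : Measure ℝ} (hν : EM ν) {d τ : ℝ} (h0 : 0 < τ) (h1 : τ < d)
include hν h0 h1

/-- `d/dt E u_x² = E u_xx²` -/
theorem dE_U1sq : HasDerivAt (EE Φ m d ν fun v x => U Φ m 1 v x ^ 2)
    (EE Φ m d ν (fun v x => U Φ m 2 v x ^ 2) τ) τ :=
  EE_deriv h m (tb_U1sq h hm) hν h0 h1

/-- `d/dt E u_xx² = E[u_xxx² - 2m u_xx³]` -/
theorem dE_U2sq : HasDerivAt (EE Φ m d ν fun v x => U Φ m 2 v x ^ 2)
    (EE Φ m d ν (fun v x => U Φ m 3 v x ^ 2 - 2 * m * U Φ m 2 v x ^ 3) τ) τ :=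
  EE_deriv h m (tb_U2sq h hm) hν h0 h1

/-- second derivative -/
theorem ddE_U2sq :
    HasDerivAt (EE Φ m d ν fun v x => U Φ m 3 v x ^ 2 - 2 * m * U Φ m 2 v x ^ 3)
    (EE Φ m d ν (fun v x => U Φ m 4 v x ^ 2 - 12 * m * U Φ m 2 v x * U Φ m 3 v x ^ 2 +
      6 * m ^ 2 * U Φ m 2 v x ^ 4) τ) τ :=
  EE_deriv h m (tb_LU2sq h hm) hν h0 h1




end Usec

end

end Crest.Agent.R339.B
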