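import Crest.Agent.R339.Var71G
import Crest.Agent.R339.B107U

-- ▼ part R339/V455
section

set_option autoImplicit false

namespace Crest.Agent.R339.V4

open MeasureTheory ProbabilityTheory Filter Topology Set
open scoped Interval
open Crest.Agent.R164.GC Crest.Agent.R339.B Crest.Agent.R339.Var
open Crest.ProbabilityR.InvariantGlass (gaussOp)
open Crest.Agent.R339.Guerra (pen)

noncomputable section

/-! ### the block expectation started at a point, and `tE` -/

theorem EE_dirac {Φ : ℝ → ℝ} (h : Prof Φ) {m : ℝ} (hm : m ≠ 0) {d τ : ℝ} (h0 : 0 ≤ τ)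
    (h1 : τ ≤ d) (F : ℝ → ℝ → ℝ) (x : ℝ) :
    EE Φ m d (Measure.dirac x) F τ =
      tE m τ (gaussOp m (d - τ) Φ) (F (d - τ)) x * Wk Φ m 0 d x := by
  have hW : ∀ v y, Wk Φ m 0 v y = Real.exp (m * gaussOp m v Φ y) := by
    intro v y
    rw [W0_eq h hm, U_zero]
  unfold EE
  rw [integral_dirac]
  rw [hW d x]
  have e : gaussOp m d Φ = gaussOp m τ (gaussOp m (d - τ) Φ) := by
    rw [← gaussOp_semi h hm h0 (sub_nonneg.2 h1)]
    congr 1
    ring
  rw [e, tE_eq (h.step m (d - τ)) hm]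
  congr 1
  funext y
  rw [hW]
  ring

/-- the identity of a block for `u - x u_x` -/
theorem block_value {Φ : ℝ → ℝ} (h : Prof Φ) {m : ℝ} (hm : 0 < m) {d : ℝ} (hd : 0 ≤ d) (x : ℝ) :
    gaussOp m d Φ x - x * deriv (gaussOp m d Φ) x =
      tE m d Φ (fun y => Φ y - y * deriv Φ y) x +
      ∫ s in (0:ℝ)..d, tE m s (gaussOp m (d - s) Φ)
        (fun y => m / 2 * deriv (gaussOp m (d - s) Φ) y ^ 2 +
          deriv (deriv (gaussOp m (d - s) Φ)) y) x := by
  have hm0 := hm.ne'
  set F : ℝ → ℝ → ℝ := fun v y => U Φ m 0 v y - y * U Φ m 1 v y with hF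
  set LF : ℝ → ℝ → ℝ := fun v y => m / 2 * U Φ m 1 v y ^ 2 - (m * U Φ m 1 v y ^ 2 + U Φ m 2 v y)
    with hLF
  have tb := (tb_U0 h hm0).sub (tb_XU1 h hm0)
  have hν := EM.dirac x
  have hcF : Continuous (EE Φ m d (Measure.dirac x) F) := EE_cont h m tb.ug hν d
  have hcL : Continuous (EE Φ m d (Measure.dirac x) LF) := EE_cont h m (tb.ugL h) hν d
  have hW : 0 < Wk Φ m 0 d x := Wk_pos h m d x
  have key : ∫ s in (0:ℝ)..d, EE Φ m d (Measure.dirac x) LF s =
      EE Φ m d (Measure.dirac x) F d - EE Φ m d (Measure.dirac x) F 0 :=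
    intervalIntegral.integral_eq_sub_of_hasDerivAt_of_le hd hcF.continuousOn
      (fun s hs => EE_deriv h m tb hν hs.1 hs.2) (hcL.intervalIntegrable _ _)
  have e1 : EE Φ m d (Measure.dirac x) F d =
      tE m d Φ (fun y => Φ y - y * deriv Φ y) x * Wk Φ m 0 d x := by
    rw [EE_dirac h hm0 hd le_rfl, sub_self, gaussOp_v0 hm0]
    congr 2
    funext y
    rw [hF]
    simp only
    rw [U_zero, U_one, gaussOp_v0 hm0]
  have e0 : EE Φ m d (Measure.dirac x) F 0 =
      (gaussOp m d Φ x - x * deriv (gaussOp m d Φ) x) * Wk Φ m 0 d x := by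
    rw [EE_dirac h hm0 le_rfl hd, sub_zero, tE_v0]
    simp only [hF]
    rw [U_zero, U_one]
  have e2 : ∫ s in (0:ℝ)..d, EE Φ m d (Measure.dirac x) LF s =
      (∫ s in (0:ℝ)..d, tE m s (gaussOp m (d - s) Φ)
        (fun y => -(m / 2 * deriv (gaussOp m (d - s) Φ) y ^ 2 +
          deriv (deriv (gaussOp m (d - s) Φ)) y)) x) * Wk Φ m 0 d x := by
    rw [← intervalIntegral.integral_mul_const]
    apply intervalIntegral.integral_congr
    intro s hs
    rw [uIcc_of_le hd] at hs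
    simp only
    rw [EE_dirac h hm0 hs.1 hs.2]
    congr 2
    funext y
    rw [hLF]
    simp only
    rw [U_one, U_two]
    ring
  rw [e1, e0, e2, ← sub_mul] at key
  have key2 := mul_right_cancel₀ hW.ne' key
  have e3 : ∀ s, tE m s (gaussOp m (d - s) Φ)
        (fun y => -(m / 2 * deriv (gaussOp m (d - s) Φ) y ^ 2 +
          deriv (deriv (gaussOp m (d - s) Φ)) y)) x =
      - tE m s (gaussOp m (d - s) Φ)
        (fun y => (m / 2 * deriv (gaussOp m (d - s) Φ) y ^ 2 +
          deriv (deriv (gaussOp m (d - s) Φ)) y)) x := by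
    intro s
    have := tE_const_mul m s (gaussOp m (d - s) Φ)
      (fun y => (m / 2 * deriv (gaussOp m (d - s) Φ) y ^ 2 +
          deriv (deriv (gaussOp m (d - s) Φ)) y)) (-1) x
    simp only [neg_mul, one_mul] at this
    exact this
  simp only [e3] at key2
  rw [intervalIntegral.integral_neg] at key2
  linarith

/-! ### second derivatives along the list -/

theorem cont_deriv2_gaussOp {Φ : ℝ → ℝ} (h : Prof Φ) {m : ℝ} (hm : m ≠ 0) :
    Continuous (fun p : ℝ × ℝ => deriv (deriv (gaussOp m p.1 Φ)) p.2) := by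
  have e : (fun p : ℝ × ℝ => deriv (deriv (gaussOp m p.1 Φ)) p.2) = fun p : ℝ × ℝ =>
      U Φ m 2 p.1 p.2 := by
    funext p
    rw [U_two]
  rw [e]
  exact (tb_U2 h hm).ug.cont

theorem meas_PhiT2 {β : ℝ} (hβ : 0 < β) : ∀ (l : List (ℝ × ℝ)), (∀ p ∈ l, 0 < p.1) →
    Measurable (fun p : ℝ × ℝ => deriv (deriv (PhiT β l p.1)) p.2)
  | [], _ => by
    show Measurable (fun p : ℝ × ℝ => deriv (deriv (phi0 β)) p.2)
    exact ((phi0_prof hβ).bd.deriv.cont).measurable.comp measurable_snd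
  | p :: l, hl => by
    have e : (fun q : ℝ × ℝ => deriv (deriv (PhiT β (p :: l) q.1)) q.2) = fun q : ℝ × ℝ =>
        if q.1 ≤ p.2 then deriv (deriv (gaussOp p.1 (p.2 - q.1) (PhiL β l))) q.2
        else deriv (deriv (PhiT β l (q.1 - p.2))) q.2 := by
      funext q
      show deriv (deriv (if q.1 ≤ p.2 then gaussOp p.1 (p.2 - q.1) (PhiL β l)
        else PhiT β l (q.1 - p.2))) q.2 = _
      split_ifs <;> rfl
    rw [e]
    refine Measurable.ite (measurableSet_le measurable_fst measurable_const) ?_ ?_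
    · exact ((cont_deriv2_gaussOp (PhiL_prof hβ l) (hl p (by simp)).ne').comp
          (by fun_prop : Continuous fun q : ℝ × ℝ => (p.2 - q.1, q.2))).measurable
    · exact (meas_PhiT2 hβ l (fun q hq => hl q (by simp [hq]))).comp
        (by fun_prop : Measurable fun q : ℝ × ℝ => (q.1 - p.2, q.2))

theorem PhiT_inv {β : ℝ} (hβ : 0 < β) : ∀ {l : List (ℝ × ℝ)}, Adm β l → ∀ t : ℝ,
    ∃ m, 0 < m ∧ m ≤ β ∧ Inv β m (PhiT β l t)
  | [], _, t => ⟨β, hβ, le_rfl, phi0_inv hβ⟩
  | p :: l, h, t => by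
    have hle : p.1 ≤ β := h.2.1.trans h.2.2.2.head_le
    unfold PhiT
    split_ifs with ht
    · exact ⟨p.1, h.1, hle, ((PhiL_inv hβ h.2.2.2).mono h.2.1).step h.1 hle _⟩
    · exact PhiT_inv hβ h.2.2.2 _

theorem d2_BC {β m : ℝ} (hβ : 0 < β) {Φ : ℝ → ℝ} (h : Inv β m Φ) : BC (deriv (deriv Φ)) β := by
  refine ⟨h.prof.bd.deriv.cont, fun x => ?_⟩
  rw [abs_of_pos (h.low.pos x)]
  refine (h.up x).trans ?_
  have := sq_nonneg (deriv Φ x)
  nlinarith

/-- `E Φ_xx(s, X_s)` started from `x` -/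
def XX (β : ℝ) (l : List (ℝ × ℝ)) (s x : ℝ) : ℝ :=
  EX β l s (fun y => deriv (deriv (PhiT β l s)) y) x

theorem Adm.pos {β : ℝ} : ∀ {l : List (ℝ × ℝ)}, Adm β l → ∀ p ∈ l, 0 < p.1
  | [], _, p, hp => by simp at hp
  | q :: l, h, p, hp => by
    rcases List.mem_cons.1 hp with rfl | hp
    · exact h.1
    · exact Adm.pos h.2.2.2 p hp

theorem Adm.len_nonneg {β : ℝ} : ∀ {l : List (ℝ × ℝ)}, Adm β l → ∀ p ∈ l, 0 ≤ p.2
  | [], _, p, hp => by simp at hp
  | q :: l, h, p, hp => by
    rcases List.mem_cons.1 hp with rfl | hp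
    · exact h.2.2.1
    · exact Adm.len_nonneg h.2.2.2 p hp

theorem meas_XX {β : ℝ} (hβ : 0 < β) (l : List (ℝ × ℝ)) (hl : ∀ p ∈ l, 0 < p.1) :
    Measurable (fun p : ℝ × ℝ => XX β l p.1 p.2) :=
  meas_EX hβ l hl (F := fun s y => deriv (deriv (PhiT β l s)) y) (meas_PhiT2 hβ l hl)

theorem XX_BC {β : ℝ} (hβ : 0 < β) {l : List (ℝ × ℝ)} (hl : Adm β l) (s : ℝ) :
    BC (XX β l s) β := by
  obtain ⟨m, _, _, hm⟩ := PhiT_inv hβ hl s
  exact EX_BC hβ l s (d2_BC hβ hm)

/-- terminal tilted expectation -/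
def EE1 (β : ℝ) : List (ℝ × ℝ) → (ℝ → ℝ) → ℝ → ℝ
  | [], F => F
  | p :: l, F => tE p.1 p.2 (PhiL β l) (EE1 β l F)

theorem EE1_BC {β : ℝ} (hβ : 0 < β) : ∀ (l : List (ℝ × ℝ)) {F : ℝ → ℝ} {K : ℝ},
    BC F K → BC (EE1 β l F) K
  | [], _, _, h => h
  | _ :: l, _, _, h => tE_BC (PhiL_prof hβ l).lip _ _ (EE1_BC hβ l h)

theorem EE1_bounds {β : ℝ} (hβ : 0 < β) : ∀ (l : List (ℝ × ℝ)) {F : ℝ → ℝ} {a b K : ℝ},
    BC F K → (∀ y, a ≤ F y) → (∀ y, F y ≤ b) → ∀ x, a ≤ EE1 β l F x ∧ EE1 β l F x ≤ b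
  | [], _, _, _, _, _, h1, h2, x => ⟨h1 x, h2 x⟩
  | p :: l, F, a, b, K, h, h1, h2, x => by
    have ih := EE1_bounds hβ l h h1 h2
    have hb := (EE1_BC hβ l h).eg
    have hl := (PhiL_prof hβ l).lip
    constructor
    · have := tE_mono hl p.1 p.2 (EG.const a) hb (fun y => (ih y).1) x
      rwa [tE_const hl] at this
    · have := tE_mono hl p.1 p.2 hb (EG.const b) (fun y => (ih y).2) x
      rwa [tE_const hl] at this

/-- total length -/
def len (l : List (ℝ × ℝ)) : ℝ := (l.map Prod.snd).sum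

theorem len_cons (p : ℝ × ℝ) (l : List (ℝ × ℝ)) : len (p :: l) = p.2 + len l := by
  simp [len]

theorem Adm.len0 {β : ℝ} : ∀ {l : List (ℝ × ℝ)}, Adm β l → 0 ≤ len l
  | [], _ => le_rfl
  | p :: l, h => by
    rw [len_cons]
    have := Adm.len0 h.2.2.2
    linarith [h.2.2.1]

/-- the triples with direction = level -/
def dup (l : List (ℝ × ℝ)) : List (ℝ × ℝ × ℝ) := l.map fun p => (p.1, p.1, p.2)

/-! ### the entropy of the terminal spin -/

theorem phi0_ent {β : ℝ} (hβ : 0 < β) (y : ℝ) : 0 ≤ phi0 β y - y * th β y ∧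
    phi0 β y - y * th β y ≤ Real.log 2 / β := by
  -- the function z ↦ log (2 cosh z) - z tanh z
  have hc : ∀ z : ℝ, 0 < Real.cosh z := Real.cosh_pos
  have e : phi0 β y - y * th β y =
      (Real.log (2 * Real.cosh (β * y)) - (β * y) * (Real.sinh (β * y) / Real.cosh (β * y))) / β := by
    unfold phi0 th
    field_simp
  rw [e]
  generalize β * y = z
  have h1 : 0 ≤ Real.log (2 * Real.cosh z) - z * (Real.sinh z / Real.cosh z) := by
    have h2 : |z| ≤ Real.log (2 * Real.cosh z) := by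
      rw [Real.le_log_iff_exp_le (by have := hc z; positivity), Real.cosh_eq]
      rcases le_total 0 z with h | h
      · rw [abs_of_nonneg h]
        have := Real.exp_pos (-z)
        linarith
      · rw [abs_of_nonpos h]
        have := Real.exp_pos z
        linarith
    have h3 : z * (Real.sinh z / Real.cosh z) ≤ |z| := by
      have h4 : |Real.sinh z / Real.cosh z| ≤ 1 := by
        have := th_abs_le 1 z
        unfold th at this
        rwa [one_mul] at this
      calc z * (Real.sinh z / Real.cosh z) ≤ |z * (Real.sinh z / Real.cosh z)| := le_abs_self _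
        _ = |z| * |Real.sinh z / Real.cosh z| := abs_mul _ _
        _ ≤ |z| * 1 := mul_le_mul_of_nonneg_left h4 (abs_nonneg _)
        _ = |z| := mul_one _
    linarith
  have h2 : Real.log (2 * Real.cosh z) - z * (Real.sinh z / Real.cosh z) ≤ Real.log 2 := by
    -- F z = z tanh z - log cosh z is minimal at 0
    have hder : ∀ w : ℝ, HasDerivAt (fun w => w * (Real.sinh w / Real.cosh w) -
        Real.log (Real.cosh w)) (w / Real.cosh w ^ 2) w := by
      intro w
      have hw := (hc w).ne'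
      have d1 := (Real.hasDerivAt_sinh w).fun_div (Real.hasDerivAt_cosh w) hw
      have d2 := (hasDerivAt_id' w).fun_mul d1
      have d3 := (Real.hasDerivAt_cosh w).log hw
      refine (d2.fun_sub d3).congr_deriv ?_
      have hs := Real.cosh_sq w
      have hs2 : Real.cosh w * Real.cosh w - Real.sinh w * Real.sinh w = 1 := by nlinarith
      rw [hs2]
      ring
    have key : ∀ w, 0 ≤ w → 0 ≤ w * (Real.sinh w / Real.cosh w) - Real.log (Real.cosh w) := by
      intro w hw
      have hm : MonotoneOn (fun w => w * (Real.sinh w / Real.cosh w) - Real.log (Real.cosh w))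
          (Set.Ici 0) := by
        apply monotoneOn_of_deriv_nonneg (convex_Ici 0)
        · exact fun x _ => (hder x).continuousAt.continuousWithinAt
        · exact fun x _ => (hder x).differentiableAt.differentiableWithinAt
        · intro x hx
          rw [interior_Ici] at hx
          rw [(hder x).deriv]
          have := hc x
          have hx' : (0:ℝ) < x := hx
          positivity
      have := hm (Set.self_mem_Ici) (Set.mem_Ici.2 hw) hw
      simpa using this
    have hz : 0 ≤ z * (Real.sinh z / Real.cosh z) - Real.log (Real.cosh z) := by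
      rcases le_total 0 z with h | h
      · exact key z h
      · have := key (-z) (by linarith)
        rw [Real.sinh_neg, Real.cosh_neg] at this
        have e2 : -z * (-Real.sinh z / Real.cosh z) = z * (Real.sinh z / Real.cosh z) := by ring
        rwa [e2] at this
    rw [Real.log_mul two_ne_zero (hc z).ne']
    linarith
  exact ⟨div_nonneg h1 hβ.le, div_le_div_of_nonneg_right h2 hβ.le⟩

/-- the terminal function `Φ - y Φ'` -/
def ent (β y : ℝ) : ℝ := phi0 β y - y * deriv (phi0 β) y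

theorem ent_bd {β : ℝ} (hβ : 0 < β) (y : ℝ) : 0 ≤ ent β y ∧ ent β y ≤ Real.log 2 / β := by
  unfold ent
  rw [phi0_deriv hβ]
  exact phi0_ent hβ y

theorem ent_BC {β : ℝ} (hβ : 0 < β) : BC (ent β) (Real.log 2 / β) := by
  refine ⟨?_, fun y => ?_⟩
  · unfold ent
    exact (phi0_prof hβ).egs.eg.cont.sub (continuous_id.mul (phi0_prof hβ).bd.cont)
  · obtain ⟨h1, h2⟩ := ent_bd hβ y
    rw [abs_of_nonneg h1]
    exact h2

/-! ### the induction -/

theorem value_aux {β : ℝ} (hβ : 0 < β) : ∀ {l : List (ℝ × ℝ)}, Adm β l → ∀ x : ℝ,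
    PhiL β l x - x * deriv (PhiL β l) x =
      EE1 β l (ent β) x + wsum (fun s => QQ β l s x) 0 (dup l) +
      ∫ s in (0:ℝ)..len l, XX β l s x
  | [], _, x => by
    show phi0 β x - x * deriv (phi0 β) x = ent β x + 0 + ∫ s in (0:ℝ)..0, _
    rw [intervalIntegral.integral_same]
    unfold ent
    ring
  | p :: l, hA, x => by
    have ih := value_aux hβ hA.2.2.2
    have hp := hA.2.2.1
    have hp1 := hA.1
    have hlpos := Adm.pos hA.2.2.2
    set Φ := PhiL β l with hΦ
    have hprof : Prof Φ := PhiL_prof hβ l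
    have hT := Adm.len0 hA.2.2.2
    -- block identity
    have hb := block_value hprof hp1 hp x
    show gaussOp p.1 p.2 Φ x - x * deriv (gaussOp p.1 p.2 Φ) x = _
    rw [hb]
    -- integrals along `l`
    have hmQ := meas_QQ hβ l hlpos
    have hbQ : ∀ s y, |QQ β l s y| ≤ 1 := fun s y => (QQ_BC hβ l s).bd y
    have hmX := meas_XX hβ l hlpos
    have hbX : ∀ s y, |XX β l s y| ≤ β := fun s y => (XX_BC hβ hA.2.2.2 s).bd y
    have hcQ : ∀ a b, Continuous fun y => ∫ s in a..b, QQ β l s y := by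
      intro a b
      refine intervalIntegral.continuous_of_dominated_interval (bound := fun _ => 1) ?_ ?_ ?_ ?_
      · intro y
        exact (hmQ.comp (by fun_prop : Measurable fun s : ℝ => (s, y))).aestronglyMeasurable
      · intro y
        exact Eventually.of_forall fun s _ => hbQ s y
      · simp
      · exact Eventually.of_forall fun s _ => (QQ_BC hβ l s).cont
    have hcX : ∀ a b, Continuous fun y => ∫ s in a..b, XX β l s y := by
      intro a b
      refine intervalIntegral.continuous_of_dominated_interval (bound := fun _ => β) ?_ ?_ ?_ ?_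
      · intro y
        exact (hmX.comp (by fun_prop : Measurable fun s : ℝ => (s, y))).aestronglyMeasurable
      · intro y
        exact Eventually.of_forall fun s _ => hbX s y
      · simp
      · exact Eventually.of_forall fun s _ => (XX_BC hβ hA.2.2.2 s).cont
    have hegX : EG fun y => ∫ s in (0:ℝ)..len l, XX β l s y := by
      refine EG.of_bdd (hcX _ _) (K := β * |len l - 0|) fun y => ?_
      have := intervalIntegral.norm_integral_le_of_norm_le_const (a := 0) (b := len l)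
        (f := fun s => XX β l s y) (C := β) (fun s _ => hbX s y)
      simpa [Real.norm_eq_abs] using this
    have hegQ : ∀ (L : List (ℝ × ℝ × ℝ)) (t : ℝ), EG fun y => wsum (fun s => QQ β l s y) t L := by
      intro L
      induction L with
      | nil => intro t; exact EG.const 0
      | cons r L ihL =>
        intro t
        have hbd : EG fun y => ∫ s in t..(t + r.2.2), QQ β l s y := by
          refine EG.of_bdd (hcQ _ _) (K := 1 * |(t + r.2.2) - t|) fun y => ?_
          have := intervalIntegral.norm_integral_le_of_norm_le_const (a := t) (b := t + r.2.2)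
            (f := fun s => QQ β l s y) (C := 1) (fun s _ => hbQ s y)
          simpa [Real.norm_eq_abs] using this
        exact ((hbd.const_mul (1/2)).const_mul r.2.1).add (ihL _)
    have hegE : EG (EE1 β l (ent β)) := (EE1_BC hβ l (ent_BC hβ)).eg
    -- tE of the induction hypothesis
    have e1 : tE p.1 p.2 Φ (fun y => Φ y - y * deriv Φ y) x =
        tE p.1 p.2 Φ (EE1 β l (ent β)) x +
        wsum (fun s => tE p.1 p.2 Φ (QQ β l s) x) 0 (dup l) +
        ∫ s in (0:ℝ)..len l, tE p.1 p.2 Φ (XX β l s) x := by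
      have e2 : (fun y => Φ y - y * deriv Φ y) = fun y => (EE1 β l (ent β) y +
          wsum (fun s => QQ β l s y) 0 (dup l)) + ∫ s in (0:ℝ)..len l, XX β l s y := funext ih
      rw [e2, tE_add hprof.lip _ _ (hegE.add (hegQ _ _)) hegX,
        tE_add hprof.lip _ _ hegE (hegQ _ _),
        tE_wsum hprof p.1 p.2 hmQ hbQ hcQ x (dup l) 0,
        tE_integral hprof p.1 p.2 hmX hbX]
    rw [e1]
    -- the block part
    have hblock : ∫ s in (0:ℝ)..p.2, tE p.1 s (gaussOp p.1 (p.2 - s) Φ)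
        (fun y => p.1 / 2 * deriv (gaussOp p.1 (p.2 - s) Φ) y ^ 2 +
          deriv (deriv (gaussOp p.1 (p.2 - s) Φ)) y) x =
        ∫ s in (0:ℝ)..p.2, (p.1 / 2 * QQ β (p :: l) s x + XX β (p :: l) s x) := by
      apply intervalIntegral.integral_congr
      intro s hs
      rw [uIcc_of_le hp] at hs
      have hs2 : s ≤ p.2 := hs.2
      have hI : Inv β p.1 (gaussOp p.1 (p.2 - s) Φ) :=
        ((PhiL_inv hβ hA.2.2.2).mono hA.2.1).step hp1 (hA.2.1.trans hA.2.2.2.head_le) _
      show tE p.1 s (gaussOp p.1 (p.2 - s) Φ)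
        (fun y => p.1 / 2 * deriv (gaussOp p.1 (p.2 - s) Φ) y ^ 2 +
          deriv (deriv (gaussOp p.1 (p.2 - s) Φ)) y) x = _
      rw [tE_add hI.prof.lip _ _ ((sq_BC hI.prof).eg.const_mul _) (d2_BC hβ hI).eg, tE_const_mul]
      unfold QQ XX EX PhiT
      simp only [hs2, if_true]
      rfl
    have hQi : IntervalIntegrable (fun s => QQ β (p :: l) s x) volume 0 p.2 :=
      QQ_ii hβ _ (Adm.pos hA) x _ _
    have hXi : ∀ a b, IntervalIntegrable (fun s => XX β (p :: l) s x) volume a b := by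
      intro a b
      have hm : Measurable fun s => XX β (p :: l) s x :=
        (meas_XX hβ (p :: l) (Adm.pos hA)).comp (by fun_prop : Measurable fun s : ℝ => (s, x))
      have h1 : IntervalIntegrable (fun _ : ℝ => β) volume a b := by simp
      refine h1.mono_fun hm.aestronglyMeasurable (Eventually.of_forall fun s => ?_)
      show |XX β (p :: l) s x| ≤ |β|
      rw [abs_of_pos hβ]
      exact (XX_BC hβ hA s).bd x
    rw [hblock, intervalIntegral.integral_add (hQi.const_mul _) (hXi _ _),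
      intervalIntegral.integral_const_mul]
    -- the rest
    have hrest : wsum (fun s => tE p.1 p.2 Φ (QQ β l s) x) 0 (dup l) =
        wsum (fun s => QQ β (p :: l) s x) (0 + p.2) (dup l) := by
      rw [← wsum_shift]
      refine wsum_congr (c := 0) ?_ (dup l) ?_ 0 le_rfl
      · intro s hs
        have hs2 : ¬ (s + p.2 ≤ p.2) := by linarith
        unfold QQ EX PhiT
        simp only [hs2, if_false, add_sub_cancel_right]
        cases l <;> rfl
      · intro r hr
        unfold dup at hr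
        rw [List.mem_map] at hr
        obtain ⟨q, hq, rfl⟩ := hr
        exact Adm.len_nonneg hA.2.2.2 q hq
    have hrestX : ∫ s in (0:ℝ)..len l, tE p.1 p.2 Φ (XX β l s) x =
        ∫ s in p.2..(len (p :: l)), XX β (p :: l) s x := by
      have e3 : ∫ s in p.2..(len (p :: l)), XX β (p :: l) s x =
          ∫ s in (0:ℝ)..len l, XX β (p :: l) (s + p.2) x := by
        rw [intervalIntegral.integral_comp_add_right (fun s => XX β (p :: l) s x), zero_add,
          len_cons, add_comm (len l)]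
      rw [e3]
      apply intervalIntegral.integral_congr_ae
      refine Eventually.of_forall fun s hs => ?_
      rw [uIoc_of_le hT] at hs
      have hs2 : ¬ (s + p.2 ≤ p.2) := by linarith [hs.1]
      unfold XX EX PhiT
      simp only [hs2, if_false, add_sub_cancel_right]
      cases l <;> rfl
    have hsplit : ∫ s in (0:ℝ)..(len (p :: l)), XX β (p :: l) s x =
        (∫ s in (0:ℝ)..p.2, XX β (p :: l) s x) + ∫ s in p.2..(len (p :: l)), XX β (p :: l) s x :=
      (intervalIntegral.integral_add_adjacent_intervals (hXi _ _) (hXi _ _)).symm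
    rw [hrest, hrestX, hsplit]
    show _ = tE p.1 p.2 Φ (EE1 β l (ent β)) x + (p.1 * ((1/2) * ∫ s in (0:ℝ)..(0 + p.2),
      QQ β (p :: l) s x) + wsum (fun s => QQ β (p :: l) s x) (0 + p.2) (dup l)) + _
    rw [zero_add]
    ring

theorem wsum_pen : ∀ (l : List (ℝ × ℝ)) (t : ℝ),
    wsum (fun s => -s) t (dup l) = -(pen t l) / 4
  | [], t => by
    show (0:ℝ) = -0 / 4
    norm_num
  | p :: l, t => by
    show p.1 * ((1/2) * ∫ s in t..(t + p.2), -s) + wsum (fun s => -s) (t + p.2) (dup l) =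
      -(p.1 * ((t + p.2) ^ 2 - t ^ 2) + pen (t + p.2) l) / 4
    rw [wsum_pen l, intervalIntegral.integral_neg, integral_id]
    ring

/-- **Value identity (V4)**, list form. -/
theorem PL_value {β : ℝ} (hβ : 0 < β) {l : List (ℝ × ℝ)} (hA : Adm β l) :
    ∃ r, 0 ≤ r ∧ r ≤ Real.log 2 / β ∧
      PL β l = (∫ s in (0:ℝ)..len l, XX β l s 0) + wsum (fun s => QQ β l s 0 - s) 0 (dup l) + r := by
  obtain ⟨h1, h2⟩ := EE1_bounds hβ l (ent_BC hβ) (fun y => (ent_bd hβ y).1)
    (fun y => (ent_bd hβ y).2) 0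
  refine ⟨EE1 β l (ent β) 0, h1, h2, ?_⟩
  have h := value_aux hβ hA 0
  rw [zero_mul, sub_zero] at h
  have e : wsum (fun s => QQ β l s 0 - s) 0 (dup l) =
      wsum (fun s => QQ β l s 0) 0 (dup l) + -(pen 0 l) / 4 := by
    rw [← wsum_pen l 0, wsum_add (QQ_ii hβ _ (Adm.pos hA) 0)
      (fun a b => (by fun_prop : Continuous fun s : ℝ => -s).intervalIntegrable a b)]
    rfl
  unfold PL
  rw [e, h]
  ring

end

end Crest.Agent.R339.V4
end

-- ▼ part R339/V455b

set_option autoImplicit false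

namespace Crest.Agent.R339.V4

open MeasureTheory ProbabilityTheory Filter Topology Set
open scoped Interval
open Crest.Agent.R164.GC Crest.Agent.R339.B Crest.Agent.R339.Var
open Crest.ProbabilityR.InvariantGlass (gaussOp)
open Crest.Agent.R339.Guerra (pen)

noncomputable section

/-- `E Φ_xx(s, X_s)²` started from `x` -/
def gg (β : ℝ) (l : List (ℝ × ℝ)) (s x : ℝ) : ℝ :=
  EX β l s (fun y => deriv (deriv (PhiT β l s)) y ^ 2) x

theorem meas_gg {β : ℝ} (hβ : 0 < β) (l : List (ℝ × ℝ)) (hl : ∀ p ∈ l, 0 < p.1) :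
    Measurable (fun p : ℝ × ℝ => gg β l p.1 p.2) :=
  meas_EX hβ l hl (F := fun s y => deriv (deriv (PhiT β l s)) y ^ 2) ((meas_PhiT2 hβ l hl).pow_const 2)

theorem gg_BC {β : ℝ} (hβ : 0 < β) {l : List (ℝ × ℝ)} (hl : Adm β l) (s : ℝ) :
    BC (gg β l s) (β ^ 2) := by
  obtain ⟨m, _, _, hm⟩ := PhiT_inv hβ hl s
  exact EX_BC hβ l s ((d2_BC hβ hm).pow 2)

theorem EX_mono {β : ℝ} (hβ : 0 < β) : ∀ (l : List (ℝ × ℝ)) (t : ℝ) {F G : ℝ → ℝ} {K L : ℝ},
    BC F K → BC G L → (∀ y, F y ≤ G y) → ∀ x, EX β l t F x ≤ EX β l t G x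
  | [], _, _, _, _, _, _, _, h, x => h x
  | p :: l, t, F, G, K, L, hF, hG, h, x => by
    unfold EX
    split_ifs
    · exact tE_mono ((PhiL_prof hβ l).step p.1 (p.2 - t)).lip p.1 t hF.eg hG.eg h x
    · exact tE_mono (PhiL_prof hβ l).lip p.1 p.2 (EX_BC hβ l (t - p.2) hF).eg
        (EX_BC hβ l (t - p.2) hG).eg (EX_mono hβ l (t - p.2) hF hG h) x

theorem EX_sq_le {β : ℝ} (hβ : 0 < β) : ∀ (l : List (ℝ × ℝ)) (t : ℝ) {F : ℝ → ℝ} {K : ℝ},
    BC F K → ∀ x, (EX β l t F x) ^ 2 ≤ EX β l t (fun y => F y ^ 2) x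
  | [], _, _, _, _, x => le_rfl
  | p :: l, t, F, K, hF, x => by
    unfold EX
    split_ifs
    · exact tE_sq_le ((PhiL_prof hβ l).step p.1 (p.2 - t)).lip p.1 t hF.eg x
    · refine (tE_sq_le (PhiL_prof hβ l).lip p.1 p.2 (EX_BC hβ l (t - p.2) hF).eg x).trans ?_
      exact tE_mono (PhiL_prof hβ l).lip p.1 p.2 ((EX_BC hβ l (t - p.2) hF).pow 2).eg
        (EX_BC hβ l (t - p.2) (hF.pow 2)).eg (EX_sq_le hβ l (t - p.2) hF) x

theorem XX_sq_le {β : ℝ} (hβ : 0 < β) {l : List (ℝ × ℝ)} (hl : Adm β l) (s x : ℝ) :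
    (XX β l s x) ^ 2 ≤ gg β l s x := by
  obtain ⟨m, _, _, hm⟩ := PhiT_inv hβ hl s
  exact EX_sq_le hβ l s (d2_BC hβ hm) x



/-! ### the grid -/

theorem adm_ofFn {β d : ℝ} (hd : 0 ≤ d) : ∀ {K : ℕ} {m : Fin K → ℝ}, Monotone m → (∀ k, 0 < m k) →
    (∀ k, m k ≤ β) → Adm β (List.ofFn fun k => (m k, d))
  | 0, m, _, _, _ => by simp [Adm]
  | K + 1, m, hm, h0, hβ => by
    rw [List.ofFn_succ]
    refine ⟨h0 0, ?_, hd, adm_ofFn hd (m := fun k => m k.succ) (fun i j hij =>
      hm (Fin.succ_le_succ_iff.2 hij)) (fun k => h0 _) (fun k => hβ _)⟩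
    rcases K with _ | K
    · simp only [List.ofFn_zero]
      exact hβ 0
    · rw [List.ofFn_succ]
      exact hm (Fin.zero_le _)

theorem adm_grid {K : ℕ} {ε β : ℝ} (hε : 0 < ε) {m : Fin K → ℝ} (hm : m ∈ cone K ε β) :
    Adm β (grid m) :=
  adm_ofFn (by positivity) hm.1 (fun k => hε.trans_le (hm.2 k).1) (fun k => (hm.2 k).2)

theorem dup_grid {K : ℕ} (m : Fin K → ℝ) : dup (grid m) = trip (1 / (K:ℝ)) m m := by
  unfold dup grid trip
  rw [List.map_ofFn]
  rfl

theorem len_grid {K : ℕ} (hK : 0 < K) (m : Fin K → ℝ) : len (grid m) = 1 := by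
  unfold len grid
  rw [List.map_ofFn]
  have : (Prod.snd ∘ fun k : Fin K => (m k, 1 / (K:ℝ))) = fun _ => 1 / (K:ℝ) := rfl
  rw [this, List.sum_ofFn]
  have hK' : (K:ℝ) ≠ 0 := by positivity
  simp [hK']

/-- **Value identity (V4)** on the grid. -/
theorem PF_value {β : ℝ} (hβ : 0 < β) {K : ℕ} (hK : 0 < K) {m : Fin K → ℝ}
    (hA : Adm β (grid m)) : ∃ r, 0 ≤ r ∧ r ≤ Real.log 2 / β ∧
      PF β m = (∫ s in (0:ℝ)..1, XX β (grid m) s 0) +
        (∑ k : Fin K, m k * ((1/2) * ∫ s in ((k:ℕ):ℝ)/K..(((k:ℕ):ℝ)+1)/K,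
          (QQ β (grid m) s 0 - s))) + r := by
  obtain ⟨r, h1, h2, h3⟩ := PL_value hβ hA
  refine ⟨r, h1, h2, ?_⟩
  rw [dup_grid, wsum_trip, len_grid hK] at h3
  unfold PF
  rw [h3]
  congr 2
  apply Finset.sum_congr rfl
  intro k _
  have e2 : (0:ℝ) + (k:ℕ) * (1 / (K:ℝ)) = ((k:ℕ):ℝ)/K := by ring
  have e3 : (0:ℝ) + ((k:ℕ) + 1) * (1 / (K:ℝ)) = (((k:ℕ):ℝ)+1)/K := by ring
  rw [e2, e3]

theorem XX_ii {β : ℝ} (hβ : 0 < β) {l : List (ℝ × ℝ)} (hl : Adm β l) (x a b : ℝ) :
    IntervalIntegrable (fun s => XX β l s x) volume a b := by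
  have hm : Measurable fun s => XX β l s x :=
    (meas_XX hβ l (Adm.pos hl)).comp (by fun_prop : Measurable fun s : ℝ => (s, x))
  have h1 : IntervalIntegrable (fun _ : ℝ => β) volume a b := by simp
  refine h1.mono_fun hm.aestronglyMeasurable (Eventually.of_forall fun s => ?_)
  show |XX β l s x| ≤ |β|
  rw [abs_of_pos hβ]
  exact (XX_BC hβ hl s).bd x

theorem gg_ii {β : ℝ} (hβ : 0 < β) {l : List (ℝ × ℝ)} (hl : Adm β l) (x a b : ℝ) :
    IntervalIntegrable (fun s => gg β l s x) volume a b := by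
  have hm : Measurable fun s => gg β l s x :=
    (meas_gg hβ l (Adm.pos hl)).comp (by fun_prop : Measurable fun s : ℝ => (s, x))
  have h1 : IntervalIntegrable (fun _ : ℝ => β ^ 2) volume a b := by simp
  refine h1.mono_fun hm.aestronglyMeasurable (Eventually.of_forall fun s => ?_)
  show |gg β l s x| ≤ |β ^ 2|
  rw [abs_of_nonneg (sq_nonneg β)]
  exact (gg_BC hβ hl s).bd x

/-- Cauchy–Schwarz on the last block -/
theorem XX_tail {β : ℝ} (hβ : 0 < β) {l : List (ℝ × ℝ)} (hl : Adm β l) {a b : ℝ} (hab : a ≤ b)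
    {x : ℝ} (hg : ∫ t in a..b, gg β l t x ≤ 1) :
    ∫ t in a..b, XX β l t x ≤ √(b - a) := by
  rcases hab.eq_or_lt with rfl | hlt
  · simp
  have hL : 0 < b - a := by linarith
  have hs : 0 < √(b - a) := Real.sqrt_pos.2 hL
  set c := √(b - a) with hc
  have hcc : c * c = b - a := Real.mul_self_sqrt hL.le
  have hpt : ∀ t, XX β l t x ≤ 1 / (2 * c) + (c / 2) * gg β l t x := by
    intro t
    have h1 := XX_sq_le hβ hl t x
    have h2 : XX β l t x ≤ 1 / (2 * c) + (c / 2) * (XX β l t x) ^ 2 := by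
      have h3 := sq_nonneg (c * XX β l t x - 1)
      have h4 : 0 ≤ (c * XX β l t x - 1) ^ 2 / (2 * c) := by positivity
      have h5 : (c * XX β l t x - 1) ^ 2 / (2 * c) =
          1 / (2 * c) + (c / 2) * (XX β l t x) ^ 2 - XX β l t x := by
        field_simp
        ring
      linarith
    have h6 := mul_le_mul_of_nonneg_left h1 (by positivity : 0 ≤ c / 2)
    linarith
  have hi := XX_ii hβ hl x a b
  have hgi := gg_ii hβ hl x a b
  have hci : IntervalIntegrable (fun _ : ℝ => 1 / (2 * c)) volume a b := by simp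
  calc ∫ t in a..b, XX β l t x ≤ ∫ t in a..b, (1 / (2 * c) + (c / 2) * gg β l t x) :=
        intervalIntegral.integral_mono_on hab hi (hci.add (hgi.const_mul _)) (fun t _ => hpt t)
    _ = (b - a) * (1 / (2 * c)) + (c / 2) * ∫ t in a..b, gg β l t x := by
        rw [intervalIntegral.integral_add hci (hgi.const_mul _),
          intervalIntegral.integral_const_mul, intervalIntegral.integral_const, smul_eq_mul]
    _ ≤ (b - a) * (1 / (2 * c)) + (c / 2) * 1 := by gcongr
    _ = c := by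
        rw [← hcc]
        field_simp
        ring

/-- upper bound of the functional at (approximate) stationary points -/
theorem PF_le {β : ℝ} (hβ : 0 < β) {K : ℕ} (hK : 0 < K) {m : Fin K → ℝ}
    (hA : Adm β (grid m)) (hmβ : ∀ k, m k ≤ β) {a : ℕ} (ha : a ≤ K)
    (htop : ∀ k : Fin K, a ≤ (k:ℕ) → m k = β)
    (hGc : ContinuousOn (fun t => QQ β (grid m) t 0 - t) (Icc 0 1)) {η : ℝ}
    (hη : ∀ t ∈ Icc (0:ℝ) ((a:ℝ)/K), |QQ β (grid m) t 0 - t| ≤ η)
    (hlast : ∫ t in (a:ℝ)/K..1, (QQ β (grid m) t 0 - t) ≤ 0)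
    (hg : ∫ t in (a:ℝ)/K..1, gg β (grid m) t 0 ≤ 1) :
    PF β m ≤ (∫ s in (0:ℝ)..(a:ℝ)/K, XX β (grid m) s 0) + √(1 - (a:ℝ)/K) + β * η / 2 +
      Real.log 2 / β := by
  have hK' : (0:ℝ) < K := by exact_mod_cast hK
  have haK : (a:ℝ)/K ≤ 1 := by
    rw [div_le_one hK']; exact_mod_cast ha
  have ha0 : (0:ℝ) ≤ (a:ℝ)/K := by positivity
  have hη0 : 0 ≤ η := (abs_nonneg _).trans (hη 0 ⟨le_rfl, ha0⟩)
  obtain ⟨r, _, hr, hPF⟩ := PF_value hβ hK hA
  have hsplit := intervalIntegral.integral_add_adjacent_intervals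
    (XX_ii hβ hA 0 0 ((a:ℝ)/K)) (XX_ii hβ hA 0 ((a:ℝ)/K) 1)
  have htail := XX_tail hβ hA haK hg
  have hsum : (∑ k : Fin K, m k * ((1/2) * ∫ s in ((k:ℕ):ℝ)/K..(((k:ℕ):ℝ)+1)/K,
          (QQ β (grid m) s 0 - s))) ≤ β * η / 2 := by
    have h1 : (∑ k : Fin K, m k * ((1/2) * ∫ s in ((k:ℕ):ℝ)/K..(((k:ℕ):ℝ)+1)/K,
          (QQ β (grid m) s 0 - s))) ≤
        ∑ k : Fin K, (β * η / (2 * K) + β * (if a ≤ (k:ℕ) ∧ (k:ℕ) < K then
          ((1/2) * ∫ s in ((k:ℕ):ℝ)/K..(((k:ℕ):ℝ)+1)/K, (QQ β (grid m) s 0 - s)) else 0)) := by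
      apply Finset.sum_le_sum
      intro k _
      by_cases hk : a ≤ (k:ℕ)
      · rw [if_pos ⟨hk, k.2⟩, htop k hk]
        have : 0 ≤ β * η / (2 * K) := by positivity
        linarith
      · rw [if_neg (fun h => hk h.1), mul_zero, add_zero]
        push Not at hk
        have hkK : (((k:ℕ):ℝ)+1)/K ≤ (a:ℝ)/K := by
          apply div_le_div_of_nonneg_right _ hK'.le
          exact_mod_cast hk
        have hk0 : (0:ℝ) ≤ ((k:ℕ):ℝ)/K := by positivity
        have hle : ((k:ℕ):ℝ)/K ≤ (((k:ℕ):ℝ)+1)/K :=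
          div_le_div_of_nonneg_right (by linarith) hK'.le
        have h2 : ‖∫ s in ((k:ℕ):ℝ)/K..(((k:ℕ):ℝ)+1)/K, (QQ β (grid m) s 0 - s)‖ ≤
            η * |(((k:ℕ):ℝ)+1)/K - ((k:ℕ):ℝ)/K| := by
          apply intervalIntegral.norm_integral_le_of_norm_le_const
          intro s hs
          rw [uIoc_of_le hle] at hs
          exact hη s ⟨by linarith [hs.1], by linarith [hs.2]⟩
        have e : (((k:ℕ):ℝ)+1)/K - ((k:ℕ):ℝ)/K = 1/K := by ring
        rw [e, abs_of_pos (by positivity), Real.norm_eq_abs] at h2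
        have hmk : 0 < m k := Adm.pos hA (m k, 1/(K:ℝ)) (by
          unfold grid
          rw [List.mem_ofFn]
          exact ⟨k, rfl⟩)
        calc m k * ((1/2) * ∫ s in ((k:ℕ):ℝ)/K..(((k:ℕ):ℝ)+1)/K, (QQ β (grid m) s 0 - s))
            ≤ m k * ((1/2) * (η * (1/K))) := by
              gcongr
              exact (le_abs_self _).trans h2
          _ ≤ β * ((1/2) * (η * (1/K))) := by
              gcongr
              exact hmβ k
          _ = β * η / (2 * K) := by ring
    refine h1.trans ?_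
    rw [Finset.sum_add_distrib, ← Finset.mul_sum, sum_grid_integral hK hGc ha le_rfl,
      Finset.sum_const, Finset.card_univ, Fintype.card_fin, nsmul_eq_mul]
    have e1 : (K:ℝ) * (β * η / (2 * K)) = β * η / 2 := by field_simp
    have e2 : ((K:ℕ):ℝ)/K = 1 := div_self hK'.ne'
    rw [e1, e2]
    have h3 : β * ((1/2) * ∫ t in (a:ℝ)/K..1, (QQ β (grid m) t 0 - t)) ≤ 0 := by
      apply mul_nonpos_of_nonneg_of_nonpos hβ.le
      linarith
    linarith
  rw [hPF, ← hsplit]
  linarith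

end

end Crest.Agent.R339.V4
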