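import Crest.Agent.R339.Var71I
import Crest.Agent.R339.B107U
import Mathlib
import Crest.Agent.R339.V455b

-- ▼ part R339/Var71J
section

set_option autoImplicit false

namespace Crest.Agent.R339.Var

open MeasureTheory ProbabilityTheory Filter Topology Set
open scoped Interval
open Crest.Agent.R164.GC Crest.Agent.R339.B
open Crest.ProbabilityR.InvariantGlass (gaussOp)

noncomputable section

/-! ### monotonicity of `EX` -/

theorem EX_mono {β : ℝ} (hβ : 0 < β) : ∀ (l : List (ℝ × ℝ)) (t : ℝ) {F F' : ℝ → ℝ} {K K' : ℝ},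
    BC F K → BC F' K' → (∀ y, F y ≤ F' y) → ∀ x, EX β l t F x ≤ EX β l t F' x
  | [], _, _, _, _, _, _, _, h, x => h x
  | p :: l, t, F, F', K, K', hF, hF', h, x => by
    unfold EX
    split_ifs
    · exact tE_mono ((PhiL_prof hβ l).step p.1 (p.2 - t)).lip p.1 t hF.eg hF'.eg h x
    · exact tE_mono (PhiL_prof hβ l).lip p.1 p.2 (EX_BC hβ l (t - p.2) hF).eg
        (EX_BC hβ l (t - p.2) hF').eg (EX_mono hβ l (t - p.2) hF hF' h) x

theorem EX_const {β : ℝ} (hβ : 0 < β) : ∀ (l : List (ℝ × ℝ)) (t c x : ℝ),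
    EX β l t (fun _ => c) x = c
  | [], _, _, _ => rfl
  | p :: l, t, c, x => by
    unfold EX
    split_ifs
    · exact tE_const ((PhiL_prof hβ l).step p.1 (p.2 - t)).lip p.1 t c x
    · have e : EX β l (t - p.2) (fun _ => c) = fun _ => c := funext fun y => EX_const hβ l _ c y
      rw [e]
      exact tE_const (PhiL_prof hβ l).lip p.1 p.2 c x

theorem EX_sq {β : ℝ} (hβ : 0 < β) : ∀ (l : List (ℝ × ℝ)) (t : ℝ) {F : ℝ → ℝ} {K : ℝ},
    BC F K → ∀ x, (EX β l t F x) ^ 2 ≤ EX β l t (fun y => F y ^ 2) x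
  | [], _, _, _, _, x => le_rfl
  | p :: l, t, F, K, hF, x => by
    unfold EX
    split_ifs
    · exact tE_sq_le ((PhiL_prof hβ l).step p.1 (p.2 - t)).lip p.1 t hF.eg x
    · refine (tE_sq_le (PhiL_prof hβ l).lip p.1 p.2 (EX_BC hβ l (t - p.2) hF).eg x).trans ?_
      exact tE_mono (PhiL_prof hβ l).lip p.1 p.2 ((EX_BC hβ l (t - p.2) hF).pow 2).eg
        (EX_BC hβ l (t - p.2) (hF.pow 2)).eg (EX_sq hβ l (t - p.2) hF) x

theorem EX_add {β : ℝ} (hβ : 0 < β) : ∀ (l : List (ℝ × ℝ)) (t : ℝ) {F F' : ℝ → ℝ} {K K' : ℝ},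
    BC F K → BC F' K' → ∀ x, EX β l t (fun y => F y + F' y) x = EX β l t F x + EX β l t F' x
  | [], _, _, _, _, _, _, _, x => rfl
  | p :: l, t, F, F', K, K', hF, hF', x => by
    unfold EX
    split_ifs
    · exact tE_add ((PhiL_prof hβ l).step p.1 (p.2 - t)).lip p.1 t hF.eg hF'.eg x
    · have e : EX β l (t - p.2) (fun y => F y + F' y) =
          fun y => EX β l (t - p.2) F y + EX β l (t - p.2) F' y :=
        funext fun y => EX_add hβ l (t - p.2) hF hF' y
      rw [e]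
      exact tE_add (PhiL_prof hβ l).lip p.1 p.2 (EX_BC hβ l (t - p.2) hF).eg
        (EX_BC hβ l (t - p.2) hF').eg x

theorem EX_const_mul {β : ℝ} (hβ : 0 < β) : ∀ (l : List (ℝ × ℝ)) (t c : ℝ) (F : ℝ → ℝ) (x : ℝ),
    EX β l t (fun y => c * F y) x = c * EX β l t F x
  | [], _, _, _, _ => rfl
  | p :: l, t, c, F, x => by
    unfold EX
    split_ifs
    · exact tE_const_mul _ _ _ _ _ _
    · have e : EX β l (t - p.2) (fun y => c * F y) =
          fun y => c * EX β l (t - p.2) F y :=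
        funext fun y => EX_const_mul hβ l (t - p.2) c F y
      rw [e]
      exact tE_const_mul _ _ _ _ _ _

/-! ### invariants of the profile -/

theorem PhiT_inv {β : ℝ} (hβ : 0 < β) : ∀ (l : List (ℝ × ℝ)), Adm β l → ∀ t,
    ∃ m, 0 < m ∧ m ≤ β ∧ Inv β m (PhiT β l t)
  | [], _, _ => ⟨β, hβ, le_rfl, phi0_inv hβ⟩
  | p :: l, hA, t => by
    unfold PhiT
    split_ifs
    · exact ⟨p.1, hA.1, hA.2.1.trans hA.2.2.2.head_le,
        ((PhiL_inv hβ hA.2.2.2).mono hA.2.1).step hA.1 (hA.2.1.trans hA.2.2.2.head_le) _⟩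
    · exact PhiT_inv hβ l hA.2.2.2 (t - p.2)

theorem Inv.d2_le {β m : ℝ} {Φ : ℝ → ℝ} (h : Inv β m Φ) (hβ : 0 < β) (x : ℝ) :
    deriv (deriv Φ) x ≤ β := by
  have h1 := h.up x
  have h2 : β * (1 - deriv Φ x ^ 2) ≤ β * 1 :=
    mul_le_mul_of_nonneg_left (by linarith [sq_nonneg (deriv Φ x)]) hβ.le
  linarith

/-! ### mass -/

/-- total mass -/
def mass (β : ℝ) (l : List (ℝ × ℝ)) (ν : Measure ℝ) : ℝ :=
  ∫ x, Real.exp (headLv β l * PhiL β l x) ∂ν

theorem PsiF_one {β : ℝ} (hβ : 0 < β) (l : List (ℝ × ℝ)) (ν : Measure ℝ) (t : ℝ) :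
    PsiF Gone β l ν t = mass β l ν := by
  unfold PsiF mass
  congr 1
  funext x
  have : Gone (PhiT β l t) = fun _ => (1:ℝ) := rfl
  rw [this, EX_const hβ, one_mul]

theorem mass_next {β : ℝ} (hβ : 0 < β) {p : ℝ × ℝ} {l : List (ℝ × ℝ)} (hp : 0 < p.1)
    (hp2 : 0 ≤ p.2) (hl : ∀ q ∈ l, 0 < q.1 ∧ 0 ≤ q.2) {ν ν' : Measure ℝ} (hN : Nx β p l ν ν') :
    mass β l ν' = mass β (p :: l) ν := by
  rw [← PsiF_one hβ l ν' 0, ← PsiF_junction bfn_Gone hβ hp hp2 hl hN, PsiF_one hβ]

theorem mass_nonneg (β : ℝ) (l : List (ℝ × ℝ)) (ν : Measure ℝ) : 0 ≤ mass β l ν :=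
  integral_nonneg fun _ => (Real.exp_pos _).le

theorem int_weight {β : ℝ} (hβ : 0 < β) (l : List (ℝ × ℝ)) {ν : Measure ℝ} (hν : EM ν)
    {F : ℝ → ℝ} {K : ℝ} (hF : BC F K) :
    Integrable (fun x => F x * Real.exp (headLv β l * PhiL β l x)) ν :=
  hν.of_eg (hF.eg.mul ((PhiL_prof hβ l).exp_egs (headLv β l)).eg)

/-- pointwise inequality of functionals along the list -/
theorem PsiF_le {G G' : (ℝ → ℝ) → ℝ → ℝ} (hG : BFn G) (hG' : BFn G') {β : ℝ} (hβ : 0 < β)
    {l : List (ℝ × ℝ)} {ν : Measure ℝ} (hν : EM ν) {t : ℝ}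
    (h : ∀ y, G (PhiT β l t) y ≤ G' (PhiT β l t) y) : PsiF G β l ν t ≤ PsiF G' β l ν t := by
  obtain ⟨K, hK⟩ := hG.bc _ (PhiT_prof hβ l t)
  obtain ⟨K', hK'⟩ := hG'.bc _ (PhiT_prof hβ l t)
  unfold PsiF
  refine integral_mono (int_weight hβ l hν (EX_BC hβ l t hK))
    (int_weight hβ l hν (EX_BC hβ l t hK')) fun x => ?_
  exact mul_le_mul_of_nonneg_right (EX_mono hβ l t hK hK' h x) (Real.exp_pos _).le

/-- `C * Gone` -/
theorem PsiF_const {β : ℝ} (hβ : 0 < β) (l : List (ℝ × ℝ)) (ν : Measure ℝ) (t c : ℝ) :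
    PsiF (fun _ _ => c) β l ν t = c * mass β l ν := by
  unfold PsiF mass
  rw [← integral_const_mul]
  congr 1
  funext x
  rw [EX_const hβ]

theorem bfn_const (c : ℝ) : BFn (fun _ _ => c) :=
  ⟨fun _ _ => ⟨|c|, BC.const c⟩, fun _ _ _ _ => UG.const c⟩



/-! ### the bound of `E Φ_xxx²` -/

theorem monotoneOn_of_block {f f' : ℝ → ℝ} {a b : ℝ} (hc : ContinuousOn f (Icc a b))
    (hd : ∀ t ∈ Ioo a b, HasDerivAt f (f' t) t) (h : ∀ t ∈ Ioo a b, 0 ≤ f' t) :
    MonotoneOn f (Icc a b) := by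
  apply monotoneOn_of_deriv_nonneg (convex_Icc a b) hc
  · intro t ht
    rw [interior_Icc] at ht
    exact (hd t ht).differentiableAt.differentiableWithinAt
  · intro t ht
    rw [interior_Icc] at ht
    rw [(hd t ht).deriv]
    exact h t ht

theorem EE_mono {Φ : ℝ → ℝ} (h : Prof Φ) (m d : ℝ) {ν : Measure ℝ} (hν : EM ν)
    {F F' : ℝ → ℝ → ℝ} (hF : UG F) (hF' : UG F') {τ : ℝ}
    (hle : ∀ y, F (d - τ) y ≤ F' (d - τ) y) : EE Φ m d ν F τ ≤ EE Φ m d ν F' τ := by
  unfold EE
  have u1 := (Wk_ug h m 0).mul hF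
  have u2 := (Wk_ug h m 0).mul hF'
  refine integral_mono (hν.of_eg (heat_eg u1 d τ)) (hν.of_eg (heat_eg u2 d τ)) fun x => ?_
  exact H_mono (u1.eg (d - τ)) (u2.eg (d - τ))
    (fun y => mul_le_mul_of_nonneg_left (hle y) (Wk_pos h m _ _).le) _ _

theorem EE_const_mul {Φ : ℝ → ℝ} (m d : ℝ) (ν : Measure ℝ) (F : ℝ → ℝ → ℝ) (c τ : ℝ) :
    EE Φ m d ν (fun v x => c * F v x) τ = c * EE Φ m d ν F τ := by
  unfold EE
  rw [← integral_const_mul]
  congr 1
  funext x
  rw [← H_const_mul]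
  congr 1
  funext y
  ring

theorem G33_bound {β : ℝ} (hβ : 0 < β) {GC : Measure ℝ → Prop} (hC : GClass β GC) :
    ∀ (l : List (ℝ × ℝ)), Adm β l → (∀ p ∈ l, 0 < p.2) → ∀ ν, GC ν → ∀ t ∈ Icc 0 (TT l),
    PsiF G33 β l ν t ≤ Real.exp (6 * β ^ 2 * (TT l - t)) * (4 * β ^ 4 * mass β l ν)
  | [], _, _, ν, hν, t, ht => by
    have e : t = 0 := by
      unfold TT at ht
      simp at ht
      exact ht
    have e2 : TT [] = 0 := by unfold TT; simp
    rw [e, e2, sub_zero, mul_zero, Real.exp_zero, one_mul, ← PsiF_const hβ [] ν 0]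
    refine PsiF_le bfn_G33 (bfn_const _) hβ (hC.em ν hν) fun y => ?_
    show deriv (deriv (deriv (phi0 β))) y ^ 2 ≤ 4 * β ^ 4
    have h3 : deriv (deriv (deriv (phi0 β))) =
        fun x => -(2 * β * th β x) * (β * (1 - th β x ^ 2)) := by
      rw [phi0_deriv2 hβ]
      funext x
      have h1 := ((((th_hasDerivAt β x).fun_pow 2).const_sub 1).const_mul β)
      rw [h1.deriv]
      norm_num
      ring
    rw [h3]
    simp only
    have h4 := th_abs_le β y
    have h5 : th β y ^ 2 ≤ 1 := by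
      rw [← sq_abs]
      exact pow_le_one₀ (abs_nonneg _) h4
    have h6 : 0 ≤ th β y ^ 2 := sq_nonneg _
    have e3 : (-(2 * β * th β y) * (β * (1 - th β y ^ 2))) ^ 2 =
        4 * β ^ 4 * (th β y ^ 2 * (1 - th β y ^ 2) ^ 2) := by ring
    rw [e3]
    have h7 : th β y ^ 2 * (1 - th β y ^ 2) ^ 2 ≤ 1 := by
      have : (1 - th β y ^ 2) ^ 2 ≤ 1 := by nlinarith
      nlinarith
    have h8 : 0 ≤ 4 * β ^ 4 := by positivity
    nlinarith
  | p :: l, hA, hl, ν, hν, t, ht => by
    obtain ⟨ν', hν', hN⟩ := hC.nx hβ hA (hl p (by simp)) hν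
    have hp2 := hl p (by simp)
    have hlA := Adm.pos hA.2.2.2
    have hT : 0 ≤ TT l := TT_nonneg fun q hq => (hl q (by simp [hq])).le
    have ih := G33_bound hβ hC l hA.2.2.2 (fun q hq => hl q (by simp [hq])) ν' hν'
    have hmass := mass_next hβ hA.1 hp2.le hlA hN
    rw [TT_cons] at ht ⊢
    rcases le_total t p.2 with h | h
    · -- inside the block
      have hinv := PhiL_inv hβ hA.2.2.2
      have hprof := hinv.prof
      have hpβ : p.1 ≤ β := hA.2.1.trans hA.2.2.2.head_le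
      have hm' := hA.1.ne'
      have hEM := hC.em ν hν
      set Φ := PhiL β l with hΦ
      have htb := (tb_U3 hprof hm').mul (tb_U3 hprof hm')
      set f : ℝ → ℝ := EE Φ p.1 p.2 ν (fun v x => U Φ p.1 3 v x * U Φ p.1 3 v x) with hf
      set f' : ℝ → ℝ := EE Φ p.1 p.2 ν (fun v x => U Φ p.1 3 v x * (-3 * p.1 * U Φ p.1 2 v x *
        U Φ p.1 3 v x) + U Φ p.1 3 v x * (-3 * p.1 * U Φ p.1 2 v x * U Φ p.1 3 v x) +
        U Φ p.1 4 v x * U Φ p.1 4 v x) with hf'
      have hder : ∀ τ ∈ Ioo 0 p.2, HasDerivAt f (f' τ) τ := fun τ hτ =>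
        EE_deriv hprof p.1 htb hEM hτ.1 hτ.2
      have hcf : Continuous f := EE_cont hprof p.1 htb.ug hEM p.2
      have hlow : ∀ τ ∈ Ioo 0 p.2, -(6 * β ^ 2) * f τ ≤ f' τ := by
        intro τ hτ
        rw [hf, ← EE_const_mul]
        refine EE_mono hprof p.1 p.2 hEM (htb.ug.const_mul _) (htb.ugL hprof) fun y => ?_
        have hinv2 := (hinv.mono hA.2.1).step hA.1 hpβ (p.2 - τ)
        have h2 : U Φ p.1 2 (p.2 - τ) y ≤ β := by
          rw [U_two]; exact Inv.d2_le hinv2 hβ y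
        have h3 : 0 ≤ U Φ p.1 2 (p.2 - τ) y := by
          rw [U_two]; exact (hinv2.low.pos y).le
        have h4 : p.1 * U Φ p.1 2 (p.2 - τ) y ≤ β * β :=
          mul_le_mul hpβ h2 h3 hβ.le
        have h5 : 0 ≤ U Φ p.1 3 (p.2 - τ) y * U Φ p.1 3 (p.2 - τ) y := mul_self_nonneg _
        have h6 : 0 ≤ U Φ p.1 4 (p.2 - τ) y * U Φ p.1 4 (p.2 - τ) y := mul_self_nonneg _
        nlinarith [mul_le_mul_of_nonneg_right h4 h5]
      have hmono : MonotoneOn (fun τ => Real.exp (6 * β ^ 2 * τ) * f τ) (Icc 0 p.2) := by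
        refine monotoneOn_of_block (f' := fun τ => (Real.exp (6 * β ^ 2 * τ) * (6 * β ^ 2)) * f τ +
          Real.exp (6 * β ^ 2 * τ) * f' τ) ?_ ?_ ?_
        · exact (Continuous.mul (by fun_prop) hcf).continuousOn
        · intro τ hτ
          have h1 : HasDerivAt (fun τ : ℝ => Real.exp (6 * β ^ 2 * τ))
              (Real.exp (6 * β ^ 2 * τ) * (6 * β ^ 2)) τ := by
            have h2 : HasDerivAt (fun τ : ℝ => 6 * β ^ 2 * τ) (6 * β ^ 2) τ := by
              simpa using (hasDerivAt_id τ).const_mul (6 * β ^ 2)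
            exact h2.exp
          exact h1.fun_mul (hder τ hτ)
        · intro τ hτ
          have h1 := hlow τ hτ
          have h2 := Real.exp_pos (6 * β ^ 2 * τ)
          have h3 : 0 ≤ Real.exp (6 * β ^ 2 * τ) * (f' τ - -(6 * β ^ 2) * f τ) :=
            mul_nonneg h2.le (by linarith)
          linarith
      have hGf : ∀ τ ∈ Icc 0 p.2, PsiF G33 β (p :: l) ν τ = f τ := by
        intro τ hτ
        rw [PsiF_block hβ hA.1 ν hτ.1 hτ.2, G33_eq, hf]
        congr 1
        funext v x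
        ring
      have h1 := hmono ⟨ht.1, h⟩ ⟨hp2.le, le_rfl⟩ h
      simp only at h1
      rw [← hGf t ⟨ht.1, h⟩, ← hGf p.2 ⟨hp2.le, le_rfl⟩,
        PsiF_junction bfn_G33 hβ hA.1 hp2.le hlA hN] at h1
      have h2 := ih 0 ⟨le_rfl, hT⟩
      rw [hmass, sub_zero] at h2
      have h3 : Real.exp (6 * β ^ 2 * t) * PsiF G33 β (p :: l) ν t ≤ Real.exp (6 * β ^ 2 * p.2) *
          (Real.exp (6 * β ^ 2 * TT l) * (4 * β ^ 4 * mass β (p :: l) ν)) :=
        h1.trans (mul_le_mul_of_nonneg_left h2 (Real.exp_pos _).le)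
      have h4 : Real.exp (6 * β ^ 2 * (p.2 + TT l - t)) = (Real.exp (6 * β ^ 2 * t))⁻¹ *
          (Real.exp (6 * β ^ 2 * p.2) * Real.exp (6 * β ^ 2 * TT l)) := by
        rw [← Real.exp_neg, ← Real.exp_add, ← Real.exp_add]
        congr 1
        ring
      rw [h4, mul_assoc, ← div_eq_inv_mul, le_div_iff₀ (Real.exp_pos _)]
      linarith
    · have h1 := ih (t - p.2) ⟨by linarith, by linarith [ht.2]⟩
      rw [PsiF_next' bfn_G33 hβ hA.1 hp2.le hlA hN h, ← hmass]
      have e : p.2 + TT l - t = TT l - (t - p.2) := by ring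
      rw [e]
      exact h1

end

end Crest.Agent.R339.Var
end

-- ▼ part R339/Var71K
section

set_option autoImplicit false

namespace Crest.Agent.R339.Var

open MeasureTheory ProbabilityTheory Filter Topology Set
open scoped Interval
open Crest.Agent.R164.GC Crest.Agent.R339.B
open Crest.ProbabilityR.InvariantGlass (gaussOp)

noncomputable section

/-- structure inside the first block -/
theorem first_block {β : ℝ} (hβ : 0 < β) {GC : Measure ℝ → Prop} (hC : GClass β GC)
    {p : ℝ × ℝ} {l : List (ℝ × ℝ)} (hA : Adm β (p :: l)) (hp2 : 0 < p.2) {ν : Measure ℝ}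
    (hν : GC ν) : MonotoneOn (PsiF (G3 p.1) β (p :: l) ν) (Icc 0 p.2) ∧
      ∀ s ∈ Icc 0 p.2, ∀ t ∈ Icc 0 p.2, s ≤ t →
        PsiF G2 β (p :: l) ν t - PsiF G2 β (p :: l) ν s =
          ∫ u in s..t, PsiF (G3 p.1) β (p :: l) ν u := by
  have hinv := PhiL_inv hβ hA.2.2.2
  have hprof := hinv.prof
  have hpβ : p.1 ≤ β := hA.2.1.trans hA.2.2.2.head_le
  have hm' := hA.1.ne'
  have hEM := hC.em ν hν
  have e3 : ∀ t ∈ Icc 0 p.2, PsiF (G3 p.1) β (p :: l) ν t = EE (PhiL β l) p.1 p.2 ν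
      (fun v x => U (PhiL β l) p.1 3 v x ^ 2 - 2 * p.1 * U (PhiL β l) p.1 2 v x ^ 3) t := by
    intro t ht
    rw [PsiF_block hβ hA.1 ν ht.1 ht.2, G3_eq]
  have e2 : ∀ t ∈ Icc 0 p.2, PsiF G2 β (p :: l) ν t = EE (PhiL β l) p.1 p.2 ν
      (fun v x => U (PhiL β l) p.1 2 v x ^ 2) t := by
    intro t ht
    rw [PsiF_block hβ hA.1 ν ht.1 ht.2, G2_eq]
  have c3 : Continuous (EE (PhiL β l) p.1 p.2 ν
      (fun v x => U (PhiL β l) p.1 3 v x ^ 2 - 2 * p.1 * U (PhiL β l) p.1 2 v x ^ 3)) :=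
    EE_cont hprof p.1 (tb_LU2sq hprof hm').ug hEM p.2
  have c2 : Continuous (EE (PhiL β l) p.1 p.2 ν (fun v x => U (PhiL β l) p.1 2 v x ^ 2)) :=
    EE_cont hprof p.1 (tb_U2sq hprof hm').ug hEM p.2
  constructor
  · have h1 := monotoneOn_of_block (a := 0) (b := p.2) c3.continuousOn
      (fun t ht => ddE_U2sq hprof hm' hEM ht.1 ht.2)
      (fun t ht => hC.conv ν hν (PhiL β l) p.1 p.2 t (hinv.mono hA.2.1) hA.1 hpβ ht.1 ht.2)
    intro s hs t ht hst
    rw [e3 s hs, e3 t ht]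
    exact h1 hs ht hst
  · intro s hs t ht hst
    rw [e2 s hs, e2 t ht]
    have h2 := intervalIntegral.integral_eq_sub_of_hasDerivAt_of_le hst
      (c2.continuousOn (s := Icc s t)) (fun τ hτ => dE_U2sq hprof hm' hEM (d := p.2)
        (lt_of_le_of_lt hs.1 hτ.1) (lt_of_lt_of_le hτ.2 ht.2)) (c3.intervalIntegrable _ _)
    rw [← h2]
    apply intervalIntegral.integral_congr
    intro u hu
    rw [uIcc_of_le hst] at hu
    exact (e3 u ⟨hs.1.trans hu.1, hu.2.trans ht.2⟩).symm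

/-- structure on each grid interval -/
theorem local_struct {β : ℝ} (hβ : 0 < β) {GC : Measure ℝ → Prop} (hC : GClass β GC) {d : ℝ}
    (hd : 0 < d) : ∀ (l : List (ℝ × ℝ)), Adm β l → (∀ p ∈ l, p.2 = d) → ∀ ν, GC ν →
    ∀ (i : ℕ) (p : ℝ × ℝ), l[i]? = some p →
    MonotoneOn (PsiF (G3 p.1) β l ν) (Icc (i * d) ((i + 1) * d)) ∧
      ∀ s ∈ Icc (i * d) ((i + 1) * d), ∀ t ∈ Icc (i * d) ((i + 1) * d), s ≤ t →
        PsiF G2 β l ν t - PsiF G2 β l ν s = ∫ u in s..t, PsiF (G3 p.1) β l ν u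
  | [], _, _, _, _, i, p, h => by simp at h
  | q :: l, hA, hl, ν, hν, 0, p, h => by
    simp only [List.getElem?_cons_zero, Option.some.injEq] at h
    subst h
    have hq : q.2 = d := hl q (by simp)
    have h1 := first_block hβ hC hA (by rw [hq]; exact hd) hν
    rw [hq] at h1
    have e : Icc (((0:ℕ):ℝ) * d) ((((0:ℕ):ℝ) + 1) * d) = Icc 0 d := by
      congr 1 <;> simp
    rw [e]
    exact h1
  | q :: l, hA, hl, ν, hν, i + 1, p, h => by
    simp only [List.getElem?_cons_succ] at h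
    have hq : q.2 = d := hl q (by simp)
    have hq0 : 0 < q.2 := by rw [hq]; exact hd
    obtain ⟨ν', hν', hN⟩ := hC.nx hβ hA hq0 hν
    have hlA := Adm.pos hA.2.2.2
    obtain ⟨ih1, ih2⟩ := local_struct hβ hC hd l hA.2.2.2 (fun r hr => hl r (by simp [hr])) ν' hν'
      i p h
    have hcast : ((i + 1 : ℕ) : ℝ) = (i:ℝ) + 1 := by push_cast; ring
    have hsh : ∀ t ∈ Icc (((i + 1 : ℕ) : ℝ) * d) ((((i + 1 : ℕ) : ℝ) + 1) * d),
        t - q.2 ∈ Icc ((i:ℝ) * d) (((i:ℝ) + 1) * d) ∧ q.2 ≤ t := by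
      intro t ht
      rw [hcast] at ht
      have hi : 0 ≤ (i:ℝ) * d := by positivity
      rw [hq]
      refine ⟨⟨by linarith [ht.1], by linarith [ht.2]⟩, by linarith [ht.1]⟩
    have e3 : ∀ t ∈ Icc (((i + 1 : ℕ) : ℝ) * d) ((((i + 1 : ℕ) : ℝ) + 1) * d),
        PsiF (G3 p.1) β (q :: l) ν t = PsiF (G3 p.1) β l ν' (t - q.2) := fun t ht =>
      PsiF_next' (bfn_G3 _) hβ hA.1 hq0.le hlA hN (hsh t ht).2
    have e2 : ∀ t ∈ Icc (((i + 1 : ℕ) : ℝ) * d) ((((i + 1 : ℕ) : ℝ) + 1) * d),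
        PsiF G2 β (q :: l) ν t = PsiF G2 β l ν' (t - q.2) := fun t ht =>
      PsiF_next' bfn_G2 hβ hA.1 hq0.le hlA hN (hsh t ht).2
    constructor
    · intro s hs t ht hst
      rw [e3 s hs, e3 t ht]
      exact ih1 (hsh s hs).1 (hsh t ht).1 (by linarith)
    · intro s hs t ht hst
      rw [e2 s hs, e2 t ht, ih2 _ (hsh s hs).1 _ (hsh t ht).1 (by linarith)]
      have h4 : ∫ u in s..t, PsiF (G3 p.1) β (q :: l) ν u = ∫ u in s..t,
          PsiF (G3 p.1) β l ν' (u - q.2) := by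
        apply intervalIntegral.integral_congr
        intro u hu
        rw [uIcc_of_le hst] at hu
        exact e3 u ⟨hs.1.trans hu.1, hu.2.trans ht.2⟩
      rw [h4, intervalIntegral.integral_comp_sub_right (fun s => PsiF (G3 p.1) β l ν' s)]

/-- bound of the derivative -/
theorem G3_bound {β : ℝ} (hβ : 0 < β) {GC : Measure ℝ → Prop} (hC : GClass β GC)
    {l : List (ℝ × ℝ)} (hA : Adm β l) (hl : ∀ p ∈ l, 0 < p.2) {ν : Measure ℝ} (hν : GC ν) {t : ℝ}
    (ht : t ∈ Icc 0 (TT l)) {c : ℝ} (hc0 : 0 ≤ c) (hcβ : c ≤ β) :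
    |PsiF (G3 c) β l ν t| ≤ Real.exp (6 * β ^ 2 * (TT l - t)) * (4 * β ^ 4 * mass β l ν) +
      2 * β ^ 4 * mass β l ν := by
  have hEM := hC.em ν hν
  obtain ⟨m, hm0, hmβ, hinv⟩ := PhiT_inv hβ l hA t
  have h33 := G33_bound hβ hC l hA hl ν hν t ht
  have hd2 : ∀ y, 0 ≤ deriv (deriv (PhiT β l t)) y := fun y => (hinv.low.pos y).le
  have hd2' : ∀ y, deriv (deriv (PhiT β l t)) y ≤ β := fun y => Inv.d2_le hinv hβ y
  have hcube : ∀ y, 0 ≤ 2 * c * deriv (deriv (PhiT β l t)) y ^ 3 ∧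
      2 * c * deriv (deriv (PhiT β l t)) y ^ 3 ≤ 2 * β ^ 4 := by
    intro y
    have h1 : deriv (deriv (PhiT β l t)) y ^ 3 ≤ β ^ 3 := pow_le_pow_left₀ (hd2 y) (hd2' y) 3
    have h2 : 0 ≤ deriv (deriv (PhiT β l t)) y ^ 3 := pow_nonneg (hd2 y) 3
    refine ⟨by positivity, ?_⟩
    calc 2 * c * deriv (deriv (PhiT β l t)) y ^ 3 ≤ 2 * β * β ^ 3 :=
          mul_le_mul (by linarith) h1 h2 (by positivity)
      _ = 2 * β ^ 4 := by ring
  have hmass := mass_nonneg β l ν
  rw [abs_le]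
  constructor
  · have h1 := PsiF_le (bfn_const (-(2 * β ^ 4))) (bfn_G3 c) hβ (l := l) hEM (t := t) (fun y => by
      show -(2 * β ^ 4) ≤ deriv (deriv (deriv (PhiT β l t))) y ^ 2 - 2 * c * _
      have := (hcube y).2
      have := sq_nonneg (deriv (deriv (deriv (PhiT β l t))) y)
      linarith)
    rw [PsiF_const hβ] at h1
    have h2 : 0 ≤ Real.exp (6 * β ^ 2 * (TT l - t)) * (4 * β ^ 4 * mass β l ν) := by positivity
    linarith
  · have h1 := PsiF_le (bfn_G3 c) bfn_G33 hβ (l := l) hEM (t := t) (fun y => by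
      show deriv (deriv (deriv (PhiT β l t))) y ^ 2 - 2 * c * _ ≤
        deriv (deriv (deriv (PhiT β l t))) y ^ 2
      have := (hcube y).1
      linarith)
    have h2 : 0 ≤ 2 * β ^ 4 * mass β l ν := by positivity
    linarith

/-- lower bound of the derivative, at small level -/
theorem G3_low {β : ℝ} (hβ : 0 < β) {GC : Measure ℝ → Prop} (hC : GClass β GC)
    {l : List (ℝ × ℝ)} (hA : Adm β l) {ν : Measure ℝ} (hν : GC ν) {t : ℝ}
    {c : ℝ} (hc0 : 0 ≤ c) :
    -(2 * c * β ^ 3 * mass β l ν) ≤ PsiF (G3 c) β l ν t := by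
  have hEM := hC.em ν hν
  obtain ⟨m, hm0, hmβ, hinv⟩ := PhiT_inv hβ l hA t
  have hd2 : ∀ y, 0 ≤ deriv (deriv (PhiT β l t)) y := fun y => (hinv.low.pos y).le
  have hd2' : ∀ y, deriv (deriv (PhiT β l t)) y ≤ β := fun y => Inv.d2_le hinv hβ y
  have h1 := PsiF_le (bfn_const (-(2 * c * β ^ 3))) (bfn_G3 c) hβ (l := l) hEM (t := t)
    (fun y => by
      show -(2 * c * β ^ 3) ≤ deriv (deriv (deriv (PhiT β l t))) y ^ 2 - 2 * c * _
      have h1 : deriv (deriv (PhiT β l t)) y ^ 3 ≤ β ^ 3 := pow_le_pow_left₀ (hd2 y) (hd2' y) 3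
      have h2 : 2 * c * deriv (deriv (PhiT β l t)) y ^ 3 ≤ 2 * c * β ^ 3 :=
        mul_le_mul_of_nonneg_left h1 (by positivity)
      have := sq_nonneg (deriv (deriv (deriv (PhiT β l t))) y)
      linarith)
  rw [PsiF_const hβ] at h1
  linarith

/-- Lipschitz bound of `g` -/
theorem G2_lip {β : ℝ} (hβ : 0 < β) {GC : Measure ℝ → Prop} (hC : GClass β GC) {M : ℝ} :
    ∀ (l : List (ℝ × ℝ)), Adm β l → (∀ p ∈ l, 0 < p.2) → ∀ ν, GC ν →
    (Real.exp (6 * β ^ 2 * TT l) * (4 * β ^ 4) + 2 * β ^ 4) * mass β l ν ≤ M →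
    ∀ s ∈ Icc 0 (TT l), ∀ t ∈ Icc 0 (TT l), s ≤ t →
      |PsiF G2 β l ν t - PsiF G2 β l ν s| ≤ M * (t - s)
  | [], _, _, ν, _, _, s, hs, t, ht, _ => by
    have e : t = 0 := by
      unfold TT at ht; simp at ht; exact ht
    have e' : s = 0 := by
      unfold TT at hs; simp at hs; exact hs
    rw [e, e']; simp
  | p :: l, hA, hl, ν, hν, hM, s, hs, t, ht, hst => by
    obtain ⟨ν', hν', hN⟩ := hC.nx hβ hA (hl p (by simp)) hν
    have hp2 := hl p (by simp)
    have hlA := Adm.pos hA.2.2.2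
    have hT : 0 ≤ TT l := TT_nonneg fun q hq => (hl q (by simp [hq])).le
    have hmass := mass_next hβ hA.1 hp2.le hlA hN
    have hmn := mass_nonneg β (p :: l) ν
    have hM' : (Real.exp (6 * β ^ 2 * TT l) * (4 * β ^ 4) + 2 * β ^ 4) * mass β l ν' ≤ M := by
      rw [hmass]
      refine le_trans (mul_le_mul_of_nonneg_right ?_ hmn) hM
      have h1 : Real.exp (6 * β ^ 2 * TT l) ≤ Real.exp (6 * β ^ 2 * TT (p :: l)) := by
        apply Real.exp_le_exp.2
        rw [TT_cons]
        have : 0 ≤ 6 * β ^ 2 := by positivity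
        nlinarith
      have h2 : 0 ≤ 4 * β ^ 4 := by positivity
      nlinarith
    have ih := G2_lip hβ hC l hA.2.2.2 (fun q hq => hl q (by simp [hq])) ν' hν' hM'
    have hpβ : p.1 ≤ β := hA.2.1.trans hA.2.2.2.head_le
    have hTT := TT_cons p l
    -- inside the first block
    have hblock : ∀ s ∈ Icc 0 p.2, ∀ t ∈ Icc 0 p.2, s ≤ t →
        |PsiF G2 β (p :: l) ν t - PsiF G2 β (p :: l) ν s| ≤ M * (t - s) := by
      intro s hs t ht hst
      rw [(first_block hβ hC hA hp2 hν).2 s hs t ht hst]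
      have h1 : ‖∫ u in s..t, PsiF (G3 p.1) β (p :: l) ν u‖ ≤ M * |t - s| := by
        apply intervalIntegral.norm_integral_le_of_norm_le_const
        intro u hu
        rw [uIoc_of_le hst] at hu
        rw [Real.norm_eq_abs]
        have hu0 : 0 ≤ u := hs.1.trans hu.1.le
        have hu1 : u ≤ TT (p :: l) := by rw [hTT]; linarith [hu.2, ht.2]
        refine (G3_bound hβ hC hA hl hν ⟨hu0, hu1⟩ hA.1.le hpβ).trans (le_trans ?_ hM)
        have h2 : Real.exp (6 * β ^ 2 * (TT (p :: l) - u)) ≤ Real.exp (6 * β ^ 2 * TT (p :: l)) := by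
          apply Real.exp_le_exp.2
          have : 0 ≤ 6 * β ^ 2 := by positivity
          nlinarith
        have h3 : 0 ≤ 4 * β ^ 4 * mass β (p :: l) ν := by positivity
        have h4 := mul_le_mul_of_nonneg_right h2 h3
        calc _ ≤ Real.exp (6 * β ^ 2 * TT (p :: l)) * (4 * β ^ 4 * mass β (p :: l) ν) +
              2 * β ^ 4 * mass β (p :: l) ν := by linarith
          _ = _ := by ring
      rwa [Real.norm_eq_abs, abs_of_nonneg (by linarith : 0 ≤ t - s)] at h1
    have htail : ∀ s, p.2 ≤ s → ∀ t, t ≤ TT (p :: l) → s ≤ t →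
        |PsiF G2 β (p :: l) ν t - PsiF G2 β (p :: l) ν s| ≤ M * (t - s) := by
      intro s hs t ht hst
      rw [PsiF_next' bfn_G2 hβ hA.1 hp2.le hlA hN hs,
        PsiF_next' bfn_G2 hβ hA.1 hp2.le hlA hN (hs.trans hst)]
      rw [hTT] at ht
      have := ih (s - p.2) ⟨by linarith, by linarith⟩ (t - p.2) ⟨by linarith, by linarith⟩
        (by linarith)
      have e : t - p.2 - (s - p.2) = t - s := by ring
      rwa [e] at this
    rcases le_total t p.2 with h1 | h1
    · exact hblock s ⟨hs.1, hst.trans h1⟩ t ⟨ht.1, h1⟩ hst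
    · rcases le_total p.2 s with h2 | h2
      · exact htail s h2 t ht.2 hst
      · have h3 := hblock s ⟨hs.1, h2⟩ p.2 ⟨hp2.le, le_rfl⟩ h2
        have h4 := htail p.2 le_rfl t ht.2 h1
        have h5 : PsiF G2 β (p :: l) ν t - PsiF G2 β (p :: l) ν s =
            (PsiF G2 β (p :: l) ν t - PsiF G2 β (p :: l) ν p.2) +
            (PsiF G2 β (p :: l) ν p.2 - PsiF G2 β (p :: l) ν s) := by ring
        rw [h5]
        refine (abs_add_le _ _).trans ?_
        linarith

end

end Crest.Agent.R339.Var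
end

-- ▼ part R339/Var71L
section

set_option autoImplicit false

namespace Crest.Agent.R339.Var

open MeasureTheory ProbabilityTheory Filter Topology Set
open scoped Interval
open Crest.Agent.R164.GC Crest.Agent.R339.B
open Crest.ProbabilityR.InvariantGlass (gaussOp)

noncomputable section

/-! ### the starting measure -/

/-- start at `x = 0` -/
def nu0 (β : ℝ) (l : List (ℝ × ℝ)) : Measure ℝ :=
  ENNReal.ofReal (Real.exp (-(headLv β l * PhiL β l 0))) • Measure.dirac 0

theorem PsiF_nu0 (G : (ℝ → ℝ) → ℝ → ℝ) (β : ℝ) (l : List (ℝ × ℝ)) (t : ℝ) :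
    PsiF G β l (nu0 β l) t = EX β l t (G (PhiT β l t)) 0 := by
  unfold PsiF nu0
  rw [integral_smul_measure, integral_dirac, ENNReal.toReal_ofReal (Real.exp_pos _).le, smul_eq_mul,
    mul_comm, mul_assoc, ← Real.exp_add]
  simp

theorem mass_nu0 (β : ℝ) (l : List (ℝ × ℝ)) : mass β l (nu0 β l) = 1 := by
  unfold mass nu0
  rw [integral_smul_measure, integral_dirac, ENNReal.toReal_ofReal (Real.exp_pos _).le, smul_eq_mul,
    ← Real.exp_add]
  simp

/-! ### the grid list -/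

theorem adm_ofFn {β d : ℝ} (hd : 0 ≤ d) : ∀ {K : ℕ} {m : Fin K → ℝ}, Monotone m →
    (∀ k, 0 < m k) → (∀ k, m k ≤ β) → Adm β (List.ofFn fun k => (m k, d))
  | 0, _, _, _, _ => by simp [Adm]
  | K + 1, m, hm, h0, hβ => by
    rw [List.ofFn_succ]
    have ih := adm_ofFn (β := β) hd (m := fun k : Fin K => m k.succ)
      (fun i j hij => hm (Fin.succ_le_succ_iff.2 hij)) (fun k => h0 _) (fun k => hβ _)
    refine ⟨h0 0, ?_, hd, ih⟩
    cases K with
    | zero => simpa [headLv] using hβ 0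
    | succ K =>
      rw [List.ofFn_succ]
      exact hm (Fin.zero_le _)

theorem adm_grid {K : ℕ} {ε β : ℝ} (hε : 0 < ε) {m : Fin K → ℝ} (hm : m ∈ cone K ε β) :
    Adm β (grid m) :=
  adm_ofFn (by positivity) hm.1 (fun k => lt_of_lt_of_le hε (hm.2 k).1) (fun k => (hm.2 k).2)

theorem grid_snd {K : ℕ} (m : Fin K → ℝ) : ∀ p ∈ grid m, p.2 = 1 / (K:ℝ) := by
  intro p hp
  unfold grid at hp
  rw [List.mem_ofFn] at hp
  obtain ⟨k, rfl⟩ := hp
  rfl

theorem TT_grid {K : ℕ} (hK : 0 < K) (m : Fin K → ℝ) : TT (grid m) = 1 := by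
  unfold TT grid
  rw [List.map_ofFn]
  have : (Prod.snd ∘ fun k : Fin K => (m k, 1 / (K:ℝ))) = fun _ => 1 / (K:ℝ) := rfl
  rw [this, List.sum_ofFn]
  simp
  field_simp

theorem grid_get {K : ℕ} (m : Fin K → ℝ) {i : ℕ} (hi : i < K) :
    (grid m)[i]? = some (m ⟨i, hi⟩, 1 / (K:ℝ)) := by
  unfold grid
  rw [List.getElem?_ofFn]
  simp [hi]

/-! ### the top block -/

/-- the profile of the top level -/
def TopEq (β : ℝ) (Φ : ℝ → ℝ) : Prop := ∀ x, deriv (deriv Φ) x = β * (1 - deriv Φ x ^ 2)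

theorem TopEq.step {β : ℝ} {Φ : ℝ → ℝ} (h : Prof Φ) (hT : TopEq β Φ) (v : ℝ) :
    TopEq β (gaussOp β v Φ) := by
  intro x
  rw [h.gaussOp_deriv2, h.gaussOp_deriv]
  have e1 : deriv (deriv Φ) = fun y => β + (-β) * deriv Φ y ^ 2 := by
    funext y; rw [hT y]; ring
  have hbc := (sq_BC h).eg
  have e2 : tE β v Φ (deriv (deriv Φ)) x = β - β * tE β v Φ (fun y => deriv Φ y ^ 2) x := by
    rw [e1, tE_add h.lip β v (EG.const β) (hbc.const_mul (-β)), tE_const h.lip, tE_const_mul]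
    ring
  have e3 : (fun y => deriv Φ y * deriv Φ y) = fun y => deriv Φ y ^ 2 := by
    funext y; ring
  simp only
  rw [e2, e3]
  ring

theorem TopEq_PhiL {β : ℝ} (hβ : 0 < β) : ∀ (l : List (ℝ × ℝ)), (∀ p ∈ l, p.1 = β) →
    TopEq β (PhiL β l)
  | [], _ => by
    intro x
    show deriv (deriv (phi0 β)) x = _
    rw [phi0_deriv2 hβ]
    show β * (1 - th β x ^ 2) = β * (1 - deriv (phi0 β) x ^ 2)
    rw [phi0_deriv hβ]
  | p :: l, h => by
    have hp := h p (by simp)
    show TopEq β (gaussOp p.1 p.2 (PhiL β l))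
    rw [hp]
    exact (TopEq_PhiL hβ l fun q hq => h q (by simp [hq])).step (PhiL_prof hβ l) _

theorem TopEq_PhiT0 {β : ℝ} (hβ : 0 < β) : ∀ (l : List (ℝ × ℝ)), (∀ p ∈ l, p.1 = β) →
    ∀ t, TopEq β (PhiT β l t)
  | [], h, _ => TopEq_PhiL hβ [] h
  | p :: l, h, t => by
    have hp := h p (by simp)
    have hl := fun q hq => h q (List.mem_cons_of_mem p hq)
    unfold PhiT
    split_ifs
    · rw [hp]
      exact (TopEq_PhiL hβ l hl).step (PhiL_prof hβ l) _
    · exact TopEq_PhiT0 hβ l hl (t - p.2)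

theorem TopEq_PhiT {β d : ℝ} (hβ : 0 < β) (hd : 0 ≤ d) : ∀ (a : ℕ) (l : List (ℝ × ℝ)),
    (∀ p ∈ l, p.2 = d) → (∀ p ∈ l.drop a, p.1 = β) → ∀ t, a * d < t → TopEq β (PhiT β l t)
  | 0, l, _, h, t, _ => TopEq_PhiT0 hβ l (by simpa using h) t
  | a + 1, [], _, _, t, _ => TopEq_PhiL hβ [] (by simp)
  | a + 1, p :: l, h2, h, t, ht => by
    have hp := h2 p (by simp)
    have hcast : ((a + 1 : ℕ) : ℝ) = (a:ℝ) + 1 := by push_cast; ring
    rw [hcast] at ht
    have had : 0 ≤ (a:ℝ) * d := by positivity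
    unfold PhiT
    rw [if_neg (by rw [hp]; nlinarith)]
    refine TopEq_PhiT hβ hd a l (fun q hq => h2 q (by simp [hq])) (by simpa using h) _ ?_
    rw [hp]; linarith

/-! ### constancy blocks of the grid -/

section Grid

variable {K : ℕ} {ε β : ℝ} {m : Fin K → ℝ} {GC : Measure ℝ → Prop}

/-- structure of a constancy block -/
theorem const_block (hβ : 0 < β) (hC : GClass β GC) (hK : 0 < K) (hε : 0 < ε)
    (hm : m ∈ cone K ε β) {ν : Measure ℝ} (hν : GC ν) (a : ℕ) : ∀ (b : ℕ), a ≤ b → b ≤ K →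
    ∀ v : ℝ, (∀ k : Fin K, a ≤ (k:ℕ) → (k:ℕ) < b → m k = v) →
    MonotoneOn (PsiF (G3 v) β (grid m) ν) (Icc ((a:ℝ)/K) ((b:ℝ)/K)) ∧
      ∀ s ∈ Icc ((a:ℝ)/K) ((b:ℝ)/K), ∀ t ∈ Icc ((a:ℝ)/K) ((b:ℝ)/K), s ≤ t →
        PsiF G2 β (grid m) ν t - PsiF G2 β (grid m) ν s =
          ∫ u in s..t, PsiF (G3 v) β (grid m) ν u := by
  have hK' : (0:ℝ) < K := by exact_mod_cast hK
  have hA := adm_grid hε hm
  have hd : (0:ℝ) < 1 / K := by positivity
  have hTT := TT_grid hK m
  intro b hab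
  induction b, hab using Nat.le_induction with
  | base =>
    intro _ v _
    have : Icc ((a:ℝ)/K) ((a:ℝ)/K) = {(a:ℝ)/K} := Icc_self _
    rw [this]
    refine ⟨fun s hs t ht _ => ?_, fun s hs t ht _ => ?_⟩
    · rw [mem_singleton_iff.1 hs, mem_singleton_iff.1 ht]
    · rw [mem_singleton_iff.1 hs, mem_singleton_iff.1 ht]; simp
  | succ b hab ih =>
    intro hbK v hv
    obtain ⟨ih1, ih2⟩ := ih (by omega) v (fun k hk hk' => hv k hk (by omega))
    have hbv : m ⟨b, by omega⟩ = v := hv ⟨b, by omega⟩ hab (by simp)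
    obtain ⟨h1, h2⟩ := local_struct hβ hC hd (grid m) hA (grid_snd m) ν hν b
      (m ⟨b, by omega⟩, 1 / (K:ℝ)) (grid_get m (by omega))
    simp only [hbv] at h1 h2
    have e1 : (b:ℝ) * (1 / K) = (b:ℝ)/K := by ring
    have e2 : ((b:ℝ) + 1) * (1 / K) = ((b + 1 : ℕ) : ℝ)/K := by push_cast; ring
    rw [e1, e2] at h1 h2
    have hle1 : (a:ℝ)/K ≤ (b:ℝ)/K := div_le_div_of_nonneg_right (by exact_mod_cast hab) hK'.le
    have hle2 : (b:ℝ)/K ≤ ((b + 1 : ℕ) : ℝ)/K :=
      div_le_div_of_nonneg_right (by push_cast; linarith) hK'.le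
    have hle3 : ((b + 1 : ℕ) : ℝ)/K ≤ 1 := by
      rw [div_le_one hK']; exact_mod_cast hbK
    have hle0 : 0 ≤ (a:ℝ)/K := by positivity
    have hmono : MonotoneOn (PsiF (G3 v) β (grid m) ν) (Icc ((a:ℝ)/K) (((b + 1 : ℕ) : ℝ)/K)) := by
      have := ih1.union_right h1 (isGreatest_Icc hle1) (isLeast_Icc hle2)
      rwa [Icc_union_Icc_eq_Icc hle1 hle2] at this
    refine ⟨hmono, fun s hs t ht hst => ?_⟩
    have hcont := PsiF_continuousOn (bfn_G3 v) hβ hC (grid m) hA
      (fun p hp => by rw [grid_snd m p hp]; exact hd) ν hν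
    rw [hTT] at hcont
    rcases le_total t ((b:ℝ)/K) with h3 | h3
    · exact ih2 s ⟨hs.1, hst.trans h3⟩ t ⟨ht.1, h3⟩ hst
    · rcases le_total ((b:ℝ)/K) s with h4 | h4
      · exact h2 s ⟨h4, hs.2⟩ t ⟨h3, ht.2⟩ hst
      · have e3 := ih2 s ⟨hs.1, h4⟩ ((b:ℝ)/K) ⟨hle1, le_rfl⟩ h4
        have e4 := h2 ((b:ℝ)/K) ⟨le_rfl, hle2⟩ t ⟨h3, ht.2⟩ h3
        have i1 : IntervalIntegrable (PsiF (G3 v) β (grid m) ν) volume s ((b:ℝ)/K) := by
          apply ContinuousOn.intervalIntegrable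
          rw [uIcc_of_le h4]
          exact hcont.mono (Icc_subset_Icc (hle0.trans hs.1) (hle2.trans hle3))
        have i2 : IntervalIntegrable (PsiF (G3 v) β (grid m) ν) volume ((b:ℝ)/K) t := by
          apply ContinuousOn.intervalIntegrable
          rw [uIcc_of_le h3]
          exact hcont.mono (Icc_subset_Icc (hle0.trans hle1) (ht.2.trans hle3))
        rw [← intervalIntegral.integral_add_adjacent_intervals i1 i2, ← e3, ← e4]
        ring

/-- the function `g = E Φ_xx²` from `x = 0` -/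
def gg (β : ℝ) (l : List (ℝ × ℝ)) (t : ℝ) : ℝ := EX β l t (G2 (PhiT β l t)) 0

/-- the function `G = E Φ_x² - t` from `x = 0` -/
def GG (β : ℝ) (l : List (ℝ × ℝ)) (t : ℝ) : ℝ := QQ β l t 0 - t

theorem gg_eq (β : ℝ) (l : List (ℝ × ℝ)) (t : ℝ) : gg β l t = PsiF G2 β l (nu0 β l) t :=
  (PsiF_nu0 G2 β l t).symm

theorem QQ_eq (β : ℝ) (l : List (ℝ × ℝ)) (t : ℝ) : QQ β l t 0 = PsiF G1 β l (nu0 β l) t :=
  (PsiF_nu0 G1 β l t).symm

theorem gg_bounds (hβ : 0 < β) {l : List (ℝ × ℝ)} (hA : Adm β l) (t : ℝ) :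
    0 ≤ gg β l t ∧ gg β l t ≤ β ^ 2 := by
  obtain ⟨m, hm0, hmβ, hinv⟩ := PhiT_inv hβ l hA t
  obtain ⟨K, hK⟩ := bfn_G2.bc _ hinv.prof
  constructor
  · have := EX_mono hβ l t (BC.const 0) hK (fun y => sq_nonneg _) 0
    rwa [EX_const hβ] at this
  · have := EX_mono hβ l t hK (BC.const (β ^ 2)) (fun y => by
      show deriv (deriv (PhiT β l t)) y ^ 2 ≤ β ^ 2
      exact pow_le_pow_left₀ (hinv.low.pos y).le (Inv.d2_le hinv hβ y) 2) 0
    rwa [EX_const hβ] at this

/-- **All hypotheses of `Data`** for the minimiser. -/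
theorem data_of_min (hβ : 1 ≤ β) (hC : GClass β GC) (hK : 0 < K) (hε : 0 < ε) (hεβ : ε < β)
    (hm : m ∈ cone K ε β) (hmin : ∀ m' ∈ cone K ε β, PF β m ≤ PF β m') {δ : ℝ}
    (hδ : (β ^ 2 + 1) / K ≤ δ) (hδε : 2 * ε * β ^ 3 ≤ δ) (hδ1 : δ ≤ 1 / (4 * β))
    (hδ2 : 4 * δ < (1 / (4 * β * (1 + (β ^ 2 + 1)))) ^ 2) :
    Data K ε β (β ^ 2 + 1) δ (PF β) m (GG β (grid m)) (gg β (grid m)) := by
  have hβ0 : 0 < β := by linarith
  have hK' : (0:ℝ) < K := by exact_mod_cast hK
  have hA := adm_grid hε hm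
  have hd : (0:ℝ) < 1 / K := by positivity
  have hTT := TT_grid hK m
  have hpos : ∀ p ∈ grid m, 0 < p.2 := fun p hp => by rw [grid_snd m p hp]; exact hd
  have hν : GC (nu0 β (grid m)) := hC.dirac _ (Real.exp_pos _)
  have hmass := mass_nu0 β (grid m)
  have hc1 := PsiF_continuousOn bfn_G1 hβ0 hC (grid m) hA hpos _ hν
  have hc2 := PsiF_continuousOn bfn_G2 hβ0 hC (grid m) hA hpos _ hν
  have hint := G1_int hβ0 hC (grid m) hA hpos _ hν
  rw [hTT] at hc1 hc2
  have hint' : ∀ t ∈ Icc (0:ℝ) 1, PsiF G1 β (grid m) (nu0 β (grid m)) t =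
      PsiF G1 β (grid m) (nu0 β (grid m)) 0 +
        ∫ s in (0:ℝ)..t, PsiF G2 β (grid m) (nu0 β (grid m)) s := fun t ht =>
    hint t (by rw [hTT]; exact ht)
  have hEX0 : ∀ F, EX β (grid m) 0 F = F := by
    intro F
    cases hg : grid m with
    | nil => rfl
    | cons q l =>
      have hq := hpos q (by rw [hg]; simp)
      unfold EX
      rw [if_pos hq.le, tE_v0]
  have hPhi0 : PhiT β (grid m) 0 = PhiL β (grid m) := by
    cases hg : grid m with
    | nil => rfl
    | cons q l =>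
      have hq := hpos q (by rw [hg]; simp)
      unfold PhiT
      rw [if_pos hq.le, sub_zero]
      rfl
  refine
    { hK := hK
      hε := hε
      hεβ := hεβ
      hβ := hβ
      hm := hm
      hmin := hmin
      hderiv := fun η => PF_hasDerivAt dmFormula hβ0 (fun k => lt_of_lt_of_le hε (hm.2 k).1) η
      hG0 := ?_
      hG1 := ?_
      hGl := ?_
      hGc := ?_
      hd := ?_
      hC := ?_
      hC1 := by nlinarith
      hqc := ?_
      heps := ?_
      hlast := ?_
      hδ := hδ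
      hδ1 := hδ1
      hδ2 := hδ2 }
  · show EX β (grid m) 0 (fun y => deriv (PhiT β (grid m) 0) y ^ 2) 0 - 0 = 0
    rw [hEX0, hPhi0, (PhiL_inv hβ0 hA).d0]
    ring
  · intro t ht
    have := (abs_le.1 ((QQ_BC hβ0 (grid m) t).bd 0)).2
    show QQ β (grid m) t 0 - t ≤ 1 - t
    linarith
  · intro t ht
    have := QQ_nonneg hβ0 (grid m) t 0
    show -t ≤ QQ β (grid m) t 0 - t
    linarith
  · refine ContinuousOn.sub ?_ continuousOn_id
    exact hc1.congr fun t _ => QQ_eq β (grid m) t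
  · intro x hx
    have hnhds : Icc (0:ℝ) 1 ∈ 𝓝 x := Icc_mem_nhds hx.1 hx.2
    have hcx : ContinuousAt (PsiF G2 β (grid m) (nu0 β (grid m))) x :=
      (hc2 x ⟨hx.1.le, hx.2.le⟩).continuousAt hnhds
    have hii : IntervalIntegrable (PsiF G2 β (grid m) (nu0 β (grid m))) volume 0 x := by
      apply ContinuousOn.intervalIntegrable
      rw [uIcc_of_le hx.1.le]
      exact hc2.mono (Icc_subset_Icc le_rfl hx.2.le)
    have hsm : StronglyMeasurableAtFilter (PsiF G2 β (grid m) (nu0 β (grid m))) (𝓝 x) volume :=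
      ContinuousOn.stronglyMeasurableAtFilter isOpen_Ioo
        (hc2.mono Ioo_subset_Icc_self) x hx
    have h1 := intervalIntegral.integral_hasDerivAt_right hii hsm hcx
    have h2 : HasDerivAt (fun t => PsiF G1 β (grid m) (nu0 β (grid m)) 0 +
        (∫ s in (0:ℝ)..t, PsiF G2 β (grid m) (nu0 β (grid m)) s) - t)
        (PsiF G2 β (grid m) (nu0 β (grid m)) x - 1) x :=
      (h1.const_add _).fun_sub (hasDerivAt_id x)
    rw [gg_eq]
    refine h2.congr_of_eventuallyEq ?_
    filter_upwards [hnhds] with t ht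
    show QQ β (grid m) t 0 - t = _
    rw [QQ_eq, hint' t ht]
  · intro x _
    obtain ⟨h1, h2⟩ := gg_bounds hβ0 hA x
    rw [abs_le]
    constructor <;> nlinarith [sq_nonneg β]
  · intro a b hab hbK v _ _ hv
    obtain ⟨h1, h2⟩ := const_block hβ0 hC hK hε hm hν a b hab.le hbK v hv
    intro x hx y hy z hz hxy hyz
    rw [gg_eq, gg_eq, gg_eq]
    have hx' := Ioo_subset_Icc_self hx
    have hy' := Ioo_subset_Icc_self hy
    have hz' := Ioo_subset_Icc_self hz
    rcases le_total (PsiF (G3 v) β (grid m) (nu0 β (grid m)) y) 0 with h3 | h3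
    · have h4 := h2 x hx' y hy' hxy.le
      have h5 : ∫ u in x..y, PsiF (G3 v) β (grid m) (nu0 β (grid m)) u ≤ 0 := by
        have h6 := intervalIntegral.integral_nonneg (μ := volume)
          (f := fun u => -PsiF (G3 v) β (grid m) (nu0 β (grid m)) u) hxy.le (fun u hu => by
            have := (h1 ⟨hx'.1.trans hu.1, hu.2.trans hy'.2⟩ hy' hu.2).trans h3
            linarith)
        rw [intervalIntegral.integral_neg] at h6
        linarith
      exact le_max_of_le_left (by linarith)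
    · have h4 := h2 y hy' z hz' hyz.le
      have h5 : 0 ≤ ∫ u in y..z, PsiF (G3 v) β (grid m) (nu0 β (grid m)) u := by
        apply intervalIntegral.integral_nonneg hyz.le
        intro u hu
        exact h3.trans (h1 hy' ⟨hy'.1.trans hu.1, hu.2.trans hz'.2⟩ hu.1)
      exact le_max_of_le_right (by linarith)
  · intro b hbK hb x hx y hy hxy
    obtain ⟨h1, h2⟩ := const_block hβ0 hC hK hε hm hν 0 b (Nat.zero_le _) hbK ε
      (fun k _ hk => hb k hk)
    simp only [Nat.cast_zero, zero_div] at h1 h2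
    have hx' := Ioo_subset_Icc_self hx
    have hy' := Ioo_subset_Icc_self hy
    have h4 := h2 x hx' y hy' hxy
    have hbK' : (b:ℝ)/K ≤ 1 := by
      rw [div_le_one hK']; exact_mod_cast hbK
    have h5 : -(2 * ε * β ^ 3) * (y - x) ≤
        ∫ u in x..y, PsiF (G3 ε) β (grid m) (nu0 β (grid m)) u := by
      have hc3 := PsiF_continuousOn (bfn_G3 ε) hβ0 hC (grid m) hA hpos _ hν
      rw [hTT] at hc3
      have hii : IntervalIntegrable (PsiF (G3 ε) β (grid m) (nu0 β (grid m))) volume x y := by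
        apply ContinuousOn.intervalIntegrable
        rw [uIcc_of_le hxy]
        exact hc3.mono (Icc_subset_Icc hx'.1 (hy'.2.trans hbK'))
      have h6 := intervalIntegral.integral_mono_on (a := x) (b := y)
        (f := fun _ => -(2 * ε * β ^ 3))
        (g := PsiF (G3 ε) β (grid m) (nu0 β (grid m))) hxy (by simp) hii (fun u _ => by
          have := G3_low hβ0 hC hA hν (t := u) hε.le
          rw [hmass, mul_one] at this
          exact this)
      simp only [intervalIntegral.integral_const, smul_eq_mul] at h6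
      linarith
    rw [gg_eq, gg_eq]
    have h7 : y - x ≤ 1 := by linarith [hx'.1, hy'.2]
    have h8 : 0 ≤ 2 * ε * β ^ 3 := by positivity
    have h9 : 2 * ε * β ^ 3 * (y - x) ≤ 2 * ε * β ^ 3 * 1 := mul_le_mul_of_nonneg_left h7 h8
    linarith
  · intro a haK ha x hx
    have hdrop : ∀ p ∈ (grid m).drop a, p.1 = β := by
      intro p hp
      rw [List.mem_iff_getElem?] at hp
      obtain ⟨i, hi⟩ := hp
      rw [List.getElem?_drop] at hi
      have hlt : a + i < K := by
        by_contra hcon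
        rw [List.getElem?_eq_none (by unfold grid; simp; omega)] at hi
        exact absurd hi (by simp)
      rw [grid_get m hlt] at hi
      have := ha ⟨a + i, hlt⟩ (by simp)
      rw [← Option.some.inj hi]
      exact this
    have hax : (a:ℝ) * (1 / K) < x := by
      have := hx.1
      have e : (a:ℝ) * (1 / K) = (a:ℝ)/K := by ring
      rw [e]; exact this
    have htop := TopEq_PhiT hβ0 hd.le a (grid m) (grid_snd m) hdrop x hax
    have hprof := PhiT_prof hβ0 (grid m) x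
    have hbc : BC (fun y => 1 - deriv (PhiT β (grid m) x) y ^ 2) (|1| + 1) :=
      (BC.const 1).sub (sq_BC hprof)
    have h1 := EX_sq hβ0 (grid m) x hbc 0
    have h2 : EX β (grid m) x (fun y => 1 - deriv (PhiT β (grid m) x) y ^ 2) 0 =
        1 - QQ β (grid m) x 0 := by
      have e : (fun y => 1 - deriv (PhiT β (grid m) x) y ^ 2) =
          fun y => (fun _ => (1:ℝ)) y + (fun y => (-1) * deriv (PhiT β (grid m) x) y ^ 2) y := by
        funext y; simp only; ring
      rw [e, EX_add hβ0 (grid m) x (BC.const 1) ((sq_BC hprof).const_mul (-1)), EX_const hβ0,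
        EX_const_mul hβ0]
      unfold QQ
      ring
    have h3 : gg β (grid m) x = β ^ 2 * EX β (grid m) x
        (fun y => (1 - deriv (PhiT β (grid m) x) y ^ 2) ^ 2) 0 := by
      rw [← EX_const_mul hβ0]
      unfold gg G2
      congr 1
      funext y
      rw [htop y]
      ring
    have e4 : 1 - x - GG β (grid m) x = 1 - QQ β (grid m) x 0 := by
      unfold GG; ring
    rw [e4, h3, ← h2]
    exact mul_le_mul_of_nonneg_left h1 (sq_nonneg β)

end Grid

end

end Crest.Agent.R339.Var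
end

-- ▼ part R339/B107Dens
section

/-!
Row 339 (helper107): densities. Superexponential decay (`SD`, `SDS`), the symmetry of the heat
flow, the expectation of a block as an integral against the density, integration by parts.
-/

set_option autoImplicit false

namespace Crest.Agent.R339.B

open MeasureTheory ProbabilityTheory Filter Topology Set
open Crest.Agent.R164.GC
open Crest.ProbabilityR.InvariantGlass (gaussOp)

noncomputable section

/-- superexponential decay -/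
structure SD (R : ℝ → ℝ) : Prop where
  cont : Continuous R
  bd : ∀ A : ℝ, ∃ K : ℝ, 0 ≤ K ∧ ∀ x, |R x| ≤ K * Real.exp (-(A * |x|))

theorem SD.eg {R : ℝ → ℝ} (h : SD R) : EG R := by
  obtain ⟨K, hK, hb⟩ := h.bd 0
  exact EG.of_bdd h.cont (K := K) fun x => by simpa using hb x

theorem SD.mul {R φ : ℝ → ℝ} (h : SD R) (hφ : EG φ) : SD (fun x => R x * φ x) := by
  obtain ⟨K', A', hK', hA', hb'⟩ := hφ.bd
  refine ⟨h.cont.mul hφ.cont, fun A => ?_⟩
  obtain ⟨K, hK, hb⟩ := h.bd (A + A')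
  refine ⟨K * K', by positivity, fun x => ?_⟩
  calc |R x * φ x| = |R x| * |φ x| := abs_mul _ _
    _ ≤ (K * Real.exp (-((A + A') * |x|))) * (K' * Real.exp (A' * |x|)) :=
        mul_le_mul (hb x) (hb' x) (abs_nonneg _) (by positivity)
    _ = K * K' * (Real.exp (-((A + A') * |x|)) * Real.exp (A' * |x|)) := by ring
    _ = _ := by rw [← Real.exp_add]; ring_nf

theorem SD.mul' {R φ : ℝ → ℝ} (h : SD R) (hφ : EG φ) : SD (fun x => φ x * R x) := by
  have := h.mul hφ
  have e : (fun x => φ x * R x) = fun x => R x * φ x := by funext x; ring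
  rw [e]; exact this

theorem SD.add {R S : ℝ → ℝ} (h : SD R) (h' : SD S) : SD (fun x => R x + S x) := by
  refine ⟨h.cont.add h'.cont, fun A => ?_⟩
  obtain ⟨K, hK, hb⟩ := h.bd A
  obtain ⟨K', hK', hb'⟩ := h'.bd A
  refine ⟨K + K', by positivity, fun x => ?_⟩
  calc |R x + S x| ≤ |R x| + |S x| := abs_add_le _ _
    _ ≤ K * Real.exp (-(A * |x|)) + K' * Real.exp (-(A * |x|)) := add_le_add (hb x) (hb' x)
    _ = _ := by ring

theorem integrable_exp_neg_abs : Integrable (fun x : ℝ => Real.exp (-|x|)) := by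
  refine Integrable.mono' (integrable_inv_one_add_sq.const_mul 2) (by fun_prop)
    (Eventually.of_forall fun x => ?_)
  rw [Real.norm_eq_abs, abs_of_pos (Real.exp_pos _), Real.exp_neg]
  have h1 := Real.quadratic_le_exp_of_nonneg (abs_nonneg x)
  have h2 : |x| ^ 2 = x ^ 2 := sq_abs x
  have h3 := abs_nonneg x
  have h4 : (1 + x ^ 2) / 2 ≤ Real.exp |x| := by nlinarith
  have h5 : (0 : ℝ) < (1 + x ^ 2) / 2 := by positivity
  calc (Real.exp |x|)⁻¹ ≤ ((1 + x ^ 2) / 2)⁻¹ := inv_anti₀ h5 h4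
    _ = 2 * (1 + x ^ 2)⁻¹ := by field_simp

theorem SD.integrable {R : ℝ → ℝ} (h : SD R) : Integrable R := by
  obtain ⟨K, hK, hb⟩ := h.bd 1
  refine Integrable.mono' (integrable_exp_neg_abs.const_mul K) h.cont.aestronglyMeasurable
    (Eventually.of_forall fun x => ?_)
  rw [Real.norm_eq_abs]
  simpa using hb x

theorem SD.heat {R : ℝ → ℝ} (h : SD R) (t : ℝ) : SD (H t R) := by
  refine ⟨(H_eg h.eg t).cont, fun A => ?_⟩
  obtain ⟨K, hK, hb⟩ := h.bd |A|
  have hI : 0 ≤ ∫ g, Real.exp (|A| * |t| * |g|) ∂gaussianReal 0 1 :=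
    integral_nonneg fun g => (Real.exp_pos _).le
  refine ⟨K * ∫ g, Real.exp (|A| * |t| * |g|) ∂gaussianReal 0 1, by positivity, fun x => ?_⟩
  unfold H
  have h1 : ∀ g, |R (x + t * g)| ≤ K * Real.exp (-(|A| * |x|)) * Real.exp (|A| * |t| * |g|) := by
    intro g
    refine (hb _).trans ?_
    rw [mul_assoc, ← Real.exp_add]
    refine mul_le_mul_of_nonneg_left (Real.exp_le_exp.2 ?_) hK
    have h2 : |x| ≤ |x + t * g| + |t| * |g| := by
      have := abs_sub_abs_le_abs_sub x (x + t * g)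
      have e : x - (x + t * g) = -(t * g) := by ring
      rw [e, abs_neg, abs_mul] at this
      linarith
    have := mul_le_mul_of_nonneg_left h2 (abs_nonneg A)
    linarith
  have h3 : Real.exp (-(|A| * |x|)) ≤ Real.exp (-(A * |x|)) := by
    refine Real.exp_le_exp.2 ?_
    have := mul_le_mul_of_nonneg_right (le_abs_self A) (abs_nonneg x)
    linarith
  calc |∫ g, R (x + t * g) ∂gaussianReal 0 1| ≤ ∫ g, |R (x + t * g)| ∂gaussianReal 0 1 :=
        abs_integral_le_integral_abs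
    _ ≤ ∫ g, K * Real.exp (-(|A| * |x|)) * Real.exp (|A| * |t| * |g|) ∂gaussianReal 0 1 :=
        integral_mono (h.eg.int t x).abs ((integrable_exp_abs _).const_mul _) h1
    _ = (K * ∫ g, Real.exp (|A| * |t| * |g|) ∂gaussianReal 0 1) * Real.exp (-(|A| * |x|)) := by
        rw [integral_const_mul]; ring
    _ ≤ _ := mul_le_mul_of_nonneg_left h3 (by positivity)

/-- Gaussian decay gives `SD` -/
theorem SD.of_gauss {R : ℝ → ℝ} (hc : Continuous R) {K c : ℝ} (hK : 0 ≤ K) (hcp : 0 < c)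
    (hb : ∀ x, |R x| ≤ K * Real.exp (-(c * x ^ 2))) : SD R := by
  refine ⟨hc, fun A => ⟨K * Real.exp (A ^ 2 / (4 * c)), by positivity, fun x => ?_⟩⟩
  refine (hb x).trans ?_
  rw [mul_assoc, ← Real.exp_add]
  refine mul_le_mul_of_nonneg_left (Real.exp_le_exp.2 ?_) hK
  have h1 : 0 ≤ c * (|x| - A / (2 * c)) ^ 2 := by positivity
  have h2 : c * (|x| - A / (2 * c)) ^ 2 = c * x ^ 2 - A * |x| + A ^ 2 / (4 * c) := by
    have h3 : |x| ^ 2 = x ^ 2 := sq_abs x
    field_simp
    rw [← h3]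
    ring
  linarith

/-- all derivatives have superexponential decay -/
def SDn : ℕ → (ℝ → ℝ) → Prop
  | 0, f => SD f
  | n + 1, f => SD f ∧ Differentiable ℝ f ∧ SDn n (deriv f)

/-- all derivatives have superexponential decay -/
def SDS (f : ℝ → ℝ) : Prop := ∀ n, SDn n f

theorem SDn.sd {n : ℕ} {f : ℝ → ℝ} (h : SDn n f) : SD f := by
  cases n with
  | zero => exact h
  | succ n => exact h.1

theorem SDn.of_succ : ∀ {n : ℕ} {f : ℝ → ℝ}, SDn (n + 1) f → SDn n f
  | 0, _, h => h.1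
  | _ + 1, _, h => ⟨h.1, h.2.1, SDn.of_succ h.2.2⟩

theorem SDn.add : ∀ {n : ℕ} {f g : ℝ → ℝ}, SDn n f → SDn n g → SDn n (fun x => f x + g x)
  | 0, f, g, hf, hg => SD.add hf hg
  | n + 1, f, g, hf, hg => by
    refine ⟨hf.1.add hg.1, hf.2.1.add hg.2.1, ?_⟩
    have e : deriv (fun x => f x + g x) = fun x => deriv f x + deriv g x := by
      funext x
      exact deriv_fun_add (hf.2.1 x) (hg.2.1 x)
    rw [e]
    exact hf.2.2.add hg.2.2

theorem SDn.mul : ∀ {n : ℕ} {f g : ℝ → ℝ}, SDn n f → EGn n g → SDn n (fun x => f x * g x)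
  | 0, f, g, hf, hg => SD.mul hf hg
  | n + 1, f, g, hf, hg => by
    refine ⟨hf.1.mul hg.1, hf.2.1.mul hg.2.1, ?_⟩
    have e : deriv (fun x => f x * g x) = fun x => deriv f x * g x + f x * deriv g x := by
      funext x
      exact deriv_fun_mul (hf.2.1 x) (hg.2.1 x)
    rw [e]
    exact (hf.2.2.mul hg.of_succ).add (hf.of_succ.mul hg.2.2)

theorem SDn.egn : ∀ {n : ℕ} {f : ℝ → ℝ}, SDn n f → EGn n f
  | 0, _, h => SD.eg h
  | _ + 1, _, h => ⟨h.1.eg, h.2.1, h.2.2.egn⟩

theorem SDS.egs {f : ℝ → ℝ} (h : SDS f) : EGS f := fun n => (h n).egn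
theorem SDS.sd {f : ℝ → ℝ} (h : SDS f) : SD f := h 0
theorem SDS.diff {f : ℝ → ℝ} (h : SDS f) : Differentiable ℝ f := (h 1).2.1
theorem SDS.hasDerivAt {f : ℝ → ℝ} (h : SDS f) (x : ℝ) : HasDerivAt f (deriv f x) x :=
  (h.diff x).hasDerivAt
theorem SDS.deriv {f : ℝ → ℝ} (h : SDS f) : SDS (deriv f) := fun n => (h (n + 1)).2.2
theorem SDS.mul {f g : ℝ → ℝ} (hf : SDS f) (hg : EGS g) : SDS (fun x => f x * g x) :=
  fun n => (hf n).mul (hg n)
theorem SDS.add {f g : ℝ → ℝ} (hf : SDS f) (hg : SDS g) : SDS (fun x => f x + g x) :=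
  fun n => (hf n).add (hg n)

theorem SDS.heat {f : ℝ → ℝ} (hf : SDS f) (t : ℝ) : SDS (H t f) := by
  intro n
  induction n generalizing f with
  | zero => exact SD.heat hf.sd t
  | succ n ih =>
    refine ⟨SD.heat hf.sd t, fun x => (H_hasDerivAt hf.egs t x).differentiableAt, ?_⟩
    rw [H_deriv hf.egs]
    exact ih hf.deriv

/-- polynomials are of exponential growth -/
theorem id_egs : EGS (fun x : ℝ => x) := by
  refine EGS.of (UG.id.eg 0) differentiable_id ?_
  have : deriv (fun x : ℝ => x) = fun _ => 1 := by funext x; simp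
  rw [this]
  exact EGS.const 1

/-- the Gaussian density of variance `σ > 0` -/
def gd (σ x : ℝ) : ℝ := (√(2 * Real.pi * σ))⁻¹ * Real.exp (-x ^ 2 / (2 * σ))

theorem gd_hasDerivAt {σ : ℝ} (hσ : σ ≠ 0) (x : ℝ) :
    HasDerivAt (gd σ) (gd σ x * (-(1 / σ) * x)) x := by
  unfold gd
  have h1 : HasDerivAt (fun x : ℝ => -x ^ 2 / (2 * σ)) (-(1 / σ) * x) x := by
    have h2 : HasDerivAt (fun x : ℝ => x ^ 2) (2 * x) x := by
      have := hasDerivAt_pow 2 x
      simpa using this
    refine (h2.fun_neg.div_const (2 * σ)).congr_deriv ?_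
    field_simp
  refine (h1.exp.const_mul _).congr_deriv ?_
  ring

theorem gd_sd {σ : ℝ} (hσ : 0 < σ) : SD (gd σ) := by
  have hc : Continuous (gd σ) := by unfold gd; fun_prop
  refine SD.of_gauss hc (K := (√(2 * Real.pi * σ))⁻¹) (c := 1 / (2 * σ)) (by positivity)
    (by positivity) fun x => ?_
  unfold gd
  rw [abs_of_pos (by positivity)]
  refine le_of_eq ?_
  congr 2
  field_simp

theorem gd_sds {σ : ℝ} (hσ : 0 < σ) : SDS (gd σ) := by
  intro n
  have hd : Differentiable ℝ (gd σ) := fun x => (gd_hasDerivAt hσ.ne' x).differentiableAt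
  induction n with
  | zero => exact gd_sd hσ
  | succ n ih =>
    refine ⟨gd_sd hσ, hd, ?_⟩
    have e : deriv (gd σ) = fun x => gd σ x * (-(1 / σ) * x) :=
      funext fun x => (gd_hasDerivAt hσ.ne' x).deriv
    rw [e]
    exact ih.mul (id_egs.const_mul _ n)

theorem gd_pos {σ : ℝ} (hσ : 0 < σ) (x : ℝ) : 0 < gd σ x := by
  unfold gd
  positivity

theorem pdf_eq_gd {τ : ℝ} (hτ : 0 < τ) (x y : ℝ) :
    gaussianPDFReal x (vv √τ) y = gd τ (y - x) := by
  rw [gaussianPDFReal_def]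
  unfold gd
  rw [vv_coe, Real.sq_sqrt hτ.le]

/-- the heat flow as a convolution with the Gaussian density -/
theorem H_eq_gd (φ : ℝ → ℝ) {τ : ℝ} (hτ : 0 < τ) (x : ℝ) :
    H (√τ) φ x = ∫ y, gd τ (y - x) * φ y := by
  rw [H_eq_pdf φ (Real.sqrt_pos.2 hτ).ne' x]
  refine integral_congr_ae (Eventually.of_forall fun y => ?_)
  show gaussianPDFReal x (vv √τ) y * φ y = _
  rw [pdf_eq_gd hτ]

theorem gd_neg (σ x : ℝ) : gd σ (-x) = gd σ x := by
  unfold gd
  rw [neg_sq]

/-- **Symmetry of the heat flow.** -/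
theorem heat_symm {R φ : ℝ → ℝ} (hR : SD R) (hφ : EG φ) {τ : ℝ} (hτ : 0 < τ) :
    ∫ x, R x * H (√τ) φ x = ∫ y, H (√τ) R y * φ y := by
  have ht : √τ ≠ 0 := (Real.sqrt_pos.2 hτ).ne'
  have hgc : Continuous (gd τ) := by unfold gd; fun_prop
  have hRc := hR.cont
  have hφc := hφ.cont
  -- the double integrand
  have hint : Integrable (Function.uncurry fun x y : ℝ => R x * (gd τ (y - x) * φ y))
      ((volume : Measure ℝ).prod volume) := by
    have hm : AEStronglyMeasurable (Function.uncurry fun x y : ℝ => R x * (gd τ (y - x) * φ y))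
        ((volume : Measure ℝ).prod volume) :=
      (by fun_prop : Continuous fun p : ℝ × ℝ =>
        R p.1 * (gd τ (p.2 - p.1) * φ p.2)).aestronglyMeasurable
    rw [integrable_prod_iff hm]
    have habs : EG fun y => |φ y| := by
      obtain ⟨K, A, hK, hA, hb⟩ := hφ.bd
      exact ⟨hφc.abs, K, A, hK, hA, fun x => by rw [abs_abs]; exact hb x⟩
    constructor
    · refine Eventually.of_forall fun x => ?_
      have := (pdf_integrable hφ ht x).const_mul (R x)
      refine this.congr (Eventually.of_forall fun y => ?_)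
      show R x * (gaussianPDFReal x (vv √τ) y * φ y) = R x * (gd τ (y - x) * φ y)
      rw [pdf_eq_gd hτ]
    · have h1 : (fun x => ∫ y, ‖Function.uncurry (fun x y : ℝ => R x * (gd τ (y - x) * φ y))
          (x, y)‖) = fun x => |R x| * H (√τ) (fun y => |φ y|) x := by
        funext x
        rw [H_eq_gd _ hτ, ← integral_const_mul]
        refine integral_congr_ae (Eventually.of_forall fun y => ?_)
        show ‖R x * (gd τ (y - x) * φ y)‖ = |R x| * (gd τ (y - x) * |φ y|)
        rw [Real.norm_eq_abs, abs_mul, abs_mul, abs_of_pos (gd_pos hτ _)]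
      rw [h1]
      have h2 : SD fun x => |R x| := ⟨hRc.abs, fun A => by
        obtain ⟨K, hK, hb⟩ := hR.bd A
        exact ⟨K, hK, fun x => by rw [abs_abs]; exact hb x⟩⟩
      exact (h2.mul (H_eg habs (√τ))).integrable
  calc ∫ x, R x * H (√τ) φ x = ∫ x, ∫ y, R x * (gd τ (y - x) * φ y) := by
        refine integral_congr_ae (Eventually.of_forall fun x => ?_)
        show R x * H (√τ) φ x = ∫ y, R x * (gd τ (y - x) * φ y)
        rw [H_eq_gd _ hτ, ← integral_const_mul]
    _ = ∫ y, ∫ x, R x * (gd τ (y - x) * φ y) := integral_integral_swap hint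
    _ = ∫ y, H (√τ) R y * φ y := by
        refine integral_congr_ae (Eventually.of_forall fun y => ?_)
        show ∫ x, R x * (gd τ (y - x) * φ y) = H (√τ) R y * φ y
        rw [H_eq_gd _ hτ, ← integral_mul_const]
        refine integral_congr_ae (Eventually.of_forall fun x => ?_)
        show R x * (gd τ (y - x) * φ y) = gd τ (x - y) * R x * φ y
        rw [← gd_neg τ (y - x), neg_sub]
        ring

/-- the measure with density `R` -/
def dens (R : ℝ → ℝ) : Measure ℝ := volume.withDensity fun x => ENNReal.ofReal (R x)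

theorem integral_dens {R : ℝ → ℝ} (hR : SD R) (h0 : ∀ x, 0 ≤ R x) (φ : ℝ → ℝ) :
    ∫ x, φ x ∂dens R = ∫ x, R x * φ x := by
  unfold dens
  rw [integral_withDensity_eq_integral_toReal_smul (by
      exact (hR.cont.measurable).ennreal_ofReal) (Eventually.of_forall fun x =>
      ENNReal.ofReal_lt_top)]
  refine integral_congr_ae (Eventually.of_forall fun x => ?_)
  show (ENNReal.ofReal (R x)).toReal • φ x = R x * φ x
  rw [ENNReal.toReal_ofReal (h0 x), smul_eq_mul]

theorem dens_em {R : ℝ → ℝ} (hR : SD R) (h0 : ∀ x, 0 ≤ R x) : EM (dens R) := by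
  intro A
  unfold dens
  rw [integrable_withDensity_iff_integrable_smul₀'
    ((hR.cont.measurable).ennreal_ofReal).aemeasurable
    (Eventually.of_forall fun x => ENNReal.ofReal_lt_top)]
  have h1 : EG fun x : ℝ => Real.exp (A * |x|) := by
    refine ⟨by fun_prop, 1, |A|, zero_le_one, abs_nonneg A, fun x => ?_⟩
    rw [abs_of_pos (Real.exp_pos _), one_mul]
    exact Real.exp_le_exp.2 (mul_le_mul_of_nonneg_right (le_abs_self A) (abs_nonneg x))
  refine (hR.mul h1).integrable.congr (Eventually.of_forall fun x => ?_)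
  show R x * Real.exp (A * |x|) = (ENNReal.ofReal (R x)).toReal • Real.exp (A * |x|)
  rw [ENNReal.toReal_ofReal (h0 x), smul_eq_mul]

section EEd

variable {Φ : ℝ → ℝ} (h : Prof Φ) (m : ℝ)
include h

/-- the expectation of a block through the density, initial law with a density -/
theorem EE_dens {R : ℝ → ℝ} (hR : SD R) (h0 : ∀ x, 0 ≤ R x) {F : ℝ → ℝ → ℝ} (hF : UG F) (d : ℝ)
    {τ : ℝ} (hτ : 0 < τ) : EE Φ m d (dens R) F τ =
      ∫ y, H (√τ) R y * (Wk Φ m 0 (d - τ) y * F (d - τ) y) := by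
  unfold EE
  rw [integral_dens hR h0]
  exact heat_symm hR (((Wk_ug h m 0).mul hF).eg (d - τ)) hτ

omit h in
/-- the expectation of a block through the density, start from a point mass at `0` -/
theorem EE_dirac (c : ENNReal) (F : ℝ → ℝ → ℝ) (d : ℝ)
    {τ : ℝ} (hτ : 0 < τ) : EE Φ m d (c • Measure.dirac 0) F τ =
      ∫ y, (c.toReal * gd τ y) * (Wk Φ m 0 (d - τ) y * F (d - τ) y) := by
  unfold EE
  rw [integral_smul_measure, integral_dirac, H_eq_gd _ hτ, smul_eq_mul, ← integral_const_mul]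
  refine integral_congr_ae (Eventually.of_forall fun y => ?_)
  simp only [sub_zero]
  ring

end EEd


end

end Crest.Agent.R339.B
end

-- ▼ part R339/B107Red
section

/-!
Row 339 (helper107): reduction of the no-gap inequality to a pointwise certificate.
-/

set_option autoImplicit false

namespace Crest.Agent.R339.B

open MeasureTheory ProbabilityTheory Filter Topology Set
open Crest.Agent.R164.GC
open Crest.ProbabilityR.InvariantGlass (gaussOp)

noncomputable section

/-! ### abstract reduction -/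

/-- an integral of an even function is nonnegative if it dominates a derivative of a function
vanishing at both ends of `(0,∞)` -/
theorem integral_nonneg_of_cert {φ G G' : ℝ → ℝ} (hφc : Continuous φ) (hφ : Integrable φ)
    (heven : ∀ x, φ (-x) = φ x) (hG : ∀ x, 0 < x → HasDerivAt G (G' x) x)
    (hle : ∀ x, 0 < x → 0 ≤ φ x + G' x)
    (h0 : Tendsto G (𝓝[>] 0) (𝓝 0)) (hinf : Tendsto G atTop (𝓝 0)) : 0 ≤ ∫ x, φ x := by
  -- the half line integral
  have key : ∀ a b : ℝ, 0 < a → a ≤ b → G a - G b ≤ ∫ x in a..b, φ x := by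
    intro a b ha hab
    have hc : ContinuousOn (fun x => -G x) (Icc a b) := fun x hx =>
      ((hG x (ha.trans_le hx.1)).continuousAt.neg).continuousWithinAt
    have := intervalIntegral.sub_le_integral_of_hasDeriv_right_of_le hab hc
      (g' := fun x => -G' x)
      (fun x hx => ((hG x (ha.trans hx.1)).fun_neg).hasDerivWithinAt)
      (hφc.continuousOn.integrableOn_compact isCompact_Icc)
      (fun x hx => by have := hle x (ha.trans hx.1); linarith)
    linarith
  -- limit at infinity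
  have h1 : ∀ a : ℝ, 0 < a → G a ≤ ∫ x in Ioi a, φ x := by
    intro a ha
    have l1 : Tendsto (fun b => ∫ x in a..b, φ x) atTop (𝓝 (∫ x in Ioi a, φ x)) :=
      intervalIntegral_tendsto_integral_Ioi a hφ.integrableOn tendsto_id
    have l2 : Tendsto (fun b => G a - G b) atTop (𝓝 (G a - 0)) := tendsto_const_nhds.sub hinf
    rw [sub_zero] at l2
    refine le_of_tendsto_of_tendsto l2 l1 ?_
    filter_upwards [eventually_ge_atTop a] with b hb
    exact key a b ha hb
  -- limit at zero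
  have h2 : 0 ≤ ∫ x in Ioi (0 : ℝ), φ x := by
    have l1 : Tendsto (fun a => ∫ x in Ioi a, φ x) (𝓝[>] (0 : ℝ)) (𝓝 (∫ x in Ioi (0 : ℝ), φ x)) := by
      have e : ∀ a : ℝ, ∫ x in Ioi a, φ x = (∫ x in Ioi (0 : ℝ), φ x) - ∫ x in (0 : ℝ)..a, φ x := by
        intro a
        have := intervalIntegral.integral_Ioi_sub_Ioi' (a := 0) (b := a) (f := φ) (μ := volume)
          hφ.integrableOn hφ.integrableOn
        linarith
      have l2 : Tendsto (fun a => ∫ x in (0 : ℝ)..a, φ x) (𝓝[>] (0 : ℝ)) (𝓝 0) := by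
        have hc := intervalIntegral.continuous_primitive (μ := volume) (f := φ)
          (fun a b => hφ.intervalIntegrable) 0
        have := hc.tendsto 0
        rw [intervalIntegral.integral_same] at this
        exact this.mono_left nhdsWithin_le_nhds
      have l3 := (tendsto_const_nhds (x := ∫ x in Ioi (0 : ℝ), φ x)).sub l2
      rw [sub_zero] at l3
      refine l3.congr fun a => ?_
      rw [e a]
    refine le_of_tendsto_of_tendsto h0 l1 ?_
    filter_upwards [self_mem_nhdsWithin] with a ha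
    exact h1 a ha
  have h3 : ∫ x, φ x = 2 * ∫ x in Ioi (0 : ℝ), φ x := by
    rw [← integral_comp_abs]
    refine integral_congr_ae (Eventually.of_forall fun x => ?_)
    show φ x = φ |x|
    rcases abs_cases x with ⟨h, _⟩ | ⟨h, _⟩
    · rw [h]
    · rw [h, heven]
  rw [h3]
  positivity

theorem SD.tendsto {R : ℝ → ℝ} (h : SD R) : Tendsto R atTop (𝓝 0) := by
  obtain ⟨K, hK, hb⟩ := h.bd 1
  have l1 : Tendsto (fun x : ℝ => K * Real.exp (-x)) atTop (𝓝 0) := by
    have := (Real.tendsto_exp_neg_atTop_nhds_zero).const_mul K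
    simpa using this
  refine squeeze_zero_norm' ?_ l1
  filter_upwards [eventually_ge_atTop (0 : ℝ)] with x hx
  have := hb x
  rw [one_mul, abs_of_nonneg hx] at this
  rw [Real.norm_eq_abs]
  exact this

/-! ### the profile functions -/

/-- class (G): even positive weights with `-R'/R ≥ 0` and `(-R'/R)/x` nonincreasing on `x > 0` -/
structure GW (R : ℝ → ℝ) : Prop where
  sds : SDS R
  pos : ∀ x, 0 < R x
  even : ∀ x, R (-x) = R x
  r0 : ∀ x, 0 < x → 0 ≤ -deriv R x / R x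
  r1 : AntitoneOn (fun x => (-deriv R x / R x) / x) (Ioi 0)

/-- the profile functions in units `m = 1` -/
def fM (m : ℝ) (f : ℝ → ℝ) (x : ℝ) : ℝ := m * deriv f x
def fa (m : ℝ) (f : ℝ → ℝ) (x : ℝ) : ℝ := m * deriv (deriv f) x
def fb (f : ℝ → ℝ) (x : ℝ) : ℝ := -deriv (deriv (deriv f)) x / deriv (deriv f) x
def fE (m : ℝ) (f : ℝ → ℝ) (x : ℝ) : ℝ := deriv (fb f) x - 2 * fa m f x
def fr (R : ℝ → ℝ) (x : ℝ) : ℝ := -deriv R x / R x
def fo (R : ℝ → ℝ) (x : ℝ) : ℝ := deriv (fr R) x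

section Prof

variable {β m : ℝ} {f : ℝ → ℝ} (h : Inv β m f)
include h

theorem u2_pos (x : ℝ) : 0 < deriv (deriv f) x := h.low.pos x

theorem fM_d (x : ℝ) : HasDerivAt (fM m f) (fa m f x) x := (h.prof.bd.hasDerivAt x).const_mul m

theorem fa_d (x : ℝ) : HasDerivAt (fa m f) (-(fa m f x * fb f x)) x := by
  refine ((h.prof.bd.deriv.hasDerivAt x).const_mul m).congr_deriv ?_
  unfold fa fb
  have := (u2_pos h x).ne'
  field_simp

theorem fb_d0 (x : ℝ) : HasDerivAt (fb f)
    (fb f x ^ 2 - deriv (deriv (deriv (deriv f))) x / deriv (deriv f) x) x := by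
  refine (((h.prof.bd.deriv.deriv.hasDerivAt x).fun_neg).fun_div
    (h.prof.bd.deriv.hasDerivAt x) (u2_pos h x).ne').congr_deriv ?_
  unfold fb
  have := (u2_pos h x).ne'
  field_simp
  ring

theorem fb_d (x : ℝ) : HasDerivAt (fb f) (fE m f x + 2 * fa m f x) x := by
  have := fb_d0 h x
  unfold fE
  rw [this.deriv]
  refine this.congr_deriv ?_
  ring

theorem u4_eq (x : ℝ) : deriv (deriv (deriv (deriv f))) x =
    deriv (deriv f) x * (fb f x ^ 2 - 2 * fa m f x - fE m f x) := by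
  have := fb_d0 h x
  unfold fE
  rw [this.deriv]
  have := (u2_pos h x).ne'
  field_simp
  ring

theorem u3_eq (x : ℝ) : deriv (deriv (deriv f)) x = -(deriv (deriv f) x * fb f x) := by
  unfold fb
  have := (u2_pos h x).ne'
  field_simp

theorem fE_nonneg (x : ℝ) : 0 ≤ fE m f x := by
  have h1 : HasDerivAt (fun x => 2 * m * deriv f x + deriv (deriv (deriv f)) x /
      deriv (deriv f) x) (-fE m f x) x := by
    have h2 := ((h.prof.bd.hasDerivAt x).const_mul (2 * m)).fun_sub (fb_d h x)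
    have e : (fun x => 2 * m * deriv f x + deriv (deriv (deriv f)) x / deriv (deriv f) x) =
        fun x => 2 * m * deriv f x - fb f x := by
      funext y
      unfold fb
      ring
    rw [e]
    refine h2.congr_deriv ?_
    unfold fa
    ring
  have := h1.nonpos_of_antitone h.p1
  linarith

theorem fM_odd (x : ℝ) : fM m f (-x) = -fM m f x := by
  unfold fM
  rw [h.odd]
  ring

theorem u2_even (x : ℝ) : deriv (deriv f) (-x) = deriv (deriv f) x := deriv_neg_of_odd h.odd x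

theorem u3_odd (x : ℝ) : deriv (deriv (deriv f)) (-x) = -deriv (deriv (deriv f)) x :=
  deriv_neg_of_even (u2_even h) x

theorem u4_even (x : ℝ) : deriv (deriv (deriv (deriv f))) (-x) =
    deriv (deriv (deriv (deriv f))) x := deriv_neg_of_odd (u3_odd h) x

theorem fb_odd (x : ℝ) : fb f (-x) = -fb f x := by
  unfold fb
  rw [u3_odd h, u2_even h]
  ring

theorem fb0 : fb f 0 = 0 := by
  have := fb_odd h 0
  rw [neg_zero] at this
  linarith

theorem fM0 : fM m f 0 = 0 := by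
  have := fM_odd h 0
  rw [neg_zero] at this
  linarith

theorem fa_pos (hm : 0 < m) (x : ℝ) : 0 < fa m f x := mul_pos hm (u2_pos h x)

theorem fM_nonneg (hm : 0 < m) {x : ℝ} (hx : 0 ≤ x) : 0 ≤ fM m f x :=
  mul_nonneg hm.le (h.nonneg hx)

theorem fb_ge {x : ℝ} (hx : 0 ≤ x) : 2 * fM m f x ≤ fb f x := by
  have h1 : Monotone fun x => fb f x - 2 * fM m f x := by
    refine monotone_of_deriv_nonneg (fun x => ((fb_d h x).fun_sub
      ((fM_d h x).const_mul 2)).differentiableAt) fun x => ?_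
    rw [((fb_d h x).fun_sub ((fM_d h x).const_mul 2)).deriv]
    have := fE_nonneg h x
    linarith
  have := h1 hx
  simp only [fb0 h, fM0 h] at this
  linarith

theorem fb_nonneg (hm : 0 < m) {x : ℝ} (hx : 0 ≤ x) : 0 ≤ fb f x := by
  have h1 := fb_ge h hx
  have h2 := fM_nonneg h hm hx
  linarith

/-- `x a ≤ M` -/
theorem fa_le (hm : 0 < m) {x : ℝ} (hx : 0 ≤ x) : x * fa m f x ≤ fM m f x := by
  have h1 : MonotoneOn (fun x => fM m f x - x * fa m f x) (Ici 0) := by
    have hd : ∀ x, HasDerivAt (fun x => fM m f x - x * fa m f x)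
        (x * (fa m f x * fb f x)) x := by
      intro x
      refine ((fM_d h x).fun_sub ((hasDerivAt_id' x).fun_mul (fa_d h x))).congr_deriv ?_
      ring
    refine monotoneOn_of_deriv_nonneg (convex_Ici 0) (fun x _ =>
      (hd x).continuousAt.continuousWithinAt) (fun x _ =>
      (hd x).differentiableAt.differentiableWithinAt) fun x hx => ?_
    rw [interior_Ici] at hx
    rw [(hd x).deriv]
    have hx' : (0 : ℝ) ≤ x := (mem_Ioi.1 hx).le
    exact mul_nonneg hx' (mul_nonneg (fa_pos h hm x).le (fb_nonneg h hm hx'))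
  have := h1 (mem_Ici.2 le_rfl) (mem_Ici.2 hx) hx
  simp only [fM0 h, zero_mul, sub_zero] at this
  linarith

/-- exponential bound for `b` -/
theorem fb_eg : EG (fb f) := by
  obtain ⟨C, hC⟩ := h.prof.bd.deriv.deriv.bdd
  obtain ⟨c, A, hc, hA, hl⟩ := h.low
  have hC0 : 0 ≤ C := (abs_nonneg _).trans (hC 0)
  refine ⟨continuous_iff_continuousAt.2 fun x => (fb_d h x).continuousAt, C / c, A,
    by positivity, hA, fun x => ?_⟩
  unfold fb
  rw [abs_div, abs_neg, abs_of_pos (u2_pos h x)]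
  have h1 : 0 < c * Real.exp (-(A * |x|)) := by positivity
  calc |deriv (deriv (deriv f)) x| / deriv (deriv f) x
      ≤ C / (c * Real.exp (-(A * |x|))) := div_le_div₀ hC0 (hC x) h1 (hl x)
    _ = C / c * Real.exp (A * |x|) := by
        rw [Real.exp_neg]
        field_simp

end Prof

section Weight

variable {R : ℝ → ℝ} (hR : GW R)
include hR

theorem fr_d (x : ℝ) : HasDerivAt (fr R) (fo R x) x := by
  unfold fo
  have : DifferentiableAt ℝ (fr R) x := by
    unfold fr
    exact (hR.sds.deriv.diff x).neg.div (hR.sds.diff x) (hR.pos x).ne'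
  exact this.hasDerivAt

theorem Rd (x : ℝ) : HasDerivAt R (-(R x * fr R x)) x := by
  refine (hR.sds.hasDerivAt x).congr_deriv ?_
  unfold fr
  have := (hR.pos x).ne'
  field_simp

theorem fr_odd (x : ℝ) : fr R (-x) = -fr R x := by
  unfold fr
  rw [deriv_neg_of_even hR.even, hR.even]
  ring

theorem fr0 : fr R 0 = 0 := by
  have := fr_odd hR 0
  rw [neg_zero] at this
  linarith

theorem fr_nonneg {x : ℝ} (hx : 0 < x) : 0 ≤ fr R x := hR.r0 x hx

/-- `r' ≤ r / x` -/
theorem fo_le {x : ℝ} (hx : 0 < x) : fo R x ≤ fr R x * (1 / x) := by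
  have h1 : HasDerivAt (fun x => fr R x / x) ((fo R x * x - fr R x * 1) / x ^ 2) x :=
    (fr_d hR x).fun_div (hasDerivAt_id' x) hx.ne'
  have h2 : (fo R x * x - fr R x * 1) / x ^ 2 ≤ 0 := by
    have h2 := AntitoneOn.derivWithin_nonpos (g := fun x => fr R x / x) (x := x) hR.r1
    rwa [h1.hasDerivWithinAt.derivWithin (isOpen_Ioi.uniqueDiffWithinAt (mem_Ioi.2 hx))] at h2
  have h3 : fo R x * x - fr R x * 1 ≤ 0 := by
    by_contra hcon
    push Not at hcon
    have : 0 < (fo R x * x - fr R x * 1) / x ^ 2 := div_pos hcon (by positivity)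
    linarith
  have h4 : fr R x * (1 / x) * x = fr R x := by field_simp
  have h5 : fo R x * x ≤ (fr R x * (1 / x)) * x := by rw [h4]; linarith
  exact le_of_mul_le_mul_right h5 hx

end Weight

end

end Crest.Agent.R339.B
end

-- ▼ part R339/B107Cert
section

/-!
Row 339: helper350's exact rational certificate (written in Lean by helper107).
-/

set_option autoImplicit false

namespace Crest.Agent.R339.B

/-- the test polynomial -/
noncomputable def chi (p k l v y : ℝ) : ℝ :=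
  5 * p ^ 3 + 34 / 5 * p ^ 2 * k + 29 / 10 * p * k ^ 2 + 2 / 5 * k ^ 3 - 49 / 5 * p * v
    - 22 / 5 * k * v + 7 / 10 * l * v - 7 / 10 * p * l * y - 2 * p ^ 2 * l - 8 / 5 * p * k * l
    - 1 / 5 * k ^ 2 * l - 1 / 10 * p ^ 2 * y - 1 / 10 * k ^ 2 * y

/-- its derivative along `p' = v`, `k' = w`, `l' = o`, `v' = -(k+2p) v`, `y' = -y²` -/
noncomputable def chi' (p k l v y w o : ℝ) : ℝ :=
  15 * p ^ 2 * v + 34 / 5 * (2 * p * v * k + p ^ 2 * w) + 29 / 10 * (v * k ^ 2 + 2 * p * k * w)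
    + 6 / 5 * k ^ 2 * w - 49 / 5 * (v * v - p * (k + 2 * p) * v)
    - 22 / 5 * (w * v - k * (k + 2 * p) * v) + 7 / 10 * (o * v - l * (k + 2 * p) * v)
    - 7 / 10 * (v * l * y + p * o * y - p * l * y ^ 2) - 2 * (2 * p * v * l + p ^ 2 * o)
    - 8 / 5 * (v * k * l + p * w * l + p * k * o) - 1 / 5 * (2 * k * w * l + k ^ 2 * o)
    - 1 / 10 * (2 * p * v * y - p ^ 2 * y ^ 2) - 1 / 10 * (2 * k * w * y - k ^ 2 * y ^ 2)

/-- the full expression -/
noncomputable def Qc (p k l v y w o : ℝ) : ℝ :=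
  ((k + 2 * p) ^ 2 - 2 * v - w) ^ 2 - 12 * (k + 2 * p) ^ 2 * v + 6 * v ^ 2
    + chi' p k l v y w o - (l + 3 * p + 2 * k) * chi p k l v y

/-- the certificate in cone coordinates -/
theorem cert_cone (p k l e z o w : ℝ) (hp : 0 ≤ p) (hk : 0 ≤ k) (hl : 0 ≤ l) (he : 0 ≤ e)
    (hz : 0 ≤ z) (ho : 0 ≤ o) : 0 ≤ Qc p k l (p * e) (e + z) w (l * (e + z) - o) := by
  have key : Qc p k l (p * e) (e + z) w (l * (e + z) - o) =
      (w - (2 / 5 * k ^ 2 + 11 / 10 * p * k + 3 / 5 * p ^ 2 + 1 / 5 * (p * e)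
        + 1 / 10 * k * (e + z) + 1 / 5 * k * l + 4 / 5 * p * l)) ^ 2
      + (-(1 / 5) * k ^ 2 + 1 / 5 * (p * e) - 3 / 10 * k * (e + z) + 2 / 5 * k * l
        + 7 / 10 * p * l) ^ 2
      + (1 / 5 * k ^ 2 * o + 7 / 10 * p * z * o + 8 / 5 * p * k * o + 2 * p ^ 2 * o
        + 1 / 10 * k ^ 2 * l * z + 1 / 10 * k ^ 2 * l * e + 7 / 10 * p * l ^ 2 * z
        + 2 / 25 * p * k * e * z + 2 / 25 * p * k * e ^ 2 + 3 / 50 * p * k * l * z
        + 13 / 25 * p * k * l * e + 18 / 25 * p * k * l ^ 2 + 2 / 25 * p * k ^ 2 * z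
        + 1 / 10 * p * k ^ 2 * e + 1 / 10 * p * k ^ 2 * l + 3 / 25 * p * k ^ 3
        + 1 / 10 * p ^ 2 * z ^ 2 + 1 / 50 * p ^ 2 * e ^ 2 + 1 / 5 * p ^ 2 * l * z
        + 19 / 10 * p ^ 2 * l * e + 87 / 100 * p ^ 2 * l ^ 2 + 2 / 25 * p ^ 2 * k * z
        + 16 / 25 * p ^ 2 * k * e + 1 / 100 * p ^ 2 * k ^ 2 + 3 / 10 * p ^ 3 * z
        + 3 / 50 * p ^ 3 * e + 1 / 25 * p ^ 3 * l + 7 / 25 * p ^ 3 * k
        + 16 / 25 * p ^ 4) := by
    unfold Qc chi chi'
    ring
  rw [key]
  positivity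

/-- **the certificate** -/
theorem cert {p k l v y w o : ℝ} (hp : 0 < p) (hk : 0 ≤ k) (hl : 0 ≤ l) (hv : 0 ≤ v)
    (hvy : v ≤ p * y) (ho : o ≤ l * y) : 0 ≤ Qc p k l v y w o := by
  have h := cert_cone p k l (v / p) (y - v / p) (l * y - o) w hp.le hk hl (by positivity)
    (by rw [sub_nonneg, div_le_iff₀ hp]; linarith) (by linarith)
  have e1 : p * (v / p) = v := by field_simp
  have e2 : v / p + (y - v / p) = y := by ring
  have e3 : l * y - (l * y - o) = o := by ring
  rw [e1, e2, e3] at h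
  exact h

end Crest.Agent.R339.B
end

-- ▼ part R339/B107Conv
section

/-!
Row 339 (helper107): **no gap**. For a profile in the class `Inv` and a weight in the class (G) the
function `E u_xx²` is convex in time on a block.
-/

set_option autoImplicit false

namespace Crest.Agent.R339.B

open MeasureTheory ProbabilityTheory Filter Topology Set
open Crest.Agent.R164.GC
open Crest.ProbabilityR.InvariantGlass (gaussOp)

noncomputable section

theorem slope_tendsto {F : ℝ → ℝ} {F' : ℝ} (h0 : F 0 = 0) (hF : HasDerivAt F F' 0) :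
    Tendsto (fun x => F x * (1 / x)) (𝓝[>] 0) (𝓝 F') := by
  have h1 := hasDerivAt_iff_tendsto_slope.1 hF
  have h2 := h1.mono_left (nhdsWithin_mono (0 : ℝ) (show Ioi (0 : ℝ) ⊆ {0}ᶜ from
    fun z hz => (ne_of_gt hz)))
  refine h2.congr fun x => ?_
  rw [slope_def_field, h0, sub_zero, sub_zero]
  ring

/-- chain rule for `chi` -/
theorem chi_hasDerivAt {p k l v y : ℝ → ℝ} {w o : ℝ} {x : ℝ}
    (hp : HasDerivAt p (v x) x) (hk : HasDerivAt k w x) (hl : HasDerivAt l o x)
    (hv : HasDerivAt v (-((k x + 2 * p x) * v x)) x) (hy : HasDerivAt y (-(y x) ^ 2) x) :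
    HasDerivAt (fun x => chi (p x) (k x) (l x) (v x) (y x))
      (chi' (p x) (k x) (l x) (v x) (y x) w o) x := by
  have e : (fun x => chi (p x) (k x) (l x) (v x) (y x)) = fun x =>
      5 * (p x) ^ 3 + 34 / 5 * ((p x) ^ 2 * k x) + 29 / 10 * (p x * (k x) ^ 2)
      + 2 / 5 * (k x) ^ 3 + (-(49 / 5)) * (p x * v x) + (-(22 / 5)) * (k x * v x)
      + 7 / 10 * (l x * v x) + (-(7 / 10)) * (p x * l x * y x) + (-2) * ((p x) ^ 2 * l x)
      + (-(8 / 5)) * (p x * k x * l x) + (-(1 / 5)) * ((k x) ^ 2 * l x)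
      + (-(1 / 10)) * ((p x) ^ 2 * y x) + (-(1 / 10)) * ((k x) ^ 2 * y x) := by
    funext x
    unfold chi
    ring
  rw [e]
  refine ((((((((((((((hp.fun_pow 3).const_mul 5).fun_add
    (((hp.fun_pow 2).fun_mul hk).const_mul (34 / 5))).fun_add
    ((hp.fun_mul (hk.fun_pow 2)).const_mul (29 / 10))).fun_add
    ((hk.fun_pow 3).const_mul (2 / 5))).fun_add
    ((hp.fun_mul hv).const_mul (-(49 / 5)))).fun_add
    ((hk.fun_mul hv).const_mul (-(22 / 5)))).fun_add
    ((hl.fun_mul hv).const_mul (7 / 10))).fun_add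
    (((hp.fun_mul hl).fun_mul hy).const_mul (-(7 / 10)))).fun_add
    (((hp.fun_pow 2).fun_mul hl).const_mul (-2))).fun_add
    (((hp.fun_mul hk).fun_mul hl).const_mul (-(8 / 5)))).fun_add
    (((hk.fun_pow 2).fun_mul hl).const_mul (-(1 / 5)))).fun_add
    (((hp.fun_pow 2).fun_mul hy).const_mul (-(1 / 10)))).fun_add
    (((hk.fun_pow 2).fun_mul hy).const_mul (-(1 / 10)))).congr_deriv ?_
  unfold chi'
  norm_num
  ring

/-- the integrand -/
def phiI (m : ℝ) (R f : ℝ → ℝ) (x : ℝ) : ℝ :=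
  R x * (Real.exp (m * f x) * (deriv (deriv (deriv (deriv f))) x ^ 2
    - 12 * m * deriv (deriv f) x * deriv (deriv (deriv f)) x ^ 2
    + 6 * m ^ 2 * deriv (deriv f) x ^ 4))

theorem SD.congr {R S : ℝ → ℝ} (h : SD R) (e : ∀ x, S x = R x) : SD S := by
  have : S = R := funext e
  rw [this]; exact h

/-- **The no-gap inequality.** -/
theorem core {β m : ℝ} {f R : ℝ → ℝ} (h : Inv β m f) (hm : 0 < m) (hR : GW R) :
    0 ≤ ∫ x, phiI m R f x := by
  -- basic functions
  have hE : EG fun x => Real.exp (m * f x) := (h.prof.exp_egs m).eg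
  have h2 := h.prof.bd.deriv.eg
  have h3 := h.prof.bd.deriv.deriv.eg
  have h4 := h.prof.bd.deriv.deriv.deriv.eg
  have hI : EG fun x => Real.exp (m * f x) * (deriv (deriv (deriv (deriv f))) x ^ 2
      - 12 * m * deriv (deriv f) x * deriv (deriv (deriv f)) x ^ 2
      + 6 * m ^ 2 * deriv (deriv f) x ^ 4) := by
    refine hE.mul (((h4.pow 2).sub (((h2.const_mul (12 * m)).mul (h3.pow 2)))).add
      ((h2.pow 4).const_mul (6 * m ^ 2)))
  have hφ : SD (phiI m R f) := hR.sds.sd.mul hI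
  set p := fM m f with hp
  set k : ℝ → ℝ := fun x => fb f x - 2 * fM m f x with hk
  set l := fr R with hl
  set v := fa m f with hv
  set W : ℝ → ℝ := fun x => R x * (Real.exp (m * f x) * deriv (deriv f) x ^ 2) with hW
  have dp : ∀ x, HasDerivAt p (v x) x := fM_d h
  have dk : ∀ x, HasDerivAt k (fE m f x) x := fun x =>
    ((fb_d h x).fun_sub ((fM_d h x).const_mul 2)).congr_deriv (by ring)
  have dl : ∀ x, HasDerivAt l (fo R x) x := fr_d hR
  have dv : ∀ x, HasDerivAt v (-((k x + 2 * p x) * v x)) x := fun x =>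
    (fa_d h x).congr_deriv (by simp only [hk, hp, hv]; ring)
  have dy : ∀ x : ℝ, x ≠ 0 → HasDerivAt (fun x : ℝ => 1 / x) (-(1 / x) ^ 2) x := fun x hx => by
    have := hasDerivAt_inv hx
    refine (this.congr_deriv ?_).congr_of_eventuallyEq ?_
    · field_simp
    · exact Eventually.of_forall fun y => one_div y
  have dW : ∀ x, HasDerivAt W (-(W x * (l x + 3 * p x + 2 * k x))) x := fun x => by
    have e1 := ((h.prof.d1 x).const_mul m).exp
    have e2 := (h.prof.bd.deriv.hasDerivAt x).fun_pow 2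
    refine ((Rd hR x).fun_mul (e1.fun_mul e2)).congr_deriv ?_
    simp only [hW, hl, hp, hk]
    rw [u3_eq h]
    unfold fM
    norm_num
    ring
  have hWpos : ∀ x, 0 < W x := fun x =>
    mul_pos (hR.pos x) (mul_pos (Real.exp_pos _) (pow_pos (u2_pos h x) 2))
  set G : ℝ → ℝ := fun x => W x * chi (p x) (k x) (l x) (v x) (1 / x) with hG
  refine integral_nonneg_of_cert (G := G)
    (G' := fun x => -(W x * (l x + 3 * p x + 2 * k x)) * chi (p x) (k x) (l x) (v x) (1 / x) +
      W x * chi' (p x) (k x) (l x) (v x) (1 / x) (fE m f x) (fo R x))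
    hφ.cont hφ.integrable ?_ ?_ ?_ ?_ ?_
  · -- evenness
    intro x
    unfold phiI
    rw [hR.even, h.even, u4_even h, u3_odd h, u2_even h]
    ring
  · intro x hx
    exact (dW x).fun_mul (chi_hasDerivAt (y := fun x => 1 / x) (dp x) (dk x) (dl x) (dv x)
      (dy x hx.ne'))
  · intro x hx
    have hq := cert (p := p x) (k := k x) (l := l x) (v := v x) (y := 1 / x) (w := fE m f x)
      (o := fo R x) ?_ ?_ (fr_nonneg hR hx) (fa_pos h hm x).le ?_ (fo_le hR hx)
    · have e : phiI m R f x + (-(W x * (l x + 3 * p x + 2 * k x)) *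
          chi (p x) (k x) (l x) (v x) (1 / x) +
          W x * chi' (p x) (k x) (l x) (v x) (1 / x) (fE m f x) (fo R x)) =
          W x * Qc (p x) (k x) (l x) (v x) (1 / x) (fE m f x) (fo R x) := by
        have e1 : phiI m R f x = W x * (((k x + 2 * p x) ^ 2 - 2 * v x - fE m f x) ^ 2 -
            12 * (k x + 2 * p x) ^ 2 * v x + 6 * v x ^ 2) := by
          unfold phiI
          rw [u4_eq h, u3_eq h]
          simp only [hW, hk, hp, hv]
          unfold fa
          ring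
        rw [e1]
        unfold Qc
        ring
      rw [e]
      exact mul_nonneg (hWpos x).le hq
    · -- `p x > 0`
      have := h.strictMono hx
      rw [h.d0] at this
      exact mul_pos hm this
    · have := fb_ge h hx.le (m := m)
      simp only [hk]
      linarith
    · have := fa_le h hm hx.le
      rw [mul_one_div, le_div_iff₀ hx]
      simp only [hp, hv]
      linarith
  · -- limit at zero
    have tp : Tendsto p (𝓝[>] 0) (𝓝 0) := by
      have := (dp 0).continuousAt.tendsto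
      rw [hp, fM0 h] at this
      exact this.mono_left nhdsWithin_le_nhds
    have tk : Tendsto k (𝓝[>] 0) (𝓝 0) := by
      have := (dk 0).continuousAt.tendsto
      have e : k 0 = 0 := by simp only [hk]; rw [fb0 h, fM0 h]; ring
      rw [e] at this
      exact this.mono_left nhdsWithin_le_nhds
    have tl : Tendsto l (𝓝[>] 0) (𝓝 0) := by
      have := (dl 0).continuousAt.tendsto
      rw [hl, fr0 hR] at this
      exact this.mono_left nhdsWithin_le_nhds
    have tv : Tendsto v (𝓝[>] 0) (𝓝 (v 0)) :=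
      (dv 0).continuousAt.tendsto.mono_left nhdsWithin_le_nhds
    have tW : Tendsto W (𝓝[>] 0) (𝓝 (W 0)) :=
      (dW 0).continuousAt.tendsto.mono_left nhdsWithin_le_nhds
    have tpy : Tendsto (fun x => p x * (1 / x)) (𝓝[>] 0) (𝓝 (v 0)) :=
      slope_tendsto (fM0 h) (dp 0)
    have tky : Tendsto (fun x => k x * (1 / x)) (𝓝[>] 0) (𝓝 (fE m f 0)) := by
      refine slope_tendsto ?_ (dk 0)
      simp only [hk]; rw [fb0 h, fM0 h]; ring
    have e : G = fun x => W x * (5 * (p x) ^ 3 + 34 / 5 * ((p x) ^ 2 * k x)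
      + 29 / 10 * (p x * (k x) ^ 2)
      + 2 / 5 * (k x) ^ 3 + (-(49 / 5)) * (p x * v x) + (-(22 / 5)) * (k x * v x)
      + 7 / 10 * (l x * v x) + (-(7 / 10)) * (l x * (p x * (1 / x))) + (-2) * ((p x) ^ 2 * l x)
      + (-(8 / 5)) * (p x * k x * l x) + (-(1 / 5)) * ((k x) ^ 2 * l x)
      + (-(1 / 10)) * (p x * (p x * (1 / x))) + (-(1 / 10)) * (k x * (k x * (1 / x)))) := by
      funext x
      simp only [hG]
      unfold chi
      ring
    rw [e]
    have t := tW.mul (((((((((((((((tp.pow 3).const_mul 5).add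
      (((tp.pow 2).mul tk).const_mul (34 / 5))).add
      ((tp.mul (tk.pow 2)).const_mul (29 / 10))).add
      ((tk.pow 3).const_mul (2 / 5))).add
      ((tp.mul tv).const_mul (-(49 / 5)))).add
      ((tk.mul tv).const_mul (-(22 / 5)))).add
      ((tl.mul tv).const_mul (7 / 10))).add
      ((tl.mul tpy).const_mul (-(7 / 10)))).add
      (((tp.pow 2).mul tl).const_mul (-2))).add
      (((tp.mul tk).mul tl).const_mul (-(8 / 5)))).add
      (((tk.pow 2).mul tl).const_mul (-(1 / 5)))).add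
      ((tp.mul tpy).const_mul (-(1 / 10)))).add
      ((tk.mul tky).const_mul (-(1 / 10)))))
    refine t.congr' ?_ |>.trans ?_
    · exact Eventually.of_forall fun x => rfl
    · norm_num
  · -- limit at infinity
    have hEp : EG p := (h.prof.bd.const_mul m).eg
    have hEv : EG v := (h.prof.bd.deriv.const_mul m).eg
    have hEk : EG k := (fb_eg h).sub (hEp.const_mul 2)
    have hS0 : SD W := hR.sds.sd.mul (hE.mul (h2.pow 2))
    have hS1 : SD (fun x => W x * l x) := by
      have : SD fun x => deriv R x * (-1 * (Real.exp (m * f x) * deriv (deriv f) x ^ 2)) :=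
        hR.sds.deriv.sd.mul ((hE.mul (h2.pow 2)).const_mul (-1))
      refine this.congr fun x => ?_
      simp only [hW, hl]
      unfold fr
      have := (hR.pos x).ne'
      field_simp
    have hA : SD fun x => W x * (5 * (p x) ^ 3 + 34 / 5 * ((p x) ^ 2 * k x)
        + 29 / 10 * (p x * (k x) ^ 2) + 2 / 5 * (k x) ^ 3 + (-(49 / 5)) * (p x * v x)
        + (-(22 / 5)) * (k x * v x)) :=
      hS0.mul (((((((hEp.pow 3).const_mul 5).add (((hEp.pow 2).mul hEk).const_mul (34 / 5))).add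
        ((hEp.mul (hEk.pow 2)).const_mul (29 / 10))).add ((hEk.pow 3).const_mul (2 / 5))).add
        ((hEp.mul hEv).const_mul (-(49 / 5)))).add ((hEk.mul hEv).const_mul (-(22 / 5))))
    have hB : SD fun x => (W x * l x) * (7 / 10 * v x + (-2) * (p x) ^ 2 +
        (-(8 / 5)) * (p x * k x) + (-(1 / 5)) * (k x) ^ 2) :=
      hS1.mul ((((hEv.const_mul (7 / 10)).add ((hEp.pow 2).const_mul (-2))).add
        ((hEp.mul hEk).const_mul (-(8 / 5)))).add ((hEk.pow 2).const_mul (-(1 / 5))))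
    have hC : SD fun x => W x * ((-(1 / 10)) * (p x) ^ 2 + (-(1 / 10)) * (k x) ^ 2) :=
      hS0.mul (((hEp.pow 2).const_mul (-(1 / 10))).add ((hEk.pow 2).const_mul (-(1 / 10))))
    have hD : SD fun x => (W x * l x) * ((-(7 / 10)) * p x) :=
      hS1.mul (hEp.const_mul (-(7 / 10)))
    have ty : Tendsto (fun x : ℝ => 1 / x) atTop (𝓝 0) := by
      simpa using tendsto_inv_atTop_zero (𝕜 := ℝ)
    have t := ((hA.tendsto.add hB.tendsto).add ((hC.tendsto.add hD.tendsto).mul ty))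
    have e0 : (0 : ℝ) + 0 + (0 + 0) * 0 = 0 := by norm_num
    rw [e0] at t
    refine t.congr fun x => ?_
    simp only [hG]
    unfold chi
    ring

/-! ### convexity of `E u_xx²` on a block -/

/-- the block integrand in terms of `phiI` -/
theorem block_phiI {β m : ℝ} {Φ : ℝ → ℝ} (h : Inv β m Φ) (hm : 0 < m) (S : ℝ → ℝ) (v y : ℝ) :
    S y * (Wk Φ m 0 v y * (U Φ m 4 v y ^ 2 - 12 * m * U Φ m 2 v y * U Φ m 3 v y ^ 2 +
      6 * m ^ 2 * U Φ m 2 v y ^ 4)) = phiI m S (gaussOp m v Φ) y := by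
  unfold phiI
  rw [W0_eq h.prof hm.ne', U_succ Φ m 3, U_three, U_two, U_zero]




/-- the Gaussian density is in the class (G) -/
theorem gd_gw {σ : ℝ} (hσ : 0 < σ) : GW (gd σ) := by
  have e : ∀ x, -deriv (gd σ) x / gd σ x = x / σ := by
    intro x
    rw [(gd_hasDerivAt hσ.ne' x).deriv]
    have := (gd_pos hσ x).ne'
    field_simp
  refine ⟨gd_sds hσ, gd_pos hσ, gd_neg σ, fun x hx => ?_, ?_⟩
  · rw [e]
    positivity
  · intro x hx y hy _
    simp only [e]
    have hx' : x ≠ 0 := (mem_Ioi.1 hx).ne'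
    have hy' : y ≠ 0 := (mem_Ioi.1 hy).ne'
    refine le_of_eq ?_
    field_simp


end

end Crest.Agent.R339.B
end

-- ▼ part R339/B107GC
section

/-!
Row 339 (helper107): the class of starting measures, closure under the passage to the next block.
-/

set_option autoImplicit false

namespace Crest.Agent.R339.B

open MeasureTheory ProbabilityTheory Filter Topology Set
open Crest.Agent.R164.GC
open Crest.ProbabilityR.InvariantGlass (gaussOp)

noncomputable section

theorem GW.cmul {R : ℝ → ℝ} (h : GW R) {c : ℝ} (hc : 0 < c) : GW (fun x => c * R x) := by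
  have hd : ∀ x, deriv (fun x => c * R x) x = c * deriv R x := fun x =>
    ((h.sds.hasDerivAt x).const_mul c).deriv
  have e : ∀ x, -deriv (fun x => c * R x) x / (c * R x) = -deriv R x / R x := by
    intro x
    rw [hd]
    have := (h.pos x).ne'
    field_simp
  refine ⟨?_, fun x => mul_pos hc (h.pos x), fun x => by rw [h.even], fun x hx => ?_, ?_⟩
  · have := h.sds.mul (EGS.const c)
    have e : (fun x => c * R x) = fun x => R x * c := by funext x; ring
    rw [e]; exact this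
  · rw [e]; exact h.r0 x hx
  · have e2 : (fun x => (-deriv (fun x => c * R x) x / (c * R x)) / x) =
        fun x => (-deriv R x / R x) / x := by funext x; rw [e]
    rw [e2]; exact h.r1

/-- multiplication by `e^{-cΦ}` -/
theorem GW.mulExp {R : ℝ → ℝ} (h : GW R) {β m : ℝ} {Φ : ℝ → ℝ} (hΦ : Inv β m Φ) (hm : 0 < m) {c : ℝ}
    (hc : 0 ≤ c) : GW (fun x => R x * Real.exp (-c * Φ x)) := by
  have hE := hΦ.prof.exp_egs (-c)
  have hd : ∀ x, deriv (fun x => R x * Real.exp (-c * Φ x)) x =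
      (deriv R x - R x * (c * deriv Φ x)) * Real.exp (-c * Φ x) := fun x => by
    have := (h.sds.hasDerivAt x).fun_mul ((hΦ.prof.d1 x).const_mul (-c)).exp
    rw [this.deriv]
    ring
  have e : ∀ x, -deriv (fun x => R x * Real.exp (-c * Φ x)) x / (R x * Real.exp (-c * Φ x)) =
      -deriv R x / R x + c * deriv Φ x := by
    intro x
    rw [hd]
    have h1 := (h.pos x).ne'
    have h2 := (Real.exp_pos (-c * Φ x)).ne'
    field_simp
    ring
  -- `Φ'/x` is nonincreasing
  have hΦ1 : AntitoneOn (fun x => deriv Φ x / x) (Ioi 0) := by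
    have hdd : ∀ x, 0 < x → HasDerivAt (fun x => deriv Φ x / x)
        ((deriv (deriv Φ) x * x - deriv Φ x * 1) / x ^ 2) x := fun x hx =>
      (hΦ.prof.bd.hasDerivAt x).fun_div (hasDerivAt_id' x) hx.ne'
    refine antitoneOn_of_deriv_nonpos (convex_Ioi 0) (fun x hx =>
      (hdd x hx).continuousAt.continuousWithinAt) (fun x hx => ?_) fun x hx => ?_
    · rw [interior_Ioi] at hx
      exact (hdd x hx).differentiableAt.differentiableWithinAt
    · rw [interior_Ioi] at hx
      have hx' : (0 : ℝ) < x := hx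
      rw [(hdd x hx').deriv]
      refine div_nonpos_of_nonpos_of_nonneg ?_ (by positivity)
      have h2 := fa_le hΦ hm hx'.le
      unfold fa fM at h2
      have h3 : m * (deriv (deriv Φ) x * x - deriv Φ x * 1) ≤ 0 := by linarith
      exact nonpos_of_mul_nonpos_right h3 hm
  refine ⟨h.sds.mul hE, fun x => mul_pos (h.pos x) (Real.exp_pos _), fun x => by
    rw [h.even, hΦ.even], fun x hx => ?_, ?_⟩
  · rw [e]
    exact add_nonneg (h.r0 x hx) (mul_nonneg hc (hΦ.nonneg hx.le))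
  · intro x hx y hy hxy
    simp only [e]
    rw [add_div, add_div]
    refine add_le_add (h.r1 hx hy hxy) ?_
    have := hΦ1 hx hy hxy
    simp only at this
    rw [mul_div_assoc, mul_div_assoc]
    exact mul_le_mul_of_nonneg_left this hc

/-- the class of starting measures -/
def GC (ν : Measure ℝ) : Prop :=
  (∃ c : ℝ, 0 < c ∧ ν = ENNReal.ofReal c • Measure.dirac 0) ∨ (∃ R, GW R ∧ ν = dens R)

/-- preservation of the class (G) by the heat flow, as a hypothesis -/
def HeatGW : Prop := ∀ R : ℝ → ℝ, GW R → ∀ τ : ℝ, 0 < τ → GW (H (√τ) R)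

theorem GC.em {ν : Measure ℝ} (h : GC ν) : EM ν := by
  rcases h with ⟨c, _, rfl⟩ | ⟨R, hR, rfl⟩
  · exact (EM.dirac 0).smul ENNReal.ofReal_ne_top
  · exact dens_em hR.sds.sd fun x => (hR.pos x).le

theorem conv_pt (hH : HeatGW) {β m : ℝ} {Φ : ℝ → ℝ} (h : Inv β m Φ) (hm : 0 < m) (hmβ : m ≤ β)
    {ν : Measure ℝ} (hν : GC ν) {d τ : ℝ} (h1 : 0 < τ) (_h2 : τ < d) :
    0 ≤ EE Φ m d ν (fun v x => U Φ m 4 v x ^ 2 - 12 * m * U Φ m 2 v x * U Φ m 3 v x ^ 2 +
      6 * m ^ 2 * U Φ m 2 v x ^ 4) τ := by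
  rcases hν with ⟨c, hc, rfl⟩ | ⟨R, hR, rfl⟩
  · rw [EE_dirac m _ _ d h1]
    have := core (h.step hm hmβ (d - τ)) hm (gd_gw h1)
    have e : ∫ y, (ENNReal.ofReal c).toReal * gd τ y * (Wk Φ m 0 (d - τ) y *
        (U Φ m 4 (d - τ) y ^ 2 -
        12 * m * U Φ m 2 (d - τ) y * U Φ m 3 (d - τ) y ^ 2 + 6 * m ^ 2 * U Φ m 2 (d - τ) y ^ 4)) =
        (ENNReal.ofReal c).toReal * ∫ x, phiI m (gd τ) (gaussOp m (d - τ) Φ) x := by
      rw [← integral_const_mul]
      refine integral_congr_ae (Eventually.of_forall fun y => ?_)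
      show (ENNReal.ofReal c).toReal * gd τ y * (Wk Φ m 0 (d - τ) y * (U Φ m 4 (d - τ) y ^ 2 -
        12 * m * U Φ m 2 (d - τ) y * U Φ m 3 (d - τ) y ^ 2 + 6 * m ^ 2 * U Φ m 2 (d - τ) y ^ 4)) =
        (ENNReal.ofReal c).toReal * phiI m (gd τ) (gaussOp m (d - τ) Φ) y
      rw [← block_phiI h hm, mul_assoc]
    rw [e]
    exact mul_nonneg ENNReal.toReal_nonneg this
  · rw [EE_dens h.prof m hR.sds.sd (fun x => (hR.pos x).le)
      ((tb_LU2sq h.prof hm.ne').ugL h.prof) d h1]
    have := core (h.step hm hmβ (d - τ)) hm (hH R hR τ h1)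
    refine this.trans (le_of_eq ?_)
    refine integral_congr_ae (Eventually.of_forall fun y => ?_)
    exact (block_phiI h hm _ _ _).symm

theorem GC.next (hH : HeatGW) {ν : Measure ℝ} (hν : GC ν) {β m m' : ℝ} {Φ : ℝ → ℝ} {d : ℝ}
    (hΦ : Inv β m' Φ) (hm : 0 < m) (hmm : m ≤ m') (hd : 0 < d) :
    ∃ ν', GC ν' ∧ ∀ φ : ℝ → ℝ, EG φ → ∫ y, φ y ∂ν' = ∫ x, H (√d)
      (fun y => φ y * Real.exp ((m - m') * Φ y)) x ∂ν := by
  have hE : EG fun y => Real.exp ((m - m') * Φ y) := (hΦ.prof.exp_egs _).eg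
  have hc0 : 0 ≤ m' - m := sub_nonneg.2 hmm
  have hexp : ∀ y, Real.exp (-(m' - m) * Φ y) = Real.exp ((m - m') * Φ y) := by
    intro y; congr 1; ring
  rcases hν with ⟨c, hc, rfl⟩ | ⟨R, hR, rfl⟩
  · have hG := ((gd_gw hd).cmul hc).mulExp hΦ (hm.trans_le hmm) hc0
    refine ⟨dens fun x => c * gd d x * Real.exp (-(m' - m) * Φ x), Or.inr ⟨_, hG, rfl⟩,
      fun φ hφ => ?_⟩
    rw [integral_dens hG.sds.sd (fun x => (hG.pos x).le), integral_smul_measure, integral_dirac,
      ENNReal.toReal_ofReal hc.le, H_eq_gd _ hd, smul_eq_mul, ← integral_const_mul]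
    refine integral_congr_ae (Eventually.of_forall fun y => ?_)
    simp only [hexp, sub_zero]
    ring
  · have hG := (hH R hR d hd).mulExp hΦ (hm.trans_le hmm) hc0
    refine ⟨dens fun x => H (√d) R x * Real.exp (-(m' - m) * Φ x), Or.inr ⟨_, hG, rfl⟩,
      fun φ hφ => ?_⟩
    rw [integral_dens hG.sds.sd (fun x => (hG.pos x).le),
      integral_dens hR.sds.sd (fun x => (hR.pos x).le), heat_symm hR.sds.sd (hφ.mul hE) hd]
    refine integral_congr_ae (Eventually.of_forall fun y => ?_)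
    simp only [hexp]
    ring

/-- the structure used by the gluing -/
theorem gclass_of_heat (hH : HeatGW) (β : ℝ) : Var.GClass β GC where
  em := fun _ h => h.em
  dirac := fun c hc => Or.inl ⟨c, hc, rfl⟩
  next := fun _ hν _ _ _ _ hΦ hm hmm _ hd => GC.next hH hν hΦ hm hmm hd
  conv := fun _ hν _ _ _ _ h hm hmβ h1 h2 => conv_pt hH h hm hmβ hν h1 h2

end

end Crest.Agent.R339.B
end

-- ▼ part R339/GW350
section

/-!
# R339, part (B): class (G) is preserved (helper350)

`GW R` : `R` even, positive, superexponentially decaying, `r = -R'/R ≥ 0` and `r/x` nonincreasing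
on `x > 0`.  We prove that it is stable under the heat flow, by one Chebyshev inequality.
-/

set_option autoImplicit false

namespace Crest.Agent.R339.B

open MeasureTheory ProbabilityTheory Filter Topology Set
open Crest.Agent.R164.GC
open Crest.ProbabilityR.InvariantGlass (gaussOp)

noncomputable section

/-! ### Elementary inequalities for `sinh` -/

theorem sinh_mul_mono {a b : ℝ} (ha : 0 ≤ a) (hab : a ≤ b) :
    b * Real.sinh a ≤ a * Real.sinh b := by
  rcases ha.eq_or_lt with rfl | ha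
  · simp
  have hb : 0 < b := ha.trans_le hab
  have hpos : ∀ t : ℝ, 0 ≤ t → 0 ≤ t * Real.cosh t - Real.sinh t := by
    have hm : MonotoneOn (fun t : ℝ => t * Real.cosh t - Real.sinh t) (Ici 0) := by
      have hd : ∀ t : ℝ, HasDerivAt (fun t : ℝ => t * Real.cosh t - Real.sinh t)
          (t * Real.sinh t) t := by
        intro t
        refine (((hasDerivAt_id' t).mul (Real.hasDerivAt_cosh t)).sub
          (Real.hasDerivAt_sinh t)).congr_deriv ?_
        ring
      refine monotoneOn_of_deriv_nonneg (convex_Ici 0)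
        (fun t _ => (hd t).continuousAt.continuousWithinAt)
        (fun t _ => (hd t).differentiableAt.differentiableWithinAt) fun t ht => ?_
      rw [interior_Ici] at ht
      rw [(hd t).deriv]
      exact mul_nonneg (mem_Ioi.1 ht).le (Real.sinh_nonneg_iff.2 (mem_Ioi.1 ht).le)
    intro t ht
    have := hm (mem_Ici.2 le_rfl) (mem_Ici.2 ht) ht
    simpa using this
  have hm : MonotoneOn (fun t : ℝ => Real.sinh t / t) (Ioi 0) := by
    have hd : ∀ t : ℝ, 0 < t → HasDerivAt (fun t : ℝ => Real.sinh t / t)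
        ((Real.cosh t * t - Real.sinh t * 1) / t ^ 2) t := fun t ht =>
      (Real.hasDerivAt_sinh t).fun_div (hasDerivAt_id' t) ht.ne'
    refine monotoneOn_of_deriv_nonneg (convex_Ioi 0)
      (fun t ht => (hd t ht).continuousAt.continuousWithinAt)
      (fun t ht => ?_) fun t ht => ?_
    · rw [interior_Ioi] at ht
      exact (hd t ht).differentiableAt.differentiableWithinAt
    · rw [interior_Ioi] at ht
      rw [(hd t ht).deriv]
      have := hpos t (mem_Ioi.1 ht).le
      exact div_nonneg (by linarith) (by positivity)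
  have h := hm (mem_Ioi.2 ha) (mem_Ioi.2 hb) hab
  simp only at h
  rw [div_le_div_iff₀ ha hb] at h
  linarith

theorem cosh_sinh_mono {h y z : ℝ} (hh : 0 ≤ h) (hz : 0 ≤ z) (hzy : z ≤ y) :
    0 ≤ y * (Real.cosh (h * y) * Real.sinh (h * z)) -
      z * (Real.cosh (h * z) * Real.sinh (h * y)) := by
  have h1 : 0 ≤ h * (y - z) := mul_nonneg hh (by linarith)
  have h2 : h * (y - z) ≤ h * (y + z) := mul_le_mul_of_nonneg_left (by linarith) hh
  have h3 := sinh_mul_mono h1 h2
  rcases hh.eq_or_lt with rfl | hh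
  · simp
  have h4 : (y + z) * Real.sinh (h * (y - z)) ≤ (y - z) * Real.sinh (h * (y + z)) := by
    have h5 : h * ((y + z) * Real.sinh (h * (y - z))) ≤ h * ((y - z) * Real.sinh (h * (y + z))) := by
      linarith
    exact le_of_mul_le_mul_left h5 hh
  have e1 : Real.sinh (h * (y + z)) = Real.sinh (h * y) * Real.cosh (h * z) +
      Real.cosh (h * y) * Real.sinh (h * z) := by rw [mul_add, Real.sinh_add]
  have e2 : Real.sinh (h * (y - z)) = Real.sinh (h * y) * Real.cosh (h * z) -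
      Real.cosh (h * y) * Real.sinh (h * z) := by rw [mul_sub, Real.sinh_sub]
  rw [e1, e2] at h4
  linarith

/-! ### The Chebyshev inequality in integrated form -/

theorem cheb {fa fb fc fd : ℝ → ℝ} (ia : Integrable fa) (ib : Integrable fb)
    (ic : Integrable fc) (id : Integrable fd)
    (h : ∀ y z, 0 ≤ -(fa y * fb z) - fa z * fb y + fc y * fd z + fc z * fd y) :
    0 ≤ (∫ y, fc y) * (∫ y, fd y) - (∫ y, fa y) * (∫ y, fb y) := by
  have h1 : ∀ z, 0 ≤ -((∫ y, fa y) * fb z) - fa z * (∫ y, fb y) + (∫ y, fc y) * fd z +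
      fc z * (∫ y, fd y) := by
    intro z
    have i1 : Integrable fun y => -(fa y * fb z) := (ia.mul_const _).neg
    have i2 : Integrable fun y => fa z * fb y := ib.const_mul _
    have i3 : Integrable fun y => fc y * fd z := ic.mul_const _
    have i4 : Integrable fun y => fc z * fd y := id.const_mul _
    have i5 : Integrable fun y => -(fa y * fb z) - fa z * fb y := i1.sub i2
    have i6 : Integrable fun y => -(fa y * fb z) - fa z * fb y + fc y * fd z := i5.add i3
    have e : ∫ y, (-(fa y * fb z) - fa z * fb y + fc y * fd z + fc z * fd y) =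
        -((∫ y, fa y) * fb z) - fa z * (∫ y, fb y) + (∫ y, fc y) * fd z +
          fc z * (∫ y, fd y) := by
      rw [integral_add i6 i4, integral_add i5 i3,
        integral_sub i1 i2, integral_neg, integral_mul_const, integral_const_mul,
        integral_mul_const, integral_const_mul]
    rw [← e]
    exact integral_nonneg fun y => h y z
  have h2 : 0 ≤ ∫ z, (-((∫ y, fa y) * fb z) - fa z * (∫ y, fb y) + (∫ y, fc y) * fd z +
      fc z * (∫ y, fd y)) := integral_nonneg fun z => h1 z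
  have i1 : Integrable fun z => -((∫ y, fa y) * fb z) := (ib.const_mul _).neg
  have i2 : Integrable fun z => fa z * (∫ y, fb y) := ia.mul_const _
  have i3 : Integrable fun z => (∫ y, fc y) * fd z := id.const_mul _
  have i4 : Integrable fun z => fc z * (∫ y, fd y) := ic.mul_const _
  have i5 : Integrable fun z => -((∫ y, fa y) * fb z) - fa z * (∫ y, fb y) := i1.sub i2
  have i6 : Integrable fun z => -((∫ y, fa y) * fb z) - fa z * (∫ y, fb y) +
      (∫ y, fc y) * fd z := i5.add i3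
  rw [integral_add i6 i4, integral_add i5 i3,
    integral_sub i1 i2, integral_neg, integral_const_mul, integral_mul_const,
    integral_const_mul, integral_mul_const] at h2
  linarith

/-! ### Parity decomposition of the heat flow -/

/-- the Gaussian factor -/
def ge (τ y : ℝ) : ℝ := Real.exp (-y ^ 2 / (2 * τ))

theorem ge_pos (τ y : ℝ) : 0 < ge τ y := Real.exp_pos _

theorem ge_neg (τ y : ℝ) : ge τ (-y) = ge τ y := by unfold ge; rw [neg_sq]

theorem ge_cont (τ : ℝ) : Continuous (ge τ) := by unfold ge; fun_prop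

theorem gd_sub {τ : ℝ} (hτ : 0 < τ) (x y : ℝ) :
    gd τ (y - x) = gd τ x * (ge τ y * Real.exp (x / τ * y)) := by
  unfold gd ge
  have e : -(y - x) ^ 2 / (2 * τ) = -x ^ 2 / (2 * τ) + (-y ^ 2 / (2 * τ) + x / τ * y) := by
    field_simp
    ring
  rw [e, Real.exp_add, Real.exp_add]
  ring

theorem ge_exp_sd {τ : ℝ} (hτ : 0 < τ) (a : ℝ) : SD fun y => ge τ y * Real.exp (a * y) := by
  have h1 : SD (ge τ) := by
    refine SD.of_gauss (ge_cont τ) (K := 1) (c := 1 / (2 * τ)) zero_le_one (by positivity)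
      fun y => ?_
    rw [abs_of_pos (ge_pos τ y), one_mul]
    refine le_of_eq ?_
    unfold ge
    congr 1
    field_simp
  refine h1.mul ⟨by fun_prop, 1, |a|, zero_le_one, abs_nonneg a, fun x => ?_⟩
  rw [abs_of_pos (Real.exp_pos _), one_mul]
  refine Real.exp_le_exp.2 ?_
  calc a * x ≤ |a * x| := le_abs_self _
    _ = |a| * |x| := abs_mul _ _

theorem ge_cosh_sd {τ : ℝ} (hτ : 0 < τ) (a : ℝ) : SD fun y => ge τ y * Real.cosh (a * y) := by
  have h1 := ((ge_exp_sd hτ a).mul (EG.const (1 / 2))).add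
    ((ge_exp_sd hτ (-a)).mul (EG.const (1 / 2)))
  have e : (fun y => ge τ y * Real.cosh (a * y)) =
      fun x => ge τ x * Real.exp (a * x) * (1 / 2) + ge τ x * Real.exp (-a * x) * (1 / 2) := by
    funext y
    rw [Real.cosh_eq, neg_mul]
    ring
  rw [e]
  exact h1

theorem ge_sinh_sd {τ : ℝ} (hτ : 0 < τ) (a : ℝ) : SD fun y => ge τ y * Real.sinh (a * y) := by
  have h1 := ((ge_exp_sd hτ a).mul (EG.const (1 / 2))).add
    ((ge_exp_sd hτ (-a)).mul (EG.const (-(1 / 2))))
  have e : (fun y => ge τ y * Real.sinh (a * y)) =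
      fun x => ge τ x * Real.exp (a * x) * (1 / 2) + ge τ x * Real.exp (-a * x) * (-(1 / 2)) := by
    funext y
    rw [Real.sinh_eq, neg_mul]
    ring
  rw [e]
  exact h1

theorem H_odd {τ : ℝ} (hτ : 0 < τ) {φ : ℝ → ℝ} (hφ : EG φ) (ho : ∀ y, φ (-y) = -φ y) (x : ℝ) :
    H (√τ) φ x = gd τ x * ∫ y, ge τ y * Real.sinh (x / τ * y) * φ y := by
  rw [H_eq_gd φ hτ x]
  have e1 : (fun y => gd τ (y - x) * φ y) =
      fun y => gd τ x * (ge τ y * Real.exp (x / τ * y) * φ y) := by
    funext y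
    rw [gd_sub hτ]
    ring
  rw [e1, integral_const_mul]
  congr 1
  have i1 : Integrable fun y => ge τ y * Real.sinh (x / τ * y) * φ y :=
    ((ge_sinh_sd hτ _).mul hφ).integrable
  have i2 : Integrable fun y => ge τ y * Real.cosh (x / τ * y) * φ y :=
    ((ge_cosh_sd hτ _).mul hφ).integrable
  have e2 : (fun y => ge τ y * Real.exp (x / τ * y) * φ y) = fun y =>
      ge τ y * Real.cosh (x / τ * y) * φ y + ge τ y * Real.sinh (x / τ * y) * φ y := by
    funext y
    rw [← Real.cosh_add_sinh]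
    ring
  rw [e2, integral_add i2 i1]
  have h0 : ∫ y, ge τ y * Real.cosh (x / τ * y) * φ y = 0 := by
    have h1 := integral_neg_eq_self (fun y => ge τ y * Real.cosh (x / τ * y) * φ y) volume
    have h2 : (fun y => ge τ (-y) * Real.cosh (x / τ * -y) * φ (-y)) =
        fun y => -(ge τ y * Real.cosh (x / τ * y) * φ y) := by
      funext y
      rw [ge_neg, ho, show x / τ * -y = -(x / τ * y) by ring, Real.cosh_neg]
      ring
    rw [h2, integral_neg] at h1
    linarith
  rw [h0, zero_add]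

theorem H_even {τ : ℝ} (hτ : 0 < τ) {φ : ℝ → ℝ} (hφ : EG φ) (ho : ∀ y, φ (-y) = φ y) (x : ℝ) :
    H (√τ) φ x = gd τ x * ∫ y, ge τ y * Real.cosh (x / τ * y) * φ y := by
  rw [H_eq_gd φ hτ x]
  have e1 : (fun y => gd τ (y - x) * φ y) =
      fun y => gd τ x * (ge τ y * Real.exp (x / τ * y) * φ y) := by
    funext y
    rw [gd_sub hτ]
    ring
  rw [e1, integral_const_mul]
  congr 1
  have i1 : Integrable fun y => ge τ y * Real.sinh (x / τ * y) * φ y :=
    ((ge_sinh_sd hτ _).mul hφ).integrable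
  have i2 : Integrable fun y => ge τ y * Real.cosh (x / τ * y) * φ y :=
    ((ge_cosh_sd hτ _).mul hφ).integrable
  have e2 : (fun y => ge τ y * Real.exp (x / τ * y) * φ y) = fun y =>
      ge τ y * Real.cosh (x / τ * y) * φ y + ge τ y * Real.sinh (x / τ * y) * φ y := by
    funext y
    rw [← Real.cosh_add_sinh]
    ring
  rw [e2, integral_add i2 i1]
  have h0 : ∫ y, ge τ y * Real.sinh (x / τ * y) * φ y = 0 := by
    have h1 := integral_neg_eq_self (fun y => ge τ y * Real.sinh (x / τ * y) * φ y) volume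
    have h2 : (fun y => ge τ (-y) * Real.sinh (x / τ * -y) * φ (-y)) =
        fun y => -(ge τ y * Real.sinh (x / τ * y) * φ y) := by
      funext y
      rw [ge_neg, ho, show x / τ * -y = -(x / τ * y) by ring, Real.sinh_neg]
      ring
    rw [h2, integral_neg] at h1
    linarith
  rw [h0, add_zero]

/-- Stein's identity in terms of `H`. -/
theorem H_id_mul {φ : ℝ → ℝ} (h : EGS φ) (t x : ℝ) :
    H t (fun y => y * φ y) x = x * H t φ x + t ^ 2 * H t (deriv φ) x := by
  have h1 := stein h.eg h.deriv.eg h.hasDerivAt t x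
  have i1 := h.eg.int t x
  have i2 : Integrable (fun g => t * (g * φ (x + t * g))) (gaussianReal 0 1) :=
    (h.eg.int_mul t x).const_mul t
  have e : H t (fun y => y * φ y) x =
      ∫ g, (x * φ (x + t * g) + t * (g * φ (x + t * g))) ∂gaussianReal 0 1 := by
    unfold H
    refine integral_congr_ae (Eventually.of_forall fun g => ?_)
    show (x + t * g) * φ (x + t * g) = _
    ring
  rw [e, integral_add (i1.const_mul x) i2, integral_const_mul, integral_const_mul, h1]
  unfold H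
  ring

/-! ### The class `GW` -/

section GWs

variable {R : ℝ → ℝ}

theorem GW.odd (h : GW R) (x : ℝ) : deriv R (-x) = -deriv R x := deriv_neg_of_even h.even x

theorem GW.d0 (h : GW R) : deriv R 0 = 0 := by
  have := h.odd 0
  rw [neg_zero] at this
  linarith

theorem GW.dnonpos (h : GW R) {x : ℝ} (hx : 0 ≤ x) : deriv R x ≤ 0 := by
  rcases hx.eq_or_lt with rfl | hx
  · rw [h.d0]
  have h1 := h.r0 x hx
  have h2 := h.pos x
  by_contra hc
  push Not at hc
  have : -deriv R x / R x < 0 := div_neg_of_neg_of_pos (by linarith) h2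
  linarith

theorem GW.cross (h : GW R) {y z : ℝ} (hz : 0 ≤ z) (hzy : z ≤ y) :
    0 ≤ z * (deriv R y * R z) - y * (R y * deriv R z) := by
  rcases hz.eq_or_lt with rfl | hz
  · rw [h.d0]; simp
  have hy : 0 < y := hz.trans_le hzy
  have h1 := h.r1 (mem_Ioi.2 hz) (mem_Ioi.2 hy) hzy
  simp only at h1
  have h2 := h.pos y
  have h3 := h.pos z
  rw [div_div, div_div, div_le_div_iff₀ (by positivity) (by positivity)] at h1
  linarith

/-- the pointwise Chebyshev inequality -/
theorem GW.prod (h : GW R) {a : ℝ} (ha : 0 ≤ a) (y z : ℝ) :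
    0 ≤ (y * (Real.cosh (a * y) * Real.sinh (a * z)) -
      z * (Real.cosh (a * z) * Real.sinh (a * y))) *
      (z * (deriv R y * R z) - y * (R y * deriv R z)) := by
  -- nonnegative arguments
  have key : ∀ y z : ℝ, 0 ≤ y → 0 ≤ z → 0 ≤ (y * (Real.cosh (a * y) * Real.sinh (a * z)) -
      z * (Real.cosh (a * z) * Real.sinh (a * y))) *
      (z * (deriv R y * R z) - y * (R y * deriv R z)) := by
    intro y z hy hz
    rcases le_total z y with hzy | hyz
    · exact mul_nonneg (cosh_sinh_mono ha hz hzy) (h.cross hz hzy)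
    · have h1 := mul_nonneg (cosh_sinh_mono ha hy hyz) (h.cross hy hyz)
      have e : (y * (Real.cosh (a * y) * Real.sinh (a * z)) -
          z * (Real.cosh (a * z) * Real.sinh (a * y))) *
          (z * (deriv R y * R z) - y * (R y * deriv R z)) =
          (z * (Real.cosh (a * z) * Real.sinh (a * y)) -
          y * (Real.cosh (a * y) * Real.sinh (a * z))) *
          (y * (deriv R z * R y) - z * (R z * deriv R y)) := by ring
      rw [e]
      exact h1
  have key2 : ∀ y z : ℝ, 0 ≤ z → 0 ≤ (y * (Real.cosh (a * y) * Real.sinh (a * z)) -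
      z * (Real.cosh (a * z) * Real.sinh (a * y))) *
      (z * (deriv R y * R z) - y * (R y * deriv R z)) := by
    intro y z hz
    rcases le_total 0 y with hy | hy
    · exact key y z hy hz
    · have h1 := key (-y) z (by linarith) hz
      rw [mul_neg, Real.cosh_neg, Real.sinh_neg, h.odd, h.even] at h1
      refine h1.trans (le_of_eq ?_)
      ring
  rcases le_total 0 z with hz | hz
  · exact key2 y z hz
  · have h1 := key2 y (-z) (by linarith)
    rw [mul_neg, Real.cosh_neg, Real.sinh_neg, h.odd, h.even] at h1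
    refine h1.trans (le_of_eq ?_)
    ring


/-- the key inequality -/
theorem GW.key (h : GW R) {τ : ℝ} (hτ : 0 < τ) {x : ℝ} (hx : 0 ≤ x) :
    0 ≤ x * (H (√τ) R x * H (√τ) (deriv (deriv R)) x - H (√τ) (deriv R) x ^ 2) -
      H (√τ) R x * H (√τ) (deriv R) x := by
  have ht2 : √τ ^ 2 = τ := Real.sq_sqrt hτ.le
  have hE := h.sds.egs
  have hyR : EGS fun y => y * R y := id_egs.mul hE
  -- the moments
  set A0 := H (√τ) R x with hA0
  set A1 := H (√τ) (fun y => y * R y) x with hA1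
  set A2 := H (√τ) (fun y => y * (y * R y)) x with hA2
  set B0 := H (√τ) (deriv R) x with hB0
  set B1 := H (√τ) (fun y => y * deriv R y) x with hB1
  set T2 := H (√τ) (deriv (deriv R)) x with hT2
  have r1 : A1 = x * A0 + τ * B0 := by rw [hA1, H_id_mul hE, ht2]
  have r2 : B1 = x * B0 + τ * T2 := by rw [hB1, H_id_mul hE.deriv, ht2]
  have r3 : A2 = x * A1 + τ * (A0 + B1) := by
    rw [hA2, H_id_mul hyR, ht2]
    congr 2
    have e : deriv (fun y => y * R y) = fun y => R y + y * deriv R y := by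
      funext y
      have := (hasDerivAt_id' y).fun_mul (hE.hasDerivAt y)
      rw [this.deriv]
      ring
    rw [e, H_add hE.eg (id_egs.mul hE.deriv).eg]
  -- reduction to the moment inequality
  have hred : τ * (x * (A0 * T2 - B0 ^ 2) - A0 * B0) = A1 * B1 - A2 * B0 := by
    have e1 : τ * T2 = B1 - x * B0 := by linarith
    have e2 : τ * (x * (A0 * T2 - B0 ^ 2) - A0 * B0) =
        x * A0 * (τ * T2) - x * τ * B0 ^ 2 - τ * A0 * B0 := by ring
    rw [e2, e1, r3, r1]
    ring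
  have hcheb : 0 ≤ A1 * B1 - A2 * B0 := by
    have hx' : 0 ≤ x / τ := div_nonneg hx hτ.le
    have oA1 : A1 = gd τ x * ∫ y, ge τ y * Real.sinh (x / τ * y) * (y * R y) :=
      H_odd hτ hyR.eg (fun y => by rw [h.even]; ring) x
    have oA2 : A2 = gd τ x * ∫ y, ge τ y * Real.cosh (x / τ * y) * (y * (y * R y)) :=
      H_even hτ (id_egs.mul hyR).eg (fun y => by rw [h.even]; ring) x
    have oB0 : B0 = gd τ x * ∫ y, ge τ y * Real.sinh (x / τ * y) * deriv R y :=
      H_odd hτ hE.deriv.eg (fun y => h.odd y) x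
    have oB1 : B1 = gd τ x * ∫ y, ge τ y * Real.cosh (x / τ * y) * (y * deriv R y) :=
      H_even hτ (id_egs.mul hE.deriv).eg (fun y => by rw [h.odd]; ring) x
    have hc := cheb (fa := fun y => ge τ y * Real.cosh (x / τ * y) * (y * (y * R y)))
      (fb := fun y => ge τ y * Real.sinh (x / τ * y) * deriv R y)
      (fc := fun y => ge τ y * Real.cosh (x / τ * y) * (y * deriv R y))
      (fd := fun y => ge τ y * Real.sinh (x / τ * y) * (y * R y))
      ((ge_cosh_sd hτ _).mul (id_egs.mul hyR).eg).integrable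
      ((ge_sinh_sd hτ _).mul hE.deriv.eg).integrable
      ((ge_cosh_sd hτ _).mul (id_egs.mul hE.deriv).eg).integrable
      ((ge_sinh_sd hτ _).mul hyR.eg).integrable
      (fun y z => by
        have h1 := mul_nonneg (mul_pos (ge_pos τ y) (ge_pos τ z)).le (h.prod hx' y z)
        refine h1.trans (le_of_eq ?_)
        ring)
    rw [oA1, oA2, oB0, oB1]
    have hg : 0 ≤ gd τ x ^ 2 := sq_nonneg _
    have := mul_nonneg hg hc
    refine this.trans (le_of_eq ?_)
    ring
  rw [← hred] at hcheb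
  by_contra hneg
  push Not at hneg
  have := mul_neg_of_pos_of_neg hτ hneg
  linarith

/-- **Class (G) is preserved by the heat flow.** -/
theorem GW.heat (h : GW R) {τ : ℝ} (hτ : 0 < τ) : GW (H (√τ) R) := by
  have hE := h.sds.egs
  have hpos : ∀ x, 0 < H (√τ) R x := H_pos hE.eg h.pos _
  have hev : ∀ x, H (√τ) R (-x) = H (√τ) R x := by
    intro x
    rw [H_neg]
    congr 1
    funext y
    exact h.even y
  have hd1 : ∀ x, HasDerivAt (H (√τ) R) (H (√τ) (deriv R) x) x := H_hasDerivAt hE _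
  have hd2 : ∀ x, HasDerivAt (H (√τ) (deriv R)) (H (√τ) (deriv (deriv R)) x) x :=
    H_hasDerivAt hE.deriv _
  refine ⟨h.sds.heat _, hpos, hev, fun x hx => ?_, ?_⟩
  · rw [(hd1 x).deriv]
    refine div_nonneg ?_ (hpos x).le
    rw [H_odd hτ hE.deriv.eg (fun y => h.odd y) x]
    have h1 : ∫ y, ge τ y * Real.sinh (x / τ * y) * deriv R y ≤ 0 := by
      refine integral_nonpos fun y => ?_
      have hxt : 0 ≤ x / τ := div_nonneg hx.le hτ.le
      rcases le_total 0 y with hy | hy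
      · have h2 : 0 ≤ Real.sinh (x / τ * y) := Real.sinh_nonneg_iff.2 (mul_nonneg hxt hy)
        exact mul_nonpos_of_nonneg_of_nonpos (mul_nonneg (ge_pos τ y).le h2) (h.dnonpos hy)
      · have h2 : Real.sinh (x / τ * y) ≤ 0 :=
          Real.sinh_nonpos_iff.2 (mul_nonpos_of_nonneg_of_nonpos hxt hy)
        have h3 : 0 ≤ deriv R y := by
          have := h.dnonpos (x := -y) (by linarith)
          rw [h.odd] at this
          linarith
        exact mul_nonpos_of_nonpos_of_nonneg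
          (mul_nonpos_of_nonneg_of_nonpos (ge_pos τ y).le h2) h3
    have h2 := mul_nonpos_of_nonneg_of_nonpos (gd_pos hτ x).le h1
    linarith
  · have hd : ∀ x : ℝ, 0 < x → HasDerivAt
        (fun x => (-deriv (H (√τ) R) x / H (√τ) R x) / x)
        ((((-H (√τ) (deriv (deriv R)) x) * H (√τ) R x - (-H (√τ) (deriv R) x) *
          H (√τ) (deriv R) x) / H (√τ) R x ^ 2 * x - (-H (√τ) (deriv R) x / H (√τ) R x) * 1) /
          x ^ 2) x := by
      intro x hx
      rw [H_deriv hE]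
      exact (((hd2 x).fun_neg).fun_div (hd1 x) (hpos x).ne').fun_div (hasDerivAt_id' x) hx.ne'
    refine antitoneOn_of_deriv_nonpos (convex_Ioi 0)
      (fun x hx => (hd x hx).continuousAt.continuousWithinAt) (fun x hx => ?_) fun x hx => ?_
    · rw [interior_Ioi] at hx
      exact (hd x hx).differentiableAt.differentiableWithinAt
    · rw [interior_Ioi] at hx
      have hx0 : 0 < x := mem_Ioi.1 hx
      rw [(hd x hx0).deriv]
      have hk := h.key hτ hx0.le
      have hp := hpos x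
      have e : (((-H (√τ) (deriv (deriv R)) x) * H (√τ) R x - (-H (√τ) (deriv R) x) *
          H (√τ) (deriv R) x) / H (√τ) R x ^ 2 * x - (-H (√τ) (deriv R) x / H (√τ) R x) * 1) /
          x ^ 2 = -((x * (H (√τ) R x * H (√τ) (deriv (deriv R)) x - H (√τ) (deriv R) x ^ 2) -
          H (√τ) R x * H (√τ) (deriv R) x) / (H (√τ) R x ^ 2 * x ^ 2)) := by
        have := hp.ne'
        have := hx0.ne'
        field_simp
        ring
      rw [e, neg_nonpos]
      exact div_nonneg hk (by positivity)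

end GWs

end

end Crest.Agent.R339.B
end

-- ▼ part R339/B107GC2
section

/-!
Row 339 (helper107): the no-gap input of the gluing, complete (with helper350's `GW.heat`).
-/

set_option autoImplicit false

namespace Crest.Agent.R339.B

open MeasureTheory ProbabilityTheory Filter Topology Set

theorem heatGW : HeatGW := fun _ hR _ hτ => hR.heat hτ

/-- **the structure used by the gluing** -/
theorem gclass (β : ℝ) : Var.GClass β GC := gclass_of_heat heatGW β


end Crest.Agent.R339.B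
end

-- ▼ part R339/Var71M

set_option autoImplicit false

namespace Crest.Agent.R339.Var

open MeasureTheory ProbabilityTheory Filter Topology Set
open scoped Interval
open Crest.Agent.R164.GC Crest.Agent.R339.B
open Crest.ProbabilityR.InvariantGlass (gaussOp)

noncomputable section

/-- `gg` of this file and `V4.gg` agree. -/
theorem gg_V4 (β : ℝ) (l : List (ℝ × ℝ)) (t : ℝ) : V4.gg β l t 0 = gg β l t := rfl

/-- the Lipschitz constant of `E Φ_xx²` -/
def LC (β : ℝ) : ℝ := Real.exp (6 * β ^ 2) * (4 * β ^ 4) + 2 * β ^ 4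

theorem LC_pos {β : ℝ} (hβ : 0 < β) : 0 < LC β := by unfold LC; positivity

theorem gg_lip {β : ℝ} (hβ : 0 < β) {K : ℕ} (hK : 0 < K) {ε : ℝ} (hε : 0 < ε)
    {m : Fin K → ℝ} (hm : m ∈ cone K ε β) {s t : ℝ} (hs : s ∈ Icc (0:ℝ) 1)
    (ht : t ∈ Icc (0:ℝ) 1) : |gg β (grid m) s - gg β (grid m) t| ≤ LC β * |s - t| := by
  have hK' : (0:ℝ) < K := by exact_mod_cast hK
  have hd : (0:ℝ) < 1 / K := by positivity
  have hC : GClass β GC := gclass β
  have hA := adm_grid hε hm
  have hTT := TT_grid hK m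
  have hpos : ∀ p ∈ grid m, 0 < p.2 := fun p hp => by rw [grid_snd m p hp]; exact hd
  have hν : GC (nu0 β (grid m)) := hC.dirac _ (Real.exp_pos _)
  have hM : (Real.exp (6 * β ^ 2 * TT (grid m)) * (4 * β ^ 4) + 2 * β ^ 4) *
      mass β (grid m) (nu0 β (grid m)) ≤ LC β := by
    rw [hTT, mass_nu0, mul_one, mul_one]
    exact le_rfl
  have key : ∀ s ∈ Icc (0:ℝ) 1, ∀ t ∈ Icc (0:ℝ) 1, s ≤ t →
      |gg β (grid m) t - gg β (grid m) s| ≤ LC β * (t - s) := by
    intro s hs t ht hst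
    rw [gg_eq, gg_eq]
    exact G2_lip hβ hC (grid m) hA hpos _ hν hM s (by rw [hTT]; exact hs) t
      (by rw [hTT]; exact ht) hst
  rcases le_total s t with h | h
  · rw [abs_sub_comm, abs_sub_comm s t, abs_of_nonneg (sub_nonneg.2 h)]
    exact key s hs t ht h
  · rw [abs_of_nonneg (sub_nonneg.2 h)]
    exact key t ht s hs h

/-- all parameter choices at once -/
theorem exists_delta {β : ℝ} (hβ : 0 < β) {η : ℝ} (hη : 0 < η) : ∃ δ : ℝ, 0 < δ ∧
    δ ≤ 1 / (4 * β) ∧ 4 * δ < (1 / (4 * β * (1 + (β ^ 2 + 1)))) ^ 2 ∧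
    2 * δ + 3 * Real.sqrt ((β ^ 2 + 1) * δ) ≤ η ∧
    3 * Real.sqrt (LC β * (2 * δ + 3 * Real.sqrt ((β ^ 2 + 1) * δ))) +
      16 * (2 * δ + 3 * Real.sqrt ((β ^ 2 + 1) * δ)) ≤ η := by
  have h1 : Tendsto (fun δ : ℝ => 4 * δ) (𝓝[>] 0) (𝓝 0) := by
    have : ContinuousAt (fun δ : ℝ => 4 * δ) 0 := by fun_prop
    have h2 := this.tendsto.mono_left (nhdsWithin_le_nhds (s := Ioi 0))
    simpa using h2
  have h2 : Tendsto (fun δ : ℝ => 2 * δ + 3 * Real.sqrt ((β ^ 2 + 1) * δ)) (𝓝[>] 0) (𝓝 0) := by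
    have : ContinuousAt (fun δ : ℝ => 2 * δ + 3 * Real.sqrt ((β ^ 2 + 1) * δ)) 0 := by fun_prop
    have h2 := this.tendsto.mono_left (nhdsWithin_le_nhds (s := Ioi 0))
    simpa using h2
  have h3 : Tendsto (fun δ : ℝ => 3 * Real.sqrt (LC β * (2 * δ + 3 * Real.sqrt ((β ^ 2 + 1) * δ))) +
      16 * (2 * δ + 3 * Real.sqrt ((β ^ 2 + 1) * δ))) (𝓝[>] 0) (𝓝 0) := by
    have : ContinuousAt (fun δ : ℝ =>
      3 * Real.sqrt (LC β * (2 * δ + 3 * Real.sqrt ((β ^ 2 + 1) * δ))) +
      16 * (2 * δ + 3 * Real.sqrt ((β ^ 2 + 1) * δ))) 0 := by fun_prop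
    have h2 := this.tendsto.mono_left (nhdsWithin_le_nhds (s := Ioi 0))
    simpa using h2
  have hid : Tendsto (fun δ : ℝ => δ) (𝓝[>] 0) (𝓝 0) := tendsto_id.mono_left nhdsWithin_le_nhds
  have e0 : ∀ᶠ δ : ℝ in 𝓝[>] 0, 0 < δ := self_mem_nhdsWithin
  have p1 : 0 < 1 / (4 * β) := by positivity
  have p2 : 0 < (1 / (4 * β * (1 + (β ^ 2 + 1)))) ^ 2 := by positivity
  obtain ⟨δ, g0, g1, g2, g3, g4⟩ := (e0.and ((hid.eventually (gt_mem_nhds p1)).and
    ((h1.eventually (gt_mem_nhds p2)).and ((h2.eventually (gt_mem_nhds hη)).and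
      (h3.eventually (gt_mem_nhds hη)))))).exists
  exact ⟨δ, g0, g1.le, g2, g3.le, g4.le⟩

/-- **No gap**: for `β ≥ 4` and every `η > 0` there is a grid minimiser whose overlap function
satisfies `|E Φ_x² - t| ≤ η`, `|E Φ_xx² - 1| ≤ η` up to the time `a/K ≥ 1 - 2/β`, and whose
value is at most `∫_0^{a/K} E Φ_xx + √(1 - a/K) + βη/2 + log 2/β`. -/
theorem no_gap {β : ℝ} (hβ : 4 ≤ β) {η : ℝ} (hη : 0 < η) :
    ∃ (K : ℕ) (ε : ℝ) (m : Fin K → ℝ) (a : ℕ), 0 < K ∧ 0 < ε ∧ ε < β ∧ m ∈ cone K ε β ∧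
      (∀ m' ∈ cone K ε β, PF β m ≤ PF β m') ∧ a ≤ K ∧
      (∀ k : Fin K, a ≤ (k:ℕ) → m k = β) ∧ β * (1 - (a:ℝ)/K) ≤ 2 ∧
      (∀ t ∈ Icc (0:ℝ) ((a:ℝ)/K), |QQ β (grid m) t 0 - t| ≤ η) ∧
      (∀ t ∈ Icc (0:ℝ) ((a:ℝ)/K), |gg β (grid m) t - 1| ≤ η) ∧
      PF β m ≤ (∫ s in (0:ℝ)..(a:ℝ)/K, V4.XX β (grid m) s 0) + √(1 - (a:ℝ)/K) + β * η / 2 +
        Real.log 2 / β := by
  have hβ0 : 0 < β := by linarith
  obtain ⟨δ, hδ0, hδ1, hδ2, hδ3, hδ4⟩ := exists_delta hβ0 hη
  obtain ⟨K, hKδ⟩ := exists_nat_gt ((β ^ 2 + 1) / δ)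
  have hK' : (0:ℝ) < K := lt_of_le_of_lt (by positivity) hKδ
  have hK : 0 < K := by exact_mod_cast hK'
  have hδK : (β ^ 2 + 1) / K ≤ δ := by
    rw [div_lt_iff₀ hδ0] at hKδ
    rw [div_le_iff₀ hK']
    linarith
  set ε := δ / (2 * β ^ 3) with hεdef
  have hε : 0 < ε := by positivity
  have hεβ : ε < β := by
    rw [hεdef, div_lt_iff₀ (by positivity)]
    have h1 : 1 / (4 * β) ≤ 1 := by
      rw [div_le_one (by positivity)]; linarith
    have h2 : (1:ℝ) ≤ β ^ 3 := one_le_pow₀ (by linarith)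
    nlinarith
  have hδε : 2 * ε * β ^ 3 ≤ δ := by
    rw [hεdef]
    apply le_of_eq
    field_simp
  obtain ⟨m, hm, hmin⟩ := exists_min dmFormula hβ0 hε hεβ.le K
  have D := data_of_min (m := m) (by linarith : (1:ℝ) ≤ β) (gclass β) hK hε hεβ hm hmin hδK hδε
    hδ1 hδ2
  obtain ⟨a, haK, ha, hgap, hG, hlast⟩ := D.main
  have htop : ∀ k : Fin K, a ≤ (k:ℕ) → m k = β := by
    intro k hk
    have h1 : ¬ (m k < β) := fun h => absurd ((ha k).2 h) (by omega)
    exact le_antisymm (hm.2 k).2 (not_lt.1 h1)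
  have haK1 : (a:ℝ)/K ≤ 1 := by
    rw [div_le_one hK']; exact_mod_cast haK
  have ha2 : 1 / 2 ≤ (a:ℝ)/K := by
    nlinarith
  have hC0 : 0 ≤ 2 * δ + 3 * Real.sqrt ((β ^ 2 + 1) * δ) := by positivity
  have hg1 : ∀ t ∈ Icc (0:ℝ) ((a:ℝ)/K), |gg β (grid m) t - 1| ≤ η := by
    intro t ht
    have := landau (G := GG β (grid m)) (g := gg β (grid m)) (a := 0) (b := (a:ℝ)/K)
      (L := LC β) (η := 2 * δ + 3 * Real.sqrt ((β ^ 2 + 1) * δ)) (LC_pos hβ0) hC0 (by linarith)
      (D.hGc.mono (Icc_subset_Icc le_rfl haK1))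
      (fun x hx => D.hd x ⟨hx.1, hx.2.trans_le haK1⟩)
      (fun x hx y hy => gg_lip hβ0 hK hε hm ⟨hx.1, hx.2.trans haK1⟩ ⟨hy.1, hy.2.trans haK1⟩)
      hG t ht
    refine this.trans (le_trans ?_ hδ4)
    have h8 : 8 * (2 * δ + 3 * Real.sqrt ((β ^ 2 + 1) * δ)) / ((a:ℝ)/K - 0) ≤
        16 * (2 * δ + 3 * Real.sqrt ((β ^ 2 + 1) * δ)) := by
      rw [sub_zero, div_le_iff₀ (by linarith)]
      nlinarith
    linarith
  have hGη : ∀ t ∈ Icc (0:ℝ) ((a:ℝ)/K), |QQ β (grid m) t 0 - t| ≤ η :=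
    fun t ht => (hG t ht).trans hδ3
  refine ⟨K, ε, m, a, hK, hε, hεβ, hm, hmin, haK, htop, hgap, hGη, hg1, ?_⟩
  have hA := adm_grid hε hm
  -- the integral of gg over the last block
  have hpos : ∀ p ∈ grid m, 0 < p.2 := fun p hp => by
    rw [grid_snd m p hp]; positivity
  have hν : GC (nu0 β (grid m)) := (gclass β).dirac _ (Real.exp_pos _)
  have hTT := TT_grid hK m
  have hc2 := PsiF_continuousOn bfn_G2 hβ0 (gclass β) (grid m) hA hpos _ hν
  have hint := G1_int hβ0 (gclass β) (grid m) hA hpos _ hν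
  rw [hTT] at hc2
  have hgi : ∀ u ∈ Icc (0:ℝ) 1, ∀ v ∈ Icc (0:ℝ) 1,
      IntervalIntegrable (PsiF G2 β (grid m) (nu0 β (grid m))) volume u v := by
    intro u hu v hv
    apply ContinuousOn.intervalIntegrable
    exact hc2.mono (ordConnected_Icc.uIcc_subset hu hv)
  have ha01 : (a:ℝ)/K ∈ Icc (0:ℝ) 1 := ⟨by linarith, haK1⟩
  have hI : ∫ t in (a:ℝ)/K..1, V4.gg β (grid m) t 0 ≤ 1 := by
    have e1 : ∀ t, V4.gg β (grid m) t 0 = PsiF G2 β (grid m) (nu0 β (grid m)) t := by
      intro t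
      rw [gg_V4, gg_eq]
    simp_rw [e1]
    have i1 := hint 1 (by rw [hTT]; exact ⟨zero_le_one, le_rfl⟩)
    have i2 := hint ((a:ℝ)/K) (by rw [hTT]; exact ha01)
    have i3 := intervalIntegral.integral_add_adjacent_intervals
      (hgi 0 ⟨le_rfl, zero_le_one⟩ _ ha01) (hgi _ ha01 1 ⟨zero_le_one, le_rfl⟩)
    have q1 := (abs_le.1 ((QQ_BC hβ0 (grid m) 1).bd 0)).2
    have q2 := QQ_nonneg hβ0 (grid m) ((a:ℝ)/K) 0
    rw [QQ_eq] at q1 q2
    linarith
  exact V4.PF_le hβ0 hK hA (fun k => (hm.2 k).2) haK htop D.hGc hGη hlast hI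

end

end Crest.Agent.R339.Var
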