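import Mathlib
import Crest.Agent.R164.GCalc2

-- ▼ part R339/B107Det
section

/-!
Row 339 (helper107): determinants. Andréief's identity, signs of products of determinants of
functions, the 3×3 Rolle lemma, total positivity of order three of the exponential kernel.
-/

set_option autoImplicit false

namespace Crest.Agent.R339.B

open MeasureTheory Finset

/-- **Andréief's identity.** -/
theorem andreief {n : ℕ} (μ : Measure ℝ) [SigmaFinite μ] (k F : Fin n → ℝ → ℝ)
    (hint : ∀ i j, Integrable (fun u => k i u * F j u) μ) :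
    ∫ u : Fin n → ℝ, Matrix.det (Matrix.of fun i j => k i (u j)) *
      Matrix.det (Matrix.of fun i j => F i (u j)) ∂(Measure.pi fun _ => μ) =
      (n.factorial : ℝ) * Matrix.det (Matrix.of fun i j => ∫ u, k i u * F j u ∂μ) := by
  have h1 : ∀ u : Fin n → ℝ, Matrix.det (Matrix.of fun i j => k i (u j)) *
      Matrix.det (Matrix.of fun i j => F i (u j)) =
      ∑ σ : Equiv.Perm (Fin n), ∑ τ : Equiv.Perm (Fin n),
        ((Equiv.Perm.sign σ : ℤ) : ℝ) * ((Equiv.Perm.sign τ : ℤ) : ℝ) *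
          ∏ j, (k (σ j) (u j) * F (τ j) (u j)) := by
    intro u
    rw [Matrix.det_apply', Matrix.det_apply', Finset.sum_mul_sum]
    refine Finset.sum_congr rfl fun σ _ => Finset.sum_congr rfl fun τ _ => ?_
    rw [Finset.prod_mul_distrib]
    simp only [Matrix.of_apply]
    ring
  have hI : ∀ σ τ : Equiv.Perm (Fin n), Integrable
      (fun u : Fin n → ℝ => ∏ j, (k (σ j) (u j) * F (τ j) (u j))) (Measure.pi fun _ => μ) := by
    intro σ τ
    exact Integrable.fintype_prod (f := fun j (x : ℝ) => k (σ j) x * F (τ j) x)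
      (fun j => hint (σ j) (τ j))
  simp only [h1]
  rw [integral_finsetSum _ fun σ _ => integrable_finsetSum _ fun τ _ =>
    (hI σ τ).const_mul _]
  have h2 : ∀ σ : Equiv.Perm (Fin n), ∫ u : Fin n → ℝ, ∑ τ : Equiv.Perm (Fin n),
        ((Equiv.Perm.sign σ : ℤ) : ℝ) * ((Equiv.Perm.sign τ : ℤ) : ℝ) *
          ∏ j, (k (σ j) (u j) * F (τ j) (u j)) ∂(Measure.pi fun _ => μ) =
      ∑ τ : Equiv.Perm (Fin n), ((Equiv.Perm.sign σ : ℤ) : ℝ) *
        ((Equiv.Perm.sign τ : ℤ) : ℝ) * ∏ j, ∫ x, k (σ j) x * F (τ j) x ∂μ := by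
    intro σ
    rw [integral_finsetSum _ fun τ _ => (hI σ τ).const_mul _]
    refine Finset.sum_congr rfl fun τ _ => ?_
    rw [integral_const_mul]
    congr 1
    exact integral_fintype_prod_eq_prod (f := fun j (x : ℝ) => k (σ j) x * F (τ j) x)
  simp only [h2]
  rw [Finset.sum_comm]
  have h3 : ∀ τ : Equiv.Perm (Fin n), ∑ σ : Equiv.Perm (Fin n), ((Equiv.Perm.sign σ : ℤ) : ℝ) *
        ((Equiv.Perm.sign τ : ℤ) : ℝ) * ∏ j, ∫ x, k (σ j) x * F (τ j) x ∂μ =
      Matrix.det (Matrix.of fun i j => ∫ u, k i u * F j u ∂μ) := by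
    intro τ
    rw [Matrix.det_apply']
    refine Fintype.sum_equiv (Equiv.mulRight τ⁻¹) _ _ fun σ => ?_
    rw [Equiv.coe_mulRight, Equiv.Perm.sign_mul, Equiv.Perm.sign_inv]
    have e1 : (∏ j, ∫ x, k (σ j) x * F (τ j) x ∂μ) =
        ∏ j, Matrix.of (fun i j => ∫ u, k i u * F j u ∂μ) ((σ * τ⁻¹) j) j := by
      refine Fintype.prod_equiv τ _ _ fun j => ?_
      simp [Matrix.of_apply]
    rw [e1]
    push_cast
    ring
  simp only [h3]
  rw [Finset.sum_const, Finset.card_univ, Fintype.card_perm, Fintype.card_fin, nsmul_eq_mul]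

/-- the sign of a product of two determinants of functions from the ordered case -/
theorem det_mul_det_nonpos {n : ℕ} (k F : Fin n → ℝ → ℝ)
    (hk : ∀ u : Fin n → ℝ, StrictMono u → 0 ≤ Matrix.det (Matrix.of fun i j => k i (u j)))
    (hF : ∀ u : Fin n → ℝ, StrictMono u → Matrix.det (Matrix.of fun i j => F i (u j)) ≤ 0)
    (u : Fin n → ℝ) :
    Matrix.det (Matrix.of fun i j => k i (u j)) * Matrix.det (Matrix.of fun i j => F i (u j))
      ≤ 0 := by
  by_cases hinj : Function.Injective u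
  · have hm : StrictMono (u ∘ Tuple.sort u) :=
      (Tuple.monotone_sort u).strictMono_of_injective (hinj.comp (Tuple.sort u).injective)
    have e : ∀ f : Fin n → ℝ → ℝ, Matrix.det (Matrix.of fun i j => f i ((u ∘ Tuple.sort u) j)) =
        ((Equiv.Perm.sign (Tuple.sort u) : ℤ) : ℝ) *
          Matrix.det (Matrix.of fun i j => f i (u j)) := by
      intro f
      have := Matrix.det_permute' (Tuple.sort u) (Matrix.of fun i j => f i (u j))
      rw [← this]
      rfl
    have h1 := hk _ hm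
    have h2 := hF _ hm
    have h3 := mul_nonpos_of_nonneg_of_nonpos h1 h2
    rw [e k, e F] at h3
    have hs : ((Equiv.Perm.sign (Tuple.sort u) : ℤ) : ℝ) *
        ((Equiv.Perm.sign (Tuple.sort u) : ℤ) : ℝ) = 1 := by
      rcases Int.units_eq_one_or (Equiv.Perm.sign (Tuple.sort u)) with h | h <;> simp [h]
    calc _ = (((Equiv.Perm.sign (Tuple.sort u) : ℤ) : ℝ) *
        ((Equiv.Perm.sign (Tuple.sort u) : ℤ) : ℝ)) *
        (Matrix.det (Matrix.of fun i j => k i (u j)) *
          Matrix.det (Matrix.of fun i j => F i (u j))) := by rw [hs, one_mul]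
      _ = _ := by ring
      _ ≤ 0 := h3
  · have : ∃ a b, u a = u b ∧ a ≠ b := by
      simpa [Function.Injective] using hinj
    obtain ⟨a, b, hab, hne⟩ := this
    have h0 : Matrix.det (Matrix.of fun i j => k i (u j)) = 0 := by
      refine Matrix.det_zero_of_column_eq hne fun i => ?_
      simp [Matrix.of_apply, hab]
    rw [h0, zero_mul]

end Crest.Agent.R339.B
end

-- ▼ part R339/B107W3
section

/-!
Row 339 (helper107): the property W3 (the curve `(w'/w, w''/w)` is concave) and its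
preservation under the heat flow.
-/

set_option autoImplicit false

namespace Crest.Agent.R339.B

open MeasureTheory ProbabilityTheory Filter Topology Set
open Crest.Agent.R164.GC

noncomputable section

/-- the generalized mean value theorem, in the form `Δq = κ(ξ) Δp` -/
theorem cmvt {p q p' q' : ℝ → ℝ} (hp : ∀ x, HasDerivAt p (p' x) x)
    (hq : ∀ x, HasDerivAt q (q' x) x) (hpos : ∀ x, 0 < p' x) {x y : ℝ} (hxy : x < y) :
    ∃ ξ, x < ξ ∧ ξ < y ∧ q y - q x = q' ξ / p' ξ * (p y - p x) := by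
  obtain ⟨ξ, hξ, h⟩ := exists_ratio_hasDerivAt_eq_ratio_slope p p' hxy
    (fun z _ => (hp z).continuousAt.continuousWithinAt) (fun z _ => hp z) q q'
    (fun z _ => (hq z).continuousAt.continuousWithinAt) (fun z _ => hq z)
  refine ⟨ξ, hξ.1, hξ.2, ?_⟩
  have h0 := (hpos ξ).ne'
  field_simp
  linarith

/-- slopes of `q` along `p` decrease if `q'/p'` is antitone -/
theorem slope_of_anti {p q p' q' : ℝ → ℝ} (hp : ∀ x, HasDerivAt p (p' x) x)
    (hq : ∀ x, HasDerivAt q (q' x) x) (hpos : ∀ x, 0 < p' x)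
    (hanti : Antitone fun x => q' x / p' x) {x y z : ℝ} (hxy : x < y) (hyz : y < z) :
    (p y - p x) * (q z - q y) ≤ (p z - p y) * (q y - q x) := by
  obtain ⟨ξ, h1, h2, h3⟩ := cmvt hp hq hpos hxy
  obtain ⟨η, h4, h5, h6⟩ := cmvt hp hq hpos hyz
  have hmono : StrictMono p := strictMono_of_hasDerivAt_pos hp hpos
  have a1 : 0 < p y - p x := sub_pos.2 (hmono hxy)
  have a2 : 0 < p z - p y := sub_pos.2 (hmono hyz)
  have h7 : q' η / p' η ≤ q' ξ / p' ξ := hanti (h2.trans h4).le
  rw [h3, h6]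
  have := mul_le_mul_of_nonneg_left h7 (mul_pos a1 a2).le
  nlinarith

/-- slopes of `q` along `p` increase if `q'/p'` is monotone -/
theorem slope_of_mono {p q p' q' : ℝ → ℝ} (hp : ∀ x, HasDerivAt p (p' x) x)
    (hq : ∀ x, HasDerivAt q (q' x) x) (hpos : ∀ x, 0 < p' x)
    (hmono : Monotone fun x => q' x / p' x) {x y z : ℝ} (hxy : x < y) (hyz : y < z) :
    (p z - p y) * (q y - q x) ≤ (p y - p x) * (q z - q y) := by
  have := slope_of_anti (q := fun x => -q x) (q' := fun x => -q' x) hp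
    (fun x => (hq x).fun_neg) hpos (fun a b hab => by
      have := hmono hab
      simp only [neg_div, neg_le_neg_iff]
      exact this) hxy hyz
  nlinarith

/-- a monotone differentiable family of slopes: the derivative ratio is antitone -/
theorem anti_of_slope {p q p' q' : ℝ → ℝ} (hp : ∀ x, HasDerivAt p (p' x) x)
    (hq : ∀ x, HasDerivAt q (q' x) x) (hpos : ∀ x, 0 < p' x)
    (h : ∀ x y z : ℝ, x < y → y < z →
      (p y - p x) * (q z - q y) ≤ (p z - p y) * (q y - q x)) :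
    Antitone fun x => q' x / p' x := by
  have hmono : StrictMono p := strictMono_of_hasDerivAt_pos hp hpos
  -- the ratio is the limit of the slopes
  have hlim : ∀ x, Tendsto (fun y => (q y - q x) / (p y - p x)) (𝓝[≠] x) (𝓝 (q' x / p' x)) := by
    intro x
    have h1 := (hasDerivAt_iff_tendsto_slope.1 (hq x))
    have h2 := (hasDerivAt_iff_tendsto_slope.1 (hp x))
    have h3 := h1.div h2 (hpos x).ne'
    refine h3.congr' ?_
    filter_upwards [self_mem_nhdsWithin] with y hy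
    have hy' : y - x ≠ 0 := sub_ne_zero.2 hy
    have hy2 : p y - p x ≠ 0 := by
      intro h0
      exact hy (hmono.injective (sub_eq_zero.1 h0))
    simp only [Pi.div_apply, slope_def_field]
    field_simp
  intro x y hxy
  rcases hxy.eq_or_lt with rfl | hlt
  · exact le_rfl
  -- slope on [x, y] is below the ratio at x
  have hA : (q y - q x) / (p y - p x) ≤ q' x / p' x := by
    have hl := (hlim x).mono_left (nhdsWithin_mono x (show Ioi x ⊆ {x}ᶜ from
      fun z hz => (ne_of_gt hz)))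
    refine ge_of_tendsto hl ?_
    have : Ioo x y ∈ 𝓝[>] x := Ioo_mem_nhdsGT hlt
    filter_upwards [this] with z hz
    have h1 := h x z y hz.1 hz.2
    have a1 : 0 < p z - p x := sub_pos.2 (hmono hz.1)
    have a2 : 0 < p y - p z := sub_pos.2 (hmono hz.2)
    have a3 : 0 < p y - p x := sub_pos.2 (hmono hlt)
    rw [div_le_div_iff₀ a3 a1]
    nlinarith
  have hB : q' y / p' y ≤ (q y - q x) / (p y - p x) := by
    have hl := (hlim y).mono_left (nhdsWithin_mono y (show Iio y ⊆ {y}ᶜ from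
      fun z hz => (ne_of_lt hz)))
    refine le_of_tendsto hl ?_
    have : Ioo x y ∈ 𝓝[<] y := Ioo_mem_nhdsLT hlt
    filter_upwards [this] with z hz
    have h1 := h x z y hz.1 hz.2
    have a1 : 0 < p z - p x := sub_pos.2 (hmono hz.1)
    have a2 : 0 < p y - p z := sub_pos.2 (hmono hz.2)
    have a3 : 0 < p y - p x := sub_pos.2 (hmono hlt)
    have e : (q z - q y) / (p z - p y) = (q y - q z) / (p y - p z) := by
      rw [← neg_sub (q y), ← neg_sub (p y), neg_div_neg_eq]
    rw [e, div_le_div_iff₀ a2 a3]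
    nlinarith
  exact hB.trans hA

/-- the 3×3 determinant -/
theorem det3 (f : Fin 3 → ℝ → ℝ) (u : Fin 3 → ℝ) :
    Matrix.det (Matrix.of fun i j => f i (u j)) =
      f 0 (u 0) * f 1 (u 1) * f 2 (u 2) - f 0 (u 0) * f 1 (u 2) * f 2 (u 1)
      - f 0 (u 1) * f 1 (u 0) * f 2 (u 2) + f 0 (u 1) * f 1 (u 2) * f 2 (u 0)
      + f 0 (u 2) * f 1 (u 0) * f 2 (u 1) - f 0 (u 2) * f 1 (u 1) * f 2 (u 0) := by
  rw [Matrix.det_fin_three]
  simp only [Matrix.of_apply]
  try ring

theorem sm3 {u : Fin 3 → ℝ} (hu : StrictMono u) : u 0 < u 1 ∧ u 1 < u 2 :=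
  ⟨hu (by decide), hu (by decide)⟩

/-- **Total positivity of order three of the exponential kernel.** -/
theorem exp_det_nonneg {z : Fin 3 → ℝ} (hz : StrictMono z) (u : Fin 3 → ℝ) (hu : StrictMono u) :
    0 ≤ Matrix.det (Matrix.of fun i j => (fun (i : Fin 3) (x : ℝ) => Real.exp (z i * x)) i (u j)) := by
  obtain ⟨z1, z2⟩ := sm3 hz
  obtain ⟨u1, u2⟩ := sm3 hu
  rw [det3 (fun (i : Fin 3) (x : ℝ) => Real.exp (z i * x)) u]
  have a1 : 0 < z 1 - z 0 := sub_pos.2 z1
  have a2 : 0 < z 2 - z 1 := sub_pos.2 z2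
  have a3 : 0 < z 2 - z 0 := by linarith
  have hd : ∀ c x : ℝ, HasDerivAt (fun x => Real.exp (c * x)) (c * Real.exp (c * x)) x := by
    intro c x
    have := ((hasDerivAt_id x).const_mul c).exp
    simp only [id, mul_one] at this
    rw [mul_comm] at this
    exact this
  have hs := slope_of_mono (hd (z 1 - z 0)) (hd (z 2 - z 0))
    (fun x => mul_pos a1 (Real.exp_pos _)) (fun x y hxy => by
      have e : ∀ x, (z 2 - z 0) * Real.exp ((z 2 - z 0) * x) /
          ((z 1 - z 0) * Real.exp ((z 1 - z 0) * x)) =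
          (z 2 - z 0) / (z 1 - z 0) * Real.exp ((z 2 - z 1) * x) := by
        intro x
        have e1 : Real.exp ((z 2 - z 0) * x) =
            Real.exp ((z 2 - z 1) * x) * Real.exp ((z 1 - z 0) * x) := by
          rw [← Real.exp_add]; ring_nf
        rw [e1]
        have := Real.exp_pos ((z 1 - z 0) * x)
        field_simp
      simp only [e]
      refine mul_le_mul_of_nonneg_left (Real.exp_le_exp.2 ?_) (div_pos a3 a1).le
      exact mul_le_mul_of_nonneg_left hxy a2.le) u1 u2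
  have f1 : ∀ x, Real.exp (z 1 * x) = Real.exp ((z 1 - z 0) * x) * Real.exp (z 0 * x) := by
    intro x; rw [← Real.exp_add]; ring_nf
  have f2 : ∀ x, Real.exp (z 2 * x) = Real.exp ((z 2 - z 0) * x) * Real.exp (z 0 * x) := by
    intro x; rw [← Real.exp_add]; ring_nf
  simp only [f1, f2]
  set A0 := Real.exp ((z 1 - z 0) * u 0)
  set A1 := Real.exp ((z 1 - z 0) * u 1)
  set A2 := Real.exp ((z 1 - z 0) * u 2)
  set B0 := Real.exp ((z 2 - z 0) * u 0)
  set B1 := Real.exp ((z 2 - z 0) * u 1)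
  set B2 := Real.exp ((z 2 - z 0) * u 2)
  have c0 := Real.exp_pos (z 0 * u 0)
  have c1 := Real.exp_pos (z 0 * u 1)
  have c2 := Real.exp_pos (z 0 * u 2)
  set C0 := Real.exp (z 0 * u 0)
  set C1 := Real.exp (z 0 * u 1)
  set C2 := Real.exp (z 0 * u 2)
  have hpos := mul_pos (mul_pos c0 c1) c2
  have key := mul_nonneg hpos.le (sub_nonneg.2 hs)
  nlinarith [key]

/-- **W3**: all ordered determinants of `(w, w', w'')` are nonpositive -/
def W3 (w w1 w2 : ℝ → ℝ) : Prop :=
  ∀ u : Fin 3 → ℝ, StrictMono u →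
    Matrix.det (Matrix.of fun i j => (![w, w1, w2] : Fin 3 → ℝ → ℝ) i (u j)) ≤ 0

theorem W3_iff {w w1 w2 : ℝ → ℝ} (hw : ∀ x, 0 < w x) :
    W3 w w1 w2 ↔ ∀ x y z : ℝ, x < y → y < z →
      (w1 y / w y - w1 x / w x) * (w2 z / w z - w2 y / w y) ≤
        (w1 z / w z - w1 y / w y) * (w2 y / w y - w2 x / w x) := by
  have key : ∀ x y z : ℝ,
      (w x * w1 y * w2 z - w x * w1 z * w2 y - w y * w1 x * w2 z + w y * w1 z * w2 x
        + w z * w1 x * w2 y - w z * w1 y * w2 x) =
      w x * w y * w z * ((w1 y / w y - w1 x / w x) * (w2 z / w z - w2 y / w y) -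
        (w1 z / w z - w1 y / w y) * (w2 y / w y - w2 x / w x)) := by
    intro x y z
    have h1 := (hw x).ne'
    have h2 := (hw y).ne'
    have h3 := (hw z).ne'
    field_simp
    ring
  constructor
  · intro h x y z hxy hyz
    have hu : StrictMono (![x, y, z] : Fin 3 → ℝ) := by
      intro a b hab
      fin_cases a <;> fin_cases b <;> simp at hab ⊢ <;> linarith
    have h1 := h _ hu
    rw [det3] at h1
    simp only [Matrix.cons_val_zero, Matrix.cons_val_one, Matrix.cons_val] at h1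
    rw [key x y z] at h1
    have hp := mul_pos (mul_pos (hw x) (hw y)) (hw z)
    by_contra hcon
    push Not at hcon
    have := mul_pos hp (sub_pos.2 hcon)
    linarith
  · intro h u hu
    obtain ⟨u1, u2⟩ := sm3 hu
    rw [det3]
    simp only [Matrix.cons_val_zero, Matrix.cons_val_one, Matrix.cons_val]
    rw [key]
    have hp := mul_pos (mul_pos (hw (u 0)) (hw (u 1))) (hw (u 2))
    exact mul_nonpos_of_nonneg_of_nonpos hp.le (sub_nonpos.2 (h _ _ _ u1 u2))

/-- the variance `t²` -/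
def vv (t : ℝ) : NNReal := ⟨t ^ 2, sq_nonneg t⟩

theorem vv_coe (t : ℝ) : (vv t : ℝ) = t ^ 2 := rfl

theorem vv_ne {t : ℝ} (ht : t ≠ 0) : vv t ≠ 0 := by
  intro h
  have h2 : (vv t : ℝ) = 0 := by rw [h]; rfl
  rw [vv_coe] at h2
  exact ht (pow_eq_zero_iff (two_ne_zero)|>.1 h2)

theorem map_vv (t x : ℝ) : (gaussianReal 0 1).map (fun g => x + t * g) = gaussianReal x (vv t) := by
  have h1 : (gaussianReal 0 1).map (fun g => t * g) = gaussianReal 0 (vv t) := by
    rw [gaussianReal_map_const_mul, mul_zero]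
    congr 1
    ext
    rw [mul_one]
    rfl
  have h2 := gaussianReal_map_const_add (μ := 0) (v := vv t) x
  rw [← h1, Measure.map_map (by fun_prop) (by fun_prop), zero_add] at h2
  exact h2

theorem emb_vv {t : ℝ} (ht : t ≠ 0) (x : ℝ) : MeasurableEmbedding (fun g : ℝ => x + t * g) := by
  have e : (fun g : ℝ => x + t * g) = (fun y => x + y) ∘ (fun g => t * g) := rfl
  rw [e]
  exact (measurableEmbedding_addLeft x).comp (measurableEmbedding_mulLeft₀ ht)

/-- the Gaussian average as an integral over Lebesgue measure -/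
theorem H_eq_pdf (φ : ℝ → ℝ) {t : ℝ} (ht : t ≠ 0) (x : ℝ) :
    H t φ x = ∫ u, gaussianPDFReal x (vv t) u * φ u := by
  unfold H
  rw [← (emb_vv ht x).integral_map (fun y => φ y), map_vv,
    integral_gaussianReal_eq_integral_smul (vv_ne ht)]
  rfl

theorem pdf_integrable {φ : ℝ → ℝ} (hφ : EG φ) {t : ℝ} (ht : t ≠ 0) (x : ℝ) :
    Integrable (fun u => gaussianPDFReal x (vv t) u * φ u) := by
  have h1 : Integrable φ (gaussianReal x (vv t)) := by
    rw [← map_vv, (emb_vv ht x).integrable_map_iff]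
    exact hφ.int t x
  rw [gaussianReal_of_var_ne_zero x (vv_ne ht)] at h1
  have h2 := (integrable_withDensity_iff_integrable_smul₀'
    (measurable_gaussianPDF x _).aemeasurable
    (Eventually.of_forall fun g => gaussianPDF_lt_top)).1 h1
  refine h2.congr (Eventually.of_forall fun g => ?_)
  show (gaussianPDF x (vv t) g).toReal * φ g = gaussianPDFReal x (vv t) g * φ g
  rw [toReal_gaussianPDF]

/-- **Total positivity of order three of the Gaussian kernel.** -/
theorem pdf_det_nonneg {v : NNReal} (hv : v ≠ 0) {z : Fin 3 → ℝ} (hz : StrictMono z)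
    (u : Fin 3 → ℝ) (hu : StrictMono u) :
    0 ≤ Matrix.det (Matrix.of fun i j =>
      (fun (i : Fin 3) (x : ℝ) => gaussianPDFReal (z i) v x) i (u j)) := by
  have hv' : (0 : ℝ) < v := by
    have := pos_iff_ne_zero.2 hv
    exact_mod_cast this
  have e : (Matrix.of fun i j =>
      (fun (i : Fin 3) (x : ℝ) => gaussianPDFReal (z i) v x) i (u j)) =
      Matrix.of fun i j => ((√(2 * Real.pi * v))⁻¹ * Real.exp (-(z i) ^ 2 / (2 * v))) *
        (Matrix.of fun (i j : Fin 3) => Real.exp (-(u j) ^ 2 / (2 * v)) *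
          (Matrix.of fun (i j : Fin 3) => Real.exp ((z i / v) * u j)) i j) i j := by
    ext i j
    simp only [Matrix.of_apply, gaussianPDFReal_def]
    have e1 : Real.exp (-(u j - z i) ^ 2 / (2 * (v : ℝ))) =
        Real.exp (-(z i) ^ 2 / (2 * v)) * (Real.exp (-(u j) ^ 2 / (2 * v)) *
          Real.exp ((z i / v) * u j)) := by
      rw [← Real.exp_add, ← Real.exp_add]
      congr 1
      field_simp
      ring
    rw [e1]
    ring
  rw [e, Matrix.det_mul_column, Matrix.det_mul_row]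
  refine mul_nonneg (Finset.prod_nonneg fun i _ => by positivity)
    (mul_nonneg (Finset.prod_nonneg fun i _ => by positivity) ?_)
  refine exp_det_nonneg (z := fun i => z i / v) (fun a b hab => ?_) u hu
  exact div_lt_div_of_pos_right (hz hab) hv'

/-- **W3 is preserved by the heat flow.** -/
theorem W3.heat {w w1 w2 : ℝ → ℝ} (h : W3 w w1 w2) (hw : EG w) (hw1 : EG w1) (hw2 : EG w2)
    (t : ℝ) : W3 (H t w) (H t w1) (H t w2) := by
  by_cases ht : t = 0
  · subst ht
    have e : ∀ φ : ℝ → ℝ, H 0 φ = φ := fun φ => funext fun x => H_zero φ x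
    rw [e, e, e]
    exact h
  intro z hz
  have hEG : ∀ j : Fin 3, EG ((![w, w1, w2] : Fin 3 → ℝ → ℝ) j) := by
    intro j
    fin_cases j
    · exact hw
    · exact hw1
    · exact hw2
  have key := andreief (n := 3) volume (fun i x => gaussianPDFReal (z i) (vv t) x)
    (![w, w1, w2] : Fin 3 → ℝ → ℝ) (fun i j => pdf_integrable (hEG j) ht (z i))
  have e2 : Matrix.det (Matrix.of fun i j => (![H t w, H t w1, H t w2] :
      Fin 3 → ℝ → ℝ) i (z j)) = Matrix.det (Matrix.of fun i j =>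
        ∫ u, gaussianPDFReal (z i) (vv t) u * (![w, w1, w2] : Fin 3 → ℝ → ℝ) j u) := by
    rw [← Matrix.det_transpose]
    congr 1
    ext i j
    simp only [Matrix.transpose_apply, Matrix.of_apply]
    fin_cases j <;> simp [H_eq_pdf _ ht]
  rw [e2]
  have h6 : (0 : ℝ) < ((3 : ℕ).factorial : ℝ) := by positivity
  refine nonpos_of_mul_nonpos_right ?_ h6
  rw [← key]
  refine integral_nonpos fun u => ?_
  exact det_mul_det_nonpos _ _ (fun u hu => pdf_det_nonneg (vv_ne ht) hz u hu) h u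

end

end Crest.Agent.R339.B
end

-- ▼ part R339/B107BD
section

/-!
Row 339 (helper107): smooth functions all of whose derivatives are bounded (`BD`) or of
exponential growth (`EGS`); the Gaussian average and the tilted average on these classes.
-/

set_option autoImplicit false

namespace Crest.Agent.R339.B

open MeasureTheory ProbabilityTheory Filter Topology Set
open Crest.Agent.R164.GC
open Crest.ProbabilityR.InvariantGlass (gaussOp)

noncomputable section

/-! ### bounded derivatives -/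

/-- bounded and continuous, with bounded continuous derivatives up to order `n` -/
def BDn : ℕ → (ℝ → ℝ) → Prop
  | 0, f => Continuous f ∧ ∃ C, ∀ x, |f x| ≤ C
  | n + 1, f => Differentiable ℝ f ∧ (∃ C, ∀ x, |f x| ≤ C) ∧ BDn n (deriv f)

/-- all derivatives (order `≥ 0`) exist and are bounded -/
def BD (f : ℝ → ℝ) : Prop := ∀ n, BDn n f

theorem BDn.cont {n : ℕ} {f : ℝ → ℝ} (h : BDn n f) : Continuous f := by
  cases n with
  | zero => exact h.1
  | succ n => exact h.1.continuous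

theorem BDn.bdd {n : ℕ} {f : ℝ → ℝ} (h : BDn n f) : ∃ C, ∀ x, |f x| ≤ C := by
  cases n with
  | zero => exact h.2
  | succ n => exact h.2.1

theorem BDn.of_succ : ∀ {n : ℕ} {f : ℝ → ℝ}, BDn (n + 1) f → BDn n f
  | 0, _, h => ⟨h.1.continuous, h.2.1⟩
  | _ + 1, _, h => ⟨h.1, h.2.1, BDn.of_succ h.2.2⟩

theorem BDn.const (c : ℝ) : ∀ n, BDn n (fun _ => c)
  | 0 => ⟨continuous_const, |c|, fun _ => le_rfl⟩
  | n + 1 => ⟨differentiable_const c, ⟨|c|, fun _ => le_rfl⟩, by
      have : deriv (fun _ : ℝ => c) = fun _ => 0 := by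
        funext x; simp
      rw [this]
      exact BDn.const 0 n⟩

theorem BDn.add : ∀ {n : ℕ} {f g : ℝ → ℝ}, BDn n f → BDn n g → BDn n (fun x => f x + g x)
  | 0, f, g, hf, hg => by
    obtain ⟨C, hC⟩ := hf.2
    obtain ⟨D, hD⟩ := hg.2
    exact ⟨hf.1.add hg.1, C + D, fun x => (abs_add_le _ _).trans (add_le_add (hC x) (hD x))⟩
  | n + 1, f, g, hf, hg => by
    obtain ⟨C, hC⟩ := hf.2.1
    obtain ⟨D, hD⟩ := hg.2.1
    refine ⟨hf.1.add hg.1, ⟨C + D, fun x => (abs_add_le _ _).trans (add_le_add (hC x) (hD x))⟩, ?_⟩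
    have e : deriv (fun x => f x + g x) = fun x => deriv f x + deriv g x := by
      funext x
      exact deriv_fun_add (hf.1 x) (hg.1 x)
    rw [e]
    exact hf.2.2.add hg.2.2

theorem BDn.mul : ∀ {n : ℕ} {f g : ℝ → ℝ}, BDn n f → BDn n g → BDn n (fun x => f x * g x)
  | 0, f, g, hf, hg => by
    obtain ⟨C, hC⟩ := hf.2
    obtain ⟨D, hD⟩ := hg.2
    exact ⟨hf.1.mul hg.1, C * D, fun x => by
      rw [abs_mul]
      exact mul_le_mul (hC x) (hD x) (abs_nonneg _) ((abs_nonneg _).trans (hC x))⟩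
  | n + 1, f, g, hf, hg => by
    obtain ⟨C, hC⟩ := hf.2.1
    obtain ⟨D, hD⟩ := hg.2.1
    refine ⟨hf.1.mul hg.1, ⟨C * D, fun x => by
      rw [abs_mul]
      exact mul_le_mul (hC x) (hD x) (abs_nonneg _) ((abs_nonneg _).trans (hC x))⟩, ?_⟩
    have e : deriv (fun x => f x * g x) = fun x => deriv f x * g x + f x * deriv g x := by
      funext x
      exact deriv_fun_mul (hf.1 x) (hg.1 x)
    rw [e]
    exact (hf.2.2.mul hg.of_succ).add (hf.of_succ.mul hg.2.2)

theorem BDn.congr {n : ℕ} {f g : ℝ → ℝ} (h : BDn n f) (e : ∀ x, g x = f x) : BDn n g := by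
  have : g = f := funext e
  rw [this]; exact h

theorem BD.const (c : ℝ) : BD (fun _ => c) := fun n => BDn.const c n
theorem BD.add {f g : ℝ → ℝ} (hf : BD f) (hg : BD g) : BD (fun x => f x + g x) :=
  fun n => (hf n).add (hg n)
theorem BD.mul {f g : ℝ → ℝ} (hf : BD f) (hg : BD g) : BD (fun x => f x * g x) :=
  fun n => (hf n).mul (hg n)
theorem BD.const_mul {f : ℝ → ℝ} (c : ℝ) (hf : BD f) : BD (fun x => c * f x) :=
  (BD.const c).mul hf
theorem BD.neg {f : ℝ → ℝ} (hf : BD f) : BD (fun x => -f x) := by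
  have := hf.const_mul (-1)
  simpa using this
theorem BD.sub {f g : ℝ → ℝ} (hf : BD f) (hg : BD g) : BD (fun x => f x - g x) := by
  have := hf.add hg.neg
  simpa [sub_eq_add_neg] using this
theorem BD.pow {f : ℝ → ℝ} (hf : BD f) (n : ℕ) : BD (fun x => f x ^ n) := by
  induction n with
  | zero => simpa using BD.const 1
  | succ n ih => simpa [pow_succ] using ih.mul hf
theorem BD.cont {f : ℝ → ℝ} (h : BD f) : Continuous f := (h 0).cont
theorem BD.bdd {f : ℝ → ℝ} (h : BD f) : ∃ C, ∀ x, |f x| ≤ C := (h 0).bdd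
theorem BD.diff {f : ℝ → ℝ} (h : BD f) : Differentiable ℝ f := (h 1).1
theorem BD.hasDerivAt {f : ℝ → ℝ} (h : BD f) (x : ℝ) : HasDerivAt f (deriv f x) x :=
  (h.diff x).hasDerivAt
theorem BD.deriv {f : ℝ → ℝ} (h : BD f) : BD (deriv f) := fun n => (h (n + 1)).2.2
theorem BD.of {f : ℝ → ℝ} (hd : Differentiable ℝ f) (hb : ∃ C, ∀ x, |f x| ≤ C)
    (h : BD (_root_.deriv f)) : BD f := by
  intro n
  cases n with
  | zero => exact ⟨hd.continuous, hb⟩
  | succ n => exact ⟨hd, hb, h n⟩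
theorem BD.eg {f : ℝ → ℝ} (h : BD f) : EG f := by
  obtain ⟨C, hC⟩ := h.bdd
  exact EG.of_bdd h.cont hC
theorem BD.bc {f : ℝ → ℝ} (h : BD f) : ∃ C, BC f C := by
  obtain ⟨C, hC⟩ := h.bdd
  exact ⟨C, h.cont, hC⟩

/-- iterated derivatives -/
theorem BD.iter {f : ℝ → ℝ} (h : BD f) (k : ℕ) : BD (iteratedDeriv k f) := by
  induction k with
  | zero => simpa using h
  | succ k ih => rw [iteratedDeriv_succ]; exact ih.deriv

theorem BD.contDiff {f : ℝ → ℝ} (h : BD f) (n : ℕ) : ContDiff ℝ n f := by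
  induction n generalizing f with
  | zero => exact contDiff_zero.2 h.cont
  | succ n ih =>
    have := (contDiff_succ_iff_deriv (n := (n : WithTop ℕ∞)) (f := f)).2
      ⟨h.diff, by simp, ih h.deriv⟩
    exact_mod_cast this

/-! ### exponential growth of all derivatives -/

/-- exponential growth of the function and its derivatives up to order `n` -/
def EGn : ℕ → (ℝ → ℝ) → Prop
  | 0, f => EG f
  | n + 1, f => EG f ∧ Differentiable ℝ f ∧ EGn n (deriv f)

/-- all derivatives exist and have exponential growth -/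
def EGS (f : ℝ → ℝ) : Prop := ∀ n, EGn n f

theorem EGn.eg {n : ℕ} {f : ℝ → ℝ} (h : EGn n f) : EG f := by
  cases n with
  | zero => exact h
  | succ n => exact h.1

theorem EGn.of_succ : ∀ {n : ℕ} {f : ℝ → ℝ}, EGn (n + 1) f → EGn n f
  | 0, _, h => h.1
  | _ + 1, _, h => ⟨h.1, h.2.1, EGn.of_succ h.2.2⟩

theorem EGn.add : ∀ {n : ℕ} {f g : ℝ → ℝ}, EGn n f → EGn n g → EGn n (fun x => f x + g x)
  | 0, f, g, hf, hg => EG.add hf hg
  | n + 1, f, g, hf, hg => by
    refine ⟨hf.1.add hg.1, hf.2.1.add hg.2.1, ?_⟩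
    have e : deriv (fun x => f x + g x) = fun x => deriv f x + deriv g x := by
      funext x
      exact deriv_fun_add (hf.2.1 x) (hg.2.1 x)
    rw [e]
    exact hf.2.2.add hg.2.2

theorem EGn.mul : ∀ {n : ℕ} {f g : ℝ → ℝ}, EGn n f → EGn n g → EGn n (fun x => f x * g x)
  | 0, f, g, hf, hg => EG.mul hf hg
  | n + 1, f, g, hf, hg => by
    refine ⟨hf.1.mul hg.1, hf.2.1.mul hg.2.1, ?_⟩
    have e : deriv (fun x => f x * g x) = fun x => deriv f x * g x + f x * deriv g x := by
      funext x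
      exact deriv_fun_mul (hf.2.1 x) (hg.2.1 x)
    rw [e]
    exact (hf.2.2.mul hg.of_succ).add (hf.of_succ.mul hg.2.2)

theorem BDn.egn : ∀ {n : ℕ} {f : ℝ → ℝ}, BDn n f → EGn n f
  | 0, f, h => by
    obtain ⟨C, hC⟩ := h.2
    exact EG.of_bdd h.1 hC
  | n + 1, f, h => by
    obtain ⟨C, hC⟩ := h.2.1
    exact ⟨EG.of_bdd h.1.continuous hC, h.1, h.2.2.egn⟩

theorem BD.egs {f : ℝ → ℝ} (h : BD f) : EGS f := fun n => (h n).egn
theorem EGS.const (c : ℝ) : EGS (fun _ => c) := (BD.const c).egs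
theorem EGS.add {f g : ℝ → ℝ} (hf : EGS f) (hg : EGS g) : EGS (fun x => f x + g x) :=
  fun n => (hf n).add (hg n)
theorem EGS.mul {f g : ℝ → ℝ} (hf : EGS f) (hg : EGS g) : EGS (fun x => f x * g x) :=
  fun n => (hf n).mul (hg n)
theorem EGS.const_mul {f : ℝ → ℝ} (c : ℝ) (hf : EGS f) : EGS (fun x => c * f x) :=
  (EGS.const c).mul hf
theorem EGS.neg {f : ℝ → ℝ} (hf : EGS f) : EGS (fun x => -f x) := by
  have := hf.const_mul (-1)
  simpa using this
theorem EGS.sub {f g : ℝ → ℝ} (hf : EGS f) (hg : EGS g) : EGS (fun x => f x - g x) := by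
  have := hf.add hg.neg
  simpa [sub_eq_add_neg] using this
theorem EGS.pow {f : ℝ → ℝ} (hf : EGS f) (n : ℕ) : EGS (fun x => f x ^ n) := by
  induction n with
  | zero => simpa using EGS.const 1
  | succ n ih => simpa [pow_succ] using ih.mul hf
theorem EGS.eg {f : ℝ → ℝ} (h : EGS f) : EG f := h 0
theorem EGS.diff {f : ℝ → ℝ} (h : EGS f) : Differentiable ℝ f := (h 1).2.1
theorem EGS.hasDerivAt {f : ℝ → ℝ} (h : EGS f) (x : ℝ) : HasDerivAt f (deriv f x) x :=
  (h.diff x).hasDerivAt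
theorem EGS.deriv {f : ℝ → ℝ} (h : EGS f) : EGS (deriv f) := fun n => (h (n + 1)).2.2
theorem EGS.of {f : ℝ → ℝ} (h0 : EG f) (hd : Differentiable ℝ f)
    (h : EGS (_root_.deriv f)) : EGS f := by
  intro n
  cases n with
  | zero => exact h0
  | succ n => exact ⟨h0, hd, h n⟩
theorem EGS.iter {f : ℝ → ℝ} (h : EGS f) (k : ℕ) : EGS (iteratedDeriv k f) := by
  induction k with
  | zero => simpa using h
  | succ k ih => rw [iteratedDeriv_succ]; exact ih.deriv

/-- growth of the Gaussian average -/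
theorem H_eg {φ : ℝ → ℝ} (hφ : EG φ) (t : ℝ) : EG (H t φ) := by
  obtain ⟨K, A, hK, hA, h⟩ := hφ.bd
  have hc : Continuous (H t φ) :=
    (H_continuous hφ).comp (by fun_prop : Continuous fun x : ℝ => (t, x))
  have hI : 0 ≤ ∫ g, Real.exp (A * |t| * |g|) ∂gaussianReal 0 1 :=
    integral_nonneg fun g => (Real.exp_pos _).le
  refine ⟨hc, K * ∫ g, Real.exp (A * |t| * |g|) ∂gaussianReal 0 1, A, by positivity, hA,
    fun x => ?_⟩
  unfold H
  have h1 : ∀ g, |φ (x + t * g)| ≤ K * Real.exp (A * |x|) * Real.exp (A * |t| * |g|) :=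
    fun g => shift_bd hK hA h le_rfl le_rfl g
  calc |∫ g, φ (x + t * g) ∂gaussianReal 0 1| ≤ ∫ g, |φ (x + t * g)| ∂gaussianReal 0 1 :=
        abs_integral_le_integral_abs
    _ ≤ ∫ g, K * Real.exp (A * |x|) * Real.exp (A * |t| * |g|) ∂gaussianReal 0 1 :=
        integral_mono (hφ.int t x).abs ((integrable_exp_abs _).const_mul _) h1
    _ = _ := by rw [integral_const_mul]; ring

theorem H_hasDerivAt {φ : ℝ → ℝ} (h : EGS φ) (t x : ℝ) :
    HasDerivAt (H t φ) (H t (deriv φ) x) x :=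
  H_deriv_x h.eg h.deriv.eg h.hasDerivAt t x

theorem H_deriv {φ : ℝ → ℝ} (h : EGS φ) (t : ℝ) : deriv (H t φ) = H t (deriv φ) :=
  funext fun x => (H_hasDerivAt h t x).deriv



/-- exponentials -/
theorem EGS.exp {Φ : ℝ → ℝ} (hd : Differentiable ℝ Φ) (hl : ∀ x, |_root_.deriv Φ x| ≤ 1)
    (hb : BD (_root_.deriv Φ)) (m : ℝ) : EGS (fun x => Real.exp (m * Φ x)) := by
  have hlip : Lip1 Φ := by
    intro x y
    have h1 := Convex.norm_image_sub_le_of_norm_hasDerivWithin_le (f := Φ)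
      (f' := _root_.deriv Φ) (C := 1)
      (s := univ) (fun x _ => (hd x).hasDerivAt.hasDerivWithinAt) (fun x _ => hl x) convex_univ
      (mem_univ y) (mem_univ x)
    rw [Real.norm_eq_abs, Real.norm_eq_abs, one_mul] at h1
    have := le_abs_self (Φ x - Φ y)
    linarith
  have hE : EG (fun x => Real.exp (m * Φ x)) := EG.exp_lip hlip m
  have hdd : Differentiable ℝ (fun x => Real.exp (m * Φ x)) := (hd.const_mul m).exp
  have e : _root_.deriv (fun x => Real.exp (m * Φ x)) =
      fun x => (m * _root_.deriv Φ x) * Real.exp (m * Φ x) := by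
    funext x
    have := (((hd x).hasDerivAt).const_mul m).exp
    rw [this.deriv]
    ring
  intro n
  induction n with
  | zero => exact hE
  | succ n ih =>
    refine ⟨hE, hdd, ?_⟩
    rw [e]
    exact ((hb.const_mul m n).egn).mul ih

end

end Crest.Agent.R339.B
end

-- ▼ part R339/B107Prof
section

/-!
Row 339 (helper107): Parisi profiles. The Cole–Hopf step `gaussOp m v Φ`, the class `Prof`, the
property (P1) `2mΦ' + Φ'''/Φ''` nonincreasing and its preservation.
-/

set_option autoImplicit false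

namespace Crest.Agent.R339.B

open MeasureTheory ProbabilityTheory Filter Topology Set
open Crest.Agent.R164.GC
open Crest.ProbabilityR.InvariantGlass (gaussOp)

noncomputable section

/-- smooth functions with `|Φ'| ≤ 1` and bounded derivatives -/
structure Prof (Φ : ℝ → ℝ) : Prop where
  diff : Differentiable ℝ Φ
  b1 : ∀ x, |deriv Φ x| ≤ 1
  bd : BD (deriv Φ)

namespace Prof

variable {Φ : ℝ → ℝ}

theorem lip (h : Prof Φ) : Lip1 Φ := by
  intro x y
  have h1 := Convex.norm_image_sub_le_of_norm_hasDerivWithin_le (f := Φ)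
    (f' := deriv Φ) (C := 1)
    (s := univ) (fun x _ => (h.diff x).hasDerivAt.hasDerivWithinAt) (fun x _ => h.b1 x)
    convex_univ (mem_univ y) (mem_univ x)
  rw [Real.norm_eq_abs, Real.norm_eq_abs, one_mul] at h1
  have := le_abs_self (Φ x - Φ y)
  linarith

theorem d1 (h : Prof Φ) (x : ℝ) : HasDerivAt Φ (deriv Φ x) x := (h.diff x).hasDerivAt

theorem sm (h : Prof Φ) : ∃ C, Sm Φ (deriv Φ) (deriv (deriv Φ)) C := by
  obtain ⟨C, hC⟩ := h.bd.deriv.bdd
  exact ⟨C, h.d1, h.bd.hasDerivAt, h.bd.deriv.cont, h.b1, hC⟩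

theorem egs (h : Prof Φ) : EGS Φ := EGS.of (EG.lip h.lip) h.diff h.bd.egs

theorem exp_egs (h : Prof Φ) (m : ℝ) : EGS (fun x => Real.exp (m * Φ x)) :=
  EGS.exp h.diff h.b1 h.bd m

theorem tE_hasDerivAt (h : Prof Φ) (a v : ℝ) {φ : ℝ → ℝ} (hφ : EGS φ) (x : ℝ) :
    HasDerivAt (tE a v Φ φ)
      (tE a v Φ (deriv φ) x + a * (tE a v Φ (fun y => φ y * deriv Φ y) x -
        tE a v Φ φ x * tE a v Φ (deriv Φ) x)) x := by
  obtain ⟨C, hC⟩ := h.sm
  exact tE_deriv_x hC a v hφ.eg hφ.deriv.eg hφ.hasDerivAt x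

theorem tE_bdn (h : Prof Φ) (a v : ℝ) : ∀ {n : ℕ} {φ : ℝ → ℝ}, EGS φ → BDn n φ →
    BDn n (tE a v Φ φ)
  | 0, φ, _, hφ => by
    obtain ⟨C, hC⟩ := hφ.2
    have := tE_BC h.lip a v (φ := φ) (K := C) ⟨hφ.1, hC⟩
    exact ⟨this.cont, C, this.bd⟩
  | n + 1, φ, hs, hφ => by
    obtain ⟨C, hC⟩ := hφ.2.1
    have h1 := tE_BC h.lip a v (φ := φ) (K := C) ⟨hφ.1.continuous, hC⟩
    refine ⟨fun x => (h.tE_hasDerivAt a v hs x).differentiableAt, ⟨C, h1.bd⟩, ?_⟩
    have e : deriv (tE a v Φ φ) = fun x => tE a v Φ (deriv φ) x +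
        a * (tE a v Φ (fun y => φ y * deriv Φ y) x -
        tE a v Φ φ x * tE a v Φ (deriv Φ) x) :=
      funext fun x => (h.tE_hasDerivAt a v hs x).deriv
    rw [e]
    have i1 := h.tE_bdn a v hs.deriv hφ.2.2
    have i2 := h.tE_bdn a v (hs.mul h.bd.egs) (hφ.of_succ.mul (h.bd n))
    have i3 := h.tE_bdn a v hs hφ.of_succ
    have i4 := h.tE_bdn a v h.bd.egs (h.bd n)
    have i5 := (BDn.const (-1) n).mul (i3.mul i4)
    have i6 := i1.add ((BDn.const a n).mul (i2.add i5))
    exact i6.congr fun x => by ring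

theorem tE_bd (h : Prof Φ) (a v : ℝ) {φ : ℝ → ℝ} (hφ : BD φ) : BD (tE a v Φ φ) :=
  fun n => h.tE_bdn a v hφ.egs (hφ n)

theorem gaussOp_hasDerivAt (h : Prof Φ) (a v x : ℝ) :
    HasDerivAt (gaussOp a v Φ) (tE a v Φ (deriv Φ) x) x := by
  obtain ⟨C, hC⟩ := h.sm
  exact gaussOp_deriv_x hC a v x

theorem gaussOp_deriv (h : Prof Φ) (a v : ℝ) :
    deriv (gaussOp a v Φ) = tE a v Φ (deriv Φ) :=
  funext fun x => (h.gaussOp_hasDerivAt a v x).deriv

theorem gaussOp_deriv2 (h : Prof Φ) (a v : ℝ) :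
    deriv (deriv (gaussOp a v Φ)) = fun x => tE a v Φ (deriv (deriv Φ)) x +
      a * (tE a v Φ (fun y => deriv Φ y * deriv Φ y) x -
        tE a v Φ (deriv Φ) x * tE a v Φ (deriv Φ) x) := by
  rw [h.gaussOp_deriv]
  exact funext fun x => (h.tE_hasDerivAt a v h.bd.egs x).deriv

/-- one Cole–Hopf step -/
theorem step (h : Prof Φ) (a v : ℝ) : Prof (gaussOp a v Φ) := by
  refine ⟨fun x => (h.gaussOp_hasDerivAt a v x).differentiableAt, fun x => ?_, ?_⟩
  · rw [h.gaussOp_deriv]
    exact tE_abs_le h.lip a v ⟨h.bd.cont, h.b1⟩ x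
  · rw [h.gaussOp_deriv]
    exact h.tE_bd a v h.bd

/-- the exponential of the Cole–Hopf step is the heat flow -/
theorem exp_gaussOp (h : Prof Φ) {a : ℝ} (ha : a ≠ 0) (v x : ℝ) :
    Real.exp (a * Crest.ProbabilityR.InvariantGlass.gaussOp a v Φ x) =
      H (Real.sqrt v) (fun y => Real.exp (a * Φ y)) x := by
  rw [gaussOp_ne ha, ← mul_assoc, mul_inv_cancel₀ ha, one_mul,
    Real.exp_log (den_pos h.lip a _ x)]

end Prof

/-! ### evenness -/

theorem H_neg (φ : ℝ → ℝ) (t x : ℝ) : H t φ (-x) = H t (fun y => φ (-y)) x := by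
  unfold H
  have h1 : (gaussianReal 0 1).map (fun x : ℝ => -x) = gaussianReal 0 1 := by
    have := gaussianReal_map_neg (μ := 0) (v := 1)
    simpa using this
  have h2 : MeasurableEmbedding (fun x : ℝ => -x) := (Homeomorph.neg ℝ).measurableEmbedding
  conv_lhs => rw [← h1]
  rw [h2.integral_map]
  refine integral_congr_ae (Eventually.of_forall fun g => ?_)
  show φ (-x + t * -g) = φ (-(x + t * g))
  congr 1
  ring

theorem gaussOp_even {Φ : ℝ → ℝ} (he : ∀ x, Φ (-x) = Φ x) (a v x : ℝ) :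
    gaussOp a v Φ (-x) = gaussOp a v Φ x := by
  by_cases ha : a = 0
  · subst ha
    rw [gaussOp_zero, gaussOp_zero, H_neg]
    congr 1
    funext y
    exact he y
  · rw [gaussOp_ne ha, gaussOp_ne ha, H_neg]
    congr 3
    funext y
    rw [he]

theorem deriv_neg_of_even {f : ℝ → ℝ} (he : ∀ x, f (-x) = f x) (x : ℝ) :
    deriv f (-x) = -deriv f x := by
  have h : (fun x => f (-x)) = f := funext he
  have := deriv_comp_neg f x
  rw [h] at this
  linarith

theorem deriv_neg_of_odd {f : ℝ → ℝ} (ho : ∀ x, f (-x) = -f x) (x : ℝ) :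
    deriv f (-x) = deriv f x := by
  have h : (fun x => f (-x)) = fun x => -f x := funext ho
  have := deriv_comp_neg f x
  rw [h, deriv.fun_neg] at this
  linarith

/-! ### lower and upper bounds for the second derivative -/

/-- exponential lower bound -/
def Low (f : ℝ → ℝ) : Prop := ∃ c A : ℝ, 0 < c ∧ 0 ≤ A ∧ ∀ x, c * Real.exp (-(A * |x|)) ≤ f x

theorem Low.pos {f : ℝ → ℝ} (h : Low f) (x : ℝ) : 0 < f x := by
  obtain ⟨c, A, hc, _, h⟩ := h
  exact (mul_pos hc (Real.exp_pos _)).trans_le (h x)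

theorem var_nonneg {Φ : ℝ → ℝ} (h : Lip1 Φ) (a v : ℝ) {φ : ℝ → ℝ} (hφ : EG φ) (x : ℝ) :
    0 ≤ tE a v Φ (fun y => φ y * φ y) x - tE a v Φ φ x * tE a v Φ φ x := by
  have := tE_sq_le h a v hφ x
  have e : (fun y => φ y * φ y) = fun y => φ y ^ 2 := by
    funext y; ring
  rw [e]
  nlinarith

theorem Low.tE {Φ : ℝ → ℝ} (h : Lip1 Φ) (a v : ℝ) {φ : ℝ → ℝ} (hφ : EG φ) (hl : Low φ) :
    Low (tE a v Φ φ) := by
  obtain ⟨c, A, hc, hA, hl⟩ := hl
  set t := Real.sqrt v
  set I1 := ∫ g, Real.exp (-((A + |a|) * |t| * |g|)) ∂gaussianReal 0 1 with hI1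
  set I2 := ∫ g, Real.exp (|a| * |t| * |g|) ∂gaussianReal 0 1 with hI2
  have hi1 : Integrable (fun g : ℝ => Real.exp (-((A + |a|) * |t| * |g|))) (gaussianReal 0 1) := by
    have := integrable_exp_abs (-((A + |a|) * |t|))
    refine this.congr (Eventually.of_forall fun g => ?_)
    show Real.exp _ = Real.exp _
    congr 1
    ring
  have hi2 : Integrable (fun g : ℝ => Real.exp (|a| * |t| * |g|)) (gaussianReal 0 1) :=
    integrable_exp_abs _
  have p1 : 0 < I1 := by
    rw [hI1, integral_pos_iff_support_of_nonneg (fun _ => (Real.exp_pos _).le) hi1]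
    have : Function.support (fun g : ℝ => Real.exp (-((A + |a|) * |t| * |g|))) = univ := by
      ext g
      simp [(Real.exp_pos _).ne']
    rw [this, measure_univ]
    exact one_pos
  have p2 : 0 < I2 := by
    rw [hI2, integral_pos_iff_support_of_nonneg (fun _ => (Real.exp_pos _).le) hi2]
    have : Function.support (fun g : ℝ => Real.exp (|a| * |t| * |g|)) = univ := by
      ext g
      simp [(Real.exp_pos _).ne']
    rw [this, measure_univ]
    exact one_pos
  refine ⟨c * I1 / I2, A, by positivity, hA, fun x => ?_⟩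
  have hE := EG.exp_lip h a
  have hphi : ∀ y, |Φ y - Φ x| ≤ |y - x| := by
    intro y
    have h1 := h y x
    have h2 := h x y
    rw [abs_sub_comm] at h2
    rw [abs_le]
    constructor <;> linarith
  have hnum : c * Real.exp (-(A * |x|)) * Real.exp (a * Φ x) * I1 ≤
      H t (fun y => φ y * Real.exp (a * Φ y)) x := by
    unfold H
    rw [hI1, ← integral_const_mul]
    refine integral_mono (hi1.const_mul _) ((hφ.mul hE).int t x) fun g => ?_
    have e1 : Real.exp (-(A * |x|)) * Real.exp (a * Φ x) * Real.exp (-((A + |a|) * |t| * |g|)) ≤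
        Real.exp (-(A * |x + t * g|)) * Real.exp (a * Φ (x + t * g)) := by
      rw [← Real.exp_add, ← Real.exp_add, ← Real.exp_add]
      refine Real.exp_le_exp.2 ?_
      have h3 : |x + t * g| ≤ |x| + |t| * |g| := by
        refine (abs_add_le _ _).trans ?_
        rw [abs_mul]
      have h4 := hphi (x + t * g)
      have h5 : x + t * g - x = t * g := by ring
      rw [h5, abs_mul] at h4
      have h6 : |a * (Φ (x + t * g) - Φ x)| ≤ |a| * (|t| * |g|) := by
        rw [abs_mul]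
        exact mul_le_mul_of_nonneg_left h4 (abs_nonneg _)
      have h7 := (abs_le.1 h6).1
      have h8 := mul_le_mul_of_nonneg_left h3 hA
      nlinarith
    have e2 := hl (x + t * g)
    calc c * Real.exp (-(A * |x|)) * Real.exp (a * Φ x) * Real.exp (-((A + |a|) * |t| * |g|)) =
        c * (Real.exp (-(A * |x|)) * Real.exp (a * Φ x) *
          Real.exp (-((A + |a|) * |t| * |g|))) := by ring
      _ ≤ c * (Real.exp (-(A * |x + t * g|)) * Real.exp (a * Φ (x + t * g))) :=
          mul_le_mul_of_nonneg_left e1 hc.le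
      _ = (c * Real.exp (-(A * |x + t * g|))) * Real.exp (a * Φ (x + t * g)) := by ring
      _ ≤ φ (x + t * g) * Real.exp (a * Φ (x + t * g)) :=
          mul_le_mul_of_nonneg_right e2 (Real.exp_pos _).le
  have hden : H t (fun y => Real.exp (a * Φ y)) x ≤ Real.exp (a * Φ x) * I2 := by
    unfold H
    rw [hI2, ← integral_const_mul]
    refine integral_mono (hE.int t x) (hi2.const_mul _) fun g => ?_
    simp only
    rw [← Real.exp_add]
    refine Real.exp_le_exp.2 ?_
    have h4 := hphi (x + t * g)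
    have h5 : x + t * g - x = t * g := by ring
    rw [h5, abs_mul] at h4
    have h6 : |a * (Φ (x + t * g) - Φ x)| ≤ |a| * (|t| * |g|) := by
      rw [abs_mul]
      exact mul_le_mul_of_nonneg_left h4 (abs_nonneg _)
    have h7 := (abs_le.1 h6).2
    nlinarith
  have hd0 := den_pos h a t x
  unfold Crest.Agent.R164.GC.tE
  rw [le_div_iff₀ hd0]
  calc c * I1 / I2 * Real.exp (-(A * |x|)) * H t (fun y => Real.exp (a * Φ y)) x
      ≤ c * I1 / I2 * Real.exp (-(A * |x|)) * (Real.exp (a * Φ x) * I2) :=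
        mul_le_mul_of_nonneg_left hden (by positivity)
    _ = c * Real.exp (-(A * |x|)) * Real.exp (a * Φ x) * I1 := by
        field_simp
    _ ≤ _ := hnum

theorem Low.add_nonneg {f g : ℝ → ℝ} (h : Low f) (hg : ∀ x, 0 ≤ g x) : Low fun x => f x + g x := by
  obtain ⟨c, A, hc, hA, h⟩ := h
  exact ⟨c, A, hc, hA, fun x => by have := h x; have := hg x; linarith⟩

theorem Prof.low {Φ : ℝ → ℝ} (h : Prof Φ) (hl : Low (deriv (deriv Φ))) {a : ℝ} (ha : 0 ≤ a)
    (v : ℝ) : Low (deriv (deriv (gaussOp a v Φ))) := by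
  rw [h.gaussOp_deriv2]
  refine (Low.tE h.lip a v h.bd.deriv.eg hl).add_nonneg fun x => ?_
  exact mul_nonneg ha (var_nonneg h.lip a v h.bd.eg x)

/-- the upper bound `Φ'' ≤ β (1 - Φ'²)` is preserved for levels `0 ≤ a ≤ β` -/
theorem Prof.up {Φ : ℝ → ℝ} (h : Prof Φ) {β : ℝ}
    (hu : ∀ x, deriv (deriv Φ) x ≤ β * (1 - deriv Φ x ^ 2)) {a : ℝ} (ha : a ≤ β)
    (v x : ℝ) : deriv (deriv (gaussOp a v Φ)) x ≤ β * (1 - deriv (gaussOp a v Φ) x ^ 2) := by
  rw [h.gaussOp_deriv2, h.gaussOp_deriv]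
  have h1 := tE_mono h.lip a v h.bd.deriv.eg
    ((EG.const 1).sub (h.bd.eg.pow 2) |>.const_mul β) hu x
  rw [tE_const_mul, tE_sub h.lip a v (EG.const 1) (h.bd.eg.pow 2), tE_const h.lip] at h1
  have h2 := tE_sq_le h.lip a v h.bd.eg x
  have e : (fun y => deriv Φ y * deriv Φ y) = fun y => deriv Φ y ^ 2 := by
    funext y; ring
  simp only [e]
  nlinarith

/-! ### the property (P1) -/

/-- (P1) at level `m`: `2 m Φ' + Φ''' / Φ''` is nonincreasing -/
def P1 (m : ℝ) (Φ : ℝ → ℝ) : Prop :=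
  Antitone fun x => 2 * m * deriv Φ x + deriv (deriv (deriv Φ)) x / deriv (deriv Φ) x

theorem P1.mono {Φ : ℝ → ℝ} (h : Prof Φ) (hl : Low (deriv (deriv Φ))) {m m' : ℝ}
    (hm : m' ≤ m) (hP : P1 m Φ) : P1 m' Φ := by
  have hmono : Monotone (deriv Φ) := monotone_of_deriv_nonneg h.bd.diff fun x => (hl.pos x).le
  intro x y hxy
  have h1 := hP hxy
  have h2 := hmono hxy
  simp only at h1 ⊢
  nlinarith

section ExpCalc

variable {Φ : ℝ → ℝ} (h : Prof Φ) (m : ℝ)
include h

theorem exp_d1 : deriv (fun x => Real.exp (m * Φ x)) =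
    fun x => (m * deriv Φ x) * Real.exp (m * Φ x) := by
  funext x
  have := ((h.d1 x).const_mul m).exp
  rw [this.deriv]
  ring

theorem exp_d2 : deriv (deriv (fun x => Real.exp (m * Φ x))) =
    fun x => (m ^ 2 * deriv Φ x ^ 2 + m * deriv (deriv Φ) x) * Real.exp (m * Φ x) := by
  rw [exp_d1 h]
  funext x
  have h1 := ((h.d1 x).const_mul m).exp
  have h2 := ((h.bd.hasDerivAt x).const_mul m).fun_mul h1
  rw [h2.deriv]
  ring

end ExpCalc

/-- (P1) and W3 are equivalent -/
theorem P1_iff_W3 {Φ : ℝ → ℝ} (h : Prof Φ) (hl : Low (deriv (deriv Φ))) {m : ℝ} (hm : 0 < m) :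
    P1 m Φ ↔ W3 (fun x => Real.exp (m * Φ x)) (deriv (fun x => Real.exp (m * Φ x)))
      (deriv (deriv (fun x => Real.exp (m * Φ x)))) := by
  rw [W3_iff (fun x => Real.exp_pos _), exp_d2 h, exp_d1 h]
  have e1 : ∀ x, (m * deriv Φ x) * Real.exp (m * Φ x) / Real.exp (m * Φ x) = m * deriv Φ x :=
    fun x => mul_div_cancel_right₀ _ (Real.exp_pos _).ne'
  have e2 : ∀ x, (m ^ 2 * deriv Φ x ^ 2 + m * deriv (deriv Φ) x) * Real.exp (m * Φ x) /
      Real.exp (m * Φ x) = m ^ 2 * deriv Φ x ^ 2 + m * deriv (deriv Φ) x :=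
    fun x => mul_div_cancel_right₀ _ (Real.exp_pos _).ne'
  simp only [e1, e2]
  have hp : ∀ x, HasDerivAt (fun x => m * deriv Φ x) (m * deriv (deriv Φ) x) x :=
    fun x => (h.bd.hasDerivAt x).const_mul m
  have hq : ∀ x, HasDerivAt (fun x => m ^ 2 * deriv Φ x ^ 2 + m * deriv (deriv Φ) x)
      (m ^ 2 * (2 * deriv Φ x * deriv (deriv Φ) x) + m * deriv (deriv (deriv Φ)) x) x := by
    intro x
    have h1 := (((h.bd.hasDerivAt x).fun_pow 2).const_mul (m ^ 2)).fun_add
      ((h.bd.deriv.hasDerivAt x).const_mul m)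
    refine h1.congr_deriv ?_
    norm_num
  have hpos : ∀ x, 0 < m * deriv (deriv Φ) x := fun x => mul_pos hm (hl.pos x)
  have e3 : (fun x => (m ^ 2 * (2 * deriv Φ x * deriv (deriv Φ) x) +
      m * deriv (deriv (deriv Φ)) x) / (m * deriv (deriv Φ) x)) =
      fun x => 2 * m * deriv Φ x + deriv (deriv (deriv Φ)) x / deriv (deriv Φ) x := by
    funext x
    have := (hl.pos x).ne'
    field_simp
  constructor
  · intro hP x y z hxy hyz
    refine slope_of_anti hp hq hpos ?_ hxy hyz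
    rw [e3]
    exact hP
  · intro hW
    have := anti_of_slope hp hq hpos hW
    rw [e3] at this
    exact this

/-- **(P1) is preserved by the Cole–Hopf step.** -/
theorem P1.step {Φ : ℝ → ℝ} (h : Prof Φ) (hl : Low (deriv (deriv Φ))) {m : ℝ} (hm : 0 < m)
    (hP : P1 m Φ) (v : ℝ) : P1 m (gaussOp m v Φ) := by
  rw [P1_iff_W3 (h.step m v) (h.low hl hm.le v) hm]
  rw [P1_iff_W3 h hl hm] at hP
  have hE := h.exp_egs m
  have e : (fun x => Real.exp (m * gaussOp m v Φ x)) =
      H (Real.sqrt v) (fun y => Real.exp (m * Φ y)) := funext fun x => h.exp_gaussOp hm.ne' v x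
  rw [e, H_deriv hE, H_deriv hE.deriv]
  exact hP.heat hE.eg hE.deriv.eg hE.deriv.deriv.eg _

end

end Crest.Agent.R339.B
end

-- ▼ part R339/B107PhiL

/-!
Row 339 (helper107): the Parisi recursion as a list recursion from the terminal side, with all the
invariants: `Prof`, evenness, exponential lower bound and upper bound of the second derivative, (P1).
-/

set_option autoImplicit false

namespace Crest.Agent.R339.B

open MeasureTheory ProbabilityTheory Filter Topology Set
open Crest.Agent.R164.GC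
open Crest.ProbabilityR.InvariantGlass (gaussOp)

noncomputable section

/-- terminal function -/
def phi0 (β x : ℝ) : ℝ := Real.log (2 * Real.cosh (β * x)) / β

theorem phi0_hasDerivAt {β : ℝ} (hβ : 0 < β) (x : ℝ) :
    HasDerivAt (phi0 β) (Real.sinh (β * x) / Real.cosh (β * x)) x := by
  unfold phi0
  have h1 : HasDerivAt (fun x : ℝ => β * x) β x := by
    simpa using (hasDerivAt_id x).const_mul β
  have h2 := (h1.cosh.const_mul 2).log (by positivity)
  have h3 := h2.div_const β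
  refine h3.congr_deriv ?_
  have := (Real.cosh_pos (β * x)).ne'
  field_simp

/-- the hyperbolic tangent of `β x` -/
def th (β x : ℝ) : ℝ := Real.sinh (β * x) / Real.cosh (β * x)

theorem th_hasDerivAt (β x : ℝ) : HasDerivAt (th β) (β * (1 - th β x ^ 2)) x := by
  unfold th
  have h1 : HasDerivAt (fun x : ℝ => β * x) β x := by
    simpa using (hasDerivAt_id x).const_mul β
  have h2 := h1.sinh.fun_div h1.cosh (Real.cosh_pos (β * x)).ne'
  refine h2.congr_deriv ?_
  have := (Real.cosh_pos (β * x)).ne'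
  field_simp

theorem one_sub_th_sq (β x : ℝ) : 1 - th β x ^ 2 = 1 / Real.cosh (β * x) ^ 2 := by
  unfold th
  have h := (Real.cosh_pos (β * x)).ne'
  have h2 := Real.cosh_sq_sub_sinh_sq (β * x)
  field_simp
  linarith

theorem th_abs_le (β x : ℝ) : |th β x| ≤ 1 := by
  have h : th β x ^ 2 ≤ 1 := by
    have := one_sub_th_sq β x
    have h2 : 0 ≤ 1 / Real.cosh (β * x) ^ 2 := by positivity
    linarith
  exact abs_le_one_iff_mul_self_le_one.2 (by nlinarith)

theorem phi0_deriv {β : ℝ} (hβ : 0 < β) : deriv (phi0 β) = th β :=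
  funext fun x => (phi0_hasDerivAt hβ x).deriv

theorem th_deriv (β : ℝ) : deriv (th β) = fun x => β * (1 - th β x ^ 2) :=
  funext fun x => (th_hasDerivAt β x).deriv

theorem th_bd (β : ℝ) : BD (th β) := by
  intro n
  have hd : Differentiable ℝ (th β) := fun x => (th_hasDerivAt β x).differentiableAt
  induction n with
  | zero => exact ⟨hd.continuous, 1, th_abs_le β⟩
  | succ n ih =>
    refine ⟨hd, ⟨1, th_abs_le β⟩, ?_⟩
    rw [th_deriv]
    have h1 := (BDn.const β n).mul ((BDn.const 1 n).add ((BDn.const (-1) n).mul (ih.mul ih)))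
    exact h1.congr fun x => by ring

theorem phi0_prof {β : ℝ} (hβ : 0 < β) : Prof (phi0 β) := by
  refine ⟨fun x => (phi0_hasDerivAt hβ x).differentiableAt, fun x => ?_, ?_⟩
  · rw [phi0_deriv hβ]; exact th_abs_le β x
  · rw [phi0_deriv hβ]; exact th_bd β

theorem phi0_even (β x : ℝ) : phi0 β (-x) = phi0 β x := by
  unfold phi0
  rw [mul_neg, Real.cosh_neg]

theorem phi0_deriv2 {β : ℝ} (hβ : 0 < β) :
    deriv (deriv (phi0 β)) = fun x => β * (1 - th β x ^ 2) := by
  rw [phi0_deriv hβ, th_deriv]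

theorem phi0_low {β : ℝ} (hβ : 0 < β) : Low (deriv (deriv (phi0 β))) := by
  rw [phi0_deriv2 hβ]
  refine ⟨β, 2 * β, hβ, by positivity, fun x => ?_⟩
  simp only
  rw [one_sub_th_sq]
  refine mul_le_mul_of_nonneg_left ?_ hβ.le
  have h1 : Real.cosh (β * x) ≤ Real.exp (β * |x|) := by
    rw [Real.cosh_eq]
    have a1 : Real.exp (β * x) ≤ Real.exp (β * |x|) :=
      Real.exp_le_exp.2 (mul_le_mul_of_nonneg_left (le_abs_self x) hβ.le)
    have a2 : Real.exp (-(β * x)) ≤ Real.exp (β * |x|) := by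
      refine Real.exp_le_exp.2 ?_
      have := neg_abs_le x
      nlinarith
    linarith
  have h2 : Real.cosh (β * x) ^ 2 ≤ Real.exp (2 * β * |x|) := by
    have : Real.exp (2 * β * |x|) = Real.exp (β * |x|) ^ 2 := by
      rw [← Real.exp_nat_mul]; congr 1; push_cast; ring
    rw [this]
    exact pow_le_pow_left₀ (Real.cosh_pos _).le h1 2
  rw [Real.exp_neg, ← one_div]
  exact one_div_le_one_div_of_le (by positivity) h2

theorem phi0_up {β : ℝ} (hβ : 0 < β) (x : ℝ) :
    deriv (deriv (phi0 β)) x ≤ β * (1 - deriv (phi0 β) x ^ 2) := by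
  rw [phi0_deriv2 hβ, phi0_deriv hβ]

theorem phi0_P1 {β : ℝ} (hβ : 0 < β) : P1 β (phi0 β) := by
  have h3 : deriv (deriv (deriv (phi0 β))) =
      fun x => -(2 * β * th β x) * (β * (1 - th β x ^ 2)) := by
    rw [phi0_deriv2 hβ]
    funext x
    have h1 := ((((th_hasDerivAt β x).fun_pow 2).const_sub 1).const_mul β)
    rw [h1.deriv]
    norm_num
    ring
  have e : (fun x => 2 * β * deriv (phi0 β) x +
      deriv (deriv (deriv (phi0 β))) x / deriv (deriv (phi0 β)) x) = fun _ => 0 := by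
    funext x
    rw [h3, phi0_deriv2 hβ, phi0_deriv hβ]
    simp only
    have h4 : β * (1 - th β x ^ 2) ≠ 0 := by
      rw [one_sub_th_sq]
      positivity
    rw [mul_div_cancel_right₀ _ h4]
    ring
  unfold P1
  rw [e]
  exact antitone_const

/-- the Parisi recursion; the head of the list is the block nearest to time `0`, an entry is
`(m, d)`: level `m`, length `d` -/
def PhiL (β : ℝ) : List (ℝ × ℝ) → ℝ → ℝ
  | [] => phi0 β
  | p :: l => gaussOp p.1 p.2 (PhiL β l)

/-- the level at the head -/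
def headLv (β : ℝ) : List (ℝ × ℝ) → ℝ
  | [] => β
  | p :: _ => p.1

/-- admissible lists of blocks: `0 < m_1 ≤ m_2 ≤ … ≤ β`, lengths `≥ 0` -/
def Adm (β : ℝ) : List (ℝ × ℝ) → Prop
  | [] => True
  | p :: l => 0 < p.1 ∧ p.1 ≤ headLv β l ∧ 0 ≤ p.2 ∧ Adm β l

theorem Adm.head_le {β : ℝ} : ∀ {l : List (ℝ × ℝ)}, Adm β l → headLv β l ≤ β
  | [], _ => le_rfl
  | _ :: _, h => h.2.1.trans h.2.2.2.head_le

theorem Adm.head_pos {β : ℝ} (hβ : 0 < β) : ∀ {l : List (ℝ × ℝ)}, Adm β l → 0 < headLv β l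
  | [], _ => hβ
  | _ :: _, h => h.1

/-- all invariants of the Parisi recursion -/
structure Inv (β m : ℝ) (Φ : ℝ → ℝ) : Prop where
  prof : Prof Φ
  even : ∀ x, Φ (-x) = Φ x
  low : Low (deriv (deriv Φ))
  up : ∀ x, deriv (deriv Φ) x ≤ β * (1 - deriv Φ x ^ 2)
  p1 : P1 m Φ

theorem Inv.mono {β m m' : ℝ} {Φ : ℝ → ℝ} (h : Inv β m Φ) (hm : m' ≤ m) : Inv β m' Φ :=
  ⟨h.prof, h.even, h.low, h.up, h.p1.mono h.prof h.low hm⟩

theorem Inv.step {β m : ℝ} {Φ : ℝ → ℝ} (h : Inv β m Φ) (hm : 0 < m) (hmβ : m ≤ β) (v : ℝ) :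
    Inv β m (gaussOp m v Φ) :=
  ⟨h.prof.step m v, gaussOp_even h.even m v, h.prof.low h.low hm.le v, h.prof.up h.up hmβ v,
    h.p1.step h.prof h.low hm v⟩

theorem phi0_inv {β : ℝ} (hβ : 0 < β) : Inv β β (phi0 β) :=
  ⟨phi0_prof hβ, phi0_even β, phi0_low hβ, phi0_up hβ, phi0_P1 hβ⟩

theorem PhiL_inv {β : ℝ} (hβ : 0 < β) : ∀ {l : List (ℝ × ℝ)}, Adm β l →
    Inv β (headLv β l) (PhiL β l)
  | [], _ => phi0_inv hβ
  | p :: _, h => by
    have ih := PhiL_inv hβ h.2.2.2
    exact (ih.mono h.2.1).step h.1 (h.2.1.trans h.2.2.2.head_le) p.2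

/-- consequences of evenness and positivity -/
theorem Inv.odd {β m : ℝ} {Φ : ℝ → ℝ} (h : Inv β m Φ) (x : ℝ) : deriv Φ (-x) = -deriv Φ x :=
  deriv_neg_of_even h.even x

theorem Inv.d0 {β m : ℝ} {Φ : ℝ → ℝ} (h : Inv β m Φ) : deriv Φ 0 = 0 := by
  have := h.odd 0
  rw [neg_zero] at this
  linarith

theorem Inv.strictMono {β m : ℝ} {Φ : ℝ → ℝ} (h : Inv β m Φ) : StrictMono (deriv Φ) :=
  strictMono_of_hasDerivAt_pos h.prof.bd.hasDerivAt h.low.pos

theorem Inv.nonneg {β m : ℝ} {Φ : ℝ → ℝ} (h : Inv β m Φ) {x : ℝ} (hx : 0 ≤ x) :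
    0 ≤ deriv Φ x := by
  have := h.strictMono.monotone hx
  rwa [h.d0] at this

end

end Crest.Agent.R339.B
private theorem rz_103b3aaf9d : type_of% @_root_.Crest.Agent.R339.B.Adm.eq_def := @_root_.Crest.Agent.R339.B.Adm.eq_def -- L150
private theorem rz_5a9621d770 : type_of% @_root_.Crest.Agent.R339.B.Adm.eq_1 := @_root_.Crest.Agent.R339.B.Adm.eq_1 -- L150
private theorem rz_73b1ea7194 : type_of% @_root_.Crest.Agent.R339.B.PhiL.eq_def := @_root_.Crest.Agent.R339.B.PhiL.eq_def -- L140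
private theorem rz_c2473cf91e : type_of% @_root_.Crest.Agent.R339.B.PhiL.eq_1 := @_root_.Crest.Agent.R339.B.PhiL.eq_1 -- L140
private theorem rz_375031a076 : type_of% @_root_.Crest.Agent.R339.B.headLv.eq_1 := @_root_.Crest.Agent.R339.B.headLv.eq_1 -- L145
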