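import Crest.Agent.R339.LabInst286
import Mathlib
import Crest.Agent.R339.SiteModel

-- ▼ part R339/LabILSys286
section

/-!
R339: `SL K₀` with a surjective field map is an instance of helper728's `ILSys`.
-/

set_option autoImplicit false
set_option linter.unusedSectionVars false

noncomputable section

namespace Crest.Agent.R339.LF

open MeasureTheory ProbabilityTheory Filter Topology
open scoped InnerProductSpace ENNReal
open Crest.Agent.R339.Site Crest.Agent.R339.Lab Crest.MathPhysics.SpinGlass

variable {K0 : Type*} [NormedAddCommGroup K0] [InnerProductSpace ℂ K0]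

lemma ClE.empty : ClE ∅ := ⟨MeasurableSet.empty, fun _ => by simp⟩

theorem ClE_div' : ∃ C : ℝ, ∀ R : ℕ, 0 < R → ∃ N : ℕ → Set ℝ, (∀ r, ClE (N r)) ∧
    (Pairwise fun i j => Disjoint (N i) (N j)) ∧ (⋃ r, ⋃ (_ : r < R), N r) = Set.univ ∧
    ∀ r, gam1.real (N r) ≤ C / R := by
  refine ⟨1, fun R hR => ?_⟩
  obtain ⟨c, h1, h2, h3, h4⟩ := exists_cells_of_ClE R hR
  refine ⟨fun r => if h : r < R then c ⟨r, h⟩ else ∅, fun r => ?_, fun i k hik => ?_, ?_,
    fun r => ?_⟩
  · by_cases h : r < R
    · simp only [h, dif_pos]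
      exact h1 _
    · simp only [h, dif_neg, not_false_eq_true]
      exact ClE.empty
  · show Disjoint (if h : i < R then c ⟨i, h⟩ else ∅) (if h : k < R then c ⟨k, h⟩ else ∅)
    by_cases hi : i < R
    · by_cases hk : k < R
      · simp only [hi, hk, dif_pos]
        exact h2 (fun h => hik (by simpa using h))
      · simp only [hk, dif_neg, not_false_eq_true]
        exact Set.disjoint_empty _
    · simp only [hi, dif_neg, not_false_eq_true]
      exact Set.empty_disjoint _
  · rw [Set.eq_univ_iff_forall]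
    intro x
    have hx : x ∈ ⋃ i, c i := by rw [h3]; trivial
    obtain ⟨i, hi⟩ := Set.mem_iUnion.1 hx
    refine Set.mem_iUnion.2 ⟨i, Set.mem_iUnion.2 ⟨i.2, ?_⟩⟩
    simp only [i.2, dif_pos]
    exact hi
  · by_cases h : r < R
    · simp only [h, dif_pos]
      exact (h4 _).le
    · simp only [h, dif_neg, not_false_eq_true, measureReal_empty]
      positivity

/-- **The instance.** -/
def IL (io : SL K0 ≃ₗᵢ[ℂ] K0) : Li.ILSys ℝ (SL K0) where
  μ := gam1
  prob := inferInstance
  sg := spHom (LFo K0)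
  P := PS
  W f := WS (io f)
  Om := OmS
  one := oneS io.toLinearIsometry
  P_univ := PS_univ
  P_inter A B hA hB := (PS_mul_PS hA hB).symm
  P_union A B hA hB h := PS_union hA hB h
  P_star A hA := star_PS hA
  P_sg A M hA := (spG_dg_comm M _).symm
  P_W A f hA := (WS_PS_comm (io f) hA).symm
  sg_W M f := spG_dg_comm M _
  W_zero := by rw [map_zero, WS_zero]
  W_mul f g := by
    rw [WS_mul, io.inner_map_map, map_add]
  W_star f := by rw [star_WS, map_neg]
  W_cont v := (continuous_WS_apply v).comp io.continuous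
  Om_X := by
    have h : (Li.xM : Matrix Bool Bool ℂ) = xm := by
      ext b b'
      cases b <;> cases b' <;> simp [Li.xM, xm]
    rw [h]
    exact XS_OmS
  inner_Om A f hA := by
    rw [inner_OmS_PS_WS hA, io.norm_map]
  total := SL_total io
  one_deriv f := oneS_deriv io.toLinearIsometry f
  Cl := ClE
  Cl_meas A h := h.1
  Cl_univ := ClE.univ
  Cl_compl A h := h.compl
  Cl_inter A B h h' := h.inter h'
  Cl_div := ClE_div'

end Crest.Agent.R339.LF
end
end

-- ▼ part R339/SiteIota90
section

/-!
# Existence of isometries `Sp K → K` with label space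
-/

set_option autoImplicit false

noncomputable section

open scoped ComplexConjugate InnerProductSpace Topology
open Filter TopologicalSpace

namespace Crest.Agent.R339.Site

lemma countable_of_orthonormal {E : Type*} [NormedAddCommGroup E] [InnerProductSpace ℂ E]
    [SeparableSpace E] {κ : Type*} {v : κ → E} (hv : Orthonormal ℂ v) : Countable κ := by
  have h : (Set.univ : Set κ).PairwiseDisjoint fun i => Metric.ball (v i) (1 / 2) := by
    intro i _ j _ hij
    refine Metric.ball_disjoint_ball ?_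
    have h1 : ‖v i - v j‖ ^ 2 = 2 := by
      rw [@norm_sub_sq ℂ, hv.1 i, hv.1 j, hv.2 hij]
      norm_num
    rw [dist_eq_norm]
    nlinarith [norm_nonneg (v i - v j)]
  have := h.countable_of_isOpen (fun i _ => Metric.isOpen_ball)
    (fun i _ => ⟨v i, Metric.mem_ball_self (by norm_num)⟩)
  exact Set.countable_univ_iff.mp this

instance {K : Type*} [NormedAddCommGroup K] [InnerProductSpace ℂ K] [SeparableSpace K] :
    SeparableSpace (Fock K) := by
  have h1 := (isSeparable_range (continuous_coh (K := K))).span (R := ℂ)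
  have h2 := h1.closure
  rw [← isSeparable_univ_iff]
  have h3 : closure (Submodule.span ℂ (Set.range (coh : K → Fock K)) : Set (Fock K)) = Set.univ := by
    have := congrArg (fun S : Submodule ℂ (Fock K) => (S : Set (Fock K))) (coh_total (K := K))
    simpa using this
  rwa [h3] at h2

instance {K : Type*} [NormedAddCommGroup K] [InnerProductSpace ℂ K] [SeparableSpace K] :
    SeparableSpace (Sp K) := by
  have h1 : Continuous (WithLp.toLp 2 : (Bool → Fock K) → Sp K) :=
    PiLp.continuous_toLp 2 (fun _ : Bool => Fock K)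
  have h2 := isSeparable_range h1
  rw [← isSeparable_univ_iff]
  have h3 : Set.range (WithLp.toLp 2 : (Bool → Fock K) → Sp K) = Set.univ :=
    Set.range_eq_univ.mpr fun x => ⟨fun b => x b, rfl⟩
  rwa [h3] at h2

/-- Every separable Hilbert space embeds in a Hilbert space with an orthonormal sequence, leaving
an orthonormal sequence free. -/
theorem exists_isometry_of_orthonormal {E K : Type*} [NormedAddCommGroup E] [InnerProductSpace ℂ E]
    [CompleteSpace E] [SeparableSpace E] [NormedAddCommGroup K] [InnerProductSpace ℂ K]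
    [CompleteSpace K] {u : ℕ → K} (hu : Orthonormal ℂ u) :
    ∃ ι : E →ₗᵢ[ℂ] K, ∀ k v, ⟪u (2 * k + 1), ι v⟫_ℂ = 0 := by
  obtain ⟨w, b, hb⟩ := exists_hilbertBasis ℂ E
  have hc : Countable w := countable_of_orthonormal b.orthonormal
  obtain ⟨j, hj⟩ := hc.exists_injective_nat
  have hv : Orthonormal ℂ (fun i : w => u (2 * j i)) :=
    hu.comp (fun i : w => 2 * j i) fun i i' h => hj (by simpa using h)
  refine ⟨(hv.orthogonalFamily.linearIsometry).comp b.repr.toLinearIsometry, fun k v => ?_⟩
  have h1 := hv.orthogonalFamily.hasSum_linearIsometry (b.repr v)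
  have h2 : HasSum (fun i : w => ⟪u (2 * k + 1),
      (LinearIsometry.toSpanSingleton ℂ K (hv.1 i)) (b.repr v i)⟫_ℂ)
      ⟪u (2 * k + 1), hv.orthogonalFamily.linearIsometry (b.repr v)⟫_ℂ := by
    exact h1.mapL (innerSL ℂ (u (2 * k + 1)))
  refine h2.unique ?_
  convert! hasSum_zero with i
  rw [LinearIsometry.toSpanSingleton_apply, inner_smul_right, hu.2 (by omega), mul_zero]

/-- a standard one-particle space -/
abbrev Kst : Type := lp (fun _ : ℕ => ℂ) 2

lemma orthonormal_Kst : Orthonormal ℂ (fun n : ℕ => (lp.single 2 n (1 : ℂ) : Kst)) := by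
  classical
  rw [orthonormal_iff_ite]
  intro i j
  rw [lp.inner_single_left]
  simp only [lp.coeFn_single]
  by_cases h : i = j
  · subst h; simp
  · simp [h]

instance : SeparableSpace Kst := by
  let B : HilbertBasis ℕ ℂ Kst := HilbertBasis.ofRepr (LinearIsometryEquiv.refl ℂ Kst)
  have h1 : (Set.range B).Countable := Set.countable_range B
  have h2 := (h1.isSeparable.span (R := ℂ)).closure
  rw [← isSeparable_univ_iff]
  have h3 : closure (Submodule.span ℂ (Set.range B) : Set Kst) = Set.univ := by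
    have h4 := B.dense_span
    rw [SetLike.ext'_iff, Submodule.topologicalClosure_coe, Submodule.top_coe] at h4
    exact h4
  rwa [h3] at h2


end Crest.Agent.R339.Site
end
end

-- ▼ part R339/LabBridge286

/-!
R339: existence of the data linking the labelled site space `SL K₀` (with a surjective field map)
and the plain site space `Sp K`.
-/

set_option autoImplicit false
set_option linter.unusedSectionVars false

noncomputable section

namespace Crest.Agent.R339.LF

open MeasureTheory ProbabilityTheory Filter Topology TopologicalSpace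
open scoped InnerProductSpace ENNReal
open Crest.Agent.R339.Site Crest.Agent.R339.Lab Crest.MathPhysics.SpinGlass

/-! ### Hilbert space preliminaries -/

theorem exists_unitary_Kst (E : Type*) [NormedAddCommGroup E] [InnerProductSpace ℂ E]
    [CompleteSpace E] [SeparableSpace E] (hinf : ¬ FiniteDimensional ℂ E) :
    Nonempty (E ≃ₗᵢ[ℂ] Kst) := by
  obtain ⟨w, b, hb⟩ := exists_hilbertBasis ℂ E
  have hc : Countable w := countable_of_orthonormal b.orthonormal
  have hi : Infinite w := by
    by_contra hfin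
    rw [not_infinite_iff_finite] at hfin
    haveI := Fintype.ofFinite w
    exact hinf (Module.Basis.finiteDimensional_of_finite b.toOrthonormalBasis.toBasis)
  obtain ⟨e⟩ : Nonempty (w ≃ ℕ) := nonempty_equiv_of_countable
  have ho : Orthonormal ℂ (fun n : ℕ => b (e.symm n)) := b.orthonormal.comp _ e.symm.injective
  have hd : ⊤ ≤ (Submodule.span ℂ (Set.range (fun n : ℕ => b (e.symm n)))).topologicalClosure := by
    have h1 : Set.range (fun n : ℕ => b (e.symm n)) = Set.range b := by
      have := e.symm.surjective.range_comp b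
      exact this
    rw [h1, b.dense_span]
  exact ⟨(HilbertBasis.mk ho hd).repr⟩

/-- the isometry `e_n ↦ e_{φ n}` of `ℓ²`. -/
def shiftIso (φ : ℕ → ℕ) (hφ : Function.Injective φ) : Kst →ₗᵢ[ℂ] Kst :=
  (orthonormal_Kst.comp φ hφ).orthogonalFamily.linearIsometry

lemma shiftIso_hasSum (φ : ℕ → ℕ) (hφ : Function.Injective φ) (v : Kst) :
    HasSum (fun i => (v i) • (lp.single 2 (φ i) (1 : ℂ) : Kst)) (shiftIso φ hφ v) := by
  have h := (orthonormal_Kst.comp φ hφ).orthogonalFamily.hasSum_linearIsometry v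
  exact h

lemma inner_single_shiftIso (φ : ℕ → ℕ) (hφ : Function.Injective φ) (k : ℕ)
    (hk : ∀ i, φ i ≠ k) (v : Kst) :
    ⟪(lp.single 2 k (1 : ℂ) : Kst), shiftIso φ hφ v⟫_ℂ = 0 := by
  have h1 := (shiftIso_hasSum φ hφ v).mapL (innerSL ℂ (lp.single 2 k (1 : ℂ) : Kst))
  refine h1.unique ?_
  convert! hasSum_zero with i
  rw [map_smul]
  have : innerSL ℂ (lp.single 2 k (1 : ℂ) : Kst) (lp.single 2 (φ i) (1 : ℂ) : Kst) = 0 :=
    orthonormal_Kst.2 (hk i).symm
  rw [this, smul_zero]

lemma inner_shiftIso_shiftIso (φ ψ : ℕ → ℕ) (hφ : Function.Injective φ)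
    (hψ : Function.Injective ψ) (hd : ∀ i k, φ i ≠ ψ k) (v w : Kst) :
    ⟪shiftIso φ hφ v, shiftIso ψ hψ w⟫_ℂ = 0 := by
  rw [← inner_conj_symm]
  have h1 := (shiftIso_hasSum φ hφ v).mapL (innerSL ℂ (shiftIso ψ hψ w))
  have h2 : ⟪shiftIso ψ hψ w, shiftIso φ hφ v⟫_ℂ = 0 := by
    refine h1.unique ?_
    convert! hasSum_zero with i
    rw [map_smul]
    have : innerSL ℂ (shiftIso ψ hψ w) (lp.single 2 (φ i) (1 : ℂ) : Kst) = 0 := by
      rw [innerSL_apply_apply, ← inner_conj_symm,
        inner_single_shiftIso ψ hψ (φ i) (fun k => (hd i k).symm), map_zero]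
    rw [this, smul_zero]
  rw [h2, map_zero]

lemma Kst_infinite : ¬ FiniteDimensional ℂ Kst := by
  intro h
  have h1 := orthonormal_Kst.linearIndependent
  haveI := h
  have := h1.finite
  exact not_finite ℕ

instance : SeparableSpace (LFo Kst) := by
  haveI : Fact ((2 : ℝ≥0∞) ≠ ∞) := ⟨by norm_num⟩
  haveI : SecondCountableTopology (LFo Kst) := Lp.SecondCountableTopology
  infer_instance

instance : SeparableSpace (SL Kst) := by
  have h1 : Continuous (WithLp.toLp 2 : (Bool → LFo Kst) → SL Kst) :=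
    PiLp.continuous_toLp 2 (fun _ : Bool => LFo Kst)
  have h2 := isSeparable_range h1
  rw [← isSeparable_univ_iff]
  have h3 : Set.range (WithLp.toLp 2 : (Bool → LFo Kst) → SL Kst) = Set.univ :=
    Set.range_eq_univ.mpr fun x => ⟨fun b => x b, rfl⟩
  rwa [h3] at h2

lemma SL_infinite : ¬ FiniteDimensional ℂ (SL Kst) := by
  intro h
  haveI := h
  have h1 : Function.Injective (((plusL (K0 := Kst)).comp one).toLinearMap) :=
    ((plusL (K0 := Kst)).comp one).injective
  exact Kst_infinite (FiniteDimensional.of_injective _ h1)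

/-! ### the bridge data -/

/-- Data linking the labelled and the plain site spaces. -/
structure BridgeData (K0 K : Type*) [NormedAddCommGroup K0] [InnerProductSpace ℂ K0]
    [NormedAddCommGroup K] [InnerProductSpace ℂ K] where
  /-- the (surjective) field map of the labelled space -/
  io : SL K0 ≃ₗᵢ[ℂ] K0
  /-- the inclusion of the unlabelled one-particle space -/
  j : K0 →ₗᵢ[ℂ] K
  /-- the label vector -/
  s : K
  /-- the field map of the plain space -/
  ip : Sp K →ₗᵢ[ℂ] K
  hs : ‖s‖ = 1
  hsj : ∀ f, ⟪s, j f⟫_ℂ = 0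
  hsi : ∀ v, ⟪s, ip v⟫_ℂ = 0
  comm : ∀ v, ip (embS j s v) = j (io v)

/-- the isometric embedding of the labelled space. -/
def embI {K0 K : Type*} [NormedAddCommGroup K0] [InnerProductSpace ℂ K0]
    [NormedAddCommGroup K] [InnerProductSpace ℂ K] (j : K0 →ₗᵢ[ℂ] K) (s : K) (hs : ‖s‖ = 1)
    (hsj : ∀ f, ⟪s, j f⟫_ℂ = 0) : SL K0 →ₗᵢ[ℂ] Sp K :=
  ⟨(embS j s).toLinearMap, norm_embS j s hs hsj⟩

lemma embI_apply {K0 K : Type*} [NormedAddCommGroup K0] [InnerProductSpace ℂ K0]
    [NormedAddCommGroup K] [InnerProductSpace ℂ K] (j : K0 →ₗᵢ[ℂ] K) (s : K) (hs : ‖s‖ = 1)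
    (hsj : ∀ f, ⟪s, j f⟫_ℂ = 0) (v : SL K0) : embI j s hs hsj v = embS j s v := rfl

theorem exists_bridgeData : Nonempty (BridgeData Kst Kst) := by
  obtain ⟨io⟩ := exists_unitary_Kst (SL Kst) SL_infinite
  obtain ⟨u0, -⟩ := exists_isometry_of_orthonormal (E := Sp Kst) orthonormal_Kst
  have i1 : Function.Injective (fun n : ℕ => 3 * n) := fun a b h => by
    simp only at h; omega
  have i2 : Function.Injective (fun n : ℕ => 3 * n + 2) := fun a b h => by
    simp only at h; omega
  set j : Kst →ₗᵢ[ℂ] Kst := shiftIso (fun n => 3 * n) i1 with hj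
  set u : Sp Kst →ₗᵢ[ℂ] Kst := (shiftIso (fun n => 3 * n + 2) i2).comp u0 with hu
  set s : Kst := lp.single 2 1 (1 : ℂ) with hsdef
  have hs : ‖s‖ = 1 := orthonormal_Kst.1 1
  have hsj : ∀ f, ⟪s, j f⟫_ℂ = 0 := fun f => inner_single_shiftIso _ i1 1 (fun i => by omega) f
  have hsu : ∀ f, ⟪s, u f⟫_ℂ = 0 := fun f =>
    inner_single_shiftIso _ i2 1 (fun i => by omega) (u0 f)
  have hju : ∀ f g, ⟪j f, u g⟫_ℂ = 0 := fun f g =>
    inner_shiftIso_shiftIso _ _ i1 i2 (fun i k => by omega) f (u0 g)
  -- the isometric embedding and its adjoint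
  set E : SL Kst →ₗᵢ[ℂ] Sp Kst := embI j s hs hsj with hE
  set Ea : Sp Kst →L[ℂ] SL Kst := ContinuousLinearMap.adjoint E.toContinuousLinearMap with hEa
  have hEaE : ∀ v, Ea (E v) = v := by
    intro v
    refine ext_inner_left ℂ fun w => ?_
    rw [hEa, ContinuousLinearMap.adjoint_inner_right]
    exact E.inner_map_map w v
  have hnorm : ∀ v : Sp Kst, ‖Ea v‖ ^ 2 + ‖v - E (Ea v)‖ ^ 2 = ‖v‖ ^ 2 := by
    intro v
    have h1 : ⟪E (Ea v), v - E (Ea v)⟫_ℂ = 0 := by
      have h2 : ⟪E (Ea v), v - E (Ea v)⟫_ℂ = ⟪Ea v, Ea (v - E (Ea v))⟫_ℂ := by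
        rw [hEa, ContinuousLinearMap.adjoint_inner_right]
        rfl
      rw [h2, map_sub, hEaE, sub_self, inner_zero_right]
    have h3 : v = E (Ea v) + (v - E (Ea v)) := by abel
    conv_rhs => rw [h3]
    rw [@norm_add_sq ℂ, h1, E.norm_map]
    simp
  -- the field map of the plain space
  let ipL : Sp Kst →ₗ[ℂ] Kst :=
    { toFun := fun v => j (io (Ea v)) + u (v - E (Ea v))
      map_add' := by
        intro v w
        simp only [map_add]
        have : v + w - (E (Ea v) + E (Ea w)) = (v - E (Ea v)) + (w - E (Ea w)) := by abel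
        rw [this, map_add]
        abel
      map_smul' := by
        intro c v
        simp only [map_smul, RingHom.id_apply, smul_add]
        have : c • v - c • E (Ea v) = c • (v - E (Ea v)) := by rw [smul_sub]
        rw [this, map_smul] }
  let ip : Sp Kst →ₗᵢ[ℂ] Kst :=
    { toLinearMap := ipL
      norm_map' := by
        intro v
        have h1 : ‖j (io (Ea v)) + u (v - E (Ea v))‖ ^ 2 = ‖v‖ ^ 2 := by
          rw [@norm_add_sq ℂ, hju, j.norm_map, u.norm_map, io.norm_map, ← hnorm v]
          simp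
        exact (sq_eq_sq₀ (norm_nonneg _) (norm_nonneg _)).mp h1 }
  refine ⟨⟨io, j, s, ip, hs, hsj, fun v => ?_, fun v => ?_⟩⟩
  · show ⟪s, j (io (Ea v)) + u (v - E (Ea v))⟫_ℂ = 0
    rw [inner_add_right, hsj, hsu, add_zero]
  · show j (io (Ea (embS j s v))) + u (embS j s v - E (Ea (embS j s v))) = j (io v)
    have h1 : Ea (embS j s v) = v := hEaE v
    rw [h1]
    have h2 : embS j s v - E v = 0 := sub_self _
    rw [h2, map_zero, add_zero]

end Crest.Agent.R339.LF
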