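import Crest.Agent.R339.LvI716
import Crest.Agent.R339.LabBridge286_Mg
import Crest.Agent.R339.Asm55

/-!
# Row 339, part (C2): the final glue, with the two open inputs as named propositions
-/

set_option autoImplicit false

noncomputable section

open scoped ComplexConjugate InnerProductSpace Topology
open Filter MeasureTheory

namespace Crest.Agent.R339.C2

open Crest.Agent.R339.Site Crest.Agent.R339.Lab Crest.Agent.R339.LF
open Crest.Agent.R339.Trig (TrigScheme)

/-- the antenna: level 0 of the label induction on the labelled site space, with an error `δ` in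
the mass of the region and in the energy -/
def AntStmt : Prop := ∀ c : ℝ, Asm.PlainBound c → ∀ δ : ℝ, 0 < δ → δ < 1 →
  ∃ (io : SL Kst ≃ₗᵢ[ℂ] Kst) (S : Set ℝ) (l0 : SL Kst), (IL io).Cl S ∧
    1 - δ ≤ (IL io).μ.real S ∧ ‖l0‖ = 1 ∧ (IL io).P S l0 = 0 ∧
    (⟪(IL io).Z (IL io).Om, l0⟫_ℂ).re = 0 ∧ (IL io).Good S {l0} (c + δ) 1

/-- the level step holds on the labelled site space -/
def LevelStmt : Prop := ∀ (io : SL Kst ≃ₗᵢ[ℂ] Kst) (c : ℝ),
  ∃ Lab : Set ℝ → Set ℝ → Set (SL Kst) → Prop, LvI.LevelStep (IL io) c Lab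

theorem le_of_forall {v c : ℝ} (h : ∀ δ : ℝ, 0 < δ → δ < 1 →
    ∃ p : ℝ, 1 - δ ≤ p ∧ p ≤ 1 ∧ p * Real.sqrt p * v ≤ c + δ) : v ≤ c := by
  refine le_of_forall_pos_le_add fun ε hε => ?_
  refine LvI.value_le_of_forall fun δ hδ hδ1 => ?_
  obtain ⟨p, h1, h2, h3⟩ := h (min δ ε) (lt_min hδ hε) (lt_of_le_of_lt (min_le_left _ _) hδ1)
  refine ⟨p, ?_, h2, ?_⟩
  · have := min_le_left δ ε; linarith
  · have := min_le_right δ ε; linarith

theorem qbound (hA : AntStmt) (hL : LevelStmt) : Asm.QBound := by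
  intro c hc M T
  refine le_of_forall fun δ hδ hδ1 => ?_
  obtain ⟨io, S, l0, hS, hm, hn, hP, hZ, hg⟩ := hA c hc δ hδ hδ1
  obtain ⟨Lab, hst⟩ := hL io (c + δ)
  refine ⟨(IL io).μ.real S, hm, ?_, LvI.bound hst T hS (by linarith) hn hP hZ hg⟩
  exact measureReal_le_one

end Crest.Agent.R339.C2
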