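import Crest.Agent.R339.LvI716
import Crest.Agent.R339.Li728L
import Crest.Agent.R339.Li728E
import Crest.Agent.R339.C2Dry716

-- ▼ part R339/LvI716b
section

/-!
# Row 339, part (C), block LI: the level step of helper728 is an instance of `LevelStep`
-/

set_option autoImplicit false

noncomputable section

open scoped ComplexConjugate InnerProductSpace Topology
open Filter MeasureTheory
open Crest.Agent.R339.Li

namespace Crest.Agent.R339.LvI

open Crest.Agent.R339.Trig (TrigScheme)

variable {Λ H : Type*} [MeasurableSpace Λ] [NormedAddCommGroup H] [InnerProductSpace ℂ H]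
  [CompleteSpace H]

/-- the gadget gives the level step -/
theorem levelStep {I : ILSys Λ H} {c : ℝ} (hgad : ILSys.Gadget I c) :
    LevelStep I c (fun S Mn L => ILSys.Lab I S Mn L) where
  real h := h.real
  init hS _ _ h := ILSys.Lab.init hS h
  mono h _ hS := h.mono hS
  insert b h hMn hMnS hu := h.insert hMn hMnS hu b
  level b h _ hM hMS hMn hMnS hd hpos hu hg :=
    ILSys.level hgad h hM hMS hMn hMnS hd hpos hu b hg


end Crest.Agent.R339.LvI
end
end

-- ▼ part R339/C2Fin716

/-!
# Row 339, part (C2): the final glue, second layer

`GadStmt` : the gadget on the labelled site space (any constant).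
`AntU0Stmt` : level 0 starting from a state `U0` which is trivial on the region `S`.
-/

set_option autoImplicit false

noncomputable section

open scoped ComplexConjugate InnerProductSpace Topology
open Filter MeasureTheory

namespace Crest.Agent.R339.C2

open Crest.Agent.R339.Site Crest.Agent.R339.Lab Crest.Agent.R339.LF
open Crest.Agent.R339.Trig (TrigScheme)
open Crest.Agent.R339.Li Crest.Agent.R339.MF

/-- the gadget on the labelled site space -/
def GadStmt : Prop := ∀ (io : SL Kst ≃ₗᵢ[ℂ] Kst) (c : ℝ), ILSys.Gadget (IL io) c

theorem levelStmt (h : GadStmt) : LevelStmt := fun io c => ⟨_, LvI.levelStep (h io c)⟩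





end Crest.Agent.R339.C2
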