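import Crest.Agent.R339.Cel90C

-- ▼ part R339/Cel90D
section

/-!
# R339 (G2): one cell of the gadget, the computation
-/

set_option autoImplicit false
set_option linter.unusedSectionVars false
set_option linter.style.haveILetI false

noncomputable section

open scoped ComplexConjugate InnerProductSpace Topology
open Filter MeasureTheory

namespace Crest.Agent.R339.Cel

open Crest.Agent.R339.Li Crest.Agent.R339.Li.ILSys Crest.Agent.R339.MF

variable {Λ H : Type*} [MeasurableSpace Λ] [NormedAddCommGroup H] [InnerProductSpace ℂ H]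
  [CompleteSpace H] {I : ILSys Λ H}

/-! ### restriction of states to classes -/

lemma P_blk {A B : Set Λ} (hA : MeasurableSet A) (hB : MeasurableSet B) (h : B ⊆ A)
    (b : H →L[ℂ] H) : I.P B * I.blk A b = I.P B * b := by
  have e1 : I.P B * I.P Aᶜ = 0 :=
    P_disj hB hA.compl (Set.disjoint_compl_right_iff_subset.mpr h)
  have e2 : I.P B * I.P A = I.P B := by
    rw [← I.P_inter B A hB hA, Set.inter_eq_left.mpr h]
  rw [ILSys.blk, mul_add, e1, zero_add, ← mul_assoc, e2]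

lemma P_blk_disj {A B : Set Λ} (hA : MeasurableSet A) (hB : MeasurableSet B) (h : Disjoint B A)
    (b : H →L[ℂ] H) : I.P B * I.blk A b = I.P B := by
  have e1 : I.P B * I.P A = 0 := P_disj hB hA h
  have e2 : I.P B * I.P Aᶜ = I.P B := by
    rw [← I.P_inter B Aᶜ hB hA.compl, Set.inter_eq_left.mpr (Set.subset_compl_iff_disjoint_right.mpr h)]
  rw [ILSys.blk, mul_add, e2, ← mul_assoc, e1, zero_mul, add_zero]

lemma P_star_mul {B : Set Λ} (hB : MeasurableSet B) {V T : H →L[ℂ] H} (hV : PC I V)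
    (hT : PC I T) : I.P B * (star V * (T * V)) = star (I.P B * V) * (T * (I.P B * V)) := by
  rw [star_mul, I.P_star B hB, ← mul_assoc T, ← (hT B hB).eq, mul_assoc (I.P B) T,
    mul_assoc (star V), ← mul_assoc (I.P B) (I.P B), P_sq hB, ← mul_assoc, ← mul_assoc,
    (hV.star B hB).eq, mul_assoc, mul_assoc]

/-- `pV` only depends on the state on the class -/
lemma pV_congr {B : Set Λ} (hB : MeasurableSet B) {V W : UH H} {T : H →L[ℂ] H}
    (hV : PC I (V : H →L[ℂ] H)) (hW : PC I (W : H →L[ℂ] H)) (hT : PC I T)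
    (h : I.P B * (V : H →L[ℂ] H) = I.P B * (W : H →L[ℂ] H)) : pV I B V T = pV I B W T := by
  have key : I.P B * (star (V : H →L[ℂ] H) * (T * V)) =
      I.P B * (star (W : H →L[ℂ] H) * (T * W)) := by
    rw [P_star_mul hB hV hT, P_star_mul hB hW hT, h]
  exact congrArg (fun S : H →L[ℂ] H => S I.Om) key

lemma pV_mul (B : Set Λ) (G U : UH H) (T : H →L[ℂ] H) :
    pV I B (G * U) T = pV I B U (star (G : H →L[ℂ] H) * T * G) := by
  show (I.P B * (star ((G : H →L[ℂ] H) * (U : H →L[ℂ] H)) * (T * ((G : H →L[ℂ] H) * U)))) I.Om =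
    (I.P B * (star (U : H →L[ℂ] H) * (star (G : H →L[ℂ] H) * T * G * U))) I.Om
  rw [star_mul]
  simp only [mul_assoc]

lemma pV_smul (B : Set Λ) (U : UH H) (c : ℂ) (T : H →L[ℂ] H) :
    pV I B U (c • T) = c • pV I B U T := by
  rw [pV, pV, smul_apply, map_smul, map_smul]

lemma pV_neg (B : Set Λ) (U : UH H) (T : H →L[ℂ] H) : pV I B U (-T) = -pV I B U T := by
  rw [pV, pV, neg_apply, map_neg, map_neg]



lemma eA_eq_pV (B : Set Λ) (U : UH H) : I.eA B U = pV I B U I.Z := rfl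

lemma P_pV {B : Set Λ} (hB : MeasurableSet B) (U : UH H) (T : H →L[ℂ] H) :
    I.P B (pV I B U T) = pV I B U T := by
  rw [pV, ← mul_apply_eq_comp, P_sq hB]

lemma inner_P {B : Set Λ} (hB : MeasurableSet B) (x y : H) : ⟪I.P B x, y⟫_ℂ = ⟪x, I.P B y⟫_ℂ := by
  rw [← ContinuousLinearMap.adjoint_inner_right, ← ContinuousLinearMap.star_eq_adjoint,
    I.P_star B hB]


lemma PC.yWU (f : H) : PC I ((yWU I f : UH H) : H →L[ℂ] H) := PC.yW f
lemma PC.zWU (f : H) : PC I ((zWU I f : UH H) : H →L[ℂ] H) := PC.zW f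

/-! ### the conjugated coupling -/

/-- `exp (-i β X)` as unitary -/
def mxU (I : ILSys Λ H) (β : ℝ) : UH H :=
  ⟨I.mx β, by
    rw [Unitary.mem_iff, star_mx, mx_mul, mx_mul, neg_add_cancel, add_neg_cancel, mx_zero]
    exact ⟨rfl, rfl⟩⟩

@[simp] lemma mxU_coe (β : ℝ) : ((mxU I β : UH H) : H →L[ℂ] H) = I.mx β := rfl

@[simp] lemma rot_coe {A : Set Λ} (hA : MeasurableSet A) (β : ℝ) :
    ((I.rot hA β : UH H) : H →L[ℂ] H) = I.blk A (I.mx β) := rfl

lemma coe_mul (U V : UH H) : ((U * V : UH H) : H →L[ℂ] H) = (U : H →L[ℂ] H) * V := rfl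

lemma eA_rot {M : Set Λ} (hM : MeasurableSet M) {U : UH H} (hU : PC I (U : H →L[ℂ] H)) :
    I.eA M (I.rot hM (Real.pi / 4) * U) = pV I M U I.Y := by
  rw [eA_eq_pV, pV_congr hM (V := I.rot hM (Real.pi / 4) * U) (W := mxU I (Real.pi / 4) * U)
    ((PC.blk hM (PC.mx _)).mul hU) ((PC.mx _).mul hU) PC.Z, pV_mul, mxU_coe, star_mx, mx_Z_mx]
  rw [coe_mul, coe_mul, rot_coe, mxU_coe, ← mul_assoc, P_blk hM hM subset_rfl, mul_assoc]

lemma eA_rot_disj {N M : Set Λ} (hN : MeasurableSet N) (hM : MeasurableSet M) (hd : Disjoint N M)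
    {U : UH H} (hU : PC I (U : H →L[ℂ] H)) (β : ℝ) :
    I.eA N (I.rot hM β * U) = I.eA N U := by
  rw [eA_eq_pV, eA_eq_pV]
  refine pV_congr hN ((PC.blk hM (PC.mx _)).mul hU) hU PC.Z ?_
  rw [coe_mul, rot_coe, ← mul_assoc, P_blk_disj hM hN hd]

/-- rotation, coupling, inverse rotation -/
lemma cpl_step {N M : Set Λ} (hN : MeasurableSet N) (hM : MeasurableSet M) (hd : Disjoint N M)
    {U : UH H} (hU : PC I (U : H →L[ℂ] H)) (g : ℝ) :
    I.rot hM (-(Real.pi / 4)) * I.cpl hN hM g (I.rot hM (Real.pi / 4) * U) =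
      I.cst hN ((g : ℂ) • pV I M U I.Y) *
        (nd I hM (yWU I ((g : ℂ) • I.eA N U)) (PC.yWU _) * U) := by
  rw [ILSys.cpl, eA_rot hM hU, eA_rot_disj hN hM hd hU]
  apply uh_ext
  simp only [coe_mul, rot_coe, cst_coe, nd_coe, yWU_coe]
  have h1 := (blk_comm (I := I) hN hM hd (a := I.zW ((g : ℂ) • pV I M U I.Y))
    (b := I.mx (-(Real.pi / 4))) (PC.zW _) (PC.mx _)).eq
  have h2 : I.blk M (I.mx (-(Real.pi / 4))) * I.blk M (I.zW ((g : ℂ) • I.eA N U)) *
      I.blk M (I.mx (Real.pi / 4)) = I.blk M (yW I ((g : ℂ) • I.eA N U)) := by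
    rw [blk_mul_blk hM (PC.mx _), blk_mul_blk hM ((PC.mx _).mul (PC.zW _)), mx_zW_mx]
  rw [← mul_assoc, ← h1, mul_assoc, ← h2]
  simp only [mul_assoc]

/-- the new state of `cpl_step` is good -/
lemma good_cpl_step {S : Set Λ} {L : Set H} {cc : ℝ} {N M : Set Λ} (hN : I.Cl N) (hM : I.Cl M)
    (hNS : N ⊆ S) (hMS : M ⊆ S) (hd : Disjoint N M) {U : UH H} (hU : PC I (U : H →L[ℂ] H)) (g : ℝ)
    (h : I.Good S L cc U) : I.Good S L cc (I.cst (I.Cl_meas N hN) ((g : ℂ) • pV I M U I.Y) *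
        (nd I (I.Cl_meas M hM) (yWU I ((g : ℂ) • I.eA N U)) (PC.yWU _) * U)) := by
  rw [← cpl_step _ _ hd hU]
  exact ((h.rot hM hMS _).cpl hN hM hNS hMS hd g).rot hM hMS _

/-! ### products of trigonometric functions -/

lemma W_mul_of_im {f g : H} (h : (⟪f, g⟫_ℂ).im = 0) : I.W f * I.W g = I.W (f + g) := by
  rw [I.W_mul, h]; simp

section prod

variable {f g : H} (h : (⟪f, g⟫_ℂ).im = 0)
include h

lemma W_four : I.W f * I.W g = I.W (f + g) ∧ I.W f * I.W (-g) = I.W (f - g) ∧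
    I.W (-f) * I.W g = I.W (-(f - g)) ∧ I.W (-f) * I.W (-g) = I.W (-(f + g)) := by
  refine ⟨W_mul_of_im h, ?_, ?_, ?_⟩
  · rw [W_mul_of_im (by rw [inner_neg_right, Complex.neg_im, h, neg_zero]), sub_eq_add_neg]
  · rw [W_mul_of_im (by rw [inner_neg_left, Complex.neg_im, h, neg_zero])]
    congr 1; abel
  · rw [W_mul_of_im (by rw [inner_neg_neg, h])]
    congr 1; abel

lemma sW_mul_cW : I.sW f * I.cW g = (1 / 2 : ℂ) • (I.sW (f + g) + I.sW (f - g)) := by
  obtain ⟨h1, h2, h3, h4⟩ := W_four (I := I) h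
  simp only [ILSys.sW, ILSys.cW, smul_mul_smul_comm, sub_mul, mul_add, h1, h2, h3, h4]
  module


lemma sW_mul_sW : I.sW f * I.sW g = (1 / 2 : ℂ) • (I.cW (f - g) - I.cW (f + g)) := by
  obtain ⟨h1, h2, h3, h4⟩ := W_four (I := I) h
  have e : (-(Complex.I / 2)) * (-(Complex.I / 2)) = (-(1 / 4) : ℂ) := by
    linear_combination (1 / 4 : ℂ) * Complex.I_sq
  simp only [ILSys.sW, ILSys.cW, smul_mul_smul_comm, sub_mul, mul_sub, h1, h2, h3, h4, e]
  module

end prod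

end Crest.Agent.R339.Cel
end
end

-- ▼ part R339/Cel90E

/-!
# R339 (G2): one cell of the gadget, the theorem
-/

set_option autoImplicit false
set_option linter.unusedSectionVars false
set_option linter.style.haveILetI false

noncomputable section

open scoped ComplexConjugate InnerProductSpace Topology
open Filter MeasureTheory

namespace Crest.Agent.R339.Cel

open Crest.Agent.R339.Li Crest.Agent.R339.Li.ILSys Crest.Agent.R339.MF

variable {Λ H : Type*} [MeasurableSpace Λ] [NormedAddCommGroup H] [InnerProductSpace ℂ H]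
  [CompleteSpace H] {I : ILSys Λ H}

/-- (G1), in the form used here -/
def Mft (I : ILSys Λ H) (S : Set Λ) (L : Set H) (cc : ℝ) : Prop :=
  ∀ ⦃N A M : Set Λ⦄ (hN : I.Cl N) (hA : I.Cl A) (hM : I.Cl M), N ⊆ S → A ⊆ S → M ⊆ S →
    Disjoint N A → Disjoint N M → Disjoint A M → ∀ ⦃U : UH H⦄, PC I (U : H →L[ℂ] H) →
    ∀ (n : ℕ) (c a b : Fin n → ℝ) (l f : Fin n → H), (∀ k, l k ∈ Submodule.span ℝ L) →
    RealSet (insert (I.eA A U) (insert (I.eA M U) L)) →
    (∀ k, f k = (a k : ℂ) • I.eA A U + (b k : ℂ) • I.eA M U + l k) → I.Good S L cc U →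
    ∀ (t : ℝ) (w : UH H) (hw : PC I (w : H →L[ℂ] H)),
      (w : H →L[ℂ] H) = eI (-t) (I.Z * snS I c f) →
      I.Good S L cc (nd I (I.Cl_meas N hN) w hw *
        (I.cst (I.Cl_meas A hA) ((t : ℂ) • pV I N U (I.Z * csS I (fun k => c k * a k) f)) *
        (I.cst (I.Cl_meas M hM) ((t : ℂ) • pV I N U (I.Z * csS I (fun k => c k * b k) f)) * U)))

/-- Boolean of a sign -/
def sgB (x : ℝ) : Bool := decide (x = 1)

lemma sg1_sgB {x : ℝ} (h : x = 1 ∨ x = -1) : sg1 (sgB x) = x := by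
  rcases h with h | h
  · subst h; simp [sgB]
  · subst h
    have : sgB (-1) = false := by
      rw [sgB, decide_eq_false_iff_not]; norm_num
    rw [this, sg1_false]

lemma P_eA {B : Set Λ} (hB : MeasurableSet B) (U : UH H) : I.P B (I.eA B U) = I.eA B U :=
  P_pV hB U I.Z

lemma span_P_zero {L : Set H} {M : Set Λ} (hLM : ∀ l ∈ L, I.P M l = 0) {u : H}
    (hu : u ∈ Submodule.span ℝ L) : I.P M u = 0 := by
  induction hu using Submodule.span_induction with
  | mem x hx => exact hLM x hx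
  | zero => exact map_zero _
  | add x y _ _ hx hy => rw [map_add, hx, hy, add_zero]
  | smul a x _ hx => rw [← Complex.coe_smul, map_smul, hx, smul_zero]

lemma inner_of_P_zero {M : Set Λ} (hM : MeasurableSet M) {u q : H} (hu : I.P M u = 0)
    (hq : I.P M q = q) : ⟪u, q⟫_ℂ = 0 := by
  rw [← hq, ← inner_P hM, hu, inner_zero_left]

lemma inner_of_P_zero' {M : Set Λ} (hM : MeasurableSet M) {u q : H} (hu : I.P M u = 0)
    (hq : I.P M q = q) : ⟪q, u⟫_ℂ = 0 := by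
  rw [← hq, inner_P hM, hu, inner_zero_right]


lemma rearr {R : Type*} [Monoid R] {n1 m1 nE bA mζ n2 m2 V : R} (c1 : m1 * nE = nE * m1)
    (c2 : m1 * bA = bA * m1) (c3 : mζ * n2 = n2 * mζ) (c4 : m1 * n2 = n2 * m1)
    (c5 : bA * n2 = n2 * bA) :
    n1 * (m1 * (nE * (bA * (mζ * (n2 * (m2 * V)))))) =
      (n1 * (nE * n2)) * (bA * ((m1 * (mζ * m2)) * V)) := by
  rw [← mul_assoc mζ n2, c3, mul_assoc, ← mul_assoc bA n2, c5, mul_assoc, ← mul_assoc m1 nE, c1,
    mul_assoc, ← mul_assoc m1 n2, c4, mul_assoc, ← mul_assoc m1 bA, c2]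
  simp only [mul_assoc]

section cell

variable {S : Set Λ} {L : Set H} {cc : ℝ} {N B M : Set Λ}

/-- the state after the first coupling and the function gate, node part etc. -/
theorem cell (hmft : Mft I S L cc) (hN : I.Cl N) (hB : I.Cl B) (hM : I.Cl M) (hNS : N ⊆ S)
    (hBS : B ⊆ S) (hMS : M ⊆ S) (hNB : Disjoint N B) (hNM : Disjoint N M) (hBM : Disjoint B M)
    {V : UH H} (hV : PC I (V : H →L[ℂ] H)) (hL : RealSet L) (hLM : ∀ l ∈ L, I.P M l = 0)
    (hLh : ∀ l ∈ L, (⟪l, I.eA B V⟫_ℂ).im = 0) (g t τ : ℝ)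
    {n : ℕ} (c a b : Fin n → ℝ) (hb : ∀ k, b k = 1 ∨ b k = -1) (u f : Fin n → H)
    (hu : ∀ k, u k ∈ Submodule.span ℝ L) {z h y q ζ y2 : H} (hz : z = I.eA N V)
    (hh : h = I.eA B V) (hy : y = pV I M V I.Y) (hq : q = I.eA M (yWU I ((g : ℂ) • z) * V))
    (hτ : 4 * g * τ * (⟪y, q⟫_ℂ).im = Real.pi)
    (hf : ∀ k, f k = (a k : ℂ) • h + ((b k * τ : ℝ) : ℂ) • q + u k)
    (hζ : ζ = ((-(t * τ) : ℝ) : ℂ) • pV I N V (snS I c f))
    (hy2 : y2 = pV I M (zWU I ζ * (yWU I ((g : ℂ) • z) * V)) I.Y)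
    (w : UH H) (hw : PC I (w : H →L[ℂ] H))
    (hwe : (w : H →L[ℂ] H) =
      I.zW ((g : ℂ) • (y - y2)) * eI (-t) (csS I (fun k => c k * b k) f))
    (K : UH H) (hK : PC I (K : H →L[ℂ] H))
    (hKe : (K : H →L[ℂ] H) = yW I (-((g : ℂ) • z)) * (I.zW ζ * yW I ((g : ℂ) • z)))
    (hG : I.Good S L cc V) :
    I.Good S L cc (nd I (I.Cl_meas N hN) w hw * (I.cst (I.Cl_meas B hB)
      ((-(t : ℂ)) • pV I N V (snS I (fun k => c k * a k * b k) f)) *
        (nd I (I.Cl_meas M hM) K hK * V))) := by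
  have mN := I.Cl_meas N hN
  have mB := I.Cl_meas B hB
  have mM := I.Cl_meas M hM
  -- step (i)
  have G1 := good_cpl_step hN hM hNS hMS hNM hV g hG
  rw [← hy, ← hz] at G1
  set V1 : UH H := I.cst mN ((g : ℂ) • y) * (nd I mM (yWU I ((g : ℂ) • z)) (PC.yWU _) * V) with hV1
  have hV1P : PC I (V1 : H →L[ℂ] H) :=
    (PC.blk mN (PC.zW _)).mul ((PC.blk mM (PC.yW _)).mul hV)
  have hcV1 : (V1 : H →L[ℂ] H) = I.blk N (I.zW ((g : ℂ) • y)) *
      (I.blk M (yW I ((g : ℂ) • z)) * V) := rfl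
  have hBV1 : I.P B * (V1 : H →L[ℂ] H) = I.P B * (V : H →L[ℂ] H) := by
    rw [hcV1, ← mul_assoc, P_blk_disj mN mB hNB.symm, ← mul_assoc, P_blk_disj mM mB hBM]
  have hMV1 : I.P M * (V1 : H →L[ℂ] H) = I.P M * ((yWU I ((g : ℂ) • z) * V : UH H) : H →L[ℂ] H) := by
    rw [hcV1, ← mul_assoc, P_blk_disj mN mM hNM.symm, ← mul_assoc, P_blk mM mM subset_rfl,
      coe_mul, yWU_coe, mul_assoc]
  have hNV1 : I.P N * (V1 : H →L[ℂ] H) = I.P N * ((zWU I ((g : ℂ) • y) * V : UH H) : H →L[ℂ] H) := by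
    have e1 : I.zW ((g : ℂ) • y) * I.P N = I.P N * I.zW ((g : ℂ) • y) :=
      ((PC.zW ((g : ℂ) • y)) N mN).eq.symm
    rw [hcV1, ← mul_assoc, P_blk mN mN subset_rfl, ← mul_assoc, ← e1, mul_assoc (I.zW _),
      P_blk_disj mM mN hNM, e1, coe_mul, zWU_coe, mul_assoc]
  have ehB : I.eA B V1 = h := by
    rw [hh]; exact pV_congr mB hV1P hV PC.Z hBV1
  have eqM : I.eA M V1 = q := by
    rw [hq]; exact pV_congr mM hV1P ((PC.yW _).mul hV) PC.Z hMV1
  -- real inner products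
  have PMq : I.P M q = q := by rw [hq]; exact P_eA mM _
  have PMy : I.P M y = y := by rw [hy]; exact P_pV mM _ _
  have PBh : I.P B h = h := by rw [hh]; exact P_eA mB _
  have PMh : I.P M h = 0 := by
    rw [← PBh, ← mul_apply_eq_comp, P_disj mM mB hBM.symm, zero_apply]
  have hreal : RealSet (insert (I.eA B V1) (insert (I.eA M V1) L)) := by
    rw [ehB, eqM]
    have s1 : ∀ x : H, (⟪x, x⟫_ℂ).im = 0 := fun x => by simpa using inner_self_im (𝕜 := ℂ) x
    have s2 : ∀ l ∈ L, (⟪l, h⟫_ℂ).im = 0 := fun l hl => by rw [hh]; exact hLh l hl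
    have s3 : ∀ l ∈ L, (⟪l, q⟫_ℂ).im = 0 := fun l hl => by
      rw [inner_of_P_zero mM (hLM l hl) PMq, Complex.zero_im]
    have s4 : (⟪h, q⟫_ℂ).im = 0 := by rw [inner_of_P_zero mM PMh PMq, Complex.zero_im]
    intro x hx y' hy'
    rcases hx with rfl | rfl | hx <;> rcases hy' with rfl | rfl | hy'
    · exact s1 _
    · exact s4
    · rw [inner_im_symm, s2 _ hy', neg_zero]
    · rw [inner_im_symm, s4, neg_zero]
    · exact s1 _
    · rw [inner_im_symm, s3 _ hy', neg_zero]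
    · exact s2 _ hx
    · exact s3 _ hx
    · exact hL _ hx _ hy'
  -- the peaks
  have hpk : ∀ k, Peak (f k) ((g : ℂ) • y) (sgB (b k)) := by
    intro k
    have e1 : ⟪y, h⟫_ℂ = 0 := inner_of_P_zero' mM PMh PMy
    have e2 : ⟪y, u k⟫_ℂ = 0 := inner_of_P_zero' mM (span_P_zero hLM (hu k)) PMy
    rw [Peak, sg1_sgB (hb k), hf k, inner_smul_left, inner_add_right, inner_add_right,
      inner_smul_right, inner_smul_right, e1, e2, mul_zero, zero_add, add_zero, Complex.conj_ofReal,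
      Complex.im_ofReal_mul, Complex.im_ofReal_mul, ← hτ]
    ring
  -- step (ii)
  have hTs : star (I.Z * snS I c f) = I.Z * snS I c f := by
    rw [star_mul, star_Z, star_snS, (Z_snS c f).eq]
  have hPT : PC I (I.Z * snS I c f) := PC.Z.mul (PC.snS c f)
  have G2 := hmft hN hB hM hNS hBS hMS hNB hNM hBM hV1P n c a (fun k => b k * τ) u f hu hreal
    (fun k => by rw [ehB, eqM]; exact hf k) G1 t (eIU (-t) (I.Z * snS I c f) hTs)
    (PC.eI hPT) rfl
  -- the kicks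
  have hstz : star ((zWU I ((g : ℂ) • y) : UH H) : H →L[ℂ] H) = I.zW (-((g : ℂ) • y)) := star_zW _
  have hbe : ∀ k, sg1 (sgB (b k)) = b k := fun k => sg1_sgB (hb k)
  have kick : ∀ d : Fin n → ℝ, pV I N V1 (I.Z * csS I d f) =
      -pV I N V (snS I (fun k => d k * b k) f) := by
    intro d
    rw [pV_congr mN hV1P ((PC.zW ((g : ℂ) • y)).mul hV) (PC.Z.mul (PC.csS d f)) hNV1, pV_mul,
      hstz, zWU_coe, conj_Z_csS hpk, pV_neg]
    simp only [hbe]
  have ka : (t : ℂ) • pV I N V1 (I.Z * csS I (fun k => c k * a k) f) =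
      (-(t : ℂ)) • pV I N V (snS I (fun k => c k * a k * b k) f) := by
    rw [kick, smul_neg, neg_smul]
  have kζ : (t : ℂ) • pV I N V1 (I.Z * csS I (fun k => c k * (b k * τ)) f) = ζ := by
    have e : snS I (fun k => c k * (b k * τ) * b k) f = (τ : ℂ) • snS I c f := by
      rw [snS, snS, Finset.smul_sum]
      refine Finset.sum_congr rfl fun k _ => ?_
      rw [smul_smul]
      congr 1
      have : b k * b k = 1 := by rcases hb k with h | h <;> rw [h] <;> norm_num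
      have h2 : c k * (b k * τ) * b k = τ * c k := by linear_combination (c k * τ) * this
      rw [h2]
      push_cast
      ring
    rw [kick, e, pV_smul, hζ, smul_neg, smul_smul, ← neg_smul]
    push_cast
    rfl
  rw [ka, kζ] at G2
  set av : H := (-(t : ℂ)) • pV I N V (snS I (fun k => c k * a k * b k) f) with hav
  set E : H →L[ℂ] H := eI (-t) (I.Z * snS I c f) with hE
  have PE : PC I E := PC.eI hPT
  set V4 : UH H := nd I mN (eIU (-t) (I.Z * snS I c f) hTs) (PC.eI hPT) *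
    (I.cst mB av * (I.cst mM ζ * V1)) with hV4
  have hcV4 : (V4 : H →L[ℂ] H) = I.blk N E * (I.blk B (I.zW av) * (I.blk M (I.zW ζ) * V1)) := rfl
  have hV4P : PC I (V4 : H →L[ℂ] H) :=
    (PC.blk mN PE).mul ((PC.blk mB (PC.zW _)).mul ((PC.blk mM (PC.zW _)).mul hV1P))
  -- step (iii)
  have G3 := good_cpl_step hN hM hNS hMS hNM hV4P (-g) G2
  have hNV4 : I.P N * (V4 : H →L[ℂ] H) =
      I.P N * ((eIU (-t) (I.Z * snS I c f) hTs * (zWU I ((g : ℂ) • y) * V) : UH H) : H →L[ℂ] H) := by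
    have e1 : E * I.P N = I.P N * E := (PE N mN).eq.symm
    rw [hcV4, ← mul_assoc, P_blk mN mN subset_rfl, ← e1, mul_assoc, ← mul_assoc (I.P N),
      P_blk_disj mB mN hNB, ← mul_assoc (I.P N), P_blk_disj mM mN hNM, hNV1, ← mul_assoc, e1,
      mul_assoc]
    rfl
  have hMV4 : I.P M * (V4 : H →L[ℂ] H) =
      I.P M * ((zWU I ζ * (yWU I ((g : ℂ) • z) * V) : UH H) : H →L[ℂ] H) := by
    have e1 : I.zW ζ * I.P M = I.P M * I.zW ζ := ((PC.zW ζ) M mM).eq.symm
    rw [hcV4, ← mul_assoc, P_blk_disj mN mM hNM.symm, ← mul_assoc, P_blk_disj mB mM hBM.symm,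
      ← mul_assoc, P_blk mM mM subset_rfl, ← e1, mul_assoc, hMV1, ← mul_assoc, e1, mul_assoc]
    rfl
  have ey2 : pV I M V4 I.Y = y2 := by
    rw [hy2]
    exact pV_congr mM hV4P ((PC.zW _).mul ((PC.yW _).mul hV)) PC.Y hMV4
  have ez2 : I.eA N V4 = z := by
    rw [eA_eq_pV, pV_congr mN hV4P (PE.mul ((PC.zW _).mul hV)) PC.Z hNV4, pV_mul, pV_mul, hz,
      eA_eq_pV, hstz, zWU_coe, eIU_coe]
    congr 1
    have hZE : Commute I.Z E := by
      have h1 : Commute I.Z (I.Z * snS I c f) := (Commute.refl _).mul_right (Z_snS c f)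
      exact (h1.smul_right _).exp_right
    have h2 : star E * I.Z * E = I.Z := by
      rw [mul_assoc, hZE.eq, ← mul_assoc]
      have := star_U_mul_self (eIU (-t) (I.Z * snS I c f) hTs)
      rw [eIU_coe] at this
      rw [this, one_mul]
    rw [h2, mul_assoc, (Z_zW _).eq, ← mul_assoc, zW_neg_mul, one_mul]
  rw [ey2, ez2] at G3
  -- removal of the phase
  set θ : ℝ := g * g * (⟪y2, y⟫_ℂ).im with hθ
  refine (Cen_phc (I := I) mN θ).good ?_
  refine cast ?_ G3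
  congr 1
  apply uh_ext
  show I.blk N (I.zW (((-g : ℝ) : ℂ) • y2)) * (I.blk M (yW I (((-g : ℝ) : ℂ) • z)) *
      (I.blk N E * (I.blk B (I.zW av) * (I.blk M (I.zW ζ) * (I.blk N (I.zW ((g : ℂ) • y)) *
      (I.blk M (yW I ((g : ℂ) • z)) * V)))))) =
    I.blk N (Complex.exp (Complex.I * θ) • 1) * (I.blk N w * (I.blk B (I.zW av) *
      (I.blk M K * V)))
  have hY : ((-g : ℝ) : ℂ) • z = -((g : ℂ) • z) := by push_cast; rw [neg_smul]
  have c1 : I.blk M (yW I (-((g : ℂ) • z))) * I.blk N E = I.blk N E * I.blk M (yW I (-((g : ℂ) • z))) :=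
    (blk_comm mM mN hNM.symm (PC.yW _) PE).eq
  have c2 : I.blk M (yW I (-((g : ℂ) • z))) * I.blk B (I.zW av) =
      I.blk B (I.zW av) * I.blk M (yW I (-((g : ℂ) • z))) :=
    (blk_comm mM mB hBM.symm (PC.yW _) (PC.zW _)).eq
  have c3 : I.blk M (I.zW ζ) * I.blk N (I.zW ((g : ℂ) • y)) =
      I.blk N (I.zW ((g : ℂ) • y)) * I.blk M (I.zW ζ) :=
    (blk_comm mM mN hNM.symm (PC.zW _) (PC.zW _)).eq
  have c4 : I.blk M (yW I (-((g : ℂ) • z))) * I.blk N (I.zW ((g : ℂ) • y)) =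
      I.blk N (I.zW ((g : ℂ) • y)) * I.blk M (yW I (-((g : ℂ) • z))) :=
    (blk_comm mM mN hNM.symm (PC.yW _) (PC.zW _)).eq
  have c5 : I.blk B (I.zW av) * I.blk N (I.zW ((g : ℂ) • y)) =
      I.blk N (I.zW ((g : ℂ) • y)) * I.blk B (I.zW av) :=
    (blk_comm mB mN hNB.symm (PC.zW _) (PC.zW _)).eq
  have eK : I.blk M K = I.blk M (yW I (-((g : ℂ) • z))) * (I.blk M (I.zW ζ) *
      I.blk M (yW I ((g : ℂ) • z))) := by
    rw [blk_mul_blk mM (PC.zW _), blk_mul_blk mM (PC.yW _), hKe]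
  have ew : I.blk N (Complex.exp (Complex.I * θ) • 1) * I.blk N w =
      I.blk N (I.zW (((-g : ℝ) : ℂ) • y2)) * (I.blk N E * I.blk N (I.zW ((g : ℂ) • y))) := by
    rw [blk_mul_blk mN (PC.one.smul _), blk_mul_blk mN PE, blk_mul_blk mN (PC.zW _)]
    congr 1
    have e1 : I.zW (((-g : ℝ) : ℂ) • y2) * (E * I.zW ((g : ℂ) • y)) =
        (I.zW (((-g : ℝ) : ℂ) • y2) * I.zW ((g : ℂ) • y)) *
          (I.zW (-((g : ℂ) • y)) * E * I.zW ((g : ℂ) • y)) := by
      rw [mul_assoc (I.zW (((-g : ℝ) : ℂ) • y2)), ← mul_assoc (I.zW ((g : ℂ) • y)),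
        ← mul_assoc (I.zW ((g : ℂ) • y)), zW_mul_neg, one_mul]
    have e2 : ((-g : ℝ) : ℂ) • y2 + (g : ℂ) • y = (g : ℂ) • (y - y2) := by
      push_cast
      rw [smul_sub, neg_smul]
      abel
    have e3 : (⟪((-g : ℝ) : ℂ) • y2, (g : ℂ) • y⟫_ℂ).im = -θ := by
      rw [inner_smul_left, inner_smul_right, Complex.conj_ofReal, Complex.im_ofReal_mul,
        Complex.im_ofReal_mul, hθ]
      ring
    have e4 : I.zW (-((g : ℂ) • y)) * E * I.zW ((g : ℂ) • y) =
        eI (-t) (csS I (fun k => c k * b k) f) := by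
      rw [hE, node_identity hpk]
      simp only [hbe]
    rw [e1, zW_mul, e2, e3, e4, hwe, smul_mul_assoc, smul_mul_assoc, one_mul]
    congr 2
    push_cast
    ring
  rw [hY, ← mul_assoc (I.blk N (Complex.exp (Complex.I * θ) • 1)), ew, eK]
  exact rearr c1 c2 c3 c4 c5

end cell

end Crest.Agent.R339.Cel
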