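import Crest.Agent.R339.Li728C
import Crest.Agent.R339.MF569A

-- ▼ part R339/Cel90B
section

/-!
# R339 (G2): exact algebra of one cell of the gadget, on `ILSys`, part B

`zW f = exp (i Z φ(f))`, `sW f = sin φ(f)`, `cW f = cos φ(f)`, `Rz α = exp (i α Z)`,
`yW f = exp (i Y φ(f))`.
-/

set_option autoImplicit false
set_option linter.unusedSectionVars false
set_option linter.style.haveILetI false

noncomputable section

open scoped ComplexConjugate InnerProductSpace Topology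
open Filter MeasureTheory

namespace Crest.Agent.R339.Cel

open Crest.Agent.R339.Li Crest.Agent.R339.Li.ILSys Crest.Agent.R339.MF

variable {Λ H : Type*} [MeasurableSpace Λ] [NormedAddCommGroup H] [InnerProductSpace ℂ H]
  [CompleteSpace H] {I : ILSys Λ H}

/-! ### closure of `PC` -/

lemma PC.sub {T T' : H →L[ℂ] H} (h : PC I T) (h' : PC I T') : PC I (T - T') :=
  fun B hB => (h B hB).sub_right (h' B hB)
lemma PC.zero : PC I (0 : H →L[ℂ] H) := fun _ _ => Commute.zero_right _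
lemma PC.neg {T : H →L[ℂ] H} (h : PC I T) : PC I (-T) := fun B hB => (h B hB).neg_right
lemma PC.sg (M : Matrix Bool Bool ℂ) : PC I (I.sg M) := fun _ hB => I.P_sg _ _ hB
lemma PC.Z : PC I I.Z := PC.sg _
lemma PC.X : PC I I.X := PC.sg _
lemma PC.Y : PC I I.Y := fun _ hB => P_Y hB
lemma PC.Ep : PC I I.Ep := PC.sg _
lemma PC.Em : PC I I.Em := PC.sg _
lemma PC.W (f : H) : PC I (I.W f) := fun _ hB => I.P_W _ _ hB
lemma PC.sW (f : H) : PC I (I.sW f) := fun _ hB => P_sW hB f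
lemma PC.cW (f : H) : PC I (I.cW f) := fun _ hB => P_cW hB f
lemma PC.mx (β : ℝ) : PC I (I.mx β) := fun _ hB => P_mx hB β
lemma PC.sum {κ : Type*} {s : Finset κ} {T : κ → H →L[ℂ] H} (h : ∀ k ∈ s, PC I (T k)) :
    PC I (∑ k ∈ s, T k) := fun B hB => Commute.sum_right _ _ _ fun k hk => h k hk B hB
lemma PC.exp {T : H →L[ℂ] H} (h : PC I T) : PC I (NormedSpace.exp T) :=
  fun B hB => (h B hB).exp_right

/-! ### selfadjointness -/

lemma star_sW (f : H) : star (I.sW f) = I.sW f := by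
  rw [ILSys.sW, star_smul, star_sub, I.W_star, I.W_star, neg_neg]
  have : star (-(Complex.I / 2)) = Complex.I / 2 := by
    norm_num [Complex.ext_iff]
  rw [this]
  module

lemma star_cW (f : H) : star (I.cW f) = I.cW f := by
  rw [ILSys.cW, star_smul, star_add, I.W_star, I.W_star, neg_neg, add_comm]
  norm_num

lemma star_Y : star I.Y = I.Y := by
  rw [ILSys.Y, star_smul, star_mul, star_Z, star_X, ← neg_eq_iff_eq_neg.mpr (Z_X (I := I))]
  simp

lemma Y_mul_Y : I.Y * I.Y = 1 := by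
  rw [ILSys.Y, smul_mul_smul_comm]
  have : I.Z * I.X * (I.Z * I.X) = -1 := by
    rw [mul_assoc, ← mul_assoc I.X, ← neg_eq_iff_eq_neg.mpr (Z_X (I := I)), neg_mul, mul_neg,
      mul_assoc I.Z I.X, X_mul_X, mul_one, Z_mul_Z]
  rw [this]
  simp

/-! ### conjugation by `zW` -/

/-- `exp (i α Z)` -/
def Rz (I : ILSys Λ H) (α : ℝ) : H →L[ℂ] H :=
  Complex.exp (Complex.I * α) • I.Ep + Complex.exp (-(Complex.I * α)) • I.Em

omit [CompleteSpace H] in
lemma inner_im_symm (f g : H) : (⟪g, f⟫_ℂ).im = -(⟪f, g⟫_ℂ).im := by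
  rw [← inner_conj_symm g f, Complex.conj_im]

lemma W_comm (f g : H) : I.W f * I.W g =
    Complex.exp (Complex.I * (2 * (⟪g, f⟫_ℂ).im : ℝ)) • (I.W g * I.W f) := by
  rw [I.W_mul, I.W_mul, smul_smul, ← Complex.exp_add, add_comm g f, inner_im_symm f g]
  congr 2
  push_cast
  ring

lemma Rz_pi_div_two : Rz I (Real.pi / 2) = Complex.I • I.Z := by
  have h1 : Complex.exp (Complex.I * ((Real.pi / 2 : ℝ) : ℂ)) = Complex.I := by
    rw [mul_comm]
    push_cast
    exact Complex.exp_pi_div_two_mul_I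
  have h2 : Complex.exp (-(Complex.I * ((Real.pi / 2 : ℝ) : ℂ))) = -Complex.I := by
    have : -(Complex.I * ((Real.pi / 2 : ℝ) : ℂ)) = -Real.pi / 2 * Complex.I := by
      push_cast; ring
    rw [this, Complex.exp_neg_pi_div_two_mul_I]
  rw [Rz, h1, h2, Z_eq, smul_sub, neg_smul, sub_eq_add_neg]

lemma Rz_neg_pi_div_two : Rz I (-(Real.pi / 2)) = -(Complex.I • I.Z) := by
  have h1 : Complex.exp (Complex.I * ((-(Real.pi / 2) : ℝ) : ℂ)) = -Complex.I := by
    have : Complex.I * ((-(Real.pi / 2) : ℝ) : ℂ) = -Real.pi / 2 * Complex.I := by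
      push_cast; ring
    rw [this, Complex.exp_neg_pi_div_two_mul_I]
  have h2 : Complex.exp (-(Complex.I * ((-(Real.pi / 2) : ℝ) : ℂ))) = Complex.I := by
    have : -(Complex.I * ((-(Real.pi / 2) : ℝ) : ℂ)) = (Real.pi / 2 : ℂ) * Complex.I := by
      push_cast; ring
    rw [this, Complex.exp_pi_div_two_mul_I]
  rw [Rz, h1, h2, Z_eq, smul_sub, neg_smul, neg_sub, sub_eq_add_neg, add_comm]


/-- Weyl operators through `exp (i Z φ(g))`. -/
lemma W_zW (f g : H) : I.W f * I.zW g = I.zW g * (Rz I (2 * (⟪g, f⟫_ℂ).im) * I.W f) := by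
  have h1 : I.W f * I.zW g = I.Ep * (I.W f * I.W g) + I.Em * (I.W f * I.W (-g)) := by
    rw [ILSys.zW, mul_add, ← mul_assoc, ← mul_assoc, ← (Ep_W f).eq, ← (Em_W f).eq, mul_assoc,
      mul_assoc]
  have h2 : Rz I (2 * (⟪g, f⟫_ℂ).im) * I.W f =
      I.Ep * (Complex.exp (Complex.I * ((2 * (⟪g, f⟫_ℂ).im : ℝ) : ℂ)) • I.W f) +
      I.Em * (Complex.exp (-(Complex.I * ((2 * (⟪g, f⟫_ℂ).im : ℝ) : ℂ))) • I.W f) := by
    rw [Rz, add_mul, smul_mul_assoc, smul_mul_assoc, mul_smul_comm, mul_smul_comm]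
  rw [h1, h2, ILSys.zW, E_mul (Ep_W _) (Em_W _) (Em_W _) (Ep_W _), W_comm f g, W_comm f (-g),
    inner_neg_left, Complex.neg_im]
  simp only [mul_smul_comm]
  congr 3
  push_cast
  ring_nf

/-- conjugation of a Weyl operator -/
lemma conj_W (f g : H) : I.zW (-g) * I.W f * I.zW g = Rz I (2 * (⟪g, f⟫_ℂ).im) * I.W f := by
  rw [mul_assoc, W_zW, ← mul_assoc, zW_neg_mul, one_mul]



/-- the sign of a Boolean, `true = +1` -/
def sg1 (ε : Bool) : ℝ := if ε then 1 else -1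

@[simp] lemma sg1_true : sg1 true = 1 := by simp [sg1]
@[simp] lemma sg1_false : sg1 false = -1 := by simp [sg1]
lemma sg1_not (ε : Bool) : sg1 (!ε) = -sg1 ε := by cases ε <;> simp [sg1]

lemma Rz_sg1 (ε : Bool) : Rz I (sg1 ε * (Real.pi / 2)) = (Complex.I * (sg1 ε : ℂ)) • I.Z := by
  cases ε
  · simp only [sg1, Bool.false_eq_true, if_false, neg_mul, one_mul]
    rw [Rz_neg_pi_div_two]
    push_cast
    rw [mul_neg, mul_one, neg_smul]
  · simp only [sg1, if_true, one_mul]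
    rw [Rz_pi_div_two]
    push_cast
    rw [mul_one]

/-- the peak condition: conjugation by `zW g` shifts the phase `φ(f)` by `ε (π/2) Z` -/
def Peak (f g : H) (ε : Bool) : Prop := 2 * (⟪g, f⟫_ℂ).im = sg1 ε * (Real.pi / 2)

variable {f g : H} {ε : Bool}

lemma conj_W_peak (h : Peak f g ε) :
    I.zW (-g) * I.W f * I.zW g = (Complex.I * (sg1 ε : ℂ)) • (I.Z * I.W f) := by
  rw [conj_W, h, Rz_sg1, smul_mul_assoc]

lemma conj_W_peak_neg (h : Peak f g ε) :
    I.zW (-g) * I.W (-f) * I.zW g = -(Complex.I * (sg1 ε : ℂ)) • (I.Z * I.W (-f)) := by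
  rw [conj_W]
  have h1 : 2 * (⟪g, -f⟫_ℂ).im = sg1 (!ε) * (Real.pi / 2) := by
    rw [inner_neg_right, Complex.neg_im, sg1_not, neg_mul, ← h]
    ring
  rw [h1, Rz_sg1, smul_mul_assoc]
  congr 1
  rw [sg1_not]
  push_cast
  ring

/-- `sin φ(f)` becomes `ε Z cos φ(f)`. -/
lemma conj_sW_peak (h : Peak f g ε) :
    I.zW (-g) * I.sW f * I.zW g = (sg1 ε : ℂ) • (I.Z * I.cW f) := by
  rw [ILSys.sW, ILSys.cW, mul_smul_comm, smul_mul_assoc, mul_sub, sub_mul, conj_W_peak h,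
    conj_W_peak_neg h, mul_smul_comm, mul_add]
  match_scalars <;> linear_combination (-(sg1 ε : ℂ) / 2) * Complex.I_sq

/-- `cos φ(f)` becomes `- ε Z sin φ(f)`. -/
lemma conj_cW_peak (h : Peak f g ε) :
    I.zW (-g) * I.cW f * I.zW g = -(sg1 ε : ℂ) • (I.Z * I.sW f) := by
  rw [ILSys.sW, ILSys.cW, mul_smul_comm, smul_mul_assoc, mul_add, add_mul, conj_W_peak h,
    conj_W_peak_neg h, mul_smul_comm, mul_sub]
  match_scalars <;> ring

/-! ### Trigonometric sums -/

section sums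

variable {κ : Type*} [Fintype κ]

/-- `Σ c_k sin φ(f_k)` -/
def snS (I : ILSys Λ H) (c : κ → ℝ) (f : κ → H) : H →L[ℂ] H := ∑ k, (c k : ℂ) • I.sW (f k)

/-- `Σ c_k cos φ(f_k)` -/
def csS (I : ILSys Λ H) (c : κ → ℝ) (f : κ → H) : H →L[ℂ] H := ∑ k, (c k : ℂ) • I.cW (f k)

lemma PC.snS (c : κ → ℝ) (f : κ → H) : PC I (snS I c f) := PC.sum fun _ _ => (PC.sW _).smul _
lemma PC.csS (c : κ → ℝ) (f : κ → H) : PC I (csS I c f) := PC.sum fun _ _ => (PC.cW _).smul _

lemma star_snS (c : κ → ℝ) (f : κ → H) : star (snS I c f) = snS I c f := by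
  rw [snS, star_sum]
  exact Finset.sum_congr rfl fun k _ => by rw [star_smul, star_sW]; simp

lemma star_csS (c : κ → ℝ) (f : κ → H) : star (csS I c f) = csS I c f := by
  rw [csS, star_sum]
  exact Finset.sum_congr rfl fun k _ => by rw [star_smul, star_cW]; simp

lemma Z_snS (c : κ → ℝ) (f : κ → H) : Commute I.Z (snS I c f) :=
  Commute.sum_right _ _ _ fun _ _ => (Z_sW _).smul_right _
lemma Z_csS (c : κ → ℝ) (f : κ → H) : Commute I.Z (csS I c f) :=
  Commute.sum_right _ _ _ fun _ _ => (Z_cW _).smul_right _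

lemma Z_zW (f : H) : Commute I.Z (I.zW f) := by
  rw [zW_eq]
  exact (Z_cW f).add_right (((Commute.refl _).mul_right (Z_sW f)).smul_right _)

variable {c : κ → ℝ} {F : κ → H} {e : κ → Bool}

lemma conj_snS (h : ∀ k, Peak (F k) g (e k)) :
    I.zW (-g) * snS I c F * I.zW g = I.Z * csS I (fun k => c k * sg1 (e k)) F := by
  rw [snS, csS, Finset.mul_sum, Finset.sum_mul, Finset.mul_sum]
  refine Finset.sum_congr rfl fun k _ => ?_
  rw [mul_smul_comm, smul_mul_assoc, conj_sW_peak (h k), smul_smul, mul_smul_comm]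
  push_cast
  rfl

lemma conj_csS (h : ∀ k, Peak (F k) g (e k)) :
    I.zW (-g) * csS I c F * I.zW g = -(I.Z * snS I (fun k => c k * sg1 (e k)) F) := by
  rw [snS, csS, Finset.mul_sum, Finset.sum_mul, Finset.mul_sum, ← Finset.sum_neg_distrib]
  refine Finset.sum_congr rfl fun k _ => ?_
  rw [mul_smul_comm, smul_mul_assoc, conj_cW_peak (h k), smul_smul, mul_smul_comm, ← neg_smul]
  push_cast
  congr 1
  ring

/-- conjugation of the node generator: the spin disappears -/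
lemma conj_Z_snS (h : ∀ k, Peak (F k) g (e k)) :
    I.zW (-g) * (I.Z * snS I c F) * I.zW g = csS I (fun k => c k * sg1 (e k)) F := by
  rw [← mul_assoc, ← (Z_zW (-g)).eq, mul_assoc, mul_assoc, ← mul_assoc (I.zW (-g)), conj_snS h,
    ← mul_assoc, Z_mul_Z, one_mul]

/-- conjugation of the derivative -/
lemma conj_Z_csS (h : ∀ k, Peak (F k) g (e k)) :
    I.zW (-g) * (I.Z * csS I c F) * I.zW g = -snS I (fun k => c k * sg1 (e k)) F := by
  rw [← mul_assoc, ← (Z_zW (-g)).eq, mul_assoc, mul_assoc, ← mul_assoc (I.zW (-g)), conj_csS h,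
    mul_neg, ← mul_assoc, Z_mul_Z, one_mul]

/-- `exp (-i t T)` -/
def eI (t : ℝ) (T : H →L[ℂ] H) : H →L[ℂ] H := NormedSpace.exp ((-(Complex.I * (t : ℂ))) • T)

lemma conj_eI {g : H} (t : ℝ) (T : H →L[ℂ] H) :
    I.zW (-g) * eI t T * I.zW g = eI t (I.zW (-g) * T * I.zW g) := by
  let _ : NormedAlgebra ℚ (H →L[ℂ] H) := NormedAlgebra.restrictScalars ℚ ℂ _
  let u : (H →L[ℂ] H)ˣ := ⟨I.zW g, I.zW (-g), zW_mul_neg g, zW_neg_mul g⟩
  have h0 := NormedSpace.exp_units_conj' u ((-(Complex.I * (t : ℂ))) • T)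
  have h1 : (-(Complex.I * (t : ℂ))) • (I.zW (-g) * T * I.zW g) =
      I.zW (-g) * ((-(Complex.I * (t : ℂ))) • T) * I.zW g := by
    rw [mul_smul_comm, smul_mul_assoc]
  rw [eI, eI, h1]
  exact h0.symm

/-- **Exact node identity**: at the peak the node gate is spin independent. -/
theorem node_identity (h : ∀ k, Peak (F k) g (e k)) (t : ℝ) :
    I.zW (-g) * eI t (I.Z * snS I c F) * I.zW g = eI t (csS I (fun k => c k * sg1 (e k)) F) := by
  rw [conj_eI, conj_Z_snS h]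

lemma PC.eI {t : ℝ} {T : H →L[ℂ] H} (h : PC I T) : PC I (eI t T) := PC.exp (h.smul _)

end sums

/-! ### `exp (-i t T)` is unitary for selfadjoint `T` -/

lemma star_eI (t : ℝ) {T : H →L[ℂ] H} (hT : star T = T) : star (eI t T) = eI (-t) T := by
  let _ : NormedAlgebra ℚ (H →L[ℂ] H) := NormedAlgebra.restrictScalars ℚ ℂ _
  rw [eI, eI, NormedSpace.star_exp, star_smul, hT]
  congr 2
  simp

lemma eI_mul (s t : ℝ) (T : H →L[ℂ] H) : eI s T * eI t T = eI (s + t) T := by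
  let _ : NormedAlgebra ℚ (H →L[ℂ] H) := NormedAlgebra.restrictScalars ℚ ℂ _
  rw [eI, eI, eI, ← NormedSpace.exp_add_of_commute
    (((Commute.refl T).smul_left _).smul_right _), ← add_smul]
  congr 2
  push_cast
  ring

lemma eI_zero (T : H →L[ℂ] H) : eI 0 T = 1 := by
  rw [eI]; simp

/-- `exp (-i t T)` as a unitary -/
def eIU (t : ℝ) (T : H →L[ℂ] H) (hT : star T = T) : UH H :=
  ⟨eI t T, by
    rw [Unitary.mem_iff, star_eI t hT, eI_mul, eI_mul, neg_add_cancel, add_neg_cancel, eI_zero]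
    exact ⟨rfl, rfl⟩⟩

@[simp] lemma eIU_coe (t : ℝ) (T : H →L[ℂ] H) (hT : star T = T) :
    ((eIU t T hT : UH H) : H →L[ℂ] H) = eI t T := rfl

/-! ### `exp (i Y φ(f))` -/

/-- `exp (i Y φ(f))` -/
def yW (I : ILSys Λ H) (f : H) : H →L[ℂ] H := I.cW f + Complex.I • (I.Y * I.sW f)

lemma PC.yW (f : H) : PC I (yW I f) := (PC.cW _).add ((PC.Y.mul (PC.sW _)).smul _)

lemma mx_Z_mx : I.mx (-(Real.pi / 4)) * I.Z * I.mx (Real.pi / 4) = I.Y := by
  have h1 : I.Z * I.mx (Real.pi / 4) = I.mx (-(Real.pi / 4)) * I.Z := by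
    rw [ILSys.mx, ILSys.mx, Real.cos_neg, Real.sin_neg, mul_sub, sub_mul, mul_smul_comm,
      smul_mul_assoc, mul_smul_comm, smul_mul_assoc, Z_X]
    push_cast
    simp only [mul_one, one_mul, mul_neg, neg_smul, smul_neg]
  rw [mul_assoc, h1, ← mul_assoc, mx_mul, ILSys.mx]
  have h2 : -(Real.pi / 4) + -(Real.pi / 4) = -(Real.pi / 2) := by ring
  rw [h2, Real.cos_neg, Real.cos_pi_div_two, Real.sin_neg, Real.sin_pi_div_two, ILSys.Y]
  push_cast
  rw [zero_smul, zero_sub, mul_neg, mul_one, neg_smul, neg_neg, smul_mul_assoc, Z_X, smul_neg,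
    neg_smul, neg_neg]

/-- conjugation by the quarter rotation -/
lemma mx_zW_mx (f : H) : I.mx (-(Real.pi / 4)) * I.zW f * I.mx (Real.pi / 4) = yW I f := by
  have hc : I.cW f * I.mx (Real.pi / 4) = I.mx (Real.pi / 4) * I.cW f := by
    rw [ILSys.mx, mul_sub, sub_mul, mul_smul_comm, smul_mul_assoc, mul_smul_comm, smul_mul_assoc,
      (X_cW f).eq, mul_one, one_mul]
  have hs : I.sW f * I.mx (Real.pi / 4) = I.mx (Real.pi / 4) * I.sW f := by
    rw [ILSys.mx, mul_sub, sub_mul, mul_smul_comm, smul_mul_assoc, mul_smul_comm, smul_mul_assoc,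
      (X_sW f).eq, mul_one, one_mul]
  rw [zW_eq, mul_add, add_mul, mul_assoc, hc, ← mul_assoc, mx_mul, neg_add_cancel, mx_zero,
    one_mul, mul_smul_comm, smul_mul_assoc, mul_assoc, mul_assoc, hs, ← mul_assoc I.Z,
    ← mul_assoc, ← mul_assoc, mx_Z_mx, yW]


lemma yW_mul_neg (f : H) : yW I f * yW I (-f) = 1 := by
  have h := zW_mul_neg (I := I) f
  rw [← mx_zW_mx, ← mx_zW_mx]
  have : I.mx (-(Real.pi / 4)) * I.zW f * I.mx (Real.pi / 4) *
      (I.mx (-(Real.pi / 4)) * I.zW (-f) * I.mx (Real.pi / 4)) =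
      I.mx (-(Real.pi / 4)) * (I.zW f * (I.mx (Real.pi / 4) * I.mx (-(Real.pi / 4))) * I.zW (-f))
        * I.mx (Real.pi / 4) := by noncomm_ring
  rw [this, mx_mul, add_neg_cancel, mx_zero, mul_one, h, mul_one, mx_mul, neg_add_cancel, mx_zero]

lemma yW_neg_mul (f : H) : yW I (-f) * yW I f = 1 := by
  have := yW_mul_neg (I := I) (-f)
  rwa [neg_neg] at this

lemma star_yW (f : H) : star (yW I f) = yW I (-f) := by
  rw [yW, yW, star_add, star_smul, star_mul, star_cW, star_sW, star_Y, cW_neg, sW_neg,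
    ← (Y_sW f).eq, mul_neg, smul_neg]
  simp

/-- `exp (i Y φ(f))` as unitary -/
def yWU (I : ILSys Λ H) (f : H) : UH H :=
  ⟨yW I f, by rw [Unitary.mem_iff, star_yW, yW_neg_mul, yW_mul_neg]; exact ⟨rfl, rfl⟩⟩

@[simp] lemma yWU_coe (f : H) : ((yWU I f : UH H) : H →L[ℂ] H) = yW I f := rfl

/-- `exp (i Z φ(f))` as unitary -/
def zWU (I : ILSys Λ H) (f : H) : UH H :=
  ⟨I.zW f, by rw [Unitary.mem_iff, star_zW, zW_neg_mul, zW_mul_neg]; exact ⟨rfl, rfl⟩⟩

@[simp] lemma zWU_coe (f : H) : ((zWU I f : UH H) : H →L[ℂ] H) = I.zW f := rfl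

end Crest.Agent.R339.Cel
end
end

-- ▼ part R339/Cel90C

/-!
# R339 (G2): one cell of the gadget, definitions and the final state

`pV B U T = P_B U* T U Om`.
-/

set_option autoImplicit false
set_option linter.unusedSectionVars false
set_option linter.style.haveILetI false

noncomputable section

open scoped ComplexConjugate InnerProductSpace Topology
open Filter MeasureTheory

namespace Crest.Agent.R339.Cel

open Crest.Agent.R339.Li Crest.Agent.R339.Li.ILSys Crest.Agent.R339.MF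

variable {Λ H : Type*} [MeasurableSpace Λ] [NormedAddCommGroup H] [InnerProductSpace ℂ H]
  [CompleteSpace H] 

/-- `P_B U* T U Om` -/
def pV (I : ILSys Λ H) (B : Set Λ) (U : UH H) (T : H →L[ℂ] H) : H :=
  I.P B (star (U : H →L[ℂ] H) (T ((U : H →L[ℂ] H) I.Om)))


section cell

variable (I : ILSys Λ H) (N B M : Set Λ) (g t κ : ℝ) (T : H →L[ℂ] H) (U : UH H)

/-- the node vector `P_N U* Z U Om` -/
abbrev cf : H := I.eA N U
/-- bath after the first coupling -/
def cU1 : UH H := yWU I ((g : ℂ) • I.eA N U) * U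







end cell

end Crest.Agent.R339.Cel
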