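import Crest.Agent.R339.Li728B
import Crest.Agent.R339.Trot716

/-!
# R339, block LI: the closed monoid of `Good`-preserving gates, function gates (helper728)
-/

set_option autoImplicit false
set_option linter.unusedSectionVars false
set_option linter.style.haveILetI false
set_option linter.unusedVariables false
set_option linter.unusedSimpArgs false

noncomputable section

open scoped ComplexConjugate InnerProductSpace Topology
open Filter MeasureTheory

namespace Crest.Agent.R339.Li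

section Group

variable {𝔸 : Type*} [NormedRing 𝔸] [NormedAlgebra ℝ 𝔸] [CompleteSpace 𝔸] [NormOneClass 𝔸]

/-- a differentiable one-parameter group is the exponential of its generator -/
lemma exp_eq_of_group {G : ℝ → 𝔸} (h0 : G 0 = 1) (hadd : ∀ s t, G (s + t) = G s * G t) {A : 𝔸}
    (hG : HasDerivAt G A 0) (t : ℝ) : NormedSpace.exp (t • A) = G t := by
  have h1 : HasDerivAt (fun s : ℝ => G (s * t)) (t • A) 0 := by
    have hm : HasDerivAt (fun s : ℝ => s * t) t 0 := by
      simpa using (hasDerivAt_id (0 : ℝ)).mul_const t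
    have hG' : HasDerivAt G A ((fun s : ℝ => s * t) 0) := by simpa using hG
    exact hG'.scomp (0 : ℝ) hm
  have h2 := Trot.tendsto_pow_exp_of_hasDerivAt (G := fun s : ℝ => G (s * t)) (by simp [h0]) h1
  have hpow : ∀ (x : ℝ) (n : ℕ), G x ^ n = G (n * x) := by
    intro x n
    induction n with
    | zero => simp [h0]
    | succ n ih => rw [pow_succ, ih, ← hadd]; congr 1; push_cast; ring
  have h3 : ∀ᶠ n : ℕ in atTop, G ((n : ℝ)⁻¹ * t) ^ n = G t := by
    filter_upwards [eventually_gt_atTop 0] with n hn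
    rw [hpow]
    congr 1
    have : (n : ℝ) ≠ 0 := by positivity
    field_simp
  have h4 : Tendsto (fun n : ℕ => G ((n : ℝ)⁻¹ * t) ^ n) atTop (𝓝 (G t)) :=
    tendsto_const_nhds.congr' (by filter_upwards [h3] with n hn; rw [hn])
  exact tendsto_nhds_unique h2 h4

end Group

variable {Λ H : Type*} [MeasurableSpace Λ] [NormedAddCommGroup H] [InnerProductSpace ℂ H]
  [CompleteSpace H]

namespace ILSys

variable {I : ILSys Λ H}

lemma norm_Om : ‖I.Om‖ = 1 := by
  have h := I.inner_Om Set.univ 0 MeasurableSet.univ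
  rw [I.P_univ, I.W_zero] at h
  have h2 : ⟪I.Om, I.Om⟫_ℂ = 1 := by
    refine h.trans ?_
    simp
  rw [@norm_eq_sqrt_re_inner ℂ, h2]
  simp

lemma nontriv (I : ILSys Λ H) : Nontrivial H :=
  ⟨I.Om, 0, fun h => by have := norm_Om (I := I); rw [h, norm_zero] at this; exact zero_ne_one this⟩

/-- the gates preserving `Good` -/
def GP (I : ILSys Λ H) (S : Set Λ) (L : Set H) (c : ℝ) : Submonoid (H →L[ℂ] H) where
  carrier := {G | ∃ h : G ∈ unitary (H →L[ℂ] H), ∀ U, I.Good S L c U → I.Good S L c (⟨G, h⟩ * U)}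
  one_mem' := ⟨one_mem _, fun U hU => by
    have : (⟨1, one_mem _⟩ : UH H) = 1 := rfl
    rw [this, one_mul]; exact hU⟩
  mul_mem' := by
    rintro G G' ⟨h, hG⟩ ⟨h', hG'⟩
    refine ⟨mul_mem h h', fun U hU => ?_⟩
    have : (⟨G * G', mul_mem h h'⟩ : UH H) * U = ⟨G, h⟩ * (⟨G', h'⟩ * U) := by
      rw [← mul_assoc]; rfl
    rw [this]
    exact hG _ (hG' _ hU)

lemma GP.good {S : Set Λ} {L : Set H} {c : ℝ} {G : UH H} (hG : (G : H →L[ℂ] H) ∈ I.GP S L c)
    {U : UH H} (hU : I.Good S L c U) : I.Good S L c (G * U) := by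
  obtain ⟨h, h2⟩ := hG
  exact h2 U hU

lemma mem_GP_of {S : Set Λ} {L : Set H} {c : ℝ} {G : UH H}
    (h : ∀ U, I.Good S L c U → I.Good S L c (G * U)) : (G : H →L[ℂ] H) ∈ I.GP S L c :=
  ⟨G.2, h⟩

lemma isClosed_GP (S : Set Λ) (L : Set H) (c : ℝ) :
    IsClosed (I.GP S L c : Set (H →L[ℂ] H)) := by
  rw [← isSeqClosed_iff_isClosed]
  intro G G₀ hG hlim
  have hu : G₀ ∈ unitary (H →L[ℂ] H) := by
    have h1 : ∀ n, G n ∈ unitary (H →L[ℂ] H) := fun n => (hG n).1
    rw [Unitary.mem_iff]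
    constructor
    · refine tendsto_nhds_unique (((continuous_star.tendsto _).comp hlim).mul hlim) ?_
      refine tendsto_const_nhds.congr fun n => ?_
      exact ((Unitary.mem_iff.mp (h1 n)).1).symm
    · refine tendsto_nhds_unique (hlim.mul ((continuous_star.tendsto _).comp hlim)) ?_
      refine tendsto_const_nhds.congr fun n => ?_
      exact ((Unitary.mem_iff.mp (h1 n)).2).symm
  refine ⟨hu, fun U hU => ?_⟩
  have h2 : STends (fun n => (⟨G n, (hG n).1⟩ : UH H)) atTop ⟨G₀, hu⟩ := STends.of_norm hlim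
  exact Good.of_tendsto (Eventually.of_forall fun n => (hG n).2 U hU) (h2.mul (STends.const U))

/-! ### real trigonometric functions of fields -/

/-- `sin φ(f)` -/
def sW (I : ILSys Λ H) (f : H) : H →L[ℂ] H := (-(Complex.I / 2)) • (I.W f - I.W (-f))
/-- `cos φ(f)` -/
def cW (I : ILSys Λ H) (f : H) : H →L[ℂ] H := (1 / 2 : ℂ) • (I.W f + I.W (-f))
/-- `Y = -i Z X` -/
def Y (I : ILSys Λ H) : H →L[ℂ] H := (-Complex.I) • (I.Z * I.X)

lemma Z_X : I.Z * I.X = -(I.X * I.Z) := by
  rw [Z, X, ← map_mul, ← map_mul, ← map_neg]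
  congr 1
  ext s t; fin_cases s <;> fin_cases t <;> simp [zM, xM, dM, Matrix.mul_apply]

lemma X_zW (f : H) : I.X * I.zW f = I.zW (-f) * I.X := by
  have e1 : I.X * I.Ep = I.Em * I.X := by
    rw [X, Ep, Em, ← map_mul, ← map_mul]
    congr 1
    ext s t; fin_cases s <;> fin_cases t <;> simp [xM, dM, Matrix.mul_apply]
  have e2 : I.X * I.Em = I.Ep * I.X := by
    rw [X, Ep, Em, ← map_mul, ← map_mul]
    congr 1
    ext s t; fin_cases s <;> fin_cases t <;> simp [xM, dM, Matrix.mul_apply]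
  rw [zW, zW, neg_neg, mul_add, add_mul, ← mul_assoc, e1, mul_assoc, (X_W f).eq, ← mul_assoc,
    ← mul_assoc, e2, mul_assoc I.Ep, (X_W (-f)).eq, ← mul_assoc, add_comm]

lemma zW_eq (f : H) : I.zW f = I.cW f + Complex.I • (I.Z * I.sW f) := by
  have h1 : I.Ep = (1 / 2 : ℂ) • (1 + I.Z) := by
    rw [Z_eq, ← Ep_add_Em (I := I)]; module
  have h2 : I.Em = (1 / 2 : ℂ) • (1 - I.Z) := by
    rw [Z_eq, ← Ep_add_Em (I := I)]; module
  rw [zW, h1, h2, cW, sW]
  simp only [smul_mul_assoc, mul_smul_comm, smul_smul, add_mul, sub_mul, mul_sub, one_mul]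
  have : Complex.I * -(Complex.I / 2) = 1 / 2 := by
    rw [mul_neg, ← mul_div_assoc, Complex.I_mul_I]; norm_num
  rw [this]
  module

variable {S : Set Λ} {L : Set H} {c : ℝ}

lemma rot_mem_GP {A : Set Λ} (hA : I.Cl A) (hS : A ⊆ S) (β : ℝ) :
    I.rotO A β ∈ I.GP S L c :=
  mem_GP_of (G := I.rot (I.Cl_meas A hA) β) fun _ hU => hU.rot hA hS β

/-- real vectors : all symplectic forms vanish -/
def RealSet (L : Set H) : Prop := ∀ x ∈ L, ∀ y ∈ L, (⟪x, y⟫_ℂ).im = 0

lemma RealSet.span (h : RealSet L) {x y : H} (hx : x ∈ Submodule.span ℝ L)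
    (hy : y ∈ Submodule.span ℝ L) : (⟪x, y⟫_ℂ).im = 0 := by
  have h1 : ∀ x ∈ L, ∀ y ∈ Submodule.span ℝ L, (⟪x, y⟫_ℂ).im = 0 := by
    intro x hx y hy
    induction hy using Submodule.span_induction with
    | mem y hy => exact h x hx y hy
    | zero => simp
    | add y z _ _ hy hz => rw [inner_add_right, Complex.add_im, hy, hz, add_zero]
    | smul a y _ hy =>
      rw [← Complex.coe_smul, inner_smul_right, Complex.im_ofReal_mul, hy, mul_zero]
  induction hx using Submodule.span_induction with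
  | mem x hx => exact h1 x hx y hy
  | zero => simp
  | add x z _ _ hx hz => rw [inner_add_left, Complex.add_im, hx, hz, add_zero]
  | smul a x _ hx =>
    rw [← Complex.coe_smul, inner_smul_left, Complex.conj_ofReal]
    rw [Complex.im_ofReal_mul, hx, mul_zero]

lemma blk_apply (A : Set Λ) (b : H →L[ℂ] H) (v : H) : I.blk A b v = I.P Aᶜ v + I.P A (b v) := rfl

/-- product of two `zW` with commuting fields -/
lemma zW_mul_of_im {f g : H} (h : (⟪f, g⟫_ℂ).im = 0) : I.zW f * I.zW g = I.zW (f + g) := by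
  rw [zW_mul, h]; simp

lemma cstO_mul_of_im {A : Set Λ} (hA : MeasurableSet A) {f g : H} (h : (⟪f, g⟫_ℂ).im = 0) :
    I.cstO A f * I.cstO A g = I.cstO A (f + g) := by
  rw [cstO_eq, cstO_eq, cstO_eq, blk_mul_blk hA (fun B hB => P_zW hB f), zW_mul_of_im h]

lemma cstO_zero {A : Set Λ} (hA : MeasurableSet A) : I.cstO A 0 = 1 := by
  rw [cstO_eq, zW_zero, blk_one hA]

/-- label gates of the real span -/
lemma cst_mem_GP (hL : RealSet L) {A : Set Λ} (hA : I.Cl A) (hS : A ⊆ S) {f : H}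
    (hf : f ∈ Submodule.span ℝ L) : I.cstO A f ∈ I.GP S L c := by
  have hm := I.Cl_meas A hA
  -- we prove the statement for all real multiples
  have key : ∀ a : ℝ, I.cstO A (a • f) ∈ I.GP S L c := by
    induction hf using Submodule.span_induction with
    | mem x hx =>
      intro a
      have : I.cstO A (a • x) = I.cst hm ((a : ℂ) • x) := by
        rw [Complex.coe_smul]; rfl
      rw [this]
      exact mem_GP_of fun _ hU => hU.lab hA hS hx a
    | zero => intro a; rw [smul_zero, cstO_zero hm]; exact one_mem _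
    | add x y hx hy ihx ihy =>
      intro a
      have him : (⟪a • x, a • y⟫_ℂ).im = 0 :=
        hL.span (Submodule.smul_mem _ _ hx) (Submodule.smul_mem _ _ hy)
      rw [smul_add, ← cstO_mul_of_im hm him]
      exact mul_mem (ihx a) (ihy a)
    | smul b x _ ih => intro a; rw [smul_smul]; exact ih _
  simpa using key 1

/-- the generator of the class rotation -/
lemma hasDerivAt_rotO {A : Set Λ} (hA : MeasurableSet A) :
    HasDerivAt (fun t : ℝ => I.rotO A t) ((-Complex.I) • (I.P A * I.X)) 0 := by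
  have h1 : HasDerivAt (fun t : ℝ => ((Real.cos t : ℝ) : ℂ)) 0 0 := by
    have := (Real.hasDerivAt_cos 0).ofReal_comp
    simpa using this
  have h2 : HasDerivAt (fun t : ℝ => ((Real.sin t : ℝ) : ℂ)) 1 0 := by
    have := (Real.hasDerivAt_sin 0).ofReal_comp
    simpa using this
  have h3 : HasDerivAt (fun t : ℝ => I.mx t)
      ((0 : ℂ) • (1 : H →L[ℂ] H) - (Complex.I * 1) • I.X) 0 :=
    (h1.smul_const (1 : H →L[ℂ] H)).sub ((h2.const_mul Complex.I).smul_const I.X)
  have h4 : HasDerivAt (fun t : ℝ => I.P A * I.mx t)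
      (I.P A * ((0 : ℂ) • (1 : H →L[ℂ] H) - (Complex.I * 1) • I.X)) 0 :=
    h3.const_mul (I.P A)
  have h5 := h4.const_add (I.P Aᶜ)
  refine (h5.congr_of_eventuallyEq (Eventually.of_forall fun t => rfl)).congr_deriv ?_
  simp only [zero_smul, mul_one, zero_sub, mul_neg, mul_smul_comm, neg_smul]

lemma exp_rot {A : Set Λ} (hA : MeasurableSet A) (t : ℝ) :
    NormedSpace.exp (t • ((-Complex.I) • (I.P A * I.X))) = I.rotO A t := by
  haveI := I.nontriv
  refine exp_eq_of_group (G := fun t => I.rotO A t) ?_ ?_ (hasDerivAt_rotO hA) t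
  · rw [rotO_eq, mx_zero, blk_one hA]
  · intro s t
    rw [rotO_eq, rotO_eq, rotO_eq, blk_mul_blk hA (fun B hB => P_mx hB s), mx_mul]

/-- the Lie algebra of `GP` -/
abbrev LG (I : ILSys Λ H) (S : Set Λ) (L : Set H) (c : ℝ) : Set (H →L[ℂ] H) :=
  Trot.lieOf (I.GP S L c)

lemma X_mem_LG {A : Set Λ} (hA : I.Cl A) (hS : A ⊆ S) :
    (-Complex.I) • (I.P A * I.X) ∈ I.LG S L c := fun t => by
  rw [exp_rot (I.Cl_meas A hA)]; exact rot_mem_GP hA hS t

lemma blk_conj {A : Set Λ} (hA : MeasurableSet A) {a b M : H →L[ℂ] H}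
    (ha : ∀ B, MeasurableSet B → Commute (I.P B) a) (hM : ∀ B, MeasurableSet B → Commute (I.P B) M) :
    I.blk A a * (I.P A * M) * I.blk A b = I.P A * (a * M * b) := by
  have h1 : I.blk A a * (I.P A * M) = I.P A * (a * M) := by
    have h := blk_mul (I := I) hA (a := 1) (b := a) (c := 0) (d := M)
      (fun B _ => Commute.one_right _) ha
    simpa [blk] using h
  have h2 : I.P A * (a * M) * I.blk A b = I.P A * (a * M * b) := by
    have h := blk_mul (I := I) hA (a := 0) (b := a * M) (c := 1) (d := b)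
      (fun B _ => Commute.zero_right _) (fun B hB => (ha B hB).mul_right (hM B hB))
    simpa [blk] using h
  rw [h1, h2]

lemma zW_X_zW (f : H) : I.zW f * I.X * I.zW (-f) = I.cW ((2 : ℝ) • f) * I.X
    - I.sW ((2 : ℝ) • f) * I.Y := by
  have h1 : I.zW f * I.X * I.zW (-f) = I.zW ((2 : ℝ) • f) * I.X := by
    rw [mul_assoc, X_zW, neg_neg, ← mul_assoc, zW_mul_of_im, ← two_smul ℝ f]
    simpa using inner_self_im (𝕜 := ℂ) f
  rw [h1, zW_eq, add_mul, Y]
  have e : I.Z * I.sW ((2 : ℝ) • f) = I.sW ((2 : ℝ) • f) * I.Z := by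
    rw [sW, mul_smul_comm, smul_mul_assoc, mul_sub, sub_mul, (Z_W _).eq, (Z_W _).eq]
  rw [e, smul_mul_assoc, mul_smul_comm, neg_smul, sub_neg_eq_add, mul_assoc]

lemma sW_neg (f : H) : I.sW (-f) = - I.sW f := by
  rw [sW, sW, neg_neg, ← smul_neg, neg_sub]

lemma cW_neg (f : H) : I.cW (-f) = I.cW f := by
  rw [cW, cW, neg_neg, add_comm]

lemma P_W' {A : Set Λ} (hA : MeasurableSet A) (f : H) : Commute (I.P A) (I.W f) := I.P_W A f hA

lemma P_sW {A : Set Λ} (hA : MeasurableSet A) (f : H) : Commute (I.P A) (I.sW f) :=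
  ((P_W' hA _).sub_right (P_W' hA _)).smul_right _

lemma P_cW {A : Set Λ} (hA : MeasurableSet A) (f : H) : Commute (I.P A) (I.cW f) :=
  ((P_W' hA _).add_right (P_W' hA _)).smul_right _

lemma X_sW (f : H) : Commute I.X (I.sW f) := ((X_W _).sub_right (X_W _)).smul_right _
lemma Z_sW (f : H) : Commute I.Z (I.sW f) := ((Z_W _).sub_right (Z_W _)).smul_right _
lemma X_cW (f : H) : Commute I.X (I.cW f) := ((X_W _).add_right (X_W _)).smul_right _
lemma Z_cW (f : H) : Commute I.Z (I.cW f) := ((Z_W _).add_right (Z_W _)).smul_right _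
lemma Y_sW (f : H) : Commute I.Y (I.sW f) := ((Z_sW f).mul_left (X_sW f)).smul_left _
lemma Y_cW (f : H) : Commute I.Y (I.cW f) := ((Z_cW f).mul_left (X_cW f)).smul_left _
lemma P_Y {A : Set Λ} (hA : MeasurableSet A) : Commute (I.P A) I.Y :=
  ((P_Z hA).mul_right (P_X hA)).smul_right _

/-- conjugated X-generators -/
lemma conj_mem_LG (hL : RealSet L) {A : Set Λ} (hA : I.Cl A) (hS : A ⊆ S) {f : H}
    (hf : f ∈ Submodule.span ℝ L) :
    (-Complex.I) • (I.P A * (I.cW ((2 : ℝ) • f) * I.X - I.sW ((2 : ℝ) • f) * I.Y)) ∈ I.LG S L c := by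
  haveI := I.nontriv
  have hm := I.Cl_meas A hA
  have h := Trot.conj_mem_lieOf (S := I.GP S L c) (X_mem_LG (I := I) (L := L) (c := c) hA hS)
    (cst_mem_GP (c := c) hL hA hS hf)
    (cst_mem_GP (c := c) hL hA hS (Submodule.neg_mem _ hf)) (cstO_mul_neg hm f)
    (by have := cstO_mul_neg (I := I) hm (-f); rwa [neg_neg] at this)
  have e : I.cstO A f * ((-Complex.I) • (I.P A * I.X)) * I.cstO A (-f) =
      (-Complex.I) • (I.P A * (I.cW ((2 : ℝ) • f) * I.X - I.sW ((2 : ℝ) • f) * I.Y)) := by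
    rw [mul_smul_comm, smul_mul_assoc, cstO_eq, cstO_eq,
      blk_conj hm (fun B hB => P_zW hB f) (fun B hB => P_X hB), zW_X_zW]
  rwa [e] at h

/-- **function gates**: `i P_A Y sin φ(f)` -/
theorem Ys_mem_LG (hL : RealSet L) {A : Set Λ} (hA : I.Cl A) (hS : A ⊆ S) {f : H}
    (hf : f ∈ Submodule.span ℝ L) : Complex.I • (I.P A * (I.Y * I.sW f)) ∈ I.LG S L c := by
  haveI := I.nontriv
  have hg : (1 / 2 : ℝ) • f ∈ Submodule.span ℝ L := Submodule.smul_mem _ _ hf
  have h1 := conj_mem_LG (c := c) hL hA hS hg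
  have h2 := conj_mem_LG (c := c) hL hA hS (Submodule.neg_mem _ hg)
  have h3 := Trot.smul_mem_lieOf (Trot.add_mem_lieOf (isClosed_GP S L c) h1
    (Trot.neg_mem_lieOf h2)) (1 / 2 : ℝ)
  have e1 : (2 : ℝ) • (1 / 2 : ℝ) • f = f := by rw [smul_smul]; norm_num
  have e2 : (2 : ℝ) • (-((1 / 2 : ℝ) • f)) = -f := by rw [smul_neg, e1]
  rw [e1, e2, sW_neg, cW_neg] at h3
  have e3 : Complex.I • (I.P A * (I.Y * I.sW f)) = (1 / 2 : ℝ) • ((-Complex.I) •
      (I.P A * (I.cW f * I.X - I.sW f * I.Y)) +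
      -((-Complex.I) • (I.P A * (I.cW f * I.X - -I.sW f * I.Y)))) := by
    rw [(Y_sW f).eq, ← Complex.coe_smul]
    simp only [mul_sub, mul_add, neg_mul, sub_neg_eq_add, smul_sub, smul_add, neg_smul, smul_neg,
      neg_neg, smul_smul]
    push_cast
    module
  rw [e3]; exact h3


end ILSys

end Crest.Agent.R339.Li
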