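import Mathlib
import Crest.Agent.R339.Li728A
import Crest.Agent.R339.Cell220A
import Crest.Agent.R339.Li728C
import Crest.Agent.R339.MF569A
import Crest.Agent.R339.Cel90C
import Crest.Agent.R339.Cel90E

-- ▼ part R339/Cell220B
section

/-!
# Cell-uniform strong convergence on an IL system (R339, label induction, block G3)
-/

set_option autoImplicit false
set_option linter.unusedSectionVars false

open scoped InnerProductSpace Topology ComplexConjugate
open Filter MeasureTheory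

namespace Crest.Agent.R339.Cell

open Crest.Agent.R339.Li Crest.Agent.R339.Li.ILSys

variable {Λ H : Type*} [MeasurableSpace Λ] [NormedAddCommGroup H] [InnerProductSpace ℂ H]
  [CompleteSpace H] {I : ILSys Λ H}

/-! ### Basic estimates -/

theorem norm_sq_eq_re_inner (x : H) : ‖x‖ ^ 2 = (⟪x, x⟫_ℂ).re := by
  rw [inner_self_eq_norm_sq_to_K]
  norm_cast

theorem inner_W_W (I : ILSys Λ H) (f : H) (x y : H) : ⟪I.W f x, I.W f y⟫_ℂ = ⟪x, y⟫_ℂ := by
  rw [← ContinuousLinearMap.adjoint_inner_right, ← ContinuousLinearMap.star_eq_adjoint, I.W_star,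
    ← mul_apply_eq_comp, W_neg_mul]
  rfl

theorem norm_W (I : ILSys Λ H) (f x : H) : ‖I.W f x‖ = ‖x‖ := by
  have h : ‖I.W f x‖ ^ 2 = ‖x‖ ^ 2 := by
    rw [norm_sq_eq_re_inner, norm_sq_eq_re_inner, inner_W_W]
  exact (pow_left_inj₀ (norm_nonneg _) (norm_nonneg _) two_ne_zero).mp h

theorem norm_W_le (I : ILSys Λ H) (f : H) : ‖I.W f‖ ≤ 1 :=
  ContinuousLinearMap.opNorm_le_bound _ zero_le_one fun x => by rw [norm_W, one_mul]

theorem norm_P_apply_sq {A : Set Λ} (hA : MeasurableSet A) (x : H) :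
    ‖I.P A x‖ ^ 2 = (⟪x, I.P A x⟫_ℂ).re := by
  rw [norm_sq_eq_re_inner, ← ContinuousLinearMap.adjoint_inner_right,
    ← ContinuousLinearMap.star_eq_adjoint, I.P_star A hA, ← mul_apply_eq_comp, P_sq hA]

theorem norm_P_apply_le {A : Set Λ} (hA : MeasurableSet A) (x : H) : ‖I.P A x‖ ≤ ‖x‖ := by
  have h1 : ‖I.P A x‖ ^ 2 ≤ ‖x‖ * ‖I.P A x‖ := by
    rw [norm_P_apply_sq hA]
    exact (Complex.re_le_norm _).trans (norm_inner_le_norm _ _)
  rcases eq_or_lt_of_le (norm_nonneg (I.P A x)) with h | h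
  · rw [← h]
    exact norm_nonneg _
  · rw [sq] at h1
    exact le_of_mul_le_mul_right h1 h


theorem inner_Om_P {A : Set Λ} (hA : MeasurableSet A) :
    ⟪I.Om, I.P A I.Om⟫_ℂ = (I.μ.real A : ℂ) := by
  have h := I.inner_Om A 0 hA
  rw [I.W_zero] at h
  simpa using h

theorem norm_P_Om_sq {A : Set Λ} (hA : MeasurableSet A) : ‖I.P A I.Om‖ ^ 2 = I.μ.real A := by
  rw [norm_P_apply_sq hA, inner_Om_P hA, Complex.ofReal_re]

theorem norm_Om : ‖I.Om‖ = 1 := by
  have h := norm_P_Om_sq (I := I) MeasurableSet.univ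
  rw [I.P_univ] at h
  have h2 : ‖I.Om‖ ^ 2 = 1 := by
    simpa using h
  exact (pow_eq_one_iff_of_nonneg (norm_nonneg _) two_ne_zero).mp h2

theorem W_W_comm (f g : H) : I.W f * I.W g =
    Complex.exp (-(Complex.I * ((2 * (⟪f, g⟫_ℂ).im : ℝ) : ℂ))) • (I.W g * I.W f) := by
  rw [I.W_mul, I.W_mul, smul_smul, ← Complex.exp_add, add_comm g f]
  congr 2
  have : (⟪g, f⟫_ℂ).im = -(⟪f, g⟫_ℂ).im := by
    rw [← inner_conj_symm, Complex.conj_im]
  rw [this]
  push_cast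
  ring

theorem inner_P_W_P {A : Set Λ} (hA : MeasurableSet A) (d : H) :
    ⟪I.P A I.Om, I.W d (I.P A I.Om)⟫_ℂ =
      (I.μ.real A : ℂ) * Complex.exp (-((‖d‖ ^ 2 / 2 : ℝ) : ℂ)) := by
  have h1 : I.W d (I.P A I.Om) = I.P A (I.W d I.Om) := by
    rw [← mul_apply_eq_comp, ← mul_apply_eq_comp, (I.P_W A d hA).eq]
  have h2 : ⟪I.P A I.Om, I.P A (I.W d I.Om)⟫_ℂ = ⟪I.Om, I.P A (I.P A (I.W d I.Om))⟫_ℂ := by
    rw [← ContinuousLinearMap.adjoint_inner_right (I.P A), ← ContinuousLinearMap.star_eq_adjoint,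
      I.P_star A hA]
  rw [h1, h2, ← mul_apply_eq_comp (I.P A) (I.P A), P_sq hA, I.inner_Om A d hA]

theorem one_sub_cos_mul_exp_le (θ a : ℝ) (ha : 0 ≤ a) :
    1 - Real.cos θ * Real.exp (-a) ≤ θ ^ 2 / 2 + a := by
  have h1 := Real.one_sub_sq_div_two_le_cos (x := θ)
  have h2 := Real.add_one_le_exp (-a)
  have h3 : Real.exp (-a) ≤ 1 := Real.exp_le_one_iff.mpr (by linarith)
  have h4 := Real.exp_pos (-a)
  nlinarith [Real.cos_le_one θ, sq_nonneg θ]

/-- The basic continuity estimate, on the vectors `W f (P A Om)`. -/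
theorem norm_W_sub_sq {A : Set Λ} (hA : MeasurableSet A) (d f : H) :
    ‖I.W d (I.W f (I.P A I.Om)) - I.W f (I.P A I.Om)‖ ^ 2 ≤
      (1 + 4 * ‖f‖ ^ 2) * ‖d‖ ^ 2 * I.μ.real A := by
  set θ : ℝ := -(2 * (⟪d, f⟫_ℂ).im) with hθ
  have h1 : I.W d (I.W f (I.P A I.Om)) = I.W f (Complex.exp ((θ : ℂ) * Complex.I) •
      I.W d (I.P A I.Om)) := by
    rw [← mul_apply_eq_comp, W_W_comm, map_smul]
    have : Complex.exp (-(Complex.I * ((2 * (⟪d, f⟫_ℂ).im : ℝ) : ℂ))) =
        Complex.exp ((θ : ℂ) * Complex.I) := by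
      congr 1
      rw [hθ]
      push_cast
      ring
    rw [this]
    rfl
  rw [h1, ← map_sub, norm_W]
  have hc : ‖Complex.exp ((θ : ℂ) * Complex.I)‖ = 1 := Complex.norm_exp_ofReal_mul_I θ
  have h3 : (⟪Complex.exp ((θ : ℂ) * Complex.I) • I.W d (I.P A I.Om), I.P A I.Om⟫_ℂ).re =
      I.μ.real A * (Real.cos θ * Real.exp (-(‖d‖ ^ 2 / 2))) := by
    rw [inner_smul_left, ← inner_conj_symm, inner_P_W_P hA, ← map_mul, Complex.conj_re,
      Complex.exp_mul_I, ← Complex.ofReal_neg, ← Complex.ofReal_exp, ← Complex.ofReal_cos,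
      ← Complex.ofReal_sin, ← Complex.ofReal_mul]
    simp only [Complex.mul_re, Complex.add_re, Complex.ofReal_re, Complex.ofReal_im, Complex.I_re,
      Complex.I_im, Complex.mul_im, Complex.add_im, mul_zero, sub_zero, add_zero, zero_mul, mul_one,
      zero_add]
    ring
  have h2 : ‖Complex.exp ((θ : ℂ) * Complex.I) • I.W d (I.P A I.Om) - I.P A I.Om‖ ^ 2 =
      2 * I.μ.real A * (1 - Real.cos θ * Real.exp (-(‖d‖ ^ 2 / 2))) := by
    have h4 : RCLike.re ⟪Complex.exp ((θ : ℂ) * Complex.I) • I.W d (I.P A I.Om), I.P A I.Om⟫_ℂ =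
      I.μ.real A * (Real.cos θ * Real.exp (-(‖d‖ ^ 2 / 2))) := h3
    rw [@norm_sub_sq ℂ, norm_smul, hc, one_mul, norm_W, norm_P_Om_sq hA, h4]
    ring
  rw [h2]
  have h5 := one_sub_cos_mul_exp_le θ (‖d‖ ^ 2 / 2) (by positivity)
  have h6 : θ ^ 2 ≤ 4 * (‖d‖ ^ 2 * ‖f‖ ^ 2) := by
    have h7 : |(⟪d, f⟫_ℂ).im| ≤ ‖d‖ * ‖f‖ := (Complex.abs_im_le_norm _).trans
      (norm_inner_le_norm _ _)
    have h8 : θ ^ 2 = 4 * |(⟪d, f⟫_ℂ).im| ^ 2 := by
      rw [hθ, sq_abs]
      ring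
    rw [h8, ← mul_pow]
    have := pow_le_pow_left₀ (abs_nonneg _) h7 2
    linarith
  have h9 : 0 ≤ I.μ.real A := measureReal_nonneg
  calc 2 * I.μ.real A * (1 - Real.cos θ * Real.exp (-(‖d‖ ^ 2 / 2)))
      ≤ 2 * I.μ.real A * (θ ^ 2 / 2 + ‖d‖ ^ 2 / 2) :=
        mul_le_mul_of_nonneg_left h5 (by positivity)
    _ = I.μ.real A * (θ ^ 2 + ‖d‖ ^ 2) := by ring
    _ ≤ I.μ.real A * (4 * (‖d‖ ^ 2 * ‖f‖ ^ 2) + ‖d‖ ^ 2) :=
        mul_le_mul_of_nonneg_left (by linarith) h9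
    _ = (1 + 4 * ‖f‖ ^ 2) * ‖d‖ ^ 2 * I.μ.real A := by ring

/-- Vectors on which all Weyl operators are uniformly Lipschitz, cell by cell. -/
def Nice (I : ILSys Λ H) (x : H) : Prop :=
  ∃ C : ℝ, 0 ≤ C ∧ ∀ A : Set Λ, MeasurableSet A → ∀ d : H,
    ‖I.W d (I.P A x) - I.P A x‖ ^ 2 ≤ C * ‖d‖ ^ 2 * I.μ.real A

theorem nice_gen {B : Set Λ} (hB : MeasurableSet B) (M : Matrix Bool Bool ℂ) (f : H) :
    Nice I (I.P B (I.sg M (I.W f I.Om))) := by
  refine ⟨‖I.sg M‖ ^ 2 * (1 + 4 * ‖f‖ ^ 2), by positivity, fun A hA d => ?_⟩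
  have h1 : I.P A (I.P B (I.sg M (I.W f I.Om))) = I.sg M (I.W f (I.P (A ∩ B) I.Om)) := by
    rw [← mul_apply_eq_comp (I.P A), ← I.P_inter A B hA hB,
      ← mul_apply_eq_comp (I.P (A ∩ B)), (I.P_sg _ _ (hA.inter hB)).eq, mul_apply_eq_comp,
      ← mul_apply_eq_comp (I.P (A ∩ B)), (I.P_W _ _ (hA.inter hB)).eq, mul_apply_eq_comp]
  have h2 : I.W d (I.sg M (I.W f (I.P (A ∩ B) I.Om))) =
      I.sg M (I.W d (I.W f (I.P (A ∩ B) I.Om))) := by
    rw [← mul_apply_eq_comp (I.W d), ← (I.sg_W M d).eq, mul_apply_eq_comp]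
  rw [h1, h2, ← map_sub]
  have h3 := norm_W_sub_sq (I := I) (hA.inter hB) d f
  have h4 : I.μ.real (A ∩ B) ≤ I.μ.real A := measureReal_mono Set.inter_subset_left
  calc ‖I.sg M (I.W d (I.W f (I.P (A ∩ B) I.Om)) - I.W f (I.P (A ∩ B) I.Om))‖ ^ 2
      ≤ (‖I.sg M‖ * ‖I.W d (I.W f (I.P (A ∩ B) I.Om)) - I.W f (I.P (A ∩ B) I.Om)‖) ^ 2 :=
        pow_le_pow_left₀ (norm_nonneg _) ((I.sg M).le_opNorm _) 2
    _ = ‖I.sg M‖ ^ 2 *
        ‖I.W d (I.W f (I.P (A ∩ B) I.Om)) - I.W f (I.P (A ∩ B) I.Om)‖ ^ 2 := by rw [mul_pow]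
    _ ≤ ‖I.sg M‖ ^ 2 * ((1 + 4 * ‖f‖ ^ 2) * ‖d‖ ^ 2 * I.μ.real (A ∩ B)) :=
        mul_le_mul_of_nonneg_left h3 (by positivity)
    _ ≤ ‖I.sg M‖ ^ 2 * ((1 + 4 * ‖f‖ ^ 2) * ‖d‖ ^ 2 * I.μ.real A) := by gcongr
    _ = ‖I.sg M‖ ^ 2 * (1 + 4 * ‖f‖ ^ 2) * ‖d‖ ^ 2 * I.μ.real A := by ring

theorem Nice.add {x y : H} (hx : Nice I x) (hy : Nice I y) : Nice I (x + y) := by
  obtain ⟨C, hC0, hC⟩ := hx
  obtain ⟨C', hC0', hC'⟩ := hy
  refine ⟨2 * C + 2 * C', by positivity, fun A hA d => ?_⟩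
  have h1 := hC A hA d
  have h2 := hC' A hA d
  have h3 : I.W d (I.P A (x + y)) - I.P A (x + y) =
      (I.W d (I.P A x) - I.P A x) + (I.W d (I.P A y) - I.P A y) := by
    simp only [map_add]
    abel
  rw [h3]
  have h4 := norm_add_le (I.W d (I.P A x) - I.P A x) (I.W d (I.P A y) - I.P A y)
  have h5 := pow_le_pow_left₀ (norm_nonneg _) h4 2
  nlinarith [sq_nonneg (‖I.W d (I.P A x) - I.P A x‖ - ‖I.W d (I.P A y) - I.P A y‖)]

theorem Nice.smul {x : H} (hx : Nice I x) (c : ℂ) : Nice I (c • x) := by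
  obtain ⟨C, hC0, hC⟩ := hx
  refine ⟨‖c‖ ^ 2 * C, by positivity, fun A hA d => ?_⟩
  have h1 := hC A hA d
  rw [map_smul, map_smul, ← smul_sub, norm_smul, mul_pow]
  calc ‖c‖ ^ 2 * ‖I.W d (I.P A x) - I.P A x‖ ^ 2 ≤ ‖c‖ ^ 2 * (C * ‖d‖ ^ 2 * I.μ.real A) :=
        mul_le_mul_of_nonneg_left h1 (by positivity)
    _ = ‖c‖ ^ 2 * C * ‖d‖ ^ 2 * I.μ.real A := by ring

theorem nice_zero : Nice I (0 : H) := ⟨0, le_rfl, fun A hA d => by simp⟩

theorem nice_of_mem_span {x : H} (hx : x ∈ Submodule.span ℂ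
    {v : H | ∃ A M f, MeasurableSet A ∧ v = I.P A (I.sg M (I.W f I.Om))}) : Nice I x := by
  induction hx using Submodule.span_induction with
  | mem x h =>
    obtain ⟨A, M, f, hA, rfl⟩ := h
    exact nice_gen hA M f
  | zero => exact nice_zero
  | add x y _ _ hx hy => exact hx.add hy
  | smul c x _ hx => exact hx.smul c

theorem exists_nice_near (I : ILSys Λ H) (x : H) {ε : ℝ} (hε : 0 < ε) :
    ∃ y, Nice I y ∧ ‖x - y‖ < ε := by
  have h1 : x ∈ (Submodule.span ℂ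
      {v : H | ∃ A M f, MeasurableSet A ∧ v = I.P A (I.sg M (I.W f I.Om))}).topologicalClosure := by
    rw [I.total]
    exact Submodule.mem_top
  have h2 := (Metric.mem_closure_iff.mp h1) ε hε
  obtain ⟨y, hy, hxy⟩ := h2
  exact ⟨y, nice_of_mem_span hy, by rwa [← dist_eq_norm]⟩

/-! ### Partitions into cells -/

/-- `N 0, …, N (R-1)` is a partition of `Mn` into measurable cells -/
structure Part (Mn : Set Λ) (R : ℕ) (N : ℕ → Set Λ) : Prop where
  meas : ∀ r < R, MeasurableSet (N r)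
  disj : ∀ r < R, ∀ s < R, r ≠ s → Disjoint (N r) (N s)
  union : ⋃ r ∈ Finset.range R, N r = Mn

theorem Part.op (I : ILSys Λ H) {Mn : Set Λ} {R : ℕ} {N : ℕ → Set Λ} (h : Part Mn R N) :
    OP R (fun r => I.P (N r)) where
  idem r hr := P_sq (h.meas r hr)
  orth r hr s hs hrs := P_disj (h.meas r hr) (h.meas s hs) (h.disj r hr s hs hrs)
  sa r hr := I.P_star _ (h.meas r hr)

theorem P_biUnion (I : ILSys Λ H) {R : ℕ} {N : ℕ → Set Λ} (hm : ∀ r < R, MeasurableSet (N r))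
    (hd : ∀ r < R, ∀ s < R, r ≠ s → Disjoint (N r) (N s)) :
    I.P (⋃ r ∈ Finset.range R, N r) = ∑ r ∈ Finset.range R, I.P (N r) := by
  induction R with
  | zero => simp [P_empty]
  | succ R ih =>
    have h1 : (⋃ r ∈ Finset.range (R + 1), N r) = (⋃ r ∈ Finset.range R, N r) ∪ N R := by
      rw [Finset.range_add_one, Finset.set_biUnion_insert, Set.union_comm]
    have h2 : MeasurableSet (⋃ r ∈ Finset.range R, N r) :=
      Finset.measurableSet_biUnion _ fun r hr => hm r ((Finset.mem_range.mp hr).trans (Nat.lt_succ_self R))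
    have h3 : Disjoint (⋃ r ∈ Finset.range R, N r) (N R) := by
      rw [Set.disjoint_iUnion₂_left]
      intro r hr
      exact hd r ((Finset.mem_range.mp hr).trans (Nat.lt_succ_self R)) R (Nat.lt_succ_self R)
        (Finset.mem_range.mp hr).ne
    rw [h1, I.P_union _ _ h2 (hm R (Nat.lt_succ_self R)) h3, Finset.sum_range_succ,
      ih (fun r hr => hm r (hr.trans (Nat.lt_succ_self R)))
        (fun r hr s hs => hd r (hr.trans (Nat.lt_succ_self R)) s (hs.trans (Nat.lt_succ_self R)))]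

theorem Part.measMn {Mn : Set Λ} {R : ℕ} {N : ℕ → Set Λ} (h : Part Mn R N) : MeasurableSet Mn := by
  rw [← h.union]
  exact Finset.measurableSet_biUnion _ fun r hr => h.meas r (Finset.mem_range.mp hr)

theorem Part.sum_P (I : ILSys Λ H) {Mn : Set Λ} {R : ℕ} {N : ℕ → Set Λ} (h : Part Mn R N) :
    ∑ r ∈ Finset.range R, I.P (N r) = I.P Mn := by
  rw [← h.union, P_biUnion I h.meas h.disj]

theorem Part.sum_mass (I : ILSys Λ H) {Mn : Set Λ} {R : ℕ} {N : ℕ → Set Λ} (h : Part Mn R N) :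
    ∑ r ∈ Finset.range R, I.μ.real (N r) ≤ 1 := by
  have h1 := (h.op I).sum_norm_sq_le I.Om
  rw [norm_Om, one_pow] at h1
  refine le_trans (le_of_eq ?_) h1
  refine Finset.sum_congr rfl fun r hr => ?_
  rw [norm_P_Om_sq (h.meas r (Finset.mem_range.mp hr))]

theorem Part.sub {Mn : Set Λ} {R : ℕ} {N : ℕ → Set Λ} (h : Part Mn R N) {r : ℕ} (hr : r < R) :
    N r ⊆ Mn := by
  rw [← h.union]
  exact Set.subset_biUnion_of_mem (u := N) (Finset.mem_coe.mpr (Finset.mem_range.mpr hr))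

variable {α : Type*} {l : Filter α}

/-- **cell-uniform strong continuity of the Weyl operators** -/
theorem BS_blk_W (I : ILSys Λ H) {Mn : Set Λ} {R : α → ℕ} {N : α → ℕ → Set Λ}
    (hp : ∀ n, Part Mn (R n) (N n)) {d : α → ℕ → H} {δ : α → ℝ} (hδ : Tendsto δ l (𝓝 0))
    (hd : ∀ n, ∀ r < R n, ‖d n r‖ ≤ δ n) :
    BS l (fun n => blk (R n) (fun r => I.P (N n r)) (fun r => I.W (d n r))) (I.P Mn) := by
  have hbd : ∀ n, ‖blk (R n) (fun r => I.P (N n r)) (fun r => I.W (d n r))‖ ≤ 1 := fun n =>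
    norm_blk_le ((hp n).op I) (fun r hr => (I.P_W _ _ ((hp n).meas r hr)).eq) zero_le_one
      fun r _ => norm_W_le I _
  refine ⟨⟨1, Eventually.of_forall hbd⟩, fun x => ?_⟩
  rw [Metric.tendsto_nhds]
  intro ε hε
  obtain ⟨y, ⟨C, hC0, hC⟩, hxy⟩ := exists_nice_near I x (ε := ε / 4) (by positivity)
  have h1 : Tendsto (fun n => C * δ n ^ 2) l (𝓝 0) := by
    have := (hδ.pow 2).const_mul C
    simpa using this
  have h2 : ∀ᶠ n in l, C * δ n ^ 2 < (ε / 4) ^ 2 :=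
    h1.eventually_lt_const (by positivity)
  filter_upwards [h2] with n hn
  have hsum : ∀ z : H, I.P Mn z = ∑ r ∈ Finset.range (R n), I.P (N n r) z := fun z => by
    rw [← (hp n).sum_P I, ContinuousLinearMap.sum_apply]
  have h3 : ‖blk (R n) (fun r => I.P (N n r)) (fun r => I.W (d n r)) y - I.P Mn y‖ ^ 2 ≤
      C * δ n ^ 2 := by
    rw [blk_apply, hsum, ← Finset.sum_sub_distrib]
    have h4 : ∀ r ∈ Finset.range (R n), I.P (N n r) (I.W (d n r) y) - I.P (N n r) y =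
        I.P (N n r) (I.W (d n r) y - y) := fun r _ => by rw [map_sub]
    rw [Finset.sum_congr rfl h4, ((hp n).op I).norm_sum_sq (fun r => I.W (d n r) y - y)]
    calc ∑ r ∈ Finset.range (R n), ‖I.P (N n r) (I.W (d n r) y - y)‖ ^ 2
        ≤ ∑ r ∈ Finset.range (R n), C * δ n ^ 2 * I.μ.real (N n r) := by
          refine Finset.sum_le_sum fun r hr => ?_
          have hr' := Finset.mem_range.mp hr
          have h5 := hC _ ((hp n).meas r hr') (d n r)
          have h6 : I.P (N n r) (I.W (d n r) y - y) = I.W (d n r) (I.P (N n r) y) -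
              I.P (N n r) y := by
            rw [map_sub, ← mul_apply_eq_comp, (I.P_W _ _ ((hp n).meas r hr')).eq,
              mul_apply_eq_comp]
          rw [h6]
          refine h5.trans ?_
          have h7 : ‖d n r‖ ^ 2 ≤ δ n ^ 2 := pow_le_pow_left₀ (norm_nonneg _) (hd n r hr') 2
          have h8 : 0 ≤ I.μ.real (N n r) := measureReal_nonneg
          gcongr
      _ = C * δ n ^ 2 * ∑ r ∈ Finset.range (R n), I.μ.real (N n r) := by rw [Finset.mul_sum]
      _ ≤ C * δ n ^ 2 * 1 :=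
        mul_le_mul_of_nonneg_left ((hp n).sum_mass I) (by positivity)
      _ = C * δ n ^ 2 := mul_one _
  have h9 : ‖blk (R n) (fun r => I.P (N n r)) (fun r => I.W (d n r)) y - I.P Mn y‖ < ε / 4 :=
    lt_of_pow_lt_pow_left₀ 2 (by positivity) (h3.trans_lt hn)
  set T := blk (R n) (fun r => I.P (N n r)) (fun r => I.W (d n r)) with hT
  have h10 : T x - I.P Mn x = T (x - y) + (T y - I.P Mn y) + I.P Mn (y - x) := by
    simp only [map_sub]
    abel
  rw [dist_eq_norm, h10]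
  have h11 : ‖T (x - y)‖ ≤ ε / 4 := by
    refine (T.le_opNorm _).trans ?_
    calc ‖T‖ * ‖x - y‖ ≤ 1 * ‖x - y‖ := mul_le_mul_of_nonneg_right (hbd n) (norm_nonneg _)
      _ ≤ ε / 4 := by rw [one_mul]; exact hxy.le
  have h12 : ‖I.P Mn (y - x)‖ ≤ ε / 4 := by
    refine (norm_P_apply_le (hp n).measMn _).trans ?_
    rw [norm_sub_rev]
    exact hxy.le
  calc ‖T (x - y) + (T y - I.P Mn y) + I.P Mn (y - x)‖
      ≤ ‖T (x - y)‖ + ‖T y - I.P Mn y‖ + ‖I.P Mn (y - x)‖ := norm_add₃_le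
    _ < ε := by linarith

end Crest.Agent.R339.Cell
end

-- ▼ part R339/Cell220C
section

/-!
# One-mode estimates for the bath (R339, label induction, block G3)
-/

set_option autoImplicit false
set_option linter.unusedSectionVars false

open scoped InnerProductSpace Topology ComplexConjugate
open Filter MeasureTheory

namespace Crest.Agent.R339.Cell

open Crest.Agent.R339.Li Crest.Agent.R339.Li.ILSys Crest.Agent.R339.MF Crest.Agent.R339.Cel

variable {Λ H : Type*} [MeasurableSpace Λ] [NormedAddCommGroup H] [InnerProductSpace ℂ H]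
  [CompleteSpace H] {I : ILSys Λ H}

/-! ### elementary facts -/

theorem Y_Z : I.Y * I.Z = Complex.I • I.X := by
  have hXZ : I.X * I.Z = -(I.Z * I.X) := by rw [Z_X]; simp
  rw [ILSys.Y, smul_mul_assoc, mul_assoc, hXZ, mul_neg, ← mul_assoc, Z_mul_Z, one_mul]
  simp


theorem mx_W (β : ℝ) (f : H) : Commute (I.mx β) (I.W f) :=
  ((Commute.one_left _).smul_left _).sub_left ((X_W f).smul_left _)

theorem Y_yW (f : H) : Commute I.Y (yW I f) := by
  rw [yW]
  exact (Y_cW f).add_right (((Commute.refl _).mul_right (Y_sW f)).smul_right _)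

/-- `exp (-i β X)` as unitary -/
noncomputable def mU (I : ILSys Λ H) (β : ℝ) : UH H :=
  ⟨I.mx β, by
    rw [Unitary.mem_iff, star_mx, mx_mul, mx_mul, neg_add_cancel, add_neg_cancel, mx_zero]
    exact ⟨rfl, rfl⟩⟩

@[simp] theorem mU_coe (β : ℝ) : ((mU I β : UH H) : H →L[ℂ] H) = I.mx β := rfl

/-! ### commutation -/

theorem commute_W_W {d f : H} (h : (⟪d, f⟫_ℂ).im = 0) : Commute (I.W d) (I.W f) := by
  show I.W d * I.W f = I.W f * I.W d
  rw [W_W_comm, h]
  simp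

theorem im_neg_right {d f : H} (h : (⟪d, f⟫_ℂ).im = 0) : (⟪d, -f⟫_ℂ).im = 0 := by
  rw [inner_neg_right, Complex.neg_im, h, neg_zero]

theorem im_neg_left {d f : H} (h : (⟪d, f⟫_ℂ).im = 0) : (⟪-d, f⟫_ℂ).im = 0 := by
  rw [inner_neg_left, Complex.neg_im, h, neg_zero]

theorem im_symm {d f : H} (h : (⟪d, f⟫_ℂ).im = 0) : (⟪f, d⟫_ℂ).im = 0 := by
  rw [← inner_conj_symm, Complex.conj_im, h, neg_zero]

theorem im_smul_right {d f : H} (h : (⟪d, f⟫_ℂ).im = 0) (a : ℝ) : (⟪d, a • f⟫_ℂ).im = 0 := by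
  rw [← Complex.coe_smul, inner_smul_right, Complex.im_ofReal_mul, h, mul_zero]

theorem im_smul_left {d f : H} (h : (⟪d, f⟫_ℂ).im = 0) (a : ℝ) : (⟪a • d, f⟫_ℂ).im = 0 :=
  im_symm (im_smul_right (im_symm h) a)

theorem im_add_right {d f g : H} (h : (⟪d, f⟫_ℂ).im = 0) (h' : (⟪d, g⟫_ℂ).im = 0) :
    (⟪d, f + g⟫_ℂ).im = 0 := by
  rw [inner_add_right, Complex.add_im, h, h', add_zero]

theorem im_add_left {d f g : H} (h : (⟪d, f⟫_ℂ).im = 0) (h' : (⟪g, f⟫_ℂ).im = 0) :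
    (⟪d + g, f⟫_ℂ).im = 0 := by
  rw [inner_add_left, Complex.add_im, h, h', add_zero]

theorem im_sum_left {κ : Type*} {s : Finset κ} {d : κ → H} {f : H}
    (h : ∀ k ∈ s, (⟪d k, f⟫_ℂ).im = 0) : (⟪∑ k ∈ s, d k, f⟫_ℂ).im = 0 := by
  rw [sum_inner, Complex.im_sum]
  exact Finset.sum_eq_zero h

theorem commute_W_sW {d f : H} (h : (⟪d, f⟫_ℂ).im = 0) : Commute (I.W d) (I.sW f) :=
  ((commute_W_W h).sub_right (commute_W_W (im_neg_right h))).smul_right _

theorem commute_W_cW {d f : H} (h : (⟪d, f⟫_ℂ).im = 0) : Commute (I.W d) (I.cW f) :=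
  ((commute_W_W h).add_right (commute_W_W (im_neg_right h))).smul_right _

theorem commute_W_zW {d f : H} (h : (⟪d, f⟫_ℂ).im = 0) : Commute (I.W d) (I.zW f) := by
  rw [zW_eq]
  exact (commute_W_cW h).add_right (((Z_W d).symm.mul_right (commute_W_sW h)).smul_right _)

theorem W_Y (d : H) : Commute (I.W d) I.Y :=
  ((Z_W d).symm.mul_right (X_W d).symm).smul_right _

theorem commute_W_yW {d f : H} (h : (⟪d, f⟫_ℂ).im = 0) : Commute (I.W d) (yW I f) := by
  rw [yW]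
  exact (commute_W_cW h).add_right (((W_Y d).mul_right (commute_W_sW h)).smul_right _)

/-! ### Lipschitz bounds -/

theorem norm_Ep_le : ‖I.Ep‖ ≤ 1 := by
  refine ContinuousLinearMap.opNorm_le_bound _ zero_le_one fun x => ?_
  have h1 : ‖I.Ep x‖ ^ 2 = (⟪x, I.Ep x⟫_ℂ).re := by
    rw [norm_sq_eq_re_inner, ← ContinuousLinearMap.adjoint_inner_right,
      ← ContinuousLinearMap.star_eq_adjoint, star_Ep, ← mul_apply_eq_comp, Ep_Ep]
  have h2 : ‖I.Ep x‖ ^ 2 ≤ ‖x‖ * ‖I.Ep x‖ := by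
    rw [h1]
    exact (Complex.re_le_norm _).trans (norm_inner_le_norm _ _)
  rw [one_mul]
  rcases eq_or_lt_of_le (norm_nonneg (I.Ep x)) with h | h
  · rw [← h]
    exact norm_nonneg _
  · rw [sq] at h2
    exact le_of_mul_le_mul_right h2 h

theorem norm_Em_le : ‖I.Em‖ ≤ 1 := by
  refine ContinuousLinearMap.opNorm_le_bound _ zero_le_one fun x => ?_
  have h1 : ‖I.Em x‖ ^ 2 = (⟪x, I.Em x⟫_ℂ).re := by
    rw [norm_sq_eq_re_inner, ← ContinuousLinearMap.adjoint_inner_right,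
      ← ContinuousLinearMap.star_eq_adjoint, star_Em, ← mul_apply_eq_comp, Em_Em]
  have h2 : ‖I.Em x‖ ^ 2 ≤ ‖x‖ * ‖I.Em x‖ := by
    rw [h1]
    exact (Complex.re_le_norm _).trans (norm_inner_le_norm _ _)
  rw [one_mul]
  rcases eq_or_lt_of_le (norm_nonneg (I.Em x)) with h | h
  · rw [← h]
    exact norm_nonneg _
  · rw [sq] at h2
    exact le_of_mul_le_mul_right h2 h

theorem norm_W_neg_sub (d x : H) : ‖I.W (-d) x - x‖ = ‖I.W d x - x‖ := by
  have h : I.W d (I.W (-d) x - x) = -(I.W d x - x) := by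
    rw [map_sub, ← mul_apply_eq_comp, W_mul_neg]
    simp
  rw [← norm_W I d, h, norm_neg]

theorem norm_zW_sub_le (f x : H) : ‖I.zW f x - x‖ ≤ 2 * ‖I.W f x - x‖ := by
  have h1 : I.zW f x - x = I.Ep (I.W f x - x) + I.Em (I.W (-f) x - x) := by
    have h2 : x = I.Ep x + I.Em x := by
      rw [← add_apply, Ep_add_Em]; rfl
    have h3 : I.zW f x = I.Ep (I.W f x) + I.Em (I.W (-f) x) := rfl
    rw [h3, map_sub, map_sub]
    nth_rw 3 [h2]
    abel
  rw [h1]
  have h4 : ‖I.Ep (I.W f x - x)‖ ≤ ‖I.W f x - x‖ := by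
    refine (I.Ep.le_opNorm _).trans ?_
    calc ‖I.Ep‖ * ‖I.W f x - x‖ ≤ 1 * ‖I.W f x - x‖ :=
          mul_le_mul_of_nonneg_right norm_Ep_le (norm_nonneg _)
      _ = _ := one_mul _
  have h5 : ‖I.Em (I.W (-f) x - x)‖ ≤ ‖I.W f x - x‖ := by
    refine (I.Em.le_opNorm _).trans ?_
    rw [norm_W_neg_sub]
    calc ‖I.Em‖ * ‖I.W f x - x‖ ≤ 1 * ‖I.W f x - x‖ :=
          mul_le_mul_of_nonneg_right norm_Em_le (norm_nonneg _)
      _ = _ := one_mul _
  linarith [norm_add_le (I.Ep (I.W f x - x)) (I.Em (I.W (-f) x - x))]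

theorem norm_W_sub_comm {G : UH H} {d x : H} (h : Commute (I.W d) (G : H →L[ℂ] H)) :
    ‖I.W d ((G : H →L[ℂ] H) x) - (G : H →L[ℂ] H) x‖ = ‖I.W d x - x‖ := by
  rw [← mul_apply_eq_comp, h.eq, mul_apply_eq_comp, ← map_sub, norm_U_apply]

theorem norm_yW_sub_le (f x : H) : ‖yW I f x - x‖ ≤ 2 * ‖I.W f x - x‖ := by
  have h' : (mU I (-(Real.pi / 4)) : H →L[ℂ] H) * (mU I (Real.pi / 4) : H →L[ℂ] H) = 1 := by
    rw [mU_coe, mU_coe, mx_mul, neg_add_cancel, mx_zero]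
  have h1 : yW I f x - x = (mU I (-(Real.pi / 4)) : H →L[ℂ] H)
      (I.zW f ((mU I (Real.pi / 4) : H →L[ℂ] H) x) - (mU I (Real.pi / 4) : H →L[ℂ] H) x) := by
    rw [map_sub, ← mul_apply_eq_comp (mU I (-(Real.pi / 4)) : H →L[ℂ] H)
      (mU I (Real.pi / 4) : H →L[ℂ] H), h', ← mx_zW_mx]
    rfl
  rw [h1, norm_U_apply]
  refine (norm_zW_sub_le f _).trans ?_
  rw [norm_W_sub_comm (mx_W _ f).symm]

/-- one bath step moves a vector at most as much as the Weyl operator of its small vector -/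
theorem norm_step_sub_le {z ζ : H} (h : (⟪ζ, z⟫_ℂ).im = 0) (x : H) :
    ‖((yWU I (-z) * (zWU I ζ * yWU I z) : UH H) : H →L[ℂ] H) x - x‖ ≤ 2 * ‖I.W ζ x - x‖ := by
  have h1 : ((yWU I (-z) * (zWU I ζ * yWU I z) : UH H) : H →L[ℂ] H) x - x =
      (yWU I (-z) : H →L[ℂ] H) (I.zW ζ ((yWU I z : H →L[ℂ] H) x) - (yWU I z : H →L[ℂ] H) x) := by
    rw [map_sub, ← mul_apply_eq_comp (yWU I (-z) : H →L[ℂ] H) (yWU I z : H →L[ℂ] H), yWU_coe,
      yWU_coe, yW_neg_mul]
    rfl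
  rw [h1, norm_U_apply]
  refine (norm_zW_sub_le ζ _).trans ?_
  rw [norm_W_sub_comm (commute_W_yW h)]

theorem norm_W_sub_P_Om_le {A : Set Λ} (hA : MeasurableSet A) (d : H) :
    ‖I.W d (I.P A I.Om) - I.P A I.Om‖ ≤ ‖d‖ * Real.sqrt (I.μ.real A) := by
  have h := norm_W_sub_sq (I := I) hA d 0
  rw [I.W_zero] at h
  simp only [one_apply_eq_self, norm_zero, ne_eq, OfNat.ofNat_ne_zero,
    not_false_eq_true, zero_pow, mul_zero, add_zero, one_mul] at h
  have h2 : ‖d‖ ^ 2 * I.μ.real A = (‖d‖ * Real.sqrt (I.μ.real A)) ^ 2 := by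
    rw [mul_pow, Real.sq_sqrt measureReal_nonneg]
  rw [h2] at h
  exact (pow_le_pow_iff_left₀ (norm_nonneg _) (by positivity) two_ne_zero).mp h

end Crest.Agent.R339.Cell
end

-- ▼ part R339/Cell220D
section

/-!
# Class vectors: reality of inner products, norms, congruence (R339, label induction, block G3)
-/

set_option autoImplicit false
set_option linter.unusedSectionVars false
set_option linter.unusedVariables false

open scoped InnerProductSpace Topology ComplexConjugate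
open Filter MeasureTheory

namespace Crest.Agent.R339.Cell

open Crest.Agent.R339.Li Crest.Agent.R339.Li.ILSys Crest.Agent.R339.MF Crest.Agent.R339.Cel

variable {Λ H : Type*} [MeasurableSpace Λ] [NormedAddCommGroup H] [InnerProductSpace ℂ H]
  [CompleteSpace H] {I : ILSys Λ H}

/-! ### operator norms -/

theorem norm_sW_le (f : H) : ‖I.sW f‖ ≤ 1 := by
  rw [sW]
  calc ‖(-(Complex.I / 2)) • (I.W f - I.W (-f))‖ ≤ ‖(-(Complex.I / 2) : ℂ)‖ * ‖I.W f - I.W (-f)‖ :=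
        norm_smul_le _ _
    _ ≤ 1 / 2 * (1 + 1) := by
        refine mul_le_mul (by simp) ((norm_sub_le _ _).trans (add_le_add (norm_W_le I _)
          (norm_W_le I _))) (norm_nonneg _) (by norm_num)
    _ = 1 := by norm_num




/-! ### class vectors -/

theorem pV_eq {B : Set Λ} (hB : MeasurableSet B) {U : UH H} (hU : PC I (U : H →L[ℂ] H))
    {T : H →L[ℂ] H} (hT : PC I T) :
    pV I B U T = star (U : H →L[ℂ] H) (T ((U : H →L[ℂ] H) (I.P B I.Om))) := by
  have h1 : I.P B * (star (U : H →L[ℂ] H) * (T * (U : H →L[ℂ] H))) =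
      (star (U : H →L[ℂ] H) * (T * (U : H →L[ℂ] H))) * I.P B :=
    ((hU.star B hB).mul_right ((hT B hB).mul_right (hU B hB))).eq
  exact congrArg (fun K : H →L[ℂ] H => K I.Om) h1

theorem norm_pV_le {B : Set Λ} (hB : MeasurableSet B) {U : UH H} (hU : PC I (U : H →L[ℂ] H))
    {T : H →L[ℂ] H} (hT : PC I T) : ‖pV I B U T‖ ≤ ‖T‖ * Real.sqrt (I.μ.real B) := by
  rw [pV_eq hB hU hT, norm_star_U_apply]
  refine (T.le_opNorm _).trans ?_
  rw [norm_U_apply]
  refine mul_le_mul_of_nonneg_left ?_ (norm_nonneg _)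
  rw [← norm_P_Om_sq hB, Real.sqrt_sq (norm_nonneg _)]

/-- reality of inner products of class vectors of commuting self-adjoint operators -/
theorem im_inner_pV {B B' : Set Λ} (hB : MeasurableSet B) (hB' : MeasurableSet B') {U : UH H}
    (hU : PC I (U : H →L[ℂ] H)) {T T' : H →L[ℂ] H} (hT : PC I T) (hT' : PC I T')
    (hs : star T = T) (hs' : star T' = T') (hc : Commute T T') :
    (⟪pV I B U T, pV I B' U T'⟫_ℂ).im = 0 := by
  have h1 : ⟪pV I B U T, pV I B' U T'⟫_ℂ =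
      ⟪(U : H →L[ℂ] H) (I.P (B ∩ B') I.Om), (T * T') ((U : H →L[ℂ] H) I.Om)⟫_ℂ := by
    have e3 : ⟪pV I B U T, I.P B' (star (U : H →L[ℂ] H) (T' ((U : H →L[ℂ] H) I.Om)))⟫_ℂ =
        ⟪pV I (B ∩ B') U T, star (U : H →L[ℂ] H) (T' ((U : H →L[ℂ] H) I.Om))⟫_ℂ := by
      rw [← ContinuousLinearMap.adjoint_inner_left, ← ContinuousLinearMap.star_eq_adjoint,
        I.P_star B' hB', pV, pV, ← mul_apply_eq_comp (I.P B'), ← I.P_inter B' B hB' hB,
        Set.inter_comm]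
    have e2 : pV I B' U T' = I.P B' (star (U : H →L[ℂ] H) (T' ((U : H →L[ℂ] H) I.Om))) := rfl
    rw [e2, e3, pV_eq (hB.inter hB') hU hT]
    have e4 : ⟪star (U : H →L[ℂ] H) (T ((U : H →L[ℂ] H) (I.P (B ∩ B') I.Om))),
        star (U : H →L[ℂ] H) (T' ((U : H →L[ℂ] H) I.Om))⟫_ℂ =
        ⟪T ((U : H →L[ℂ] H) (I.P (B ∩ B') I.Om)), T' ((U : H →L[ℂ] H) I.Om)⟫_ℂ := by
      rw [ContinuousLinearMap.star_eq_adjoint, ContinuousLinearMap.adjoint_inner_left,
        ← ContinuousLinearMap.star_eq_adjoint, U_apply_star_U]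
    rw [e4]
    have e5 : ⟪T ((U : H →L[ℂ] H) (I.P (B ∩ B') I.Om)), T' ((U : H →L[ℂ] H) I.Om)⟫_ℂ =
        ⟪(U : H →L[ℂ] H) (I.P (B ∩ B') I.Om), star T (T' ((U : H →L[ℂ] H) I.Om))⟫_ℂ := by
      rw [ContinuousLinearMap.star_eq_adjoint, ContinuousLinearMap.adjoint_inner_right]
    rw [e5, hs]
    rfl
  have h2 : ⟪(U : H →L[ℂ] H) (I.P (B ∩ B') I.Om), (T * T') ((U : H →L[ℂ] H) I.Om)⟫_ℂ =
      ⟪(T * T') ((U : H →L[ℂ] H) I.Om), (U : H →L[ℂ] H) (I.P (B ∩ B') I.Om)⟫_ℂ := by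
    have hK : PC I (T * T') := hT.mul hT'
    have hKs : star (T * T') = T * T' := by rw [star_mul, hs, hs', hc.eq]
    have hBB := hB.inter hB'
    have f1 : (U : H →L[ℂ] H) (I.P (B ∩ B') I.Om) = I.P (B ∩ B') ((U : H →L[ℂ] H) I.Om) := by
      rw [← mul_apply_eq_comp, ← (hU _ hBB).eq, mul_apply_eq_comp]
    rw [f1]
    have f2 : ⟪I.P (B ∩ B') ((U : H →L[ℂ] H) I.Om), (T * T') ((U : H →L[ℂ] H) I.Om)⟫_ℂ =
        ⟪(U : H →L[ℂ] H) I.Om, (I.P (B ∩ B') * (T * T')) ((U : H →L[ℂ] H) I.Om)⟫_ℂ := by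
      rw [mul_apply_eq_comp (I.P (B ∩ B')), ← ContinuousLinearMap.adjoint_inner_left (I.P (B ∩ B')),
        ← ContinuousLinearMap.star_eq_adjoint, I.P_star _ hBB]
    have f3 : ⟪(T * T') ((U : H →L[ℂ] H) I.Om), I.P (B ∩ B') ((U : H →L[ℂ] H) I.Om)⟫_ℂ =
        ⟪(U : H →L[ℂ] H) I.Om, ((T * T') * I.P (B ∩ B')) ((U : H →L[ℂ] H) I.Om)⟫_ℂ := by
      rw [mul_apply_eq_comp _ (I.P (B ∩ B')), ← ContinuousLinearMap.adjoint_inner_left (T * T'),
        ← ContinuousLinearMap.star_eq_adjoint, hKs]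
    rw [f2, f3, (hK _ hBB).eq]
  rw [h1]
  have h3 : (⟪(U : H →L[ℂ] H) (I.P (B ∩ B') I.Om), (T * T') ((U : H →L[ℂ] H) I.Om)⟫_ℂ).im =
      -(⟪(U : H →L[ℂ] H) (I.P (B ∩ B') I.Om), (T * T') ((U : H →L[ℂ] H) I.Om)⟫_ℂ).im := by
    conv_lhs => rw [h2]
    rw [← inner_conj_symm, Complex.conj_im]
  linarith

/-- vectors in disjoint classes are orthogonal -/
theorem inner_of_disj {B B' : Set Λ} (hB : MeasurableSet B) (hB' : MeasurableSet B')
    (hd : Disjoint B B') {x y : H} (hx : I.P B x = x) (hy : I.P B' y = y) : ⟪x, y⟫_ℂ = 0 := by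
  rw [← hx, ← hy, ← ContinuousLinearMap.adjoint_inner_right, ← ContinuousLinearMap.star_eq_adjoint,
    I.P_star B hB, ← mul_apply_eq_comp, P_disj hB hB' hd]
  simp

theorem im_inner_of_disj {B B' : Set Λ} (hB : MeasurableSet B) (hB' : MeasurableSet B')
    (hd : Disjoint B B') {x y : H} (hx : I.P B x = x) (hy : I.P B' y = y) :
    (⟪x, y⟫_ℂ).im = 0 := by
  rw [inner_of_disj hB hB' hd hx hy, Complex.zero_im]

/-- a commuting left factor does not change the class vector -/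
theorem pV_mul_of_comm {X : Set Λ} {G U : UH H} {T : H →L[ℂ] H} (h : Commute (G : H →L[ℂ] H) T) :
    pV I X (G * U) T = pV I X U T := by
  have h1 : star ((G * U : UH H) : H →L[ℂ] H) * (T * ((G * U : UH H) : H →L[ℂ] H)) =
      star (U : H →L[ℂ] H) * (T * (U : H →L[ℂ] H)) := by
    show star ((G : H →L[ℂ] H) * (U : H →L[ℂ] H)) * (T * ((G : H →L[ℂ] H) * (U : H →L[ℂ] H))) = _
    rw [star_mul, ← mul_assoc T, ← h.eq, mul_assoc (star (U : H →L[ℂ] H)), mul_assoc (G : H →L[ℂ] H),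
      ← mul_assoc (star (G : H →L[ℂ] H)), star_U_mul_self, one_mul]
  exact congrArg (fun K : H →L[ℂ] H => I.P X (K I.Om)) h1











theorem commute_sW_of_W {f : H} {T : H →L[ℂ] H} (h1 : Commute (I.W f) T)
    (h2 : Commute (I.W (-f)) T) : Commute (I.sW f) T := (h1.sub_left h2).smul_left _

theorem commute_cW_of_W {f : H} {T : H →L[ℂ] H} (h1 : Commute (I.W f) T)
    (h2 : Commute (I.W (-f)) T) : Commute (I.cW f) T := (h1.add_left h2).smul_left _

theorem commute_zW_of_W {d : H} {T : H →L[ℂ] H} (h1 : Commute (I.W d) T)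
    (h2 : Commute (I.W (-d)) T) (hZ : Commute I.Z T) : Commute (I.zW d) T := by
  rw [zW_eq]
  exact (commute_cW_of_W h1 h2).add_left ((hZ.mul_left (commute_sW_of_W h1 h2)).smul_left _)



end Crest.Agent.R339.Cell
end

-- ▼ part R339/Cell220E
section

/-!
# The recursion over the cells (R339, label induction, block G3)
-/

set_option autoImplicit false
set_option linter.unusedSectionVars false
set_option linter.unusedVariables false

noncomputable section

open scoped InnerProductSpace Topology ComplexConjugate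
open Filter MeasureTheory

namespace Crest.Agent.R339.Cell

open Crest.Agent.R339.Li Crest.Agent.R339.Li.ILSys Crest.Agent.R339.MF Crest.Agent.R339.Cel

/-- parameters of a gadget -/
structure Par (Λ H : Type*) [MeasurableSpace Λ] [NormedAddCommGroup H] [InnerProductSpace ℂ H]
    [CompleteSpace H] where
  /-- bath -/
  M : Set Λ
  /-- targets -/
  A : Set Λ
  /-- nodes -/
  Mn : Set Λ
  t : ℝ
  n : ℕ
  c : Fin n → ℝ
  a : Fin n → ℝ
  b : Fin n → ℝ
  u : Fin n → H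
  U : UH H

variable {Λ H : Type*} [MeasurableSpace Λ] [NormedAddCommGroup H] [InnerProductSpace ℂ H]
  [CompleteSpace H]

section defs

variable (I : ILSys Λ H) (p : Par Λ H) (g : ℝ) (N : ℕ → Set Λ)

/-- node vector of the cell `r` -/
def zv (r : ℕ) : H := I.eA (N r) p.U
/-- target vector of the cell `r` -/
def hv (r : ℕ) : H := I.eA (p.A \ N r) p.U
/-- bath vector, `Y` component -/
def yb (B : UH H) : H := pV I p.M B I.Y
/-- bath vector, `Z` component after the first coupling -/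
def qb (B : UH H) (r : ℕ) : H := I.eA p.M (yWU I ((g : ℂ) • zv I p N r) * B)
/-- symplectic form of the two bath vectors -/
def Jb (B : UH H) (r : ℕ) : ℝ := (⟪yb I p B, qb I p g N B r⟫_ℂ).im
/-- adapted frequency -/
def τb (B : UH H) (r : ℕ) : ℝ := Real.pi / (4 * g * Jb I p g N B r)
/-- frequencies -/
def fb (B : UH H) (r : ℕ) (k : Fin p.n) : H :=
  (p.a k : ℂ) • hv I p N r + ((p.b k * τb I p g N B r : ℝ) : ℂ) • qb I p g N B r + p.u k
/-- bath kick -/
def ζb (B : UH H) (r : ℕ) : H := ((-(p.t * τb I p g N B r) : ℝ) : ℂ) •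
  pV I (N r) p.U (snS I p.c (fb I p g N B r))
/-- bath gate -/
def Kb (B : UH H) (r : ℕ) : UH H := yWU I (-((g : ℂ) • zv I p N r)) *
  (zWU I (ζb I p g N B r) * yWU I ((g : ℂ) • zv I p N r))
/-- bath states -/
def Bs : ℕ → UH H
  | 0 => 1
  | r + 1 => Kb I p g N (Bs r) r * Bs r
/-- bath vector, `Y` component after the function gate -/
def y2b (B : UH H) (r : ℕ) : H :=
  pV I p.M (zWU I (ζb I p g N B r) * (yWU I ((g : ℂ) • zv I p N r) * B)) I.Y
/-- node gate -/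
def Ob (r : ℕ) : UH H := zWU I ((g : ℂ) • (yb I p (Bs I p g N r) - y2b I p g N (Bs I p g N r) r)) *
  eIU (-p.t) (csS I (fun k => p.c k * p.b k) (fb I p g N (Bs I p g N r) r)) (star_csS _ _)
/-- target kick -/
def av (r : ℕ) : H := (-(p.t : ℂ)) •
  pV I (N r) p.U (snS I (fun k => p.c k * p.a k * p.b k) (fb I p g N (Bs I p g N r) r))

end defs

/-- hypotheses on the parameters -/
structure Hyp (I : ILSys Λ H) (S : Set Λ) (L : Set H) (p : Par Λ H) : Prop where
  clM : I.Cl p.M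
  clA : I.Cl p.A
  clMn : I.Cl p.Mn
  subM : p.M ⊆ S
  subA : p.A ⊆ S
  subMn : p.Mn ⊆ S
  dMn : Disjoint p.Mn p.M
  dA : Disjoint p.A p.M
  pos : 0 < I.μ.real p.M
  real : RealSet L
  bath : ∀ l ∈ L, I.P p.M l = 0
  re : ∀ K : H →L[ℂ] H, star K = K → PC I K →
    (∀ l ∈ L, ∀ t : ℝ, Commute (I.W ((t : ℂ) • l)) K) → ∀ l ∈ L, ∀ B, MeasurableSet B → B ⊆ S →
      (⟪l, I.P B (K I.Om)⟫_ℂ).im = 0
  hb : ∀ k, p.b k = 1 ∨ p.b k = -1
  hu : ∀ k, p.u k ∈ Submodule.span ℝ L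
  van : ∀ h : H, snS I p.c (fun k => (p.a k : ℂ) • h + p.u k) = 0
  PCU : PC I (p.U : H →L[ℂ] H)
  labU : ∀ l ∈ L, ∀ t : ℝ, Commute (I.W ((t : ℂ) • l)) (p.U : H →L[ℂ] H)
  UM : (p.U : H →L[ℂ] H) * I.P p.M = I.P p.M
  UW : ∀ f, I.P p.M f = f → Commute (I.W f) (p.U : H →L[ℂ] H)

/-- a partition of the nodes into cells -/
structure Cells (I : ILSys Λ H) (p : Par Λ H) (R : ℕ) (N : ℕ → Set Λ) : Prop where
  part : Part p.Mn R N
  cl : ∀ r < R, I.Cl (N r)

section lemmas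

variable {I : ILSys Λ H} {S : Set Λ} {L : Set H} {p : Par Λ H} {g : ℝ} {N : ℕ → Set Λ} {R : ℕ}

theorem Hyp.mM (h : Hyp I S L p) : MeasurableSet p.M := I.Cl_meas _ h.clM
theorem Hyp.mA (h : Hyp I S L p) : MeasurableSet p.A := I.Cl_meas _ h.clA
theorem Hyp.mMn (h : Hyp I S L p) : MeasurableSet p.Mn := I.Cl_meas _ h.clMn

theorem Cells.m (hN : Cells I p R N) {r : ℕ} (hr : r < R) : MeasurableSet (N r) :=
  hN.part.meas r hr

theorem Cells.subS (h : Hyp I S L p) (hN : Cells I p R N) {r : ℕ} (hr : r < R) : N r ⊆ S :=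
  (hN.part.sub hr).trans h.subMn

theorem Cells.dM (h : Hyp I S L p) (hN : Cells I p R N) {r : ℕ} (hr : r < R) :
    Disjoint (N r) p.M := Disjoint.mono_left (hN.part.sub hr) h.dMn

theorem Cells.dAM (h : Hyp I S L p) {r : ℕ} : Disjoint (p.A \ N r) p.M :=
  Disjoint.mono_left Set.diff_subset h.dA

theorem Cells.mAN (h : Hyp I S L p) (hN : Cells I p R N) {r : ℕ} (hr : r < R) :
    MeasurableSet (p.A \ N r) := h.mA.diff (hN.m hr)

theorem Cells.clAN (h : Hyp I S L p) (hN : Cells I p R N) {r : ℕ} (hr : r < R) :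
    I.Cl (p.A \ N r) := by
  rw [Set.diff_eq]
  exact I.Cl_inter _ _ h.clA (I.Cl_compl _ (hN.cl r hr))


theorem PC_Kb (B : UH H) (r : ℕ) : PC I ((Kb I p g N B r : UH H) : H →L[ℂ] H) :=
  PC.mul (PC.yW _) (PC.mul (PC.zW _) (PC.yW _))

theorem PC_Bs : ∀ r, PC I ((Bs I p g N r : UH H) : H →L[ℂ] H)
  | 0 => PC.one
  | r + 1 => PC.mul (PC_Kb _ _) (PC_Bs r)

theorem PC_Ob (r : ℕ) : PC I ((Ob I p g N r : UH H) : H →L[ℂ] H) :=
  PC.mul (PC.zW _) (PC.eI (PC.csS _ _))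

/-! ### supports -/

theorem P_hv (h : Hyp I S L p) (hN : Cells I p R N) {r : ℕ} (hr : r < R) :
    I.P (p.A \ N r) (hv I p N r) = hv I p N r := P_eA (hN.mAN h hr) _
theorem P_yb (h : Hyp I S L p) (B : UH H) : I.P p.M (yb I p B) = yb I p B := P_pV h.mM _ _
theorem P_qb (h : Hyp I S L p) (B : UH H) (r : ℕ) : I.P p.M (qb I p g N B r) = qb I p g N B r :=
  P_eA h.mM _
theorem P_y2b (h : Hyp I S L p) (B : UH H) (r : ℕ) :
    I.P p.M (y2b I p g N B r) = y2b I p g N B r := P_pV h.mM _ _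
theorem P_ζb (hN : Cells I p R N) (B : UH H) {r : ℕ} (hr : r < R) :
    I.P (N r) (ζb I p g N B r) = ζb I p g N B r := by
  rw [ζb, map_smul, P_pV (hN.m hr)]
theorem P_av (hN : Cells I p R N) {r : ℕ} (hr : r < R) :
    I.P (N r) (av I p g N r) = av I p g N r := by
  rw [av, map_smul, P_pV (hN.m hr)]

/-! ### reality -/

theorem im_span_left {x : H} (hx : ∀ l ∈ L, (⟪l, x⟫_ℂ).im = 0) {u : H}
    (hu : u ∈ Submodule.span ℝ L) : (⟪u, x⟫_ℂ).im = 0 := by
  induction hu using Submodule.span_induction with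
  | mem y hy => exact hx y hy
  | zero => simp
  | add y z _ _ hy hz => exact im_add_left hy hz
  | smul a y _ hy => exact im_smul_left hy a

theorem im_coe_smul_right {d f : H} (h : (⟪d, f⟫_ℂ).im = 0) (a : ℝ) :
    (⟪d, (a : ℂ) • f⟫_ℂ).im = 0 := by
  rw [Complex.coe_smul]
  exact im_smul_right h a

theorem im_coe_smul_left {d f : H} (h : (⟪d, f⟫_ℂ).im = 0) (a : ℝ) :
    (⟪(a : ℂ) • d, f⟫_ℂ).im = 0 := by
  rw [Complex.coe_smul]
  exact im_smul_left h a

/-- labels have real inner products with class vectors of admissible operators -/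
theorem im_lab_pV (h : Hyp I S L p) {T : H →L[ℂ] H} (hs : star T = T) (hT : PC I T)
    (hc : ∀ l ∈ L, ∀ t : ℝ, Commute (I.W ((t : ℂ) • l)) T) {B : Set Λ} (hB : MeasurableSet B)
    (hBS : B ⊆ S) {l : H} (hl : l ∈ L) : (⟪l, pV I B p.U T⟫_ℂ).im = 0 := by
  have h1 := h.re (star (p.U : H →L[ℂ] H) * (T * (p.U : H →L[ℂ] H))) ?_ ?_ ?_ l hl B hB hBS
  · exact h1
  · rw [star_mul, star_mul, star_star, hs, mul_assoc]
  · exact h.PCU.star.mul (hT.mul h.PCU)
  · intro l hl t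
    have e1 := h.labU l hl t
    have e2 : Commute (I.W ((t : ℂ) • l)) (star (p.U : H →L[ℂ] H)) := by
      have e3 := h.labU l hl (-t)
      have e4 : star (I.W (((-t : ℝ) : ℂ) • l)) = I.W ((t : ℂ) • l) := by
        rw [I.W_star]
        congr 1
        push_cast
        rw [neg_smul, neg_neg]
      have e5 := congrArg Star.star e3.eq
      rw [star_mul, star_mul, e4] at e5
      exact e5.symm
    exact e2.mul_right ((hc l hl t).mul_right e1)

theorem im_lab_hv (h : Hyp I S L p) (hN : Cells I p R N) {r : ℕ} (hr : r < R) {l : H}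
    (hl : l ∈ L) : (⟪l, hv I p N r⟫_ℂ).im = 0 :=
  im_lab_pV h star_Z PC.Z (fun _ _ _ => (Z_W _).symm) (hN.mAN h hr)
    (Set.diff_subset.trans h.subA) hl


theorem im_lab_qb (h : Hyp I S L p) (B : UH H) (r : ℕ) {l : H} (hl : l ∈ L) :
    (⟪l, qb I p g N B r⟫_ℂ).im = 0 := by
  rw [inner_of_P_zero h.mM (h.bath l hl) (P_qb h B r), Complex.zero_im]

theorem im_lab_u (h : Hyp I S L p) {l : H} (hl : l ∈ L) (k : Fin p.n) :
    (⟪l, p.u k⟫_ℂ).im = 0 := h.real.span (Submodule.subset_span hl) (h.hu k)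

theorem im_lab_fb (h : Hyp I S L p) (hN : Cells I p R N) (B : UH H) {r : ℕ} (hr : r < R) {l : H}
    (hl : l ∈ L) (k : Fin p.n) : (⟪l, fb I p g N B r k⟫_ℂ).im = 0 :=
  im_add_right (im_add_right (im_coe_smul_right (im_lab_hv h hN hr hl) _)
    (im_coe_smul_right (im_lab_qb h B r hl) _)) (im_lab_u h hl k)

theorem W_snS {κ : Type*} [Fintype κ] {c : κ → ℝ} {f : κ → H} {d : H}
    (hd : ∀ k, (⟪d, f k⟫_ℂ).im = 0) : Commute (I.W d) (snS I c f) :=
  Commute.sum_right _ _ _ fun k _ => (commute_W_sW (hd k)).smul_right _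

theorem W_csS {κ : Type*} [Fintype κ] {c : κ → ℝ} {f : κ → H} {d : H}
    (hd : ∀ k, (⟪d, f k⟫_ℂ).im = 0) : Commute (I.W d) (csS I c f) :=
  Commute.sum_right _ _ _ fun k _ => (commute_W_cW (hd k)).smul_right _

theorem lab_snS (h : Hyp I S L p) (hN : Cells I p R N) (c : Fin p.n → ℝ) (B : UH H) {r : ℕ}
    (hr : r < R) {l : H} (hl : l ∈ L) (t : ℝ) :
    Commute (I.W ((t : ℂ) • l)) (snS I c (fb I p g N B r)) :=
  W_snS fun k => im_coe_smul_left (im_lab_fb h hN B hr hl k) t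

theorem im_lab_av (h : Hyp I S L p) (hN : Cells I p R N) {r : ℕ} (hr : r < R) {l : H}
    (hl : l ∈ L) : (⟪l, av I p g N r⟫_ℂ).im = 0 := by
  have h1 := im_lab_pV h (star_snS (I := I) (fun k => p.c k * p.a k * p.b k)
    (fb I p g N (Bs I p g N r) r)) (PC.snS _ _) (fun l hl t => lab_snS h hN _ _ hr hl t)
    (hN.m hr) (hN.subS h hr) hl
  have h2 := im_coe_smul_right h1 (-p.t)
  have h3 : ((-p.t : ℝ) : ℂ) = -(p.t : ℂ) := by push_cast; rfl
  rw [h3] at h2
  exact h2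

theorem im_av_u (h : Hyp I S L p) (hN : Cells I p R N) {r : ℕ} (hr : r < R) (k : Fin p.n) :
    (⟪av I p g N r, p.u k⟫_ℂ).im = 0 :=
  im_symm (im_span_left (fun _ hl => im_lab_av h hN hr hl) (h.hu k))

theorem im_av_hv (h : Hyp I S L p) (hN : Cells I p R N) {r s : ℕ} (hr : r < R) (hs : s < R) :
    (⟪av I p g N r, hv I p N s⟫_ℂ).im = 0 := by
  have h1 := im_inner_pV (I := I) (hN.m hr) (hN.mAN h hs) h.PCU
    (PC.snS (I := I) (fun k => p.c k * p.a k * p.b k) (fb I p g N (Bs I p g N r) r)) PC.Z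
    (star_snS _ _) star_Z (Z_snS _ _).symm
  have h2 := im_coe_smul_left h1 (-p.t)
  have h3 : ((-p.t : ℝ) : ℂ) = -(p.t : ℂ) := by push_cast; rfl
  rw [h3] at h2
  exact h2

theorem im_av_M (h : Hyp I S L p) (hN : Cells I p R N) {r : ℕ} (hr : r < R) {q : H}
    (hq : I.P p.M q = q) : (⟪av I p g N r, q⟫_ℂ).im = 0 :=
  im_inner_of_disj (hN.m hr) h.mM (hN.dM h hr) (P_av hN hr) hq

theorem im_av_fb (h : Hyp I S L p) (hN : Cells I p R N) (B : UH H) {r s : ℕ} (hr : r < R)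
    (hs : s < R) (k : Fin p.n) : (⟪av I p g N r, fb I p g N B s k⟫_ℂ).im = 0 :=
  im_add_right (im_add_right (im_coe_smul_right (im_av_hv h hN hr hs) _)
    (im_coe_smul_right (im_av_M h hN hr (P_qb h B s)) _)) (im_av_u h hN hr k)

theorem im_av_av (hN : Cells I p R N) {r s : ℕ} (hr : r < R) (hs : s < R) (hrs : r ≠ s) :
    (⟪av I p g N r, av I p g N s⟫_ℂ).im = 0 :=
  im_inner_of_disj (hN.m hr) (hN.m hs) (hN.part.disj r hr s hs hrs) (P_av hN hr) (P_av hN hs)

/-! ### commutation of the partial target factors -/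

/-- partial sums of the target kicks -/
def vs (I : ILSys Λ H) (p : Par Λ H) (g : ℝ) (N : ℕ → Set Λ) (F : Finset ℕ) : H :=
  ∑ r ∈ F, av I p g N r

theorem im_vs_fb (h : Hyp I S L p) (hN : Cells I p R N) (B : UH H) {F : Finset ℕ}
    (hF : ∀ r ∈ F, r < R) {s : ℕ} (hs : s < R) (k : Fin p.n) :
    (⟪vs I p g N F, fb I p g N B s k⟫_ℂ).im = 0 :=
  im_sum_left fun r hr => im_av_fb h hN B (hF r hr) hs k

theorem im_vs_M (h : Hyp I S L p) (hN : Cells I p R N) {F : Finset ℕ}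
    (hF : ∀ r ∈ F, r < R) {q : H} (hq : I.P p.M q = q) :
    (⟪vs I p g N F, q⟫_ℂ).im = 0 :=
  im_sum_left fun r hr => im_av_M h hN (hF r hr) hq

theorem im_av_vs (hN : Cells I p R N) {F : Finset ℕ} (hF : ∀ r ∈ F, r < R) {s : ℕ} (hs : s < R)
    (hsF : s ∉ F) : (⟪av I p g N s, vs I p g N F⟫_ℂ).im = 0 :=
  im_symm (im_sum_left fun r hr => im_av_av hN (hF r hr) hs fun e => hsF (e ▸ hr))

theorem commute_blk {A : Set Λ} (hA : MeasurableSet A) {T : H →L[ℂ] H} (hT : PC I T)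
    {b : H →L[ℂ] H} (hb : Commute b T) : Commute (I.blk A b) T :=
  (hT _ hA.compl).add_left ((hT _ hA).mul_left hb)

theorem commute_zW_snS {κ : Type*} [Fintype κ] {c : κ → ℝ} {f : κ → H} {d : H}
    (hd : ∀ k, (⟪d, f k⟫_ℂ).im = 0) : Commute (I.zW d) (snS I c f) :=
  commute_zW_of_W (W_snS hd) (W_snS fun k => im_neg_left (hd k)) (Z_snS _ _)

theorem commute_zW_csS {κ : Type*} [Fintype κ] {c : κ → ℝ} {f : κ → H} {d : H}
    (hd : ∀ k, (⟪d, f k⟫_ℂ).im = 0) : Commute (I.zW d) (csS I c f) :=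
  commute_zW_of_W (W_csS hd) (W_csS fun k => im_neg_left (hd k)) (Z_csS _ _)

theorem commute_eI {K T : H →L[ℂ] H} (hK : Commute K T) (t : ℝ) : Commute K (eI t T) :=
  (hK.smul_right _).exp_right

theorem commute_zW_zW {d f : H} (hd : (⟪d, f⟫_ℂ).im = 0) : Commute (I.zW d) (I.zW f) :=
  commute_zW_of_W (commute_W_zW hd) (commute_W_zW (im_neg_left hd)) (Z_zW f)

theorem P_M_gdiff (h : Hyp I S L p) (g : ℝ) (B : UH H) (r : ℕ) :
    I.P p.M ((g : ℂ) • (yb I p B - y2b I p g N B r)) = (g : ℂ) • (yb I p B - y2b I p g N B r) := by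
  rw [map_smul, map_sub, P_yb h, P_y2b h]

/-- target factors commute with node gates -/
theorem commute_blk_Ob (h : Hyp I S L p) (hN : Cells I p R N) {F : Finset ℕ}
    (hF : ∀ r ∈ F, r < R) {s : ℕ} (hs : s < R) :
    Commute (I.blk p.A (I.zW (vs I p g N F))) ((Ob I p g N s : UH H) : H →L[ℂ] H) := by
  refine commute_blk h.mA (PC_Ob s) ?_
  exact (commute_zW_zW (im_vs_M h hN hF (P_M_gdiff h g _ s))).mul_right
    (commute_eI (commute_zW_csS fun k => im_vs_fb h hN _ hF hs k) _)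

theorem Z_Ob (s : ℕ) : Commute I.Z ((Ob I p g N s : UH H) : H →L[ℂ] H) :=
  (Z_zW _).mul_right (commute_eI (Z_csS _ _) _)

end lemmas

end Crest.Agent.R339.Cell
end
private theorem rz_590d14a177 : type_of% @_root_.Crest.Agent.R339.Cell.Bs.eq_def := @_root_.Crest.Agent.R339.Cell.Bs.eq_def -- L67
private theorem rz_bb4d6e78e8 : type_of% @_root_.Crest.Agent.R339.Cell.Bs.eq_1 := @_root_.Crest.Agent.R339.Cell.Bs.eq_1 -- L67
end

-- ▼ part R339/Cell220F
section

/-!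
# Structure of the state after `r` cells (R339, label induction, block G3)
-/

set_option autoImplicit false
set_option linter.unusedSectionVars false
set_option linter.unusedVariables false

noncomputable section

open scoped InnerProductSpace Topology ComplexConjugate
open Filter MeasureTheory

namespace Crest.Agent.R339.Cell

open Crest.Agent.R339.Li Crest.Agent.R339.Li.ILSys Crest.Agent.R339.MF Crest.Agent.R339.Cel

variable {Λ H : Type*} [MeasurableSpace Λ] [NormedAddCommGroup H] [InnerProductSpace ℂ H]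
  [CompleteSpace H] {I : ILSys Λ H} {S : Set Λ} {L : Set H} {cc : ℝ} {p : Par Λ H} {g : ℝ}
  {N : ℕ → Set Λ} {R : ℕ}

/-- the explicit form of the state after `r` cells -/
structure Str (I : ILSys Λ H) (p : Par Λ H) (g : ℝ) (N : ℕ → Set Λ) (R r : ℕ) (V : UH H) :
    Prop where
  pc : PC I (V : H →L[ℂ] H)
  sM : I.P p.M * (V : H →L[ℂ] H) = I.P p.M * (Bs I p g N r : H →L[ℂ] H)
  sN : ∀ s < R, I.P (N s) * (V : H →L[ℂ] H) = I.P (N s) *
    ((if s < r then (Ob I p g N s : H →L[ℂ] H) else 1) *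
      (I.blk p.A (I.zW (vs I p g N ((Finset.range r).erase s))) * (p.U : H →L[ℂ] H)))
  sC : I.P (p.M ∪ p.Mn)ᶜ * (V : H →L[ℂ] H) = I.P (p.M ∪ p.Mn)ᶜ *
    (I.blk p.A (I.zW (vs I p g N (Finset.range r))) * (p.U : H →L[ℂ] H))

theorem vs_empty : vs I p g N ∅ = 0 := by simp [vs]

theorem Str.init (h : Hyp I S L p) : Str I p g N R 0 p.U where
  pc := h.PCU
  sM := by
    rw [(h.PCU _ h.mM).eq, h.UM]
    show _ = I.P p.M * (1 : H →L[ℂ] H)
    rw [mul_one]
  sN s hs := by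
    simp only [not_lt_zero, if_false, Finset.range_zero, Finset.erase_empty, vs_empty, zW_zero,
      blk_one h.mA, one_mul]
  sC := by
    simp only [Finset.range_zero, vs_empty, zW_zero, blk_one h.mA, one_mul]

theorem Cells.mC (h : Hyp I S L p) : MeasurableSet (p.M ∪ p.Mn)ᶜ := (h.mM.union h.mMn).compl

theorem Cells.dC (h : Hyp I S L p) (hN : Cells I p R N) {r : ℕ} (hr : r < R) :
    Disjoint (p.M ∪ p.Mn)ᶜ (N r) := by
  rw [Set.disjoint_left]
  intro x hx hxN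
  exact hx (Or.inr (hN.part.sub hr hxN))

/-- the decomposition of the identity -/
theorem P_decomp (h : Hyp I S L p) (hN : Cells I p R N) :
    (1 : H →L[ℂ] H) = I.P p.M + ∑ s ∈ Finset.range R, I.P (N s) + I.P (p.M ∪ p.Mn)ᶜ := by
  rw [hN.part.sum_P I, ← I.P_union _ _ h.mM h.mMn h.dMn.symm, add_comm,
    P_compl_add (h.mM.union h.mMn)]

theorem PC_vs {F : Finset ℕ} (h : Hyp I S L p) : PC I (I.blk p.A (I.zW (vs I p g N F))) :=
  PC.blk h.mA (PC.zW _)

/-- eVec data agree on all classes disjoint from the bath -/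
theorem Str.eA_eq (h : Hyp I S L p) (hN : Cells I p R N) {r : ℕ} {V : UH H}
    (hV : Str I p g N R r V) (hr : r ≤ R) {X : Set Λ} (hX : MeasurableSet X)
    (hXM : Disjoint X p.M) : I.eA X V = I.eA X p.U := by
  have hvs : ∀ F : Finset ℕ, Commute ((I.cst h.mA (vs I p g N F) : UH H) : H →L[ℂ] H) I.Z :=
    fun F => commute_blk h.mA PC.Z (Z_zW _).symm
  -- on the cells
  have h1 : ∀ s < R, I.eA (N s) V = I.eA (N s) p.U := by
    intro s hs
    set G : UH H := (if s < r then Ob I p g N s else 1) *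
      I.cst h.mA (vs I p g N ((Finset.range r).erase s)) with hG
    have hGc : ((G * p.U : UH H) : H →L[ℂ] H) = (if s < r then (Ob I p g N s : H →L[ℂ] H) else 1) *
      (I.blk p.A (I.zW (vs I p g N ((Finset.range r).erase s))) * (p.U : H →L[ℂ] H)) := by
      rw [hG, mul_assoc, coe_mul, coe_mul, cst_coe]
      split_ifs <;> rfl
    have hGP : PC I ((G * p.U : UH H) : H →L[ℂ] H) := by
      rw [hGc]
      split_ifs
      · exact (PC_Ob s).mul ((PC_vs h).mul h.PCU)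
      · exact PC.one.mul ((PC_vs h).mul h.PCU)
    have e1 : pV I (N s) V I.Z = pV I (N s) (G * p.U) I.Z :=
      pV_congr (hN.m hs) hV.pc hGP PC.Z (by rw [hV.sN s hs, hGc])
    rw [eA_eq_pV, e1, pV_mul_of_comm]
    · rfl
    · rw [hG, coe_mul]
      refine Commute.mul_left ?_ (hvs _)
      split_ifs
      · exact (Z_Ob s).symm
      · exact Commute.one_left _
  have h2 : I.eA (p.M ∪ p.Mn)ᶜ V = I.eA (p.M ∪ p.Mn)ᶜ p.U := by
    have e1 : pV I (p.M ∪ p.Mn)ᶜ V I.Z = pV I (p.M ∪ p.Mn)ᶜ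
        (I.cst h.mA (vs I p g N (Finset.range r)) * p.U) I.Z :=
      pV_congr (Cells.mC h) hV.pc ((PC_vs h).mul h.PCU) PC.Z (by rw [hV.sC]; rfl)
    rw [eA_eq_pV, e1, pV_mul_of_comm (hvs _)]
    rfl
  have key : ∀ W : UH H, I.eA X W = ∑ s ∈ Finset.range R, I.P X (I.eA (N s) W) +
      I.P X (I.eA (p.M ∪ p.Mn)ᶜ W) := by
    intro W
    have e1 : I.eA X W = I.P X ((1 : H →L[ℂ] H) (I.eV W)) := rfl
    rw [e1, P_decomp h hN, add_apply, add_apply, map_add, map_add, sum_apply, map_sum]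
    have e2 : I.P X (I.P p.M (I.eV W)) = 0 := by
      rw [← mul_apply_eq_comp, P_disj hX h.mM hXM]
      rfl
    rw [e2, zero_add]
    rfl
  rw [key V, key p.U, h2]
  congr 1
  refine Finset.sum_congr rfl fun s hs => ?_
  rw [h1 s (Finset.mem_range.mp hs)]

theorem erase_self_range (r : ℕ) : (Finset.range r).erase r = Finset.range r :=
  Finset.erase_eq_of_notMem (by simp)

/-- class vectors of the current cell -/
theorem Str.pV_eq (h : Hyp I S L p) (hN : Cells I p R N) {r : ℕ} {V : UH H}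
    (hV : Str I p g N R r V) (hr : r < R) (c : Fin p.n → ℝ) :
    pV I (N r) V (snS I c (fb I p g N (Bs I p g N r) r)) =
      pV I (N r) p.U (snS I c (fb I p g N (Bs I p g N r) r)) := by
  have e0 := hV.sN r hr
  rw [if_neg (lt_irrefl r), one_mul, erase_self_range] at e0
  have e1 : pV I (N r) V (snS I c (fb I p g N (Bs I p g N r) r)) =
      pV I (N r) (I.cst h.mA (vs I p g N (Finset.range r)) * p.U)
        (snS I c (fb I p g N (Bs I p g N r) r)) :=
    pV_congr (hN.m hr) hV.pc ((PC_vs h).mul h.PCU) (PC.snS _ _) (by rw [e0]; rfl)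
  rw [e1, pV_mul_of_comm]
  exact commute_blk h.mA (PC.snS _ _) (commute_zW_snS fun k => im_vs_fb h hN _
    (fun s hs => (Finset.mem_range.mp hs).trans hr) hr k)

theorem Str.yb_eq (h : Hyp I S L p) {r : ℕ} {V : UH H} (hV : Str I p g N R r V) :
    yb I p (Bs I p g N r) = pV I p.M V I.Y :=
  (pV_congr h.mM hV.pc (PC_Bs r) PC.Y hV.sM).symm

theorem P_mul_of_PC {X : Set Λ} (hX : MeasurableSet X) {G V V' : H →L[ℂ] H} (hG : PC I G)
    (h : I.P X * V = I.P X * V') : I.P X * (G * V) = I.P X * (G * V') := by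
  rw [← mul_assoc, (hG X hX).eq, mul_assoc, h, ← mul_assoc, ← (hG X hX).eq, mul_assoc]

theorem Str.qb_eq (h : Hyp I S L p) {r : ℕ} {V : UH H} (hV : Str I p g N R r V) (s : ℕ) :
    qb I p g N (Bs I p g N r) s = I.eA p.M (yWU I ((g : ℂ) • zv I p N s) * V) := by
  rw [qb, eA_eq_pV, eA_eq_pV]
  refine (pV_congr h.mM (PC.mul (PC.yW _) hV.pc) (PC.mul (PC.yW _) (PC_Bs r)) PC.Z ?_).symm
  exact P_mul_of_PC h.mM (PC.yW _) hV.sM

theorem Str.y2b_eq (h : Hyp I S L p) {r : ℕ} {V : UH H} (hV : Str I p g N R r V) (s : ℕ) :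
    y2b I p g N (Bs I p g N r) s = pV I p.M (zWU I (ζb I p g N (Bs I p g N r) s) *
      (yWU I ((g : ℂ) • zv I p N s) * V)) I.Y := by
  rw [y2b]
  refine (pV_congr h.mM (PC.mul (PC.zW _) (PC.mul (PC.yW _) hV.pc))
    (PC.mul (PC.zW _) (PC.mul (PC.yW _) (PC_Bs r))) PC.Y ?_).symm
  exact P_mul_of_PC h.mM (PC.zW _) (P_mul_of_PC h.mM (PC.yW _) hV.sM)

/-- the state after the next cell -/
def nxt (I : ILSys Λ H) (p : Par Λ H) (g : ℝ) (N : ℕ → Set Λ) (r : ℕ) (hNr : MeasurableSet (N r))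
    (hAr : MeasurableSet (p.A \ N r)) (hM : MeasurableSet p.M) (V : UH H) : UH H :=
  nd I hNr (Ob I p g N r) (PC_Ob r) * (I.cst hAr (av I p g N r) *
    (nd I hM (Kb I p g N (Bs I p g N r) r) (PC_Kb _ _) * V))

theorem zW_mul_of_im' {f f' : H} (h : (⟪f, f'⟫_ℂ).im = 0) : I.zW f * I.zW f' = I.zW (f + f') := by
  rw [zW_mul, h]
  simp

/-- product of the target factors -/
theorem blk_zW_mul (h : Hyp I S L p) (hN : Cells I p R N) {F : Finset ℕ} (hF : ∀ r ∈ F, r < R)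
    {s : ℕ} (hs : s < R) (hsF : s ∉ F) :
    I.blk p.A (I.zW (av I p g N s)) * I.blk p.A (I.zW (vs I p g N F)) =
      I.blk p.A (I.zW (vs I p g N (insert s F))) := by
  rw [ILSys.blk_mul_blk h.mA (PC.zW _), zW_mul_of_im' (im_av_vs hN hF hs hsF), vs, vs,
    Finset.sum_insert hsF]

theorem P_blk_diff {X A N : Set Λ} (hX : MeasurableSet X) (hA : MeasurableSet A)
    (hN : MeasurableSet N) (hd : Disjoint X N) (b : H →L[ℂ] H) :
    I.P X * I.blk (A \ N) b = I.P X * I.blk A b := by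
  have e1 : X ∩ (A \ N) = X ∩ A := by
    ext x
    constructor
    · rintro ⟨h1, h2, h3⟩
      exact ⟨h1, h2⟩
    · rintro ⟨h1, h2⟩
      exact ⟨h1, h2, fun h3 => Set.disjoint_left.mp hd h1 h3⟩
  have e2 : X ∩ (A \ N)ᶜ = X ∩ Aᶜ := by
    ext x
    constructor
    · rintro ⟨h1, h2⟩
      exact ⟨h1, fun h3 => h2 ⟨h3, fun h4 => Set.disjoint_left.mp hd h1 h4⟩⟩
    · rintro ⟨h1, h2⟩
      exact ⟨h1, fun h3 => h2 h3.1⟩
  rw [ILSys.blk, ILSys.blk, mul_add, mul_add, ← mul_assoc, ← mul_assoc,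
    ← I.P_inter X _ hX (hA.diff hN), ← I.P_inter X _ hX (hA.diff hN).compl,
    ← I.P_inter X _ hX hA, ← I.P_inter X _ hX hA.compl, e1, e2]

theorem Str.step (h : Hyp I S L p) (hN : Cells I p R N) {r : ℕ} {V : UH H}
    (hV : Str I p g N R r V) (hr : r < R) :
    Str I p g N R (r + 1) (nxt I p g N r (hN.m hr) (hN.mAN h hr) h.mM V) := by
  have mN := hN.m hr
  have mA := hN.mAN h hr
  have mM := h.mM
  have hc : ((nxt I p g N r mN mA mM V : UH H) : H →L[ℂ] H) =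
      I.blk (N r) (Ob I p g N r : H →L[ℂ] H) * (I.blk (p.A \ N r) (I.zW (av I p g N r)) *
        (I.blk p.M (Kb I p g N (Bs I p g N r) r : H →L[ℂ] H) * (V : H →L[ℂ] H))) := rfl
  have PC1 : PC I (I.blk (N r) (Ob I p g N r : H →L[ℂ] H)) := PC.blk mN (PC_Ob r)
  have PC2 : PC I (I.blk (p.A \ N r) (I.zW (av I p g N r))) := PC.blk mA (PC.zW _)
  have PC2' : PC I (I.blk p.A (I.zW (av I p g N r))) := PC.blk h.mA (PC.zW _)
  have PC3 : PC I (I.blk p.M (Kb I p g N (Bs I p g N r) r : H →L[ℂ] H)) := PC.blk mM (PC_Kb _ _)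
  -- away from the cell `r` and the bath
  have away : ∀ {X : Set Λ}, MeasurableSet X → Disjoint X (N r) → Disjoint X p.M →
      I.P X * ((nxt I p g N r mN mA mM V : UH H) : H →L[ℂ] H) =
        I.P X * (I.blk p.A (I.zW (av I p g N r)) * (V : H →L[ℂ] H)) := by
    intro X hX hd1 hd2
    have e2 : I.P X * (I.blk p.M (Kb I p g N (Bs I p g N r) r : H →L[ℂ] H) * (V : H →L[ℂ] H)) =
        I.P X * (V : H →L[ℂ] H) := by
      rw [← mul_assoc, P_blk_disj mM hX hd2]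
    have e3 : I.P X * (I.blk (p.A \ N r) (I.zW (av I p g N r)) *
        (I.blk p.M (Kb I p g N (Bs I p g N r) r : H →L[ℂ] H) * (V : H →L[ℂ] H))) =
        I.P X * (I.blk p.A (I.zW (av I p g N r)) * (V : H →L[ℂ] H)) := by
      rw [P_mul_of_PC hX PC2 e2, ← mul_assoc, P_blk_diff hX h.mA mN hd1, mul_assoc]
    rw [hc, ← mul_assoc, P_blk_disj mN hX hd1, e3]
  refine ⟨PC.mul PC1 (PC.mul PC2 (PC.mul PC3 hV.pc)), ?_, ?_, ?_⟩
  · -- bath
    have e2 : I.P p.M * (I.blk p.M (Kb I p g N (Bs I p g N r) r : H →L[ℂ] H) * (V : H →L[ℂ] H)) =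
        I.P p.M * ((Bs I p g N (r + 1) : UH H) : H →L[ℂ] H) := by
      rw [← mul_assoc, P_blk mM mM subset_rfl, mul_assoc]
      exact P_mul_of_PC mM (PC_Kb _ _) hV.sM
    have e3 : I.P p.M * (I.blk (p.A \ N r) (I.zW (av I p g N r)) *
        (I.blk p.M (Kb I p g N (Bs I p g N r) r : H →L[ℂ] H) * (V : H →L[ℂ] H))) =
        I.P p.M * ((Bs I p g N (r + 1) : UH H) : H →L[ℂ] H) := by
      rw [← mul_assoc, P_blk_disj mA mM (Cells.dAM h).symm, e2]
    rw [hc, ← mul_assoc, P_blk_disj mN mM (hN.dM h hr).symm, e3]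
  · -- cells
    intro s hs
    rcases eq_or_ne s r with rfl | hsr
    · have e2 : I.P (N s) * (I.blk p.M (Kb I p g N (Bs I p g N s) s : H →L[ℂ] H) *
          (V : H →L[ℂ] H)) = I.P (N s) * (V : H →L[ℂ] H) := by
        rw [← mul_assoc, P_blk_disj mM mN (hN.dM h hr)]
      have e3 : I.P (N s) * (I.blk (p.A \ N s) (I.zW (av I p g N s)) *
          (I.blk p.M (Kb I p g N (Bs I p g N s) s : H →L[ℂ] H) * (V : H →L[ℂ] H))) =
          I.P (N s) * (V : H →L[ℂ] H) := by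
        rw [← mul_assoc, P_blk_disj mA mN (Set.disjoint_left.mpr fun x hx hx' => hx'.2 hx), e2]
      have e4 := hV.sN s hs
      rw [if_neg (lt_irrefl s), one_mul, erase_self_range] at e4
      have e5 : (Finset.range (s + 1)).erase s = Finset.range s := by
        rw [Finset.range_add_one, Finset.erase_insert (by simp)]
      rw [hc, ← mul_assoc, P_blk mN mN subset_rfl, mul_assoc, if_pos (Nat.lt_succ_self s), e5]
      exact P_mul_of_PC mN (PC_Ob s) (e3.trans e4)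
    · have hd : Disjoint (N s) (N r) := hN.part.disj s hs r hr hsr
      rw [away (hN.m hs) hd (hN.dM h hs)]
      have e4 := P_mul_of_PC (hN.m hs) PC2' (hV.sN s hs)
      rw [e4]
      have hF : ∀ r' ∈ (Finset.range r).erase s, r' < R := fun r' hr' =>
        (Finset.mem_range.mp (Finset.mem_of_mem_erase hr')).trans hr
      have hrF : r ∉ (Finset.range r).erase s := by simp
      have e5 : (Finset.range (r + 1)).erase s = insert r ((Finset.range r).erase s) := by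
        rw [Finset.range_add_one, Finset.erase_insert_of_ne (Ne.symm hsr)]
      have e6 : I.blk p.A (I.zW (av I p g N r)) *
          (I.blk p.A (I.zW (vs I p g N ((Finset.range r).erase s))) * (p.U : H →L[ℂ] H)) =
          I.blk p.A (I.zW (vs I p g N ((Finset.range (r + 1)).erase s))) * (p.U : H →L[ℂ] H) := by
        rw [← mul_assoc, blk_zW_mul h hN hF hr hrF, e5]
      by_cases hsr' : s < r
      · rw [if_pos hsr', if_pos (hsr'.trans (Nat.lt_succ_self r))]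
        have e7 : Commute (I.blk p.A (I.zW (av I p g N r))) ((Ob I p g N s : UH H) : H →L[ℂ] H) := by
          have := commute_blk_Ob (g := g) h hN (F := {r}) (fun r' hr' => by
            rw [Finset.mem_singleton] at hr'; rw [hr']; exact hr) hs
          simpa [vs] using this
        rw [← mul_assoc (I.blk p.A (I.zW (av I p g N r))), e7.eq, mul_assoc, e6]
      · rw [if_neg hsr', if_neg (by omega), one_mul, one_mul, e6]
  · -- the rest
    have hX : MeasurableSet (p.M ∪ p.Mn)ᶜ := Cells.mC h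
    rw [away hX (hN.dC h hr) (Set.disjoint_left.mpr fun x hx hx' => hx (Or.inl hx')),
      P_mul_of_PC hX PC2' hV.sC, ← mul_assoc (I.blk p.A (I.zW (av I p g N r))),
      blk_zW_mul h hN (fun r' hr' => (Finset.mem_range.mp hr').trans hr) hr (by simp),
      Finset.range_add_one]

/-- one cell, on the level of `Good` -/
theorem Str.good_step (hmft : Mft I S L cc) (h : Hyp I S L p) (hN : Cells I p R N) {r : ℕ}
    {V : UH H} (hV : Str I p g N R r V) (hr : r < R) (hg : g ≠ 0)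
    (hJ : Jb I p g N (Bs I p g N r) r ≠ 0) (hG : I.Good S L cc V) :
    I.Good S L cc (nxt I p g N r (hN.m hr) (hN.mAN h hr) h.mM V) := by
  have hz : zv I p N r = I.eA (N r) V := (hV.eA_eq h hN hr.le (hN.m hr) (hN.dM h hr)).symm
  have hh : hv I p N r = I.eA (p.A \ N r) V :=
    (hV.eA_eq h hN hr.le (hN.mAN h hr) (Cells.dAM h)).symm
  have hτ : 4 * g * τb I p g N (Bs I p g N r) r *
      (⟪yb I p (Bs I p g N r), qb I p g N (Bs I p g N r) r⟫_ℂ).im = Real.pi := by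
    have : (⟪yb I p (Bs I p g N r), qb I p g N (Bs I p g N r) r⟫_ℂ).im =
      Jb I p g N (Bs I p g N r) r := rfl
    rw [this, τb]
    field_simp
  have key := Cel.cell (I := I) hmft (hN.cl r hr) (hN.clAN h hr) h.clM (hN.subS h hr)
    (Set.sdiff_subset.trans h.subA) h.subM (Set.disjoint_left.mpr fun x hx hx' => hx'.2 hx)
    (hN.dM h hr) (Cells.dAM h) hV.pc h.real h.bath
    (fun l hl => by rw [← hh]; exact im_lab_hv h hN hr hl) g p.t
    (τb I p g N (Bs I p g N r) r) p.c p.a p.b h.hb p.u (fb I p g N (Bs I p g N r) r) h.hu hz hh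
    (hV.yb_eq h) (hV.qb_eq h r) hτ (fun k => rfl)
    (ζ := ζb I p g N (Bs I p g N r) r) (by rw [ζb, hV.pV_eq h hN hr]) (hV.y2b_eq h r)
    (Ob I p g N r) (PC_Ob r) rfl (Kb I p g N (Bs I p g N r) r) (PC_Kb _ _) rfl hG
  rw [hV.pV_eq h hN hr] at key
  exact key

/-- all cells -/
theorem exists_state (hmft : Mft I S L cc) (h : Hyp I S L p) (hN : Cells I p R N) (hg : g ≠ 0)
    (hJ : ∀ r < R, Jb I p g N (Bs I p g N r) r ≠ 0) (hG : I.Good S L cc p.U) :
    ∀ r ≤ R, ∃ V : UH H, Str I p g N R r V ∧ I.Good S L cc V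
  | 0, _ => ⟨p.U, Str.init h, hG⟩
  | r + 1, hr => by
    obtain ⟨V, hV, hGV⟩ := exists_state hmft h hN hg hJ hG r (Nat.le_of_succ_le hr)
    exact ⟨_, hV.step h hN (Nat.lt_of_succ_le hr),
      hV.good_step hmft h hN (Nat.lt_of_succ_le hr) hg (hJ r (Nat.lt_of_succ_le hr)) hGV⟩

end Crest.Agent.R339.Cell
end
end

-- ▼ part R339/Cell220H
section

/-!
# Cell-uniform limits (R339, label induction, block G3)
-/

set_option autoImplicit false
set_option linter.unusedSectionVars false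
set_option linter.unusedVariables false

open scoped InnerProductSpace Topology ComplexConjugate
open Filter MeasureTheory

namespace Crest.Agent.R339.Cell

open Crest.Agent.R339.Li Crest.Agent.R339.Li.ILSys Crest.Agent.R339.MF Crest.Agent.R339.Cel

section abstract

variable {S : Type*} [NormedAddCommGroup S] [InnerProductSpace ℂ S] [CompleteSpace S]
variable {α : Type*} {l : Filter α}

theorem BS.of_norm_zero {T : α → S →L[ℂ] S} {δ : α → ℝ} (hδ : Tendsto δ l (𝓝 0))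
    (h : ∀ n, ‖T n‖ ≤ δ n) : BS l T 0 := by
  refine ⟨⟨1, ?_⟩, fun x => ?_⟩
  · filter_upwards [hδ.eventually_lt_const zero_lt_one] with n hn
    exact (h n).trans hn.le
  · rw [zero_apply, tendsto_zero_iff_norm_tendsto_zero]
    have h1 : Tendsto (fun n => δ n * ‖x‖) l (𝓝 0) := by
      simpa using hδ.mul_const ‖x‖
    refine squeeze_zero (fun n => norm_nonneg _) (fun n => ?_) h1
    exact ((T n).le_opNorm x).trans (mul_le_mul_of_nonneg_right (h n) (norm_nonneg _))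

/-- an idempotent on which two operators agree sees the same exponential -/
theorem mul_exp_congr {Q B T : S →L[ℂ] S} (hB : Commute Q B) (hT : Commute Q T)
    (h : Q * B = Q * T) : Q * NormedSpace.exp B = Q * NormedSpace.exp T := by
  have hpow : ∀ k : ℕ, Q * B ^ k = Q * T ^ k := by
    intro k
    induction k with
    | zero => rfl
    | succ k ih =>
      rw [pow_succ, pow_succ, ← mul_assoc, ih, (hT.pow_right k).eq, mul_assoc, h, ← mul_assoc,
        ← (hT.pow_right k).eq, mul_assoc]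
  have h1 := (NormedSpace.exp_series_hasSum_exp' (𝕂 := ℝ) B).mul_left Q
  have h2 := (NormedSpace.exp_series_hasSum_exp' (𝕂 := ℝ) T).mul_left Q
  have h3 : (fun n : ℕ => Q * ((n.factorial : ℝ)⁻¹ • B ^ n)) =
      fun n : ℕ => Q * ((n.factorial : ℝ)⁻¹ • T ^ n) := by
    funext n
    rw [mul_smul_comm, mul_smul_comm, hpow]
  rw [h3] at h1
  exact h1.unique h2

theorem commute_blk_of {R : ℕ} {Q T : ℕ → S →L[ℂ] S} {K : S →L[ℂ] S}
    (hQ : ∀ r < R, Commute K (Q r)) (hT : ∀ r < R, Commute K (T r)) :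
    Commute K (blk R Q T) :=
  Commute.sum_right _ _ _ fun r hr =>
    (hQ r (Finset.mem_range.mp hr)).mul_right (hT r (Finset.mem_range.mp hr))

theorem OP.mul_blk {R : ℕ} {Q T : ℕ → S →L[ℂ] S} (h : OP R Q) {s : ℕ} (hs : s < R) :
    Q s * blk R Q T = Q s * T s := by
  rw [blk, Finset.mul_sum, Finset.sum_eq_single s]
  · rw [← mul_assoc, h.idem s hs]
  · intro r hr hrs
    rw [← mul_assoc, h.orth s hs r (Finset.mem_range.mp hr) (Ne.symm hrs), zero_mul]
  · intro hs'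
    exact absurd (Finset.mem_range.mpr hs) hs'

/-- exponentials, cell by cell -/
theorem blk_exp {R : ℕ} {Q T : ℕ → S →L[ℂ] S} (h : OP R Q)
    (hc : ∀ r < R, ∀ s < R, Commute (Q s) (T r)) (a : ℂ) :
    blk R Q (fun r => NormedSpace.exp (a • T r)) =
      (∑ r ∈ Finset.range R, Q r) * NormedSpace.exp (a • blk R Q T) := by
  rw [blk, Finset.sum_mul]
  refine Finset.sum_congr rfl fun r hr => ?_
  have hr' := Finset.mem_range.mp hr
  have hQ : ∀ s < R, Commute (Q r) (Q s) := by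
    intro s hs
    rcases eq_or_ne r s with rfl | hrs
    · exact Commute.refl _
    · show Q r * Q s = Q s * Q r
      rw [h.orth r hr' s hs hrs, h.orth s hs r hr' (Ne.symm hrs)]
  refine mul_exp_congr ((hc r hr' r hr').smul_right _)
    ((commute_blk_of hQ fun s hs => hc s hs r hr').smul_right _) ?_
  rw [mul_smul_comm, mul_smul_comm, h.mul_blk hr']

end abstract

variable {Λ H : Type*} [MeasurableSpace Λ] [NormedAddCommGroup H] [InnerProductSpace ℂ H]
  [CompleteSpace H] {I : ILSys Λ H} {α : Type*} {l : Filter α}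

/-- a family of cell partitions -/
structure PF (Mn : Set Λ) (R : α → ℕ) (N : α → ℕ → Set Λ) : Prop where
  hp : ∀ n, Part Mn (R n) (N n)

/-- cell family of operators -/
noncomputable def bl (I : ILSys Λ H) (R : α → ℕ) (N : α → ℕ → Set Λ) (T : α → ℕ → H →L[ℂ] H)
    (n : α) : H →L[ℂ] H := blk (R n) (fun r => I.P (N n r)) (T n)

/-- cell-uniform strong convergence -/
def CS (I : ILSys Λ H) (l : Filter α) (Mn : Set Λ) (R : α → ℕ) (N : α → ℕ → Set Λ)
    (T : α → ℕ → H →L[ℂ] H) (A : H →L[ℂ] H) : Prop :=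
  BS l (bl I R N T) (I.P Mn * A)

section CSlemmas

variable {Mn : Set Λ} {R : α → ℕ} {N : α → ℕ → Set Λ} {T T' : α → ℕ → H →L[ℂ] H}
  {A A' : H →L[ℂ] H}

theorem CS.congr (h : CS I l Mn R N T A) (hT : ∀ n, ∀ r < R n, T n r = T' n r) :
    CS I l Mn R N T' A := by
  have : bl I R N T = bl I R N T' := by
    funext n
    show ∑ r ∈ Finset.range (R n), I.P (N n r) * T n r =
      ∑ r ∈ Finset.range (R n), I.P (N n r) * T' n r
    exact Finset.sum_congr rfl fun r hr => by rw [hT n r (Finset.mem_range.mp hr)]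
  rw [CS, this] at h
  exact h

theorem CS.add (h : CS I l Mn R N T A) (h' : CS I l Mn R N T' A') :
    CS I l Mn R N (fun n r => T n r + T' n r) (A + A') := by
  have h1 := BS.add h h'
  rw [← mul_add] at h1
  refine h1.congr (Eventually.of_forall fun n => ?_)
  exact blk_add _ _ _ _

theorem CS.smul (h : CS I l Mn R N T A) (c : ℂ) :
    CS I l Mn R N (fun n r => c • T n r) (c • A) := by
  have h1 := BS.const_smul h c
  rw [← mul_smul_comm] at h1
  refine h1.congr (Eventually.of_forall fun n => ?_)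
  exact blk_smul _ _ _ _

theorem CS.sub (h : CS I l Mn R N T A) (h' : CS I l Mn R N T' A') :
    CS I l Mn R N (fun n r => T n r - T' n r) (A - A') := by
  have h1 := h.add (h'.smul (-1))
  simpa only [neg_smul, one_smul, ← sub_eq_add_neg] using h1

theorem CS.zero : CS I l Mn R N (fun _ _ => (0 : H →L[ℂ] H)) 0 := by
  have : bl I R N (fun _ _ => (0 : H →L[ℂ] H)) = fun _ => 0 := by
    funext n
    simp [bl, blk]
  rw [CS, this, mul_zero]
  exact BS.const 0

theorem CS.sum {κ : Type*} (s : Finset κ) {T : κ → α → ℕ → H →L[ℂ] H} {A : κ → H →L[ℂ] H}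
    (h : ∀ k ∈ s, CS I l Mn R N (T k) (A k)) :
    CS I l Mn R N (fun n r => ∑ k ∈ s, T k n r) (∑ k ∈ s, A k) := by
  classical
  induction s using Finset.induction_on with
  | empty => simpa using CS.zero
  | insert a s ha ih =>
    simp only [Finset.sum_insert ha]
    exact (h a (Finset.mem_insert_self _ _)).add
      (ih fun k hk => h k (Finset.mem_insert_of_mem hk))

/-- left factor commuting with the label projections -/
theorem CS.mul_left (hp : PF Mn R N) (h : CS I l Mn R N T A) {K : H →L[ℂ] H} (hK : PC I K) :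
    CS I l Mn R N (fun n r => K * T n r) (K * A) := by
  have h1 := (BS.const K).mul (l := l) h
  rcases isEmpty_or_nonempty α with hα | ⟨⟨n₀⟩⟩
  · refine ⟨⟨0, ?_⟩, fun x => ?_⟩
    · exact Eventually.of_forall fun n => isEmptyElim n
    · have : l = ⊥ := Filter.filter_eq_bot_of_isEmpty l
      rw [this]
      exact tendsto_bot
  have hMn : MeasurableSet Mn := (hp.hp n₀).measMn
  have e1 : K * (I.P Mn * A) = I.P Mn * (K * A) := by
    rw [← mul_assoc, ← (hK Mn hMn).eq, mul_assoc]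
  rw [e1] at h1
  refine h1.congr (Eventually.of_forall fun n => ?_)
  show K * ∑ r ∈ Finset.range (R n), I.P (N n r) * T n r =
    ∑ r ∈ Finset.range (R n), I.P (N n r) * (K * T n r)
  rw [Finset.mul_sum]
  refine Finset.sum_congr rfl fun r hr => ?_
  rw [← mul_assoc, ← (hK _ ((hp.hp n).meas r (Finset.mem_range.mp hr))).eq, mul_assoc]

/-- products, cell by cell -/
theorem CS.mul (hMn : MeasurableSet Mn) (hp : PF Mn R N) (h : CS I l Mn R N T A)
    (h' : CS I l Mn R N T' A') (hT : ∀ n, ∀ r < R n, PC I (T n r)) (hA : PC I A) :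
    CS I l Mn R N (fun n r => T n r * T' n r) (A * A') := by
  have h1 := BS.mul h h'
  have e1 : I.P Mn * A * (I.P Mn * A') = I.P Mn * (A * A') := by
    rw [mul_assoc, ← mul_assoc A, ← (hA Mn hMn).eq, mul_assoc (I.P Mn) A, ← mul_assoc (I.P Mn),
      P_sq hMn]
  rw [e1] at h1
  refine h1.congr (Eventually.of_forall fun n => ?_)
  exact blk_mul_blk ((hp.hp n).op I) fun r hr s hs =>
    (hT n r hr _ ((hp.hp n).meas s hs)).eq

/-- right factor -/
theorem CS.mul_right (h : CS I l Mn R N T A) (K : H →L[ℂ] H) :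
    CS I l Mn R N (fun n r => T n r * K) (A * K) := by
  have h1 := BS.mul h (BS.const K)
  rw [mul_assoc] at h1
  refine h1.congr (Eventually.of_forall fun n => ?_)
  show (∑ r ∈ Finset.range (R n), I.P (N n r) * T n r) * K =
    ∑ r ∈ Finset.range (R n), I.P (N n r) * (T n r * K)
  rw [Finset.sum_mul]
  refine Finset.sum_congr rfl fun r hr => ?_
  rw [mul_assoc]

theorem CS.const (hp : PF Mn R N) (K : H →L[ℂ] H) : CS I l Mn R N (fun _ _ => K) K := by
  have h1 : BS l (fun _ : α => I.P Mn * K) (I.P Mn * K) := BS.const _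
  refine h1.congr (Eventually.of_forall fun n => ?_)
  show I.P Mn * K = ∑ r ∈ Finset.range (R n), I.P (N n r) * K
  rw [← Finset.sum_mul, (hp.hp n).sum_P I]

/-- exponentials -/
theorem CS.exp (hMn : MeasurableSet Mn) (hp : PF Mn R N) (h : CS I l Mn R N T A)
    (hT : ∀ n, ∀ r < R n, PC I (T n r)) (hA : PC I A) (a : ℂ) :
    CS I l Mn R N (fun n r => NormedSpace.exp (a • T n r)) (NormedSpace.exp (a • A)) := by
  have h1 : BS l (fun n => NormedSpace.exp (a • bl I R N T n))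
      (NormedSpace.exp (a • (I.P Mn * A))) := (BS.const_smul h a).exp
  have h2 := (BS.const (I.P Mn)).mul (l := l) h1
  have e1 : I.P Mn * NormedSpace.exp (a • (I.P Mn * A)) = I.P Mn * NormedSpace.exp (a • A) := by
    have c1 : Commute (I.P Mn) (a • (I.P Mn * A)) :=
      ((Commute.refl _).mul_right (hA Mn hMn)).smul_right _
    refine mul_exp_congr c1 ((hA Mn hMn).smul_right _) ?_
    rw [mul_smul_comm, mul_smul_comm, ← mul_assoc, P_sq hMn]
  rw [e1] at h2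
  refine h2.congr (Eventually.of_forall fun n => ?_)
  show I.P Mn * NormedSpace.exp (a • bl I R N T n) =
    blk (R n) (fun r => I.P (N n r)) fun r => NormedSpace.exp (a • T n r)
  rw [blk_exp ((hp.hp n).op I) (fun r hr s hs => hT n r hr _ ((hp.hp n).meas s hs)),
    (hp.hp n).sum_P I]
  rfl

end CSlemmas

/-! ### Weyl operators -/

section weyl

variable {Mn : Set Λ} {R : α → ℕ} {N : α → ℕ → Set Λ}

/-- cell families of small vectors -/
def Sm (l : Filter α) (R : α → ℕ) (d : α → ℕ → H) : Prop :=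
  ∃ δ : α → ℝ, Tendsto δ l (𝓝 0) ∧ ∀ n, ∀ r < R n, ‖d n r‖ ≤ δ n

theorem Sm.add {d d' : α → ℕ → H} (h : Sm l R d) (h' : Sm l R d') :
    Sm l R fun n r => d n r + d' n r := by
  obtain ⟨δ, h1, h2⟩ := h
  obtain ⟨δ', h1', h2'⟩ := h'
  refine ⟨fun n => δ n + δ' n, by simpa using h1.add h1', fun n r hr => ?_⟩
  exact (norm_add_le _ _).trans (add_le_add (h2 n r hr) (h2' n r hr))

theorem Sm.smul {d : α → ℕ → H} (h : Sm l R d) (c : ℂ) : Sm l R fun n r => c • d n r := by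
  obtain ⟨δ, h1, h2⟩ := h
  refine ⟨fun n => ‖c‖ * δ n, by simpa using h1.const_mul ‖c‖, fun n r hr => ?_⟩
  rw [norm_smul]
  exact mul_le_mul_of_nonneg_left (h2 n r hr) (norm_nonneg _)

theorem Sm.neg {d : α → ℕ → H} (h : Sm l R d) : Sm l R fun n r => -d n r := by
  obtain ⟨δ, h1, h2⟩ := h
  exact ⟨δ, h1, fun n r hr => by rw [norm_neg]; exact h2 n r hr⟩

theorem Sm.sub {d d' : α → ℕ → H} (h : Sm l R d) (h' : Sm l R d') :
    Sm l R fun n r => d n r - d' n r := by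
  simpa only [sub_eq_add_neg] using h.add h'.neg

theorem Sm.of_norm_le {d : α → ℕ → H} {δ : α → ℝ} (hδ : Tendsto δ l (𝓝 0))
    (h : ∀ n, ∀ r < R n, ‖d n r‖ ≤ δ n) : Sm l R d := ⟨δ, hδ, h⟩

theorem Sm.mono {d d' : α → ℕ → H} (h : Sm l R d) (h' : ∀ n, ∀ r < R n, ‖d' n r‖ ≤ ‖d n r‖) :
    Sm l R d' := by
  obtain ⟨δ, h1, h2⟩ := h
  exact ⟨δ, h1, fun n r hr => (h' n r hr).trans (h2 n r hr)⟩

theorem Sm.of_tendsto {v : α → H} {v₀ : H} (h : Tendsto v l (𝓝 v₀)) :
    Sm l R fun n _ => v n - v₀ :=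
  ⟨fun n => ‖v n - v₀‖, tendsto_iff_norm_sub_tendsto_zero.mp h, fun _ _ _ => le_rfl⟩

theorem CS_W_small (hp : PF Mn R N) {d : α → ℕ → H} (hd : Sm l R d) :
    CS I l Mn R N (fun n r => I.W (d n r)) 1 := by
  obtain ⟨δ, h1, h2⟩ := hd
  have h := BS_blk_W I hp.hp h1 h2
  rw [CS, mul_one]
  exact h

theorem W_add_eq (f d : H) : I.W (f + d) =
    Complex.exp (((⟪f, d⟫_ℂ).im : ℂ) * Complex.I) • (I.W f * I.W d) := by
  rw [I.W_mul, smul_smul, ← Complex.exp_add]
  have : ((⟪f, d⟫_ℂ).im : ℂ) * Complex.I + -(Complex.I * ((⟪f, d⟫_ℂ).im : ℂ)) = 0 := by ring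
  rw [this, Complex.exp_zero, one_smul]

theorem norm_exp_mul_I_sub_one_le (θ : ℝ) : ‖Complex.exp ((θ : ℂ) * Complex.I) - 1‖ ≤ |θ| := by
  rw [mul_comm]
  have := Real.norm_exp_I_mul_ofReal_sub_one_le (x := θ)
  rwa [Real.norm_eq_abs] at this

theorem CS_W (hp : PF Mn R N) (f : H) {d : α → ℕ → H} (hd : Sm l R d) :
    CS I l Mn R N (fun n r => I.W (f + d n r)) (I.W f) := by
  have h0 : CS I l Mn R N (fun n r =>
      (Complex.exp (((⟪f, d n r⟫_ℂ).im : ℂ) * Complex.I) - 1) • I.W (d n r)) 0 := by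
    obtain ⟨δ, h1, h2⟩ := hd
    rw [CS, mul_zero]
    refine BS.of_norm_zero (δ := fun n => ‖f‖ * |δ n|) ?_ fun n => ?_
    · have := h1.abs.const_mul ‖f‖
      simpa using this
    · refine norm_blk_le ((hp.hp n).op I) (fun r hr => ?_) (by positivity) fun r hr => ?_
      · exact ((PC.W (I := I) _ _ ((hp.hp n).meas r hr)).smul_right _).eq
      · rw [norm_smul]
        calc ‖Complex.exp (((⟪f, d n r⟫_ℂ).im : ℂ) * Complex.I) - 1‖ * ‖I.W (d n r)‖
            ≤ |(⟪f, d n r⟫_ℂ).im| * 1 :=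
              mul_le_mul (norm_exp_mul_I_sub_one_le _) (norm_W_le I _) (norm_nonneg _)
                (abs_nonneg _)
          _ ≤ ‖f‖ * ‖d n r‖ := by
              rw [mul_one]
              exact (Complex.abs_im_le_norm _).trans (norm_inner_le_norm _ _)
          _ ≤ ‖f‖ * |δ n| := mul_le_mul_of_nonneg_left ((h2 n r hr).trans (le_abs_self _))
              (norm_nonneg _)
  have h3 := ((CS_W_small (I := I) hp hd).add h0).mul_left hp (PC.W f)
  rw [add_zero, mul_one] at h3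
  refine h3.congr fun n r hr => ?_
  rw [W_add_eq, sub_smul, one_smul, add_sub_cancel, mul_smul_comm]

theorem CS_sW (hp : PF Mn R N) (f : H) {d : α → ℕ → H} (hd : Sm l R d) :
    CS I l Mn R N (fun n r => I.sW (f + d n r)) (I.sW f) := by
  have h1 := ((CS_W (I := I) hp f hd).sub (CS_W (I := I) hp (-f) hd.neg)).smul (-(Complex.I / 2))
  refine h1.congr fun n r hr => ?_
  rw [sW, neg_add]

theorem CS_cW (hp : PF Mn R N) (f : H) {d : α → ℕ → H} (hd : Sm l R d) :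
    CS I l Mn R N (fun n r => I.cW (f + d n r)) (I.cW f) := by
  have h1 := ((CS_W (I := I) hp f hd).add (CS_W (I := I) hp (-f) hd.neg)).smul (1 / 2 : ℂ)
  refine h1.congr fun n r hr => ?_
  rw [cW, neg_add]

theorem CS_zW (hp : PF Mn R N) (f : H) {d : α → ℕ → H} (hd : Sm l R d) :
    CS I l Mn R N (fun n r => I.zW (f + d n r)) (I.zW f) := by
  have h1 := ((CS_W (I := I) hp f hd).mul_left hp PC.Ep).add
    ((CS_W (I := I) hp (-f) hd.neg).mul_left hp PC.Em)
  refine h1.congr fun n r hr => ?_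
  rw [zW, neg_add]

theorem CS_snS {κ : Type*} [Fintype κ] (hp : PF Mn R N) (c : κ → ℝ) (f : κ → H)
    {d : κ → α → ℕ → H} (hd : ∀ k, Sm l R (d k)) :
    CS I l Mn R N (fun n r => snS I c fun k => f k + d k n r) (snS I c f) :=
  CS.sum _ fun k _ => (CS_sW hp (f k) (hd k)).smul _

theorem CS_csS {κ : Type*} [Fintype κ] (hp : PF Mn R N) (c : κ → ℝ) (f : κ → H)
    {d : κ → α → ℕ → H} (hd : ∀ k, Sm l R (d k)) :
    CS I l Mn R N (fun n r => csS I c fun k => f k + d k n r) (csS I c f) :=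
  CS.sum _ fun k _ => (CS_cW hp (f k) (hd k)).smul _

theorem CS_eI {T : α → ℕ → H →L[ℂ] H} {A : H →L[ℂ] H} (hMn : MeasurableSet Mn) (hp : PF Mn R N)
    (h : CS I l Mn R N T A) (hT : ∀ n, ∀ r < R n, PC I (T n r)) (hA : PC I A) (t : ℝ) :
    CS I l Mn R N (fun n r => eI t (T n r)) (eI t A) := h.exp hMn hp hT hA _

/-- block operators with small perturbations -/
theorem CS_blk_zW (hMn : MeasurableSet Mn) (hp : PF Mn R N) {A : Set Λ} (hA : MeasurableSet A)
    (f : H) {d : α → ℕ → H} (hd : Sm l R d) :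
    CS I l Mn R N (fun n r => I.blk A (I.zW (f + d n r))) (I.blk A (I.zW f)) :=
  (CS.const hp (I.P Aᶜ)).add ((CS_zW hp f hd).mul_left hp fun B hB => P_comm hB hA)

/-- vectors `∑ r, P (N r) x r` -/
theorem CS.lim_apply {T : α → ℕ → H →L[ℂ] H} {A : H →L[ℂ] H} (h : CS I l Mn R N T A) (x : H) :
    Tendsto (fun n => ∑ r ∈ Finset.range (R n), I.P (N n r) (T n r x)) l
      (𝓝 (I.P Mn (A x))) := by
  have h1 := h.lim x
  refine h1.congr fun n => ?_
  exact blk_apply _ _ _ _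

end weyl

end Crest.Agent.R339.Cell
end

-- ▼ part R339/Cell220I
section

/-!
# The limit of the states (R339, label induction, block G3)
-/

set_option autoImplicit false
set_option linter.unusedSectionVars false
set_option linter.unusedVariables false

noncomputable section

open scoped InnerProductSpace Topology ComplexConjugate
open Filter MeasureTheory

namespace Crest.Agent.R339.Cell

open Crest.Agent.R339.Li Crest.Agent.R339.Li.ILSys Crest.Agent.R339.MF Crest.Agent.R339.Cel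

variable {Λ H : Type*} [MeasurableSpace Λ] [NormedAddCommGroup H] [InnerProductSpace ℂ H]
  [CompleteSpace H] {I : ILSys Λ H} {S : Set Λ} {L : Set H} {cc : ℝ} {p : Par Λ H}

theorem norm_Z_leI : ‖I.Z‖ ≤ 1 := by
  refine ContinuousLinearMap.opNorm_le_bound _ zero_le_one fun x => ?_
  have h1 : ‖I.Z x‖ ^ 2 = ‖x‖ ^ 2 := by
    rw [norm_sq_eq_re_inner, norm_sq_eq_re_inner, ← ContinuousLinearMap.adjoint_inner_right,
      ← ContinuousLinearMap.star_eq_adjoint, star_Z, ← mul_apply_eq_comp, Z_mul_Z]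
    rfl
  rw [one_mul, (pow_left_inj₀ (norm_nonneg _) (norm_nonneg _) two_ne_zero).mp h1]

theorem norm_snS_le {κ : Type*} [Fintype κ] (c : κ → ℝ) (f : κ → H) :
    ‖snS I c f‖ ≤ ∑ k, |c k| := by
  refine (norm_sum_le _ _).trans (Finset.sum_le_sum fun k _ => ?_)
  refine (norm_smul_le _ _).trans ?_
  rw [Complex.norm_real, Real.norm_eq_abs]
  calc |c k| * ‖I.sW (f k)‖ ≤ |c k| * 1 :=
        mul_le_mul_of_nonneg_left (norm_sW_le _) (abs_nonneg _)
    _ = |c k| := mul_one _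

theorem norm_eA_le {B : Set Λ} (hB : MeasurableSet B) {U : UH H} (hU : PC I (U : H →L[ℂ] H)) :
    ‖I.eA B U‖ ≤ √(I.μ.real B) := by
  rw [eA_eq_pV]
  refine (norm_pV_le hB hU PC.Z).trans ?_
  calc ‖I.Z‖ * √(I.μ.real B) ≤ 1 * √(I.μ.real B) :=
        mul_le_mul_of_nonneg_right norm_Z_leI (Real.sqrt_nonneg _)
    _ = _ := one_mul _

theorem BS.of_U {α : Type*} {l : Filter α} {B : α → UH H} {A : H →L[ℂ] H}
    (h : ∀ x, Tendsto (fun n => (B n : H →L[ℂ] H) x) l (𝓝 (A x))) :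
    BS l (fun n => (B n : H →L[ℂ] H)) A :=
  ⟨⟨1, Eventually.of_forall fun n => ContinuousLinearMap.opNorm_le_bound _ zero_le_one
    fun x => by rw [norm_U_apply, one_mul]⟩, h⟩

theorem BS_zW {α : Type*} {l : Filter α} {v : α → H} {v₀ : H} (hv : Tendsto v l (𝓝 v₀)) :
    BS l (fun n => I.zW (v n)) (I.zW v₀) :=
  BS.of_U (B := fun n => zWU I (v n)) fun x => tendsto_zW hv tendsto_const_nhds

/-- the limiting frequencies -/
def F0 (I : ILSys Λ H) (p : Par Λ H) (k : Fin p.n) : H := (p.a k : ℂ) • I.eA p.A p.U + p.u k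

/-- the limiting target kick -/
def v0 (I : ILSys Λ H) (p : Par Λ H) : H :=
  (-(p.t : ℂ)) • pV I p.Mn p.U (snS I (fun k => p.c k * p.a k * p.b k) (F0 I p))

/-- smallness hypotheses along a family of cell partitions -/
structure Lim (I : ILSys Λ H) (p : Par Λ H) {α : Type*} (l : Filter α) (g : α → ℝ) (R : α → ℕ)
    (N : α → ℕ → Set Λ) : Prop where
  cells : ∀ n, Cells I p (R n) (N n)
  mass : ∃ δ : α → ℝ, Tendsto δ l (𝓝 0) ∧ ∀ n, ∀ r < R n, √(I.μ.real (N n r)) ≤ δ n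
  tq : Sm l R fun n r => ((τb I p (g n) (N n) (Bs I p (g n) (N n) r) r : ℝ) : ℂ) •
    qb I p (g n) (N n) (Bs I p (g n) (N n) r) r
  gy : Sm l R fun n r => ((g n : ℝ) : ℂ) • (yb I p (Bs I p (g n) (N n) r) -
    y2b I p (g n) (N n) (Bs I p (g n) (N n) r) r)
  bath : ∀ x, Tendsto (fun n => (Bs I p (g n) (N n) (R n) : H →L[ℂ] H) x) l (𝓝 x)

section

variable {α : Type*} {l : Filter α} {g : α → ℝ} {R : α → ℕ} {N : α → ℕ → Set Λ}

theorem Lim.pf (hL : Lim I p l g R N) : PF p.Mn R N := ⟨fun n => (hL.cells n).part⟩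

theorem Lim.mass_mul (hL : Lim I p l g R N) (C : ℝ) {d : α → ℕ → H}
    (hd : ∀ n, ∀ r < R n, ‖d n r‖ ≤ C * √(I.μ.real (N n r))) : Sm l R d := by
  obtain ⟨δ, h1, h2⟩ := hL.mass
  refine ⟨fun n => |C| * δ n, by simpa using h1.const_mul |C|, fun n r hr => ?_⟩
  refine (hd n r hr).trans ?_
  calc C * √(I.μ.real (N n r)) ≤ |C| * √(I.μ.real (N n r)) :=
        mul_le_mul_of_nonneg_right (le_abs_self C) (Real.sqrt_nonneg _)
    _ ≤ |C| * δ n := mul_le_mul_of_nonneg_left (h2 n r hr) (abs_nonneg _)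

/-- deviation of the frequencies -/
def df (I : ILSys Λ H) (p : Par Λ H) {α : Type*} (g : α → ℝ) (N : α → ℕ → Set Λ) (k : Fin p.n)
    (n : α) (r : ℕ) : H :=
  (-(p.a k : ℂ)) • I.eA (p.A ∩ N n r) p.U + (p.b k : ℂ) •
    (((τb I p (g n) (N n) (Bs I p (g n) (N n) r) r : ℝ) : ℂ) •
      qb I p (g n) (N n) (Bs I p (g n) (N n) r) r)

theorem fb_eq (h : Hyp I S L p) (hL : Lim I p l g R N) {n : α} {r : ℕ} (hr : r < R n)
    (k : Fin p.n) : fb I p (g n) (N n) (Bs I p (g n) (N n) r) r k = F0 I p k + df I p g N k n r := by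
  have mN := (hL.cells n).m hr
  have e1 : I.eA p.A p.U = hv I p (N n) r + I.eA (p.A ∩ N n r) p.U := by
    have e2 : p.A = (p.A \ N n r) ∪ (p.A ∩ N n r) := by
      rw [Set.union_comm]; exact (Set.inter_union_sdiff _ _).symm
    have e3 : Disjoint (p.A \ N n r) (p.A ∩ N n r) :=
      Set.disjoint_left.mpr fun x hx hx' => hx.2 hx'.2
    have e4 : I.P p.A = I.P (p.A \ N n r) + I.P (p.A ∩ N n r) := by
      conv_lhs => rw [e2]
      exact I.P_union _ _ (h.mA.diff mN) (h.mA.inter mN) e3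
    rw [hv, eA, eA, eA, e4, add_apply]
  rw [fb, F0, df, e1, smul_add, smul_smul]
  have e5 : ((p.b k * τb I p (g n) (N n) (Bs I p (g n) (N n) r) r : ℝ) : ℂ) =
    (p.b k : ℂ) * ((τb I p (g n) (N n) (Bs I p (g n) (N n) r) r : ℝ) : ℂ) := by push_cast; rfl
  rw [e5]
  module

theorem Sm_df (h : Hyp I S L p) (hL : Lim I p l g R N) (k : Fin p.n) : Sm l R (df I p g N k) := by
  refine Sm.add (Sm.smul ?_ _) (hL.tq.smul _)
  refine hL.mass_mul 1 fun n r hr => ?_
  rw [one_mul]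
  refine (norm_eA_le (h.mA.inter ((hL.cells n).m hr)) h.PCU).trans ?_
  exact Real.sqrt_le_sqrt (measureReal_mono Set.inter_subset_right)

/-- the node generators converge -/
theorem CS_fb_csS (h : Hyp I S L p) (hL : Lim I p l g R N) (c : Fin p.n → ℝ) :
    CS I l p.Mn R N (fun n r => csS I c (fb I p (g n) (N n) (Bs I p (g n) (N n) r) r))
      (csS I c (F0 I p)) := by
  refine (CS_csS hL.pf c (F0 I p) (d := fun k => df I p g N k) fun k => Sm_df h hL k).congr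
    fun n r hr => ?_
  congr 1
  funext k
  exact (fb_eq h hL hr k).symm

theorem CS_fb_snS (h : Hyp I S L p) (hL : Lim I p l g R N) (c : Fin p.n → ℝ) :
    CS I l p.Mn R N (fun n r => snS I c (fb I p (g n) (N n) (Bs I p (g n) (N n) r) r))
      (snS I c (F0 I p)) := by
  refine (CS_snS hL.pf c (F0 I p) (d := fun k => df I p g N k) fun k => Sm_df h hL k).congr
    fun n r hr => ?_
  congr 1
  funext k
  exact (fb_eq h hL hr k).symm

/-- the node gates converge -/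
theorem CS_Ob (h : Hyp I S L p) (hL : Lim I p l g R N) :
    CS I l p.Mn R N (fun n r => (Ob I p (g n) (N n) r : H →L[ℂ] H))
      (eI (-p.t) (csS I (fun k => p.c k * p.b k) (F0 I p))) := by
  have h1 := CS_zW (I := I) hL.pf 0 hL.gy
  rw [zW_zero] at h1
  have h2 := CS_eI h.mMn hL.pf (CS_fb_csS h hL fun k => p.c k * p.b k)
    (fun n r hr => PC.csS _ _) (PC.csS _ _) (-p.t)
  have h3 := CS.mul h.mMn hL.pf h1 h2 (fun n r hr => PC.zW _) PC.one
  rw [one_mul] at h3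
  refine h3.congr fun n r hr => ?_
  rw [zero_add]
  rfl

/-- the target kicks converge -/
theorem tendsto_vs (h : Hyp I S L p) (hL : Lim I p l g R N) :
    Tendsto (fun n => vs I p (g n) (N n) (Finset.range (R n))) l (𝓝 (v0 I p)) := by
  have h1 := (CS_fb_snS h hL fun k => p.c k * p.a k * p.b k).lim_apply
    ((p.U : H →L[ℂ] H) I.Om)
  have h2 := ((star (p.U : H →L[ℂ] H)).continuous.tendsto _).comp h1
  have h3 := h2.const_smul (-(p.t : ℂ))
  have e1 : (-(p.t : ℂ)) • (star (p.U : H →L[ℂ] H)) (I.P p.Mn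
      (snS I (fun k => p.c k * p.a k * p.b k) (F0 I p) ((p.U : H →L[ℂ] H) I.Om))) = v0 I p := by
    rw [v0, pV, ← mul_apply_eq_comp (star (p.U : H →L[ℂ] H)), ← (h.PCU.star p.Mn h.mMn).eq,
      mul_apply_eq_comp]
  rw [e1] at h3
  refine h3.congr fun n => ?_
  show (-(p.t : ℂ)) • (star (p.U : H →L[ℂ] H)) (∑ r ∈ Finset.range (R n), _) = _
  rw [map_sum, Finset.smul_sum, vs]
  refine Finset.sum_congr rfl fun r hr => ?_
  rw [av, pV, ← mul_apply_eq_comp (star (p.U : H →L[ℂ] H)),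
    ← (h.PCU.star _ ((hL.cells n).m (Finset.mem_range.mp hr))).eq, mul_apply_eq_comp]

theorem norm_av_le (h : Hyp I S L p) (hL : Lim I p l g R N) {n : α} {r : ℕ} (hr : r < R n) :
    ‖av I p (g n) (N n) r‖ ≤ (|p.t| * ∑ k, |p.c k * p.a k * p.b k|) * √(I.μ.real (N n r)) := by
  rw [av, norm_smul, norm_neg, Complex.norm_real, Real.norm_eq_abs, mul_assoc]
  refine mul_le_mul_of_nonneg_left ?_ (abs_nonneg _)
  refine (norm_pV_le ((hL.cells n).m hr) h.PCU (PC.snS _ _)).trans ?_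
  exact mul_le_mul_of_nonneg_right (norm_snS_le _ _) (Real.sqrt_nonneg _)

/-- the target factors converge, cell by cell -/
theorem CS_target (h : Hyp I S L p) (hL : Lim I p l g R N) :
    CS I l p.Mn R N (fun n r => I.blk p.A (I.zW (vs I p (g n) (N n) ((Finset.range (R n)).erase r))))
      (I.blk p.A (I.zW (v0 I p))) := by
  have h1 : Sm l R fun n r => (vs I p (g n) (N n) (Finset.range (R n)) - v0 I p) -
      av I p (g n) (N n) r :=
    (Sm.of_tendsto (tendsto_vs h hL)).sub (hL.mass_mul _ fun n r hr => norm_av_le h hL hr)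
  refine (CS_blk_zW h.mMn hL.pf h.mA (v0 I p) h1).congr fun n r hr => ?_
  have e1 : v0 I p + ((vs I p (g n) (N n) (Finset.range (R n)) - v0 I p) -
      av I p (g n) (N n) r) = vs I p (g n) (N n) ((Finset.range (R n)).erase r) := by
    rw [vs, vs, ← Finset.sum_erase_add _ _ (Finset.mem_range.mpr hr)]
    abel
  rw [e1]

/-- the limit state -/
def V0 (I : ILSys Λ H) (p : Par Λ H) : H →L[ℂ] H :=
  I.blk p.Mn (eI (-p.t) (csS I (fun k => p.c k * p.b k) (F0 I p))) *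
    (I.blk p.A (I.zW (v0 I p)) * (p.U : H →L[ℂ] H))

/-- **convergence of the states** -/
theorem BS_state (h : Hyp I S L p) (hL : Lim I p l g R N) {V : α → UH H}
    (hV : ∀ n, Str I p (g n) (N n) (R n) (R n) (V n)) :
    BS l (fun n => (V n : H →L[ℂ] H)) (V0 I p) := by
  -- the three parts
  have hM : BS l (fun n => I.P p.M * (Bs I p (g n) (N n) (R n) : H →L[ℂ] H)) (I.P p.M * 1) :=
    (BS.const _).mul (BS.of_U hL.bath)
  have hN : CS I l p.Mn R N (fun n r => (Ob I p (g n) (N n) r : H →L[ℂ] H) *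
      (I.blk p.A (I.zW (vs I p (g n) (N n) ((Finset.range (R n)).erase r))) *
        (p.U : H →L[ℂ] H)))
      (eI (-p.t) (csS I (fun k => p.c k * p.b k) (F0 I p)) *
        (I.blk p.A (I.zW (v0 I p)) * (p.U : H →L[ℂ] H))) :=
    CS.mul h.mMn hL.pf (CS_Ob h hL) ((CS_target h hL).mul_right _) (fun n r hr => PC_Ob r)
      (PC.eI (PC.csS _ _))
  have hC : BS l (fun n => I.P (p.M ∪ p.Mn)ᶜ *
      (I.blk p.A (I.zW (vs I p (g n) (N n) (Finset.range (R n)))) * (p.U : H →L[ℂ] H)))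
      (I.P (p.M ∪ p.Mn)ᶜ * (I.blk p.A (I.zW (v0 I p)) * (p.U : H →L[ℂ] H))) := by
    refine (BS.const _).mul (BS.mul ?_ (BS.const _))
    exact (BS.const _).add ((BS.const _).mul (BS_zW (tendsto_vs h hL)))
  have hsum := (hM.add hN).add hC
  -- the limit
  have e1 : I.P p.M * V0 I p = I.P p.M * 1 := by
    rw [V0, ← mul_assoc, P_blk_disj h.mMn h.mM h.dMn.symm, ← mul_assoc,
      P_blk_disj h.mA h.mM h.dA.symm, ← (h.PCU _ h.mM).eq.symm, h.UM, mul_one]
  have e2 : I.P p.Mn * V0 I p = I.P p.Mn * (eI (-p.t) (csS I (fun k => p.c k * p.b k) (F0 I p)) *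
        (I.blk p.A (I.zW (v0 I p)) * (p.U : H →L[ℂ] H))) := by
    rw [V0, ← mul_assoc, P_blk h.mMn h.mMn subset_rfl, mul_assoc]
  have e3 : I.P (p.M ∪ p.Mn)ᶜ * V0 I p =
      I.P (p.M ∪ p.Mn)ᶜ * (I.blk p.A (I.zW (v0 I p)) * (p.U : H →L[ℂ] H)) := by
    rw [V0, ← mul_assoc, P_blk_disj h.mMn (Cells.mC h)
      (Set.disjoint_left.mpr fun x hx hx' => hx (Or.inr hx'))]
  have e4 : V0 I p = I.P p.M * 1 + I.P p.Mn *
      (eI (-p.t) (csS I (fun k => p.c k * p.b k) (F0 I p)) *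
        (I.blk p.A (I.zW (v0 I p)) * (p.U : H →L[ℂ] H))) +
      I.P (p.M ∪ p.Mn)ᶜ * (I.blk p.A (I.zW (v0 I p)) * (p.U : H →L[ℂ] H)) := by
    rw [← e1, ← e2, ← e3, ← add_mul, ← add_mul, ← I.P_union _ _ h.mM h.mMn h.dMn.symm, add_comm,
      P_compl_add (h.mM.union h.mMn), one_mul]
  rw [e4]
  refine hsum.congr (Eventually.of_forall fun n => ?_)
  have hc := hL.cells n
  have f1 : (V n : H →L[ℂ] H) = (I.P p.M + ∑ s ∈ Finset.range (R n), I.P (N n s) +
      I.P (p.M ∪ p.Mn)ᶜ) * (V n : H →L[ℂ] H) := by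
    rw [← P_decomp h hc, one_mul]
  rw [f1, add_mul, add_mul, (hV n).sM, (hV n).sC, Finset.sum_mul]
  congr 2
  show ∑ s ∈ Finset.range (R n), I.P (N n s) * ((Ob I p (g n) (N n) s : H →L[ℂ] H) *
      (I.blk p.A (I.zW (vs I p (g n) (N n) ((Finset.range (R n)).erase s))) *
        (p.U : H →L[ℂ] H))) = ∑ s ∈ Finset.range (R n), I.P (N n s) * (V n : H →L[ℂ] H)
  refine Finset.sum_congr rfl fun s hs => ?_
  have hs' := Finset.mem_range.mp hs
  rw [(hV n).sN s hs', if_pos hs']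

theorem good_of_lim [l.NeBot] (h : Hyp I S L p) (hL : Lim I p l g R N) {V : α → UH H}
    (hV : ∀ n, Str I p (g n) (N n) (R n) (R n) (V n)) (hG : ∀ n, I.Good S L cc (V n))
    {W : UH H} (hW : (W : H →L[ℂ] H) = V0 I p) : I.Good S L cc W := by
  refine Good.of_tendsto (l := l) (Eventually.of_forall hG) fun x => ?_
  rw [hW]
  exact (BS_state h hL hV).lim x

end

end Crest.Agent.R339.Cell
end
end

-- ▼ part R339/Cell373
section

/-!
# Bath estimates for the recursion over the cells (R339, label induction, block G3 [a])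
-/

set_option autoImplicit false
set_option linter.unusedSectionVars false
set_option linter.unusedVariables false

noncomputable section

open scoped InnerProductSpace Topology ComplexConjugate
open Filter MeasureTheory

namespace Crest.Agent.R339.Cell

open Crest.Agent.R339.Li Crest.Agent.R339.Li.ILSys Crest.Agent.R339.MF Crest.Agent.R339.Cel

variable {Λ H : Type*} [MeasurableSpace Λ] [NormedAddCommGroup H] [InnerProductSpace ℂ H]
  [CompleteSpace H]

section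

variable {I : ILSys Λ H} {S : Set Λ} {L : Set H} {p : Par Λ H} {g : ℝ} {N : ℕ → Set Λ} {R : ℕ}

/-! ### unitary spin operators -/

/-- `Z` as unitary -/
def ZU (I : ILSys Λ H) : UH H :=
  ⟨I.Z, by rw [Unitary.mem_iff, star_Z, Z_mul_Z]; exact ⟨rfl, rfl⟩⟩
/-- `X` as unitary -/
def XU (I : ILSys Λ H) : UH H :=
  ⟨I.X, by rw [Unitary.mem_iff, star_X, X_mul_X]; exact ⟨rfl, rfl⟩⟩
/-- `Y` as unitary -/
def YU (I : ILSys Λ H) : UH H :=
  ⟨I.Y, by rw [Unitary.mem_iff, star_Y, Y_mul_Y]; exact ⟨rfl, rfl⟩⟩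

theorem norm_Z_apply (x : H) : ‖I.Z x‖ = ‖x‖ := norm_U_apply (ZU I) x
theorem norm_X_apply (x : H) : ‖I.X x‖ = ‖x‖ := norm_U_apply (XU I) x
theorem norm_Y_apply (x : H) : ‖I.Y x‖ = ‖x‖ := norm_U_apply (YU I) x

theorem norm_Z_le : ‖I.Z‖ ≤ 1 :=
  ContinuousLinearMap.opNorm_le_bound _ zero_le_one fun x => by rw [norm_Z_apply, one_mul]

theorem sqrt_mass_le_one (A : Set Λ) : Real.sqrt (I.μ.real A) ≤ 1 := by
  rw [Real.sqrt_le_one]
  exact measureReal_le_one

theorem norm_P_Om_le_one {A : Set Λ} (hA : MeasurableSet A) : ‖I.P A I.Om‖ ≤ 1 := by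
  have h := norm_P_apply_le (I := I) hA I.Om
  rwa [norm_Om] at h

theorem X_P_Om {A : Set Λ} (hA : MeasurableSet A) : I.X (I.P A I.Om) = I.P A I.Om := by
  rw [← mul_apply_eq_comp, ← (P_X hA).eq, mul_apply_eq_comp]
  have : I.X I.Om = I.Om := I.Om_X
  rw [this]

/-! ### norms of the vectors -/

theorem norm_zv (h : Hyp I S L p) (hN : Cells I p R N) {r : ℕ} (hr : r < R) :
    ‖zv I p N r‖ ≤ Real.sqrt (I.μ.real (N r)) := by
  have h1 := norm_pV_le (I := I) (hN.m hr) h.PCU PC.Z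
  refine h1.trans ?_
  calc ‖I.Z‖ * Real.sqrt (I.μ.real (N r)) ≤ 1 * Real.sqrt (I.μ.real (N r)) :=
        mul_le_mul_of_nonneg_right norm_Z_le (Real.sqrt_nonneg _)
    _ = _ := one_mul _

theorem norm_qb (h : Hyp I S L p) {B : UH H} (hB : PC I (B : H →L[ℂ] H)) (r : ℕ) :
    ‖qb I p g N B r‖ ≤ 1 := by
  have h1 := norm_pV_le (I := I) (U := yWU I ((g : ℂ) • zv I p N r) * B) h.mM
    ((PC.yW _).mul hB) PC.Z
  refine h1.trans ?_
  calc ‖I.Z‖ * Real.sqrt (I.μ.real p.M) ≤ 1 * 1 :=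
        mul_le_mul norm_Z_le (sqrt_mass_le_one _) (Real.sqrt_nonneg _) zero_le_one
    _ = _ := one_mul _

/-! ### commutation -/

theorem im_ζb_zv (h : Hyp I S L p) (hN : Cells I p R N) (B : UH H) {r s : ℕ} (hr : r < R)
    (hs : s < R) : (⟪ζb I p g N B r, zv I p N s⟫_ℂ).im = 0 :=
  im_coe_smul_left (im_inner_pV (hN.m hr) (hN.m hs) h.PCU (PC.snS _ _) PC.Z (star_snS _ _)
    star_Z (Z_snS _ _).symm) _

theorem im_zv_zv (h : Hyp I S L p) (hN : Cells I p R N) {r s : ℕ} (hr : r < R)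
    (hs : s < R) : (⟪zv I p N r, zv I p N s⟫_ℂ).im = 0 :=
  im_inner_pV (hN.m hr) (hN.m hs) h.PCU PC.Z PC.Z star_Z star_Z (Commute.refl _)

theorem im_ζb_ζb (hN : Cells I p R N) (B B' : UH H) {r s : ℕ} (hr : r < R)
    (hs : s < R) (hrs : r ≠ s) : (⟪ζb I p g N B r, ζb I p g N B' s⟫_ℂ).im = 0 :=
  im_inner_of_disj (hN.m hr) (hN.m hs) (hN.part.disj r hr s hs hrs) (P_ζb hN B hr) (P_ζb hN B' hs)

/-- Weyl operators real against the vectors of a cell commute with its bath gate -/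
theorem commute_W_Kb {d : H} {B : UH H} {r : ℕ} (h1 : (⟪d, zv I p N r⟫_ℂ).im = 0)
    (h2 : (⟪d, ζb I p g N B r⟫_ℂ).im = 0) :
    Commute (I.W d) ((Kb I p g N B r : UH H) : H →L[ℂ] H) := by
  have e1 : (⟪d, (g : ℂ) • zv I p N r⟫_ℂ).im = 0 := im_coe_smul_right h1 g
  show Commute (I.W d) (yW I (-((g : ℂ) • zv I p N r)) *
    (I.zW (ζb I p g N B r) * yW I ((g : ℂ) • zv I p N r)))
  exact (commute_W_yW (im_neg_right e1)).mul_right ((commute_W_zW h2).mul_right (commute_W_yW e1))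

theorem commute_W_Bs {d : H} {r : ℕ} (h1 : ∀ s < r, (⟪d, zv I p N s⟫_ℂ).im = 0)
    (h2 : ∀ s < r, (⟪d, ζb I p g N (Bs I p g N s) s⟫_ℂ).im = 0) :
    Commute (I.W d) ((Bs I p g N r : UH H) : H →L[ℂ] H) := by
  induction r with
  | zero => exact Commute.one_right _
  | succ r ih =>
    show Commute (I.W d) (((Kb I p g N (Bs I p g N r) r : UH H) : H →L[ℂ] H) *
      ((Bs I p g N r : UH H) : H →L[ℂ] H))
    exact (commute_W_Kb (h1 r (Nat.lt_succ_self r)) (h2 r (Nat.lt_succ_self r))).mul_right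
      (ih (fun s hs => h1 s (hs.trans (Nat.lt_succ_self r)))
        (fun s hs => h2 s (hs.trans (Nat.lt_succ_self r))))

theorem commute_ζ_Bs (h : Hyp I S L p) (hN : Cells I p R N) {r : ℕ} (hr : r < R) (B : UH H) :
    Commute (I.W (ζb I p g N B r)) ((Bs I p g N r : UH H) : H →L[ℂ] H) :=
  commute_W_Bs (fun s hs => im_ζb_zv h hN B hr (hs.trans hr))
    (fun s hs => im_ζb_ζb hN B _ hr (hs.trans hr) hs.ne')

theorem commute_gz_Bs (h : Hyp I S L p) (hN : Cells I p R N) {r : ℕ} (hr : r < R) (a : ℝ) :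
    Commute (I.W ((a : ℂ) • zv I p N r)) ((Bs I p g N r : UH H) : H →L[ℂ] H) :=
  commute_W_Bs (fun s hs => im_coe_smul_left (im_zv_zv h hN hr (hs.trans hr)) a)
    (fun s hs => im_coe_smul_left (im_symm (im_ζb_zv h hN _ (hs.trans hr) hr)) a)

/-! ### deviation of the bath -/

theorem norm_Bs_sub_le (h : Hyp I S L p) (hN : Cells I p R N) {r : ℕ} (hr : r ≤ R) (x : H) :
    ‖((Bs I p g N r : UH H) : H →L[ℂ] H) x - x‖ ≤
      2 * ∑ s ∈ Finset.range r, ‖I.W (ζb I p g N (Bs I p g N s) s) x - x‖ := by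
  induction r with
  | zero => simp [Bs]
  | succ r ih =>
    have hr' : r < R := hr
    have h1 := ih hr'.le
    rw [Finset.sum_range_succ, mul_add]
    set B : UH H := Bs I p g N r with hB
    have e1 : ((Bs I p g N (r + 1) : UH H) : H →L[ℂ] H) x - x =
        (((Kb I p g N B r : UH H) : H →L[ℂ] H) ((B : H →L[ℂ] H) x) - (B : H →L[ℂ] H) x) +
          ((B : H →L[ℂ] H) x - x) := by
      have : ((Bs I p g N (r + 1) : UH H) : H →L[ℂ] H) x =
        ((Kb I p g N B r : UH H) : H →L[ℂ] H) ((B : H →L[ℂ] H) x) := rfl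
      rw [this]
      abel
    have e2 : ‖((Kb I p g N B r : UH H) : H →L[ℂ] H) ((B : H →L[ℂ] H) x) - (B : H →L[ℂ] H) x‖ ≤
        2 * ‖I.W (ζb I p g N B r) ((B : H →L[ℂ] H) x) - (B : H →L[ℂ] H) x‖ :=
      norm_step_sub_le (im_coe_smul_right (im_ζb_zv h hN B hr' hr') g) _
    rw [norm_W_sub_comm (commute_ζ_Bs h hN hr' B)] at e2
    rw [e1]
    linarith [norm_add_le (((Kb I p g N B r : UH H) : H →L[ℂ] H) ((B : H →L[ℂ] H) x) -
      (B : H →L[ℂ] H) x) ((B : H →L[ℂ] H) x - x)]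

/-! ### the symplectic form of the bath vectors -/

theorem im_inner_Y_Z (v : H) : (⟪I.Y v, I.Z v⟫_ℂ).im = (⟪v, I.X v⟫_ℂ).re := by
  rw [← ContinuousLinearMap.adjoint_inner_right, ← ContinuousLinearMap.star_eq_adjoint, star_Y,
    ← mul_apply_eq_comp, Y_Z, smul_apply, inner_smul_right]
  simp

theorem inner_star_U (U : UH H) (x y : H) :
    ⟪star (U : H →L[ℂ] H) x, star (U : H →L[ℂ] H) y⟫_ℂ = ⟪x, y⟫_ℂ := by
  rw [ContinuousLinearMap.star_eq_adjoint, ContinuousLinearMap.adjoint_inner_left,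
    ← ContinuousLinearMap.star_eq_adjoint, U_apply_star_U]

/-- adding a unitary which commutes with the operator -/
theorem star_mul_comm_apply {U G : UH H} {T : H →L[ℂ] H} (hc : Commute T (G : H →L[ℂ] H)) (x : H) :
    star (U : H →L[ℂ] H) (T ((U : H →L[ℂ] H) x)) =
      star ((G * U : UH H) : H →L[ℂ] H) (T (((G * U : UH H) : H →L[ℂ] H) x)) := by
  have e : star ((G * U : UH H) : H →L[ℂ] H) * (T * ((G * U : UH H) : H →L[ℂ] H)) =
      star (U : H →L[ℂ] H) * (T * (U : H →L[ℂ] H)) := by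
    show star ((G : H →L[ℂ] H) * (U : H →L[ℂ] H)) * (T * ((G : H →L[ℂ] H) * (U : H →L[ℂ] H))) = _
    rw [star_mul, ← mul_assoc T, hc.eq, mul_assoc (star (U : H →L[ℂ] H)),
      mul_assoc (G : H →L[ℂ] H), ← mul_assoc (star (G : H →L[ℂ] H)), star_U_mul_self, one_mul]
  exact (congrArg (fun K : H →L[ℂ] H => K x) e).symm

theorem Jb_eq (h : Hyp I S L p) {B : UH H} (hB : PC I (B : H →L[ℂ] H)) (r : ℕ) :
    Jb I p g N B r = (⟪yW I ((g : ℂ) • zv I p N r) ((B : H →L[ℂ] H) (I.P p.M I.Om)),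
      I.X (yW I ((g : ℂ) • zv I p N r) ((B : H →L[ℂ] H) (I.P p.M I.Om)))⟫_ℂ).re := by
  have hG : PC I ((yWU I ((g : ℂ) • zv I p N r) * B : UH H) : H →L[ℂ] H) := (PC.yW _).mul hB
  have e1 : yb I p B = star ((yWU I ((g : ℂ) • zv I p N r) * B : UH H) : H →L[ℂ] H)
      (I.Y (((yWU I ((g : ℂ) • zv I p N r) * B : UH H) : H →L[ℂ] H) (I.P p.M I.Om))) := by
    rw [yb, pV_eq h.mM hB PC.Y]
    exact star_mul_comm_apply (Y_yW _) _
  have e2 : qb I p g N B r = star ((yWU I ((g : ℂ) • zv I p N r) * B : UH H) : H →L[ℂ] H)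
      (I.Z (((yWU I ((g : ℂ) • zv I p N r) * B : UH H) : H →L[ℂ] H) (I.P p.M I.Om))) := by
    rw [qb, eA_eq_pV, pV_eq h.mM hG PC.Z]
  rw [Jb, e1, e2, inner_star_U, im_inner_Y_Z]
  rfl

theorem norm_gz_sub_le (h : Hyp I S L p) (hN : Cells I p R N) (hg : 0 ≤ g) {r : ℕ} (hr : r < R) :
    ‖yW I ((g : ℂ) • zv I p N r) (((Bs I p g N r : UH H) : H →L[ℂ] H) (I.P p.M I.Om)) -
      ((Bs I p g N r : UH H) : H →L[ℂ] H) (I.P p.M I.Om)‖ ≤
      2 * (g * Real.sqrt (I.μ.real (N r))) := by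
  refine (norm_yW_sub_le _ _).trans ?_
  rw [norm_W_sub_comm (commute_gz_Bs h hN hr g)]
  refine mul_le_mul_of_nonneg_left ?_ zero_le_two
  refine (norm_W_sub_P_Om_le h.mM _).trans ?_
  rw [norm_smul, Complex.norm_real, Real.norm_of_nonneg hg]
  calc g * ‖zv I p N r‖ * Real.sqrt (I.μ.real p.M)
      ≤ g * Real.sqrt (I.μ.real (N r)) * 1 :=
        mul_le_mul (mul_le_mul_of_nonneg_left (norm_zv h hN hr) hg) (sqrt_mass_le_one _)
          (Real.sqrt_nonneg _) (by positivity)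
    _ = _ := mul_one _

theorem abs_re_inner_X_sub_le {v w : H} (hv : ‖v‖ ≤ 1) (hw : ‖w‖ ≤ 1) :
    |(⟪v, I.X v⟫_ℂ).re - (⟪w, I.X w⟫_ℂ).re| ≤ 2 * ‖v - w‖ := by
  have e1 : ⟪v, I.X v⟫_ℂ - ⟪w, I.X w⟫_ℂ = ⟪v - w, I.X v⟫_ℂ + ⟪w, I.X (v - w)⟫_ℂ := by
    rw [inner_sub_left, map_sub, inner_sub_right]
    ring
  rw [← Complex.sub_re, e1]
  refine (Complex.abs_re_le_norm _).trans ((norm_add_le _ _).trans ?_)
  have h1 := norm_inner_le_norm (𝕜 := ℂ) (v - w) (I.X v)
  have h2 := norm_inner_le_norm (𝕜 := ℂ) w (I.X (v - w))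
  rw [norm_X_apply] at h1 h2
  have h3 : ‖v - w‖ * ‖v‖ ≤ ‖v - w‖ * 1 := mul_le_mul_of_nonneg_left hv (norm_nonneg _)
  have h4 : ‖w‖ * ‖v - w‖ ≤ 1 * ‖v - w‖ := mul_le_mul_of_nonneg_right hw (norm_nonneg _)
  linarith

theorem abs_Jb_sub_le (h : Hyp I S L p) (hN : Cells I p R N) (hg : 0 ≤ g) {r : ℕ} (hr : r < R) :
    |Jb I p g N (Bs I p g N r) r - I.μ.real p.M| ≤ 4 * (g * Real.sqrt (I.μ.real (N r))) +
      2 * ‖((Bs I p g N r : UH H) : H →L[ℂ] H) (I.P p.M I.Om) - I.P p.M I.Om‖ := by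
  set w : H := I.P p.M I.Om with hw
  set B : UH H := Bs I p g N r with hB
  set v : H := yW I ((g : ℂ) • zv I p N r) ((B : H →L[ℂ] H) w) with hv
  have e1 : I.μ.real p.M = (⟪w, I.X w⟫_ℂ).re := by
    rw [hw, X_P_Om h.mM, ← norm_sq_eq_re_inner, norm_P_Om_sq h.mM]
  have e2 : ‖v‖ ≤ 1 := by
    have e3 : ‖v‖ = ‖w‖ := by
      have := norm_U_apply (yWU I ((g : ℂ) • zv I p N r) * B) w
      exact this
    rw [e3]
    exact norm_P_Om_le_one h.mM
  rw [Jb_eq h (PC_Bs r), e1]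
  refine (abs_re_inner_X_sub_le e2 (norm_P_Om_le_one h.mM)).trans ?_
  have e4 : v - w = (v - (B : H →L[ℂ] H) w) + ((B : H →L[ℂ] H) w - w) := by abel
  rw [e4]
  have e5 := norm_add_le (v - (B : H →L[ℂ] H) w) ((B : H →L[ℂ] H) w - w)
  have e6 := norm_gz_sub_le h hN hg hr
  linarith

/-! ### the bath kick -/

theorem P_hv_add_u (h : Hyp I S L p) (hN : Cells I p R N) {r : ℕ} (hr : r < R) (k : Fin p.n) :
    I.P p.M ((p.a k : ℂ) • hv I p N r + p.u k) = 0 := by
  rw [map_add, map_smul, span_P_zero h.bath (h.hu k), add_zero, ← P_hv h hN hr,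
    ← mul_apply_eq_comp, P_disj h.mM (hN.mAN h hr) (Cells.dAM h).symm, zero_apply, smul_zero]

theorem norm_W_add_sub {v q x : H} (h : (⟪v, q⟫_ℂ).im = 0) :
    ‖I.W (v + q) x - I.W v x‖ = ‖I.W q x - x‖ := by
  rw [← W_mul_of_im h, mul_apply_eq_comp, ← map_sub, norm_W]

theorem norm_sW_add_sub_le {v q x : H} (h : (⟪v, q⟫_ℂ).im = 0) :
    ‖I.sW (v + q) x - I.sW v x‖ ≤ ‖I.W q x - x‖ := by
  have h1 : I.sW (v + q) x - I.sW v x = (-(Complex.I / 2)) •
      ((I.W (v + q) x - I.W v x) - (I.W (-v + -q) x - I.W (-v) x)) := by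
    rw [ILSys.sW, ILSys.sW, smul_apply, smul_apply, sub_apply, sub_apply, ← smul_sub, neg_add]
    congr 1
    abel
  rw [h1, norm_smul]
  have h2 : ‖(-(Complex.I / 2) : ℂ)‖ = 1 / 2 := by simp
  rw [h2]
  have h3 := norm_sub_le (I.W (v + q) x - I.W v x) (I.W (-v + -q) x - I.W (-v) x)
  rw [norm_W_add_sub h, norm_W_add_sub (im_neg_left (im_neg_right h)), norm_W_neg_sub] at h3
  linarith

theorem norm_snS_fb_le (h : Hyp I S L p) (hN : Cells I p R N) {B : UH H}
    (hB : PC I (B : H →L[ℂ] H)) {r : ℕ} (hr : r < R) :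
    ‖pV I (N r) p.U (snS I p.c (fb I p g N B r))‖ ≤
      (∑ k, |p.c k|) * (|τb I p g N B r| * Real.sqrt (I.μ.real (N r))) := by
  rw [pV_eq (hN.m hr) h.PCU (PC.snS _ _), norm_star_U_apply]
  set x : H := (p.U : H →L[ℂ] H) (I.P (N r) I.Om) with hx
  set τ : ℝ := τb I p g N B r with hτ
  set q : H := qb I p g N B r with hq
  have hPq : I.P p.M q = q := P_qb h B r
  have e1 : snS I p.c (fb I p g N B r) x =
      ∑ k, (p.c k : ℂ) • (I.sW (((p.a k : ℂ) • hv I p N r + p.u k) + ((p.b k * τ : ℝ) : ℂ) • q) x -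
        I.sW ((p.a k : ℂ) • hv I p N r + p.u k) x) := by
    have e2 : snS I p.c (fun k => (p.a k : ℂ) • hv I p N r + p.u k) x = 0 := by
      rw [h.van, zero_apply]
    rw [← sub_zero (snS I p.c (fb I p g N B r) x), ← e2, snS, snS, sum_apply,
      sum_apply, ← Finset.sum_sub_distrib]
    refine Finset.sum_congr rfl fun k _ => ?_
    rw [smul_apply, smul_apply, smul_sub, fb]
    congr 4
    abel
  rw [e1, Finset.sum_mul]
  refine (norm_sum_le _ _).trans (Finset.sum_le_sum fun k _ => ?_)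
  rw [norm_smul, Complex.norm_real, Real.norm_eq_abs]
  refine mul_le_mul_of_nonneg_left ?_ (abs_nonneg _)
  have hPbq : I.P p.M (((p.b k * τ : ℝ) : ℂ) • q) = ((p.b k * τ : ℝ) : ℂ) • q := by
    rw [map_smul, hPq]
  have hz : ⟪(p.a k : ℂ) • hv I p N r + p.u k, ((p.b k * τ : ℝ) : ℂ) • q⟫_ℂ = 0 :=
    inner_of_P_zero h.mM (P_hv_add_u h hN hr k) hPbq
  refine (norm_sW_add_sub_le (by rw [hz, Complex.zero_im])).trans ?_
  rw [hx, norm_W_sub_comm (h.UW _ hPbq)]
  refine (norm_W_sub_P_Om_le (hN.m hr) _).trans ?_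
  refine mul_le_mul_of_nonneg_right ?_ (Real.sqrt_nonneg _)
  rw [norm_smul, Complex.norm_real, Real.norm_eq_abs, abs_mul]
  have hb : |p.b k| = 1 := by rcases h.hb k with e | e <;> rw [e] <;> simp
  rw [hb, one_mul]
  calc |τ| * ‖q‖ ≤ |τ| * 1 := mul_le_mul_of_nonneg_left (norm_qb h hB r) (abs_nonneg _)
    _ = |τ| := mul_one _

theorem norm_ζb_le (h : Hyp I S L p) (hN : Cells I p R N) {B : UH H}
    (hB : PC I (B : H →L[ℂ] H)) {r : ℕ} (hr : r < R) :
    ‖ζb I p g N B r‖ ≤ |p.t| * |τb I p g N B r| ^ 2 * (∑ k, |p.c k|) *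
      Real.sqrt (I.μ.real (N r)) := by
  rw [ζb, norm_smul, Complex.norm_real, Real.norm_eq_abs, abs_neg, abs_mul]
  calc |p.t| * |τb I p g N B r| * ‖pV I (N r) p.U (snS I p.c (fb I p g N B r))‖
      ≤ |p.t| * |τb I p g N B r| *
        ((∑ k, |p.c k|) * (|τb I p g N B r| * Real.sqrt (I.μ.real (N r)))) :=
        mul_le_mul_of_nonneg_left (norm_snS_fb_le h hN hB hr) (by positivity)
    _ = _ := by ring

/-! ### the change of the `Y` vector -/

theorem norm_yb_sub_y2b (h : Hyp I S L p) (hN : Cells I p R N) {r : ℕ} (hr : r < R) :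
    ‖yb I p (Bs I p g N r) - y2b I p g N (Bs I p g N r) r‖ ≤
      4 * ‖ζb I p g N (Bs I p g N r) r‖ := by
  set B : UH H := Bs I p g N r with hB
  have hBP : PC I (B : H →L[ℂ] H) := PC_Bs r
  set ζ : H := ζb I p g N B r with hζ
  set w : H := I.P p.M I.Om with hw
  set G : UH H := yWU I ((g : ℂ) • zv I p N r) * B with hG
  have hGP : PC I (G : H →L[ℂ] H) := (PC.yW _).mul hBP
  have e1 : yb I p B = star (G : H →L[ℂ] H) (I.Y ((G : H →L[ℂ] H) w)) := by
    rw [yb, pV_eq h.mM hBP PC.Y]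
    exact star_mul_comm_apply (Y_yW _) _
  have e2 : y2b I p g N B r = star (G : H →L[ℂ] H) (star (I.zW ζ) (I.Y (I.zW ζ
      ((G : H →L[ℂ] H) w)))) := by
    rw [y2b, pV_eq h.mM ((PC.zW _).mul hGP) PC.Y]
    have e3 : star ((zWU I (ζb I p g N B r) * (yWU I ((g : ℂ) • zv I p N r) * B) : UH H) :
      H →L[ℂ] H) = star (G : H →L[ℂ] H) * star (I.zW ζ) := by
      rw [coe_mul, star_mul]
      rfl
    rw [e3]
    rfl
  set v : H := (G : H →L[ℂ] H) w with hv
  rw [e1, e2, ← map_sub, norm_star_U_apply]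
  have e4 : I.Y v - star (I.zW ζ) (I.Y (I.zW ζ v)) =
      star (I.zW ζ) ((I.zW ζ (I.Y v) - I.Y v) + (I.Y v - I.Y (I.zW ζ v))) := by
    have e5 : star (I.zW ζ) (I.zW ζ (I.Y v)) = I.Y v := by
      rw [← mul_apply_eq_comp, star_zW, zW_neg_mul]; rfl
    rw [sub_add_sub_cancel, map_sub, e5]
  have e6 : ∀ x : H, ‖star (I.zW ζ) x‖ = ‖x‖ := fun x => norm_star_U_apply (zWU I ζ) x
  rw [e4, e6]
  have e7 : ‖I.zW ζ (I.Y v) - I.Y v‖ ≤ 2 * ‖I.W ζ v - v‖ := by
    refine (norm_zW_sub_le _ _).trans (le_of_eq ?_)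
    have : I.W ζ (I.Y v) = I.Y (I.W ζ v) := by
      rw [← mul_apply_eq_comp, (W_Y ζ).eq, mul_apply_eq_comp]
    rw [this, ← map_sub, norm_Y_apply]
  have e8 : ‖I.Y v - I.Y (I.zW ζ v)‖ ≤ 2 * ‖I.W ζ v - v‖ := by
    rw [← map_sub, norm_Y_apply, norm_sub_rev]
    exact norm_zW_sub_le _ _
  have e9 : ‖I.W ζ v - v‖ = ‖I.W ζ w - w‖ := by
    rw [hv]
    refine norm_W_sub_comm ?_
    exact (commute_W_yW (im_coe_smul_right (im_ζb_zv h hN B hr hr) g)).mul_right
      (commute_ζ_Bs h hN hr B)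
  have e10 : ‖I.W ζ w - w‖ ≤ ‖ζ‖ := by
    refine (norm_W_sub_P_Om_le h.mM _).trans ?_
    calc ‖ζ‖ * Real.sqrt (I.μ.real p.M) ≤ ‖ζ‖ * 1 :=
          mul_le_mul_of_nonneg_left (sqrt_mass_le_one _) (norm_nonneg _)
      _ = _ := mul_one _
  have e11 := norm_add_le (I.zW ζ (I.Y v) - I.Y v) (I.Y v - I.Y (I.zW ζ v))
  linarith

/-! ### the estimates -/

/-- the constant of the bath kicks -/
def kap (I : ILSys Λ H) (p : Par Λ H) : ℝ :=
  |p.t| * (Real.pi / (2 * I.μ.real p.M)) ^ 2 * ∑ k, |p.c k|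

theorem kap_nonneg : 0 ≤ kap I p := by
  have : 0 ≤ ∑ k, |p.c k| := Finset.sum_nonneg fun _ _ => abs_nonneg _
  unfold kap
  positivity

theorem bath_est (h : Hyp I S L p) (hN : Cells I p R N) (hg : 0 < g) {m : ℝ}
    (hm : ∀ r < R, Real.sqrt (I.μ.real (N r)) ≤ m)
    (hsmall : 4 * g * m + 8 * R * (kap I p * m / g ^ 2) ≤ I.μ.real p.M / 2) :
    ∀ r < R, I.μ.real p.M / 2 ≤ Jb I p g N (Bs I p g N r) r ∧
      |τb I p g N (Bs I p g N r) r| ≤ Real.pi / (2 * I.μ.real p.M) / g ∧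
      ‖ζb I p g N (Bs I p g N r) r‖ ≤ kap I p * m / g ^ 2 ∧
      ‖yb I p (Bs I p g N r) - y2b I p g N (Bs I p g N r) r‖ ≤ 4 * (kap I p * m / g ^ 2) := by
  intro r
  induction r using Nat.strong_induction_on with
  | _ r ih =>
  intro hr
  have hpos := h.pos
  have hm0 : 0 ≤ m := (Real.sqrt_nonneg _).trans (hm r hr)
  set κ : ℝ := kap I p * m / g ^ 2 with hκ
  have hκ0 : 0 ≤ κ := by
    have := kap_nonneg (I := I) (p := p)
    positivity
  have hdev : ‖((Bs I p g N r : UH H) : H →L[ℂ] H) (I.P p.M I.Om) - I.P p.M I.Om‖ ≤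
      2 * (R * κ) := by
    refine (norm_Bs_sub_le h hN hr.le _).trans ?_
    refine mul_le_mul_of_nonneg_left ?_ zero_le_two
    calc ∑ s ∈ Finset.range r, ‖I.W (ζb I p g N (Bs I p g N s) s) (I.P p.M I.Om) - I.P p.M I.Om‖
        ≤ ∑ s ∈ Finset.range r, κ := by
          refine Finset.sum_le_sum fun s hs => ?_
          have hs' := Finset.mem_range.mp hs
          refine (norm_W_sub_P_Om_le h.mM _).trans ?_
          calc ‖ζb I p g N (Bs I p g N s) s‖ * Real.sqrt (I.μ.real p.M) ≤ κ * 1 :=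
                mul_le_mul (ih s hs' (hs'.trans hr)).2.2.1 (sqrt_mass_le_one _)
                  (Real.sqrt_nonneg _) hκ0
            _ = κ := mul_one _
      _ = r * κ := by rw [Finset.sum_const, Finset.card_range, nsmul_eq_mul]
      _ ≤ R * κ := mul_le_mul_of_nonneg_right (by exact_mod_cast hr.le) hκ0
  have hJ : I.μ.real p.M / 2 ≤ Jb I p g N (Bs I p g N r) r := by
    have h1 := abs_Jb_sub_le h hN hg.le hr
    have h2 := (abs_le.mp h1).1
    have h3 : g * Real.sqrt (I.μ.real (N r)) ≤ g * m := mul_le_mul_of_nonneg_left (hm r hr) hg.le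
    have h4 : 0 ≤ (R : ℝ) * κ := by positivity
    have h5 : 8 * (R : ℝ) * κ = 8 * (R * κ) := by ring
    rw [h5] at hsmall
    linarith
  have hτ : |τb I p g N (Bs I p g N r) r| ≤ Real.pi / (2 * I.μ.real p.M) / g := by
    have hJ0 : 0 < Jb I p g N (Bs I p g N r) r := by linarith
    rw [τb, abs_of_nonneg (by positivity), div_div]
    refine div_le_div_of_nonneg_left Real.pi_pos.le (by positivity) ?_
    nlinarith
  have hζ : ‖ζb I p g N (Bs I p g N r) r‖ ≤ κ := by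
    refine (norm_ζb_le h hN (PC_Bs r) hr).trans ?_
    have h1 : |τb I p g N (Bs I p g N r) r| ^ 2 ≤ (Real.pi / (2 * I.μ.real p.M) / g) ^ 2 :=
      pow_le_pow_left₀ (abs_nonneg _) hτ 2
    have h2 : 0 ≤ ∑ k, |p.c k| := Finset.sum_nonneg fun _ _ => abs_nonneg _
    calc |p.t| * |τb I p g N (Bs I p g N r) r| ^ 2 * (∑ k, |p.c k|) * Real.sqrt (I.μ.real (N r))
        ≤ |p.t| * (Real.pi / (2 * I.μ.real p.M) / g) ^ 2 * (∑ k, |p.c k|) * m := by
          have := hm r hr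
          gcongr
      _ = κ := by
          rw [hκ, kap]
          field_simp
  exact ⟨hJ, hτ, hζ, (norm_yb_sub_y2b h hN hr).trans (by linarith)⟩

end

end Crest.Agent.R339.Cell
end
end

-- ▼ part R339/Cell373B
section

/-!
# Choice of the cells and limit of the bath (R339, label induction, block G3)
-/

set_option autoImplicit false
set_option linter.unusedSectionVars false
set_option linter.unusedVariables false

noncomputable section

open scoped InnerProductSpace Topology ComplexConjugate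
open Filter MeasureTheory

namespace Crest.Agent.R339.Cell

open Crest.Agent.R339.Li Crest.Agent.R339.Li.ILSys Crest.Agent.R339.MF Crest.Agent.R339.Cel

variable {Λ H : Type*} [MeasurableSpace Λ] [NormedAddCommGroup H] [InnerProductSpace ℂ H]
  [CompleteSpace H] {I : ILSys Λ H} {S : Set Λ} {L : Set H} {p : Par Λ H}

/-- data of the approximating recursions -/
structure Seq (I : ILSys Λ H) (p : Par Λ H) (R : ℕ → ℕ) (g m : ℕ → ℝ) (N : ℕ → ℕ → Set Λ) :
    Prop where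
  gpos : ∀ n, 0 < g n
  cells : ∀ n, Cells I p (R n) (N n)
  mass : ∀ n, ∀ r < R n, Real.sqrt (I.μ.real (N n r)) ≤ m n
  m_lim : Tendsto m atTop (𝓝 0)
  g_lim : Tendsto g atTop atTop
  gm_lim : Tendsto (fun n => g n * m n) atTop (𝓝 0)
  Rm_lim : Tendsto (fun n => (R n : ℝ) * (m n / g n ^ 2)) atTop (𝓝 0)

theorem exists_seq (h : Hyp I S L p) : ∃ (R : ℕ → ℕ) (g m : ℕ → ℝ) (N : ℕ → ℕ → Set Λ),
    Seq I p R g m N := by
  obtain ⟨C, hC⟩ := I.Cl_div
  have hR : ∀ n : ℕ, 0 < (n + 1) ^ 6 := fun n => by positivity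
  choose N hcl hdisj hU hmass using fun n : ℕ => hC ((n + 1) ^ 6) (hR n)
  have hn : ∀ n : ℕ, (0 : ℝ) < (n : ℝ) + 1 := fun n => by positivity
  have hlim1 : Tendsto (fun n : ℕ => (1 : ℝ) / ((n : ℝ) + 1)) atTop (𝓝 0) :=
    tendsto_one_div_add_atTop_nhds_zero_nat
  have hlim : ∀ c : ℝ, Tendsto (fun n : ℕ => c * (1 / ((n : ℝ) + 1))) atTop (𝓝 0) := fun c => by
    simpa using hlim1.const_mul c
  refine ⟨fun n => (n + 1) ^ 6, fun n => ((n : ℝ) + 1) ^ 2,
    fun n => Real.sqrt |C| / ((n : ℝ) + 1) ^ 3, fun n r => N n r ∩ p.Mn, ?_, ?_, ?_, ?_, ?_, ?_, ?_⟩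
  · intro n
    have := hn n
    positivity
  · intro n
    refine ⟨⟨fun r _ => (I.Cl_meas _ (hcl n r)).inter h.mMn, fun r _ s _ hrs => ?_, ?_⟩,
      fun r _ => I.Cl_inter _ _ (hcl n r) h.clMn⟩
    · exact ((hdisj n hrs).mono Set.inter_subset_left Set.inter_subset_left)
    · have e1 : ⋃ r ∈ Finset.range ((n + 1) ^ 6), N n r ∩ p.Mn =
          (⋃ r < (n + 1) ^ 6, N n r) ∩ p.Mn := by
        ext x
        simp only [Finset.mem_range, Set.mem_iUnion, Set.mem_inter_iff, exists_prop]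
        constructor
        · rintro ⟨r, hr, h1, h2⟩
          exact ⟨⟨r, hr, h1⟩, h2⟩
        · rintro ⟨⟨r, hr, h1⟩, h2⟩
          exact ⟨r, hr, h1, h2⟩
      rw [e1, hU n, Set.univ_inter]
  · intro n r _
    have h1 : I.μ.real (N n r ∩ p.Mn) ≤ |C| / (((n : ℝ) + 1) ^ 3) ^ 2 := by
      refine (measureReal_mono Set.inter_subset_left).trans ((hmass n r).trans ?_)
      have e1 : (((n + 1) ^ 6 : ℕ) : ℝ) = (((n : ℝ) + 1) ^ 3) ^ 2 := by
        push_cast
        ring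
      rw [e1]
      have := hn n
      exact div_le_div_of_nonneg_right (le_abs_self C) (by positivity)
    have h2 := Real.sqrt_le_sqrt h1
    have h3 : 0 ≤ ((n : ℝ) + 1) ^ 3 := by
      have := hn n
      positivity
    rwa [Real.sqrt_div (abs_nonneg _), Real.sqrt_sq h3] at h2
  · refine squeeze_zero (fun n => ?_) (fun n => ?_) (hlim (Real.sqrt |C|))
    · have := hn n
      positivity
    · have h1 := hn n
      rw [mul_one_div]
      refine div_le_div_of_nonneg_left (Real.sqrt_nonneg _) h1 ?_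
      have h2 : (1 : ℝ) ≤ (n : ℝ) + 1 := by
        have : (0 : ℝ) ≤ n := Nat.cast_nonneg n
        linarith
      exact le_self_pow₀ h2 (by norm_num)
  · have h1 : Tendsto (fun n : ℕ => (n : ℝ) + 1) atTop atTop :=
      tendsto_atTop_add_const_right _ _ tendsto_natCast_atTop_atTop
    exact (tendsto_pow_atTop two_ne_zero).comp h1
  · refine (hlim (Real.sqrt |C|)).congr fun n => ?_
    have h1 := hn n
    field_simp
  · refine (hlim (Real.sqrt |C|)).congr fun n => ?_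
    have h1 := hn n
    push_cast
    field_simp

section

variable {R : ℕ → ℕ} {g m : ℕ → ℝ} {N : ℕ → ℕ → Set Λ}

theorem Seq.small (h : Hyp I S L p) (hs : Seq I p R g m N) :
    ∀ᶠ n in atTop, 4 * g n * m n + 8 * R n * (kap I p * m n / g n ^ 2) ≤ I.μ.real p.M / 2 := by
  have h1 : Tendsto (fun n => 4 * (g n * m n) + 8 * kap I p * ((R n : ℝ) * (m n / g n ^ 2)))
      atTop (𝓝 (4 * 0 + 8 * kap I p * 0)) :=
    (hs.gm_lim.const_mul 4).add (hs.Rm_lim.const_mul _)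
  rw [mul_zero, mul_zero, add_zero] at h1
  have h2 : 0 < I.μ.real p.M / 2 := half_pos h.pos
  filter_upwards [h1.eventually_lt_const h2] with n hn
  refine le_of_eq_of_le ?_ hn.le
  ring

/-- all the bath estimates hold eventually -/
theorem Seq.bath (h : Hyp I S L p) (hs : Seq I p R g m N) : ∀ᶠ n in atTop, ∀ r < R n,
    I.μ.real p.M / 2 ≤ Jb I p (g n) (N n) (Bs I p (g n) (N n) r) r ∧
      |τb I p (g n) (N n) (Bs I p (g n) (N n) r) r| ≤ Real.pi / (2 * I.μ.real p.M) / g n ∧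
      ‖ζb I p (g n) (N n) (Bs I p (g n) (N n) r) r‖ ≤ kap I p * m n / g n ^ 2 ∧
      ‖yb I p (Bs I p (g n) (N n) r) - y2b I p (g n) (N n) (Bs I p (g n) (N n) r) r‖ ≤
        4 * (kap I p * m n / g n ^ 2) := by
  filter_upwards [hs.small h] with n hn
  exact bath_est h (hs.cells n) (hs.gpos n) (hs.mass n) hn




theorem norm_W_sub_le_of_nice {x : H} {C : ℝ} (hC0 : 0 ≤ C)
    (hC : ∀ A : Set Λ, MeasurableSet A → ∀ d : H,
      ‖I.W d (I.P A x) - I.P A x‖ ^ 2 ≤ C * ‖d‖ ^ 2 * I.μ.real A) (d : H) :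
    ‖I.W d x - x‖ ≤ Real.sqrt C * ‖d‖ := by
  have h1 := hC Set.univ MeasurableSet.univ d
  rw [I.P_univ, one_apply_eq_self] at h1
  have h2 : I.μ.real Set.univ ≤ 1 := measureReal_le_one
  have h3 : ‖I.W d x - x‖ ^ 2 ≤ (Real.sqrt C * ‖d‖) ^ 2 := by
    rw [mul_pow, Real.sq_sqrt hC0]
    refine h1.trans ?_
    calc C * ‖d‖ ^ 2 * I.μ.real Set.univ ≤ C * ‖d‖ ^ 2 * 1 :=
          mul_le_mul_of_nonneg_left h2 (by positivity)
      _ = _ := mul_one _
  exact (pow_le_pow_iff_left₀ (norm_nonneg _) (by positivity) two_ne_zero).mp h3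

/-- **the bath returns to its initial state** -/
theorem Seq.Bs_lim (h : Hyp I S L p) (hs : Seq I p R g m N) :
    BS atTop (fun n => ((Bs I p (g n) (N n) (R n) : UH H) : H →L[ℂ] H)) 1 := by
  refine ⟨⟨1, Eventually.of_forall fun n =>
    ContinuousLinearMap.opNorm_le_bound _ zero_le_one fun x => by rw [norm_U_apply, one_mul]⟩,
    fun x => ?_⟩
  rw [Metric.tendsto_nhds]
  intro ε hε
  obtain ⟨y, ⟨C, hC0, hC⟩, hxy⟩ := exists_nice_near I x (ε := ε / 3) (by positivity)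
  have h1 : Tendsto (fun n => 2 * (Real.sqrt C * kap I p) * ((R n : ℝ) * (m n / g n ^ 2)))
      atTop (𝓝 (2 * (Real.sqrt C * kap I p) * 0)) := hs.Rm_lim.const_mul _
  rw [mul_zero] at h1
  have h2 : (0 : ℝ) < ε / 3 := by positivity
  filter_upwards [h1.eventually_lt_const h2, hs.bath h] with n hn hb
  set T : UH H := Bs I p (g n) (N n) (R n) with hT
  have h3 : ‖(T : H →L[ℂ] H) y - y‖ < ε / 3 := by
    refine lt_of_le_of_lt (norm_Bs_sub_le h (hs.cells n) le_rfl y) (lt_of_le_of_lt ?_ hn)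
    calc 2 * ∑ s ∈ Finset.range (R n), ‖I.W (ζb I p (g n) (N n) (Bs I p (g n) (N n) s) s) y - y‖
        ≤ 2 * ∑ s ∈ Finset.range (R n), Real.sqrt C * (kap I p * m n / g n ^ 2) := by
          refine mul_le_mul_of_nonneg_left (Finset.sum_le_sum fun s hs' => ?_) zero_le_two
          exact (norm_W_sub_le_of_nice hC0 hC _).trans
            (mul_le_mul_of_nonneg_left (hb s (Finset.mem_range.mp hs')).2.2.1
              (Real.sqrt_nonneg _))
      _ = 2 * (Real.sqrt C * kap I p) * ((R n : ℝ) * (m n / g n ^ 2)) := by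
          rw [Finset.sum_const, Finset.card_range, nsmul_eq_mul]
          ring
  have h4 : (T : H →L[ℂ] H) x - (1 : H →L[ℂ] H) x =
      (T : H →L[ℂ] H) (x - y) + ((T : H →L[ℂ] H) y - y) + (y - x) := by
    rw [map_sub, one_apply_eq_self]
    abel
  rw [dist_eq_norm, h4]
  have h5 : ‖(T : H →L[ℂ] H) (x - y)‖ < ε / 3 := by rwa [norm_U_apply]
  have h6 : ‖y - x‖ < ε / 3 := by rwa [norm_sub_rev]
  calc ‖(T : H →L[ℂ] H) (x - y) + ((T : H →L[ℂ] H) y - y) + (y - x)‖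
      ≤ ‖(T : H →L[ℂ] H) (x - y)‖ + ‖(T : H →L[ℂ] H) y - y‖ + ‖y - x‖ := norm_add₃_le
    _ < ε := by linarith

end

end Crest.Agent.R339.Cell
end
end

-- ▼ part R339/Cell220J

/-!
# (G3): the cell limit (R339, label induction)
-/

set_option autoImplicit false
set_option linter.unusedSectionVars false
set_option linter.unusedVariables false

noncomputable section

open scoped InnerProductSpace Topology ComplexConjugate
open Filter MeasureTheory

namespace Crest.Agent.R339.Cell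

open Crest.Agent.R339.Li Crest.Agent.R339.Li.ILSys Crest.Agent.R339.MF Crest.Agent.R339.Cel

variable {Λ H : Type*} [MeasurableSpace Λ] [NormedAddCommGroup H] [InnerProductSpace ℂ H]
  [CompleteSpace H] {I : ILSys Λ H} {S : Set Λ} {L : Set H} {cc : ℝ} {p : Par Λ H}

theorem cells_of_data (hmft : Mft I S L cc) (h : Hyp I S L p) (hG : I.Good S L cc p.U)
    {R : ℕ → ℕ} {g m : ℕ → ℝ} {N : ℕ → ℕ → Set Λ} (hg : ∀ n, 0 < g n)
    (hN : ∀ n, Cells I p (R n) (N n)) (hm : ∀ n, ∀ r < R n, √(I.μ.real (N n r)) ≤ m n)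
    (hm0 : Tendsto m atTop (𝓝 0)) (hg0 : Tendsto g atTop atTop)
    (hsmall : ∀ n, 4 * g n * m n + 8 * R n * (kap I p * m n / g n ^ 2) ≤ I.μ.real p.M / 2)
    (hbath : ∀ x, Tendsto (fun n => (Bs I p (g n) (N n) (R n) : H →L[ℂ] H) x) atTop (𝓝 x))
    {V : UH H} (hV : (V : H →L[ℂ] H) = V0 I p) : I.Good S L cc V := by
  have est := fun n => bath_est h (hN n) (hg n) (hm n) (hsmall n)
  have hinv : Tendsto (fun n => (g n)⁻¹) atTop (𝓝 0) := tendsto_inv_atTop_zero.comp hg0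
  have hL : Lim I p atTop g R N := by
    refine ⟨hN, ⟨m, hm0, hm⟩, ?_, ?_, hbath⟩
    · refine Sm.of_norm_le (δ := fun n => Real.pi / (2 * I.μ.real p.M) * (g n)⁻¹) ?_ ?_
      · simpa using hinv.const_mul (Real.pi / (2 * I.μ.real p.M))
      · intro n r hr
        obtain ⟨_, h2, _, _⟩ := est n r hr
        rw [norm_smul, Complex.norm_real, Real.norm_eq_abs]
        calc |τb I p (g n) (N n) (Bs I p (g n) (N n) r) r| *
              ‖qb I p (g n) (N n) (Bs I p (g n) (N n) r) r‖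
            ≤ (Real.pi / (2 * I.μ.real p.M) / g n) * 1 :=
              mul_le_mul h2 (norm_qb h (PC_Bs r) r) (norm_nonneg _) ((abs_nonneg _).trans h2)
          _ = Real.pi / (2 * I.μ.real p.M) * (g n)⁻¹ := by rw [mul_one, div_eq_mul_inv]
    · refine Sm.of_norm_le (δ := fun n => 4 * kap I p * m n * (g n)⁻¹) ?_ ?_
      · simpa using (hm0.const_mul (4 * kap I p)).mul hinv
      · intro n r hr
        obtain ⟨_, _, _, h4⟩ := est n r hr
        rw [norm_smul, Complex.norm_real, Real.norm_eq_abs, abs_of_pos (hg n)]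
        calc g n * ‖yb I p (Bs I p (g n) (N n) r) - y2b I p (g n) (N n) (Bs I p (g n) (N n) r) r‖
            ≤ g n * (4 * (kap I p * m n / g n ^ 2)) := mul_le_mul_of_nonneg_left h4 (hg n).le
          _ = 4 * kap I p * m n * (g n)⁻¹ := by
              have := (hg n).ne'
              field_simp
  have hst : ∀ n, ∃ V : UH H, Str I p (g n) (N n) (R n) (R n) V ∧ I.Good S L cc V := by
    intro n
    refine exists_state hmft h (hN n) (hg n).ne' (fun r hr => ?_) hG (R n) le_rfl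
    obtain ⟨h1, _, _, _⟩ := est n r hr
    have := h.pos
    exact ne_of_gt (lt_of_lt_of_le (by positivity) h1)
  choose W hW hWG using hst
  exact good_of_lim h hL hW hWG hV

/-- **(G3)**: the limit of the cell words -/
theorem cells (hmft : Mft I S L cc) (h : Hyp I S L p) (hG : I.Good S L cc p.U) (V : UH H)
    (hV : (V : H →L[ℂ] H) = I.blk p.Mn (eI (-p.t) (csS I (fun k => p.c k * p.b k)
        (fun k => (p.a k : ℂ) • I.eA p.A p.U + p.u k))) *
      (I.blk p.A (I.zW ((-(p.t : ℂ)) • pV I p.Mn p.U (snS I (fun k => p.c k * p.a k * p.b k)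
        (fun k => (p.a k : ℂ) • I.eA p.A p.U + p.u k)))) * (p.U : H →L[ℂ] H))) :
    I.Good S L cc V := by
  obtain ⟨R, g, m, N, hs⟩ := exists_seq (I := I) h
  obtain ⟨n₀, hn₀⟩ := eventually_atTop.mp (hs.small h)
  have hsh : Tendsto (fun n : ℕ => n + n₀) atTop atTop := tendsto_add_atTop_nat n₀
  exact cells_of_data hmft h hG (R := fun n => R (n + n₀)) (g := fun n => g (n + n₀))
    (m := fun n => m (n + n₀)) (N := fun n => N (n + n₀)) (fun n => hs.gpos _)
    (fun n => hs.cells _) (fun n => hs.mass _) (hs.m_lim.comp hsh) (hs.g_lim.comp hsh)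
    (fun n => hn₀ _ (Nat.le_add_left _ _)) (fun x => ((hs.Bs_lim h).lim x).comp hsh) hV

end Crest.Agent.R339.Cell
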