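import Crest.Agent.R339.MF569A
import Crest.Agent.R339.Li728C
import Crest.Agent.R339.Cel90E
import Crest.Agent.R339.Trig716d
import Crest.Agent.R339.D3Chain
import Crest.Agent.R339.Asm55

-- ▼ part R339/MF569B
section

/-!
# R339, block LI (G1): joint moves of a node word and its two partner classes (helper569)
-/

set_option autoImplicit false
set_option linter.style.haveILetI false
set_option linter.unusedSectionVars false

noncomputable section

open scoped ComplexConjugate InnerProductSpace Topology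
open Filter MeasureTheory NormedSpace

namespace Crest.Agent.R339.MF

open Crest.Agent.R339.Li Crest.Agent.R339.Li.ILSys Crest.Agent.R339.Trot

variable {Λ H : Type*} [MeasurableSpace Λ] [NormedAddCommGroup H] [InnerProductSpace ℂ H]
  [CompleteSpace H]

/-- kick vector `P_N U* c U Om` -/
def kv (I : ILSys Λ H) (N : Set Λ) (U : UH H) (c : H →L[ℂ] H) : H :=
  I.P N (star (U : H →L[ℂ] H) (c ((U : H →L[ℂ] H) I.Om)))

variable {I : ILSys Λ H}

lemma kv_add (N : Set Λ) (U : UH H) (c c' : H →L[ℂ] H) :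
    kv I N U (c + c') = kv I N U c + kv I N U c' := by
  simp [kv]

lemma kv_smul (N : Set Λ) (U : UH H) (a : ℂ) (c : H →L[ℂ] H) :
    kv I N U (a • c) = a • kv I N U c := by
  simp [kv]

lemma kv_rsmul (N : Set Λ) (U : UH H) (a : ℝ) (c : H →L[ℂ] H) :
    kv I N U (a • c) = (a : ℂ) • kv I N U c := by
  rw [← kv_smul]; rfl

lemma kv_zero (N : Set Λ) (U : UH H) : kv I N U 0 = 0 := by simp [kv]

lemma kv_Z (N : Set Λ) (U : UH H) : kv I N U I.Z = I.eA N U := rfl

lemma tendsto_kv (N : Set Λ) (U : UH H) {α : Type*} {l : Filter α} {c : α → H →L[ℂ] H}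
    {c₀ : H →L[ℂ] H} (hc : Tendsto c l (𝓝 c₀)) :
    Tendsto (fun i => kv I N U (c i)) l (𝓝 (kv I N U c₀)) := by
  have h1 : Tendsto (fun i => (c i) ((U : H →L[ℂ] H) I.Om)) l
      (𝓝 (c₀ ((U : H →L[ℂ] H) I.Om))) :=
    ((ContinuousLinearMap.apply ℂ H ((U : H →L[ℂ] H) I.Om)).continuous.tendsto _).comp hc
  exact ((I.P N).continuous.tendsto _).comp
    (((star (U : H →L[ℂ] H)).continuous.tendsto _).comp h1)

/-- the kick vector only depends on the block of `U` on `N` -/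
lemma kv_congr {N : Set Λ} (hN : MeasurableSet N) {U V g : UH H} (hU : PC I (U : H →L[ℂ] H))
    (hV : PC I (V : H →L[ℂ] H)) (hg : PC I (g : H →L[ℂ] H)) {c : H →L[ℂ] H} (hc : PC I c)
    (h : I.P N * (V : H →L[ℂ] H) = I.P N * ((g : H →L[ℂ] H) * U)) :
    kv I N V c = kv I N U (star (g : H →L[ℂ] H) * (c * (g : H →L[ℂ] H))) := by
  have hs : star (V : H →L[ℂ] H) * I.P N = star (U : H →L[ℂ] H) * (star (g : H →L[ℂ] H) * I.P N) := by
    have := congrArg Star.star h
    rw [star_mul, star_mul, star_mul, I.P_star N hN] at this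
    rw [this]
    rw [mul_assoc]
  have e1 : I.P N * (star (V : H →L[ℂ] H) * (c * V))
      = (star (V : H →L[ℂ] H) * I.P N) * (c * (I.P N * V)) := by
    calc I.P N * (star (V : H →L[ℂ] H) * (c * V))
        = (I.P N * I.P N) * (star (V : H →L[ℂ] H) * (c * V)) := by rw [P_sq hN]
      _ = I.P N * ((I.P N * star (V : H →L[ℂ] H)) * (c * V)) := by simp only [mul_assoc]
      _ = I.P N * ((star (V : H →L[ℂ] H) * I.P N) * (c * V)) := by rw [(hV.star N hN).eq]
      _ = (I.P N * star (V : H →L[ℂ] H)) * ((I.P N * c) * V) := by simp only [mul_assoc]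
      _ = (star (V : H →L[ℂ] H) * I.P N) * ((c * I.P N) * V) := by
          rw [(hV.star N hN).eq, (hc N hN).eq]
      _ = _ := by simp only [mul_assoc]
  have e2 : I.P N * (star (U : H →L[ℂ] H) * ((star (g : H →L[ℂ] H) * (c * g)) * U))
      = (star (U : H →L[ℂ] H) * (star (g : H →L[ℂ] H) * I.P N)) * (c * (I.P N * (g * U))) := by
    calc I.P N * (star (U : H →L[ℂ] H) * ((star (g : H →L[ℂ] H) * (c * g)) * U))
        = (I.P N * I.P N) * (star (U : H →L[ℂ] H) * ((star (g : H →L[ℂ] H) * (c * g)) * U)) := by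
          rw [P_sq hN]
      _ = I.P N * ((I.P N * star (U : H →L[ℂ] H)) * ((star (g : H →L[ℂ] H) * (c * g)) * U)) := by
          simp only [mul_assoc]
      _ = I.P N * ((star (U : H →L[ℂ] H) * I.P N) * ((star (g : H →L[ℂ] H) * (c * g)) * U)) := by
          rw [(hU.star N hN).eq]
      _ = (I.P N * star (U : H →L[ℂ] H)) * ((I.P N * star (g : H →L[ℂ] H)) * (c * (g * U))) := by
          simp only [mul_assoc]
      _ = (star (U : H →L[ℂ] H) * I.P N) * ((star (g : H →L[ℂ] H) * I.P N) * (c * (g * U))) := by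
          rw [(hU.star N hN).eq, (hg.star N hN).eq]
      _ = star (U : H →L[ℂ] H) * ((I.P N * star (g : H →L[ℂ] H)) * ((I.P N * c) * (g * U))) := by
          simp only [mul_assoc]
      _ = star (U : H →L[ℂ] H) * ((star (g : H →L[ℂ] H) * I.P N) * ((c * I.P N) * (g * U))) := by
          rw [(hg.star N hN).eq, (hc N hN).eq]
      _ = _ := by simp only [mul_assoc]
  have e : I.P N * (star (V : H →L[ℂ] H) * (c * V))
      = I.P N * (star (U : H →L[ℂ] H) * ((star (g : H →L[ℂ] H) * (c * g)) * U)) := by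
    rw [e1, e2, hs, h]
  exact congrArg (fun T : H →L[ℂ] H => T I.Om) e

section Monoid

variable {N A M : Set Λ} (hN : MeasurableSet N) (hA : MeasurableSet A) (hM : MeasurableSet M)

/-- the joint move of the node word `g` with partner cocycles `m i = g * c i` -/
def jm (g : UH H) (hg : PC I (g : H →L[ℂ] H)) (m : Fin 2 → (H →L[ℂ] H)) (U : UH H) : UH H :=
  nd I hN g hg * (I.cst hA (kv I N U (star (g : H →L[ℂ] H) * m 0)) *
    (I.cst hM (kv I N U (star (g : H →L[ℂ] H) * m 1)) * U))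

/-- `P_N` sees only the node part -/
lemma P_nd (hN : MeasurableSet N) (g : H →L[ℂ] H) : I.P N * I.blk N g = I.P N * g := by
  rw [ILSys.blk, mul_add, ← mul_assoc, P_sq hN, P_disj hN hN.compl disjoint_compl_right, zero_add]

lemma P_blk_disj (hN : MeasurableSet N) (hA : MeasurableSet A) (hd : Disjoint N A) (b : H →L[ℂ] H) : I.P N * I.blk A b = I.P N := by
  have e : I.P Aᶜ = 1 - I.P A := by rw [← P_compl_add (I := I) hA]; abel
  rw [ILSys.blk, mul_add, ← mul_assoc, P_disj hN hA hd, zero_mul, add_zero, e, mul_sub, mul_one,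
    P_disj hN hA hd, sub_zero]

lemma PC_jm {g : UH H} (hg : PC I (g : H →L[ℂ] H)) (m : Fin 2 → (H →L[ℂ] H)) {U : UH H}
    (hU : PC I (U : H →L[ℂ] H)) : PC I ((jm hN hA hM g hg m U : UH H) : H →L[ℂ] H) :=
  (PC.blk hN hg).mul ((PC.blk hA (PC.zW _)).mul ((PC.blk hM (PC.zW _)).mul hU))

lemma P_jm {g : UH H} (hg : PC I (g : H →L[ℂ] H)) (m : Fin 2 → (H →L[ℂ] H)) {U : UH H}
    (hNA : Disjoint N A) (hNM : Disjoint N M) :
    I.P N * ((jm hN hA hM g hg m U : UH H) : H →L[ℂ] H) = I.P N * ((g : H →L[ℂ] H) * U) := by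
  show I.P N * (I.blk N (g : H →L[ℂ] H) * (I.blk A (I.zW _) * (I.blk M (I.zW _) * U))) = _
  rw [← mul_assoc, P_nd hN, (hg N hN).eq, mul_assoc, ← mul_assoc (I.P N), P_blk_disj hN hA hNA,
    ← mul_assoc (I.P N), P_blk_disj hN hM hNM, ← mul_assoc, ← (hg N hN).eq, mul_assoc]

/-- `e_A` is not changed by a block gate commuting with `Z` on `A` or outside `A` -/
lemma eA_mul_of_comm {B : Set Λ} (hB : MeasurableSet B) {T U : UH H}
    (hU : PC I (U : H →L[ℂ] H))
    (h : I.P B * (star (T : H →L[ℂ] H) * (I.Z * (T : H →L[ℂ] H))) = I.P B * I.Z) :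
    I.eA B (T * U) = I.eA B U := by
  have e : I.P B * (star ((T : H →L[ℂ] H) * (U : H →L[ℂ] H)) * (I.Z * ((T : H →L[ℂ] H) * U)))
      = I.P B * (star (U : H →L[ℂ] H) * (I.Z * U)) := by
    rw [star_mul]
    calc I.P B * (star (U : H →L[ℂ] H) * star (T : H →L[ℂ] H) * (I.Z * ((T : H →L[ℂ] H) * U)))
        = (I.P B * star (U : H →L[ℂ] H)) *
            ((star (T : H →L[ℂ] H) * (I.Z * (T : H →L[ℂ] H))) * U) := by simp only [mul_assoc]
      _ = star (U : H →L[ℂ] H) * ((I.P B * (star (T : H →L[ℂ] H) * (I.Z * (T : H →L[ℂ] H)))) * U) := by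
          rw [(hU.star B hB).eq]; simp only [mul_assoc]
      _ = (star (U : H →L[ℂ] H) * I.P B) * (I.Z * U) := by rw [h]; simp only [mul_assoc]
      _ = _ := by rw [← (hU.star B hB).eq]; simp only [mul_assoc]
  exact congrArg (fun T : H →L[ℂ] H => T I.Om) e

/-- operators which commute with `Z` on `B` (in block form) do not change `e_B` -/
lemma eA_blk_self {B : Set Λ} (hB : MeasurableSet B) {b : UH H} (hb : PC I (b : H →L[ℂ] H))
    (hz : Commute I.Z (b : H →L[ℂ] H)) {U : UH H} (hU : PC I (U : H →L[ℂ] H)) (D : Set Λ)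
    (hD : MeasurableSet D) : I.eA B (nd I hD b hb * U) = I.eA B U := by
  refine eA_mul_of_comm hB hU ?_
  have hz' : Commute I.Z (I.blk D (b : H →L[ℂ] H)) :=
    (P_Z hD.compl).symm.add_right ((P_Z hD).symm.mul_right hz)
  have hu : star ((nd I hD b hb : UH H) : H →L[ℂ] H) * ((nd I hD b hb : UH H) : H →L[ℂ] H) = 1 :=
    star_U_mul_self _
  calc I.P B * (star ((nd I hD b hb : UH H) : H →L[ℂ] H) * (I.Z * ((nd I hD b hb : UH H) : H →L[ℂ] H)))
      = I.P B * (star ((nd I hD b hb : UH H) : H →L[ℂ] H) * (((nd I hD b hb : UH H) : H →L[ℂ] H) * I.Z)) := by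
        have : I.Z * ((nd I hD b hb : UH H) : H →L[ℂ] H) = ((nd I hD b hb : UH H) : H →L[ℂ] H) * I.Z :=
          hz'.eq
        rw [this]
    _ = _ := by rw [← mul_assoc (star _), hu, one_mul]

/-- configurations with prescribed partner fields -/
structure Dom (I : ILSys Λ H) (A M : Set Λ) (h q : H) (U : UH H) : Prop where
  pc : PC I (U : H →L[ℂ] H)
  fA : I.eA A U = h
  fM : I.eA M U = q

lemma Z_zW (f : H) : Commute I.Z (I.zW f) :=
  ((show Commute I.Z I.Ep by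
      show I.Z * I.Ep = I.Ep * I.Z
      rw [ILSys.Z, ILSys.Ep, ← map_mul, ← map_mul, zM, dM_mul, dM_mul]; norm_num).mul_right
      (Z_W _)).add_right
  ((show Commute I.Z I.Em by
      show I.Z * I.Em = I.Em * I.Z
      rw [ILSys.Z, ILSys.Em, ← map_mul, ← map_mul, zM, dM_mul, dM_mul]; norm_num).mul_right (Z_W _))

/-- `zW f` as a unitary -/
def zU (I : ILSys Λ H) (f : H) : UH H :=
  ⟨I.zW f, by rw [Unitary.mem_iff, star_zW]; exact ⟨zW_neg_mul f, zW_mul_neg f⟩⟩

lemma PC_zU (f : H) : PC I ((zU I f : UH H) : H →L[ℂ] H) := PC.zW f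

lemma cst_eq_nd {D : Set Λ} (hD : MeasurableSet D) (f : H) : I.cst hD f = nd I hD (zU I f) (PC_zU f) :=
  rfl

lemma eA_cst {B D : Set Λ} (hB : MeasurableSet B) (hD : MeasurableSet D) (f : H) {U : UH H}
    (hU : PC I (U : H →L[ℂ] H)) : I.eA B (I.cst hD f * U) = I.eA B U := by
  rw [cst_eq_nd]
  exact eA_blk_self hB (PC_zU f) (Z_zW f) hU D hD

lemma eA_nd_disj {B D : Set Λ} (hB : MeasurableSet B) (hD : MeasurableSet D) (hd : Disjoint B D)
    {b : UH H} (hb : PC I (b : H →L[ℂ] H)) {U : UH H} (hU : PC I (U : H →L[ℂ] H)) :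
    I.eA B (nd I hD b hb * U) = I.eA B U := by
  refine eA_mul_of_comm hB hU ?_
  have h1 : I.P B * ((nd I hD b hb : UH H) : H →L[ℂ] H) = I.P B := P_blk_disj hB hD hd _
  have h2 : I.P B * star ((nd I hD b hb : UH H) : H →L[ℂ] H) = I.P B := by
    have e := congrArg Star.star h1
    rw [star_mul, I.P_star B hB] at e
    have e3 : I.P B * star ((nd I hD b hb : UH H) : H →L[ℂ] H)
        = star ((nd I hD b hb : UH H) : H →L[ℂ] H) * I.P B := ((PC.blk hD hb).star B hB).eq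
    rw [e3]; exact e
  rw [← mul_assoc, h2, ← mul_assoc, (P_Z hB).eq, mul_assoc, h1]

lemma Dom.cst {h q : H} {U : UH H} (hU : Dom I A M h q U) (hA : MeasurableSet A)
    (hM : MeasurableSet M) {D : Set Λ} (hD : MeasurableSet D) (f : H) :
    Dom I A M h q (I.cst hD f * U) :=
  ⟨(PC.blk hD (PC.zW f)).mul hU.pc, by rw [eA_cst hA hD f hU.pc]; exact hU.fA,
    by rw [eA_cst hM hD f hU.pc]; exact hU.fM⟩

lemma Dom.nd {h q : H} {U : UH H} (hU : Dom I A M h q U) (hA : MeasurableSet A)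
    (hM : MeasurableSet M) {D : Set Λ} (hD : MeasurableSet D) (hAD : Disjoint A D)
    (hMD : Disjoint M D) {b : UH H} (hb : PC I (b : H →L[ℂ] H)) :
    Dom I A M h q (nd I hD b hb * U) :=
  ⟨(PC.blk hD hb).mul hU.pc, by rw [eA_nd_disj hA hD hAD hb hU.pc]; exact hU.fA,
    by rw [eA_nd_disj hM hD hMD hb hU.pc]; exact hU.fM⟩

lemma Dom_jm {h q : H} {U : UH H} (hU : Dom I A M h q U) (hNA : Disjoint N A) (hNM : Disjoint N M)
    {g : UH H} (hg : PC I (g : H →L[ℂ] H)) (m : Fin 2 → (H →L[ℂ] H)) :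
    Dom I A M h q (jm hN hA hM g hg m U) :=
  ((hU.cst hA hM hM _).cst hA hM hA _).nd hA hM hN hNA.symm hNM.symm hg

lemma grp_aux {G : Type*} [Monoid G] {n n' nn a a' aa m m' mm θa θm U : G}
    (c1 : n' * m = m * n') (c2 : n' * a = a * n') (c3 : a' * m = m * a') (p1 : a * a' = θa * aa)
    (p2 : m * m' = θm * mm) (p0 : n * n' = nn) (d1 : nn * θa = θa * nn) (d2 : nn * θm = θm * nn)
    (d3 : aa * θm = θm * aa) :
    n * (a * (m * (n' * (a' * (m' * U))))) = θa * (θm * (nn * (aa * (mm * U)))) := by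
  calc n * (a * (m * (n' * (a' * (m' * U)))))
      = n * (a * ((m * n') * (a' * (m' * U)))) := by simp only [mul_assoc]
    _ = n * ((a * n') * ((m * a') * (m' * U))) := by rw [← c1]; simp only [mul_assoc]
    _ = (n * n') * ((a * a') * ((m * m') * U)) := by rw [← c2, ← c3]; simp only [mul_assoc]
    _ = (nn * θa) * ((aa * θm) * (mm * U)) := by rw [p0, p1, p2]; simp only [mul_assoc]
    _ = θa * ((nn * θm) * (aa * (mm * U))) := by rw [d1, d3]; simp only [mul_assoc]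
    _ = _ := by rw [d2]; simp only [mul_assoc]

/-- composition law of joint moves, up to class phases -/
lemma jm_jm (hNA : Disjoint N A) (hNM : Disjoint N M) (hAM : Disjoint A M)
    {g g' : UH H} (hg : PC I (g : H →L[ℂ] H)) (hg' : PC I (g' : H →L[ℂ] H))
    {m m' m'' : Fin 2 → (H →L[ℂ] H)} (hm : ∀ i, PC I (m i))
    (hm'' : ∀ i, m'' i = g * m' i + m i * g')
    (hgg : PC I ((g * g' : UH H) : H →L[ℂ] H)) {U : UH H} (hU : PC I (U : H →L[ℂ] H)) :
    ∃ θ θ' : ℝ, jm hN hA hM g hg m (jm hN hA hM g' hg' m' U) =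
      phc (I := I) hA θ * (phc (I := I) hM θ' * jm hN hA hM (g * g') hgg m'' U) := by
  set U1 := jm hN hA hM g' hg' m' U with hU1
  have hkv : ∀ i, kv I N U1 (star (g : H →L[ℂ] H) * m i) =
      kv I N U (star (g' : H →L[ℂ] H) * ((star (g : H →L[ℂ] H) * m i) * (g' : H →L[ℂ] H))) :=
    fun i => kv_congr hN hU (PC_jm hN hA hM hg' m' hU) hg' (hg.star.mul (hm i))
      (P_jm hN hA hM hg' m' hNA hNM)
  have hsum : ∀ i, kv I N U1 (star (g : H →L[ℂ] H) * m i) +
      kv I N U (star (g' : H →L[ℂ] H) * m' i) =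
      kv I N U (star ((g * g' : UH H) : H →L[ℂ] H) * m'' i) := by
    intro i
    rw [hkv, ← kv_add, hm'']
    congr 1
    show _ = star ((g : H →L[ℂ] H) * (g' : H →L[ℂ] H)) * _
    rw [star_mul, mul_add]
    have e1 : star (g' : H →L[ℂ] H) * star (g : H →L[ℂ] H) * ((g : H →L[ℂ] H) * m' i)
        = star (g' : H →L[ℂ] H) * m' i := by
      rw [mul_assoc, ← mul_assoc (star (g : H →L[ℂ] H)), star_U_mul_self, one_mul]
    rw [e1]
    simp only [mul_assoc]
    rw [add_comm]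
  obtain ⟨θ, p1⟩ : ∃ θ : ℝ, I.cst hA (kv I N U1 (star (g : H →L[ℂ] H) * m 0)) *
      I.cst hA (kv I N U (star (g' : H →L[ℂ] H) * m' 0)) = phc (I := I) hA θ *
      I.cst hA (kv I N U (star ((g * g' : UH H) : H →L[ℂ] H) * m'' 0)) :=
    ⟨_, by rw [cst_mul_cst, hsum]⟩
  obtain ⟨θ', p2⟩ : ∃ θ : ℝ, I.cst hM (kv I N U1 (star (g : H →L[ℂ] H) * m 1)) *
      I.cst hM (kv I N U (star (g' : H →L[ℂ] H) * m' 1)) = phc (I := I) hM θ *
      I.cst hM (kv I N U (star ((g * g' : UH H) : H →L[ℂ] H) * m'' 1)) :=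
    ⟨_, by rw [cst_mul_cst, hsum]⟩
  refine ⟨θ, θ', ?_⟩
  exact grp_aux (nd_comm_cst hN hM hNM g' hg' _) (nd_comm_cst hN hA hNA g' hg' _)
    (cst_comm_cst (I := I) hA hM hAM _ _) p1 p2 (nd_mul_nd hN g g' hg hg' hgg)
    (uh_ext (blk_comm hN hA hNA hgg (PC_ph I θ)).eq)
    (uh_ext (blk_comm hN hM hNM hgg (PC_ph I θ')).eq)
    (uh_ext (blk_comm hA hM hAM (PC.zW _) (PC_ph I θ')).eq)

/-! ### The closed monoid of joint moves -/

variable {S : Set Λ} {L : Set H} {c : ℝ}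

/-- the data of an available node word -/
def Av (I : ILSys Λ H) {N A M : Set Λ} (hN : MeasurableSet N) (hA : MeasurableSet A)
    (hM : MeasurableSet M) (S : Set Λ) (L : Set H) (c : ℝ) (h q : H) (x : Bl H) : Prop :=
  ∃ (g : UH H) (hg : PC I (g : H →L[ℂ] H)), x.fst = g ∧ (∀ i, PC I (x.snd i)) ∧
    ∀ U, Dom I A M h q U → I.Good S L c U → I.Good S L c (jm hN hA hM g hg x.snd U)

lemma kv_zero_op (N : Set Λ) (U : UH H) (T : H →L[ℂ] H) : kv I N U (T * 0) = 0 := by
  rw [mul_zero, kv_zero]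

lemma cst_zero' {D : Set Λ} (hD : MeasurableSet D) : I.cst hD 0 = 1 :=
  uh_ext (by show I.blk D (I.zW 0) = 1; rw [zW_zero, blk_one hD])

lemma Av_one (h q : H) : Av I hN hA hM S L c h q 1 := by
  refine ⟨1, PC.one, rfl, fun i => ?_, fun U _ hU => ?_⟩
  · show PC I (0 : H →L[ℂ] H)
    exact fun B _ => Commute.zero_right _
  · have : jm (I := I) hN hA hM (1 : UH H) (PC.one (I := I)) ((1 : Bl H).snd) U = U := by
      show nd I hN 1 (PC.one (I := I)) * (I.cst hA (kv I N U (star ((1 : UH H) : H →L[ℂ] H) * 0)) *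
        (I.cst hM (kv I N U (star ((1 : UH H) : H →L[ℂ] H) * 0)) * U)) = U
      rw [kv_zero_op, cst_zero', cst_zero', one_mul, one_mul]
      have h1 : nd I hN 1 (PC.one (I := I)) = 1 := uh_ext (blk_one hN)
      rw [h1, one_mul]
    rw [this]; exact hU

lemma Av_mul (hNA : Disjoint N A) (hNM : Disjoint N M) (hAM : Disjoint A M) {h q : H}
    {x y : Bl H} (hx : Av I hN hA hM S L c h q x) (hy : Av I hN hA hM S L c h q y) :
    Av I hN hA hM S L c h q (x * y) := by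
  obtain ⟨g, hg, e, hm, hG⟩ := hx
  obtain ⟨g', hg', e', hm', hG'⟩ := hy
  have hgg : PC I ((g * g' : UH H) : H →L[ℂ] H) := hg.mul hg'
  have hs : ∀ i, (x * y).snd i = g * y.snd i + x.snd i * g' := by
    intro i
    rw [TrivSqZeroExt.snd_mul, e, e']
    rfl
  refine ⟨g * g', hgg, by rw [TrivSqZeroExt.fst_mul, e, e']; rfl, fun i => ?_, fun U hD hU => ?_⟩
  · rw [hs]
    exact (hg.mul (hm' i)).add ((hm i).mul hg')
  · obtain ⟨θ, θ', e2⟩ := jm_jm hN hA hM hNA hNM hAM hg hg' hm hs hgg hD.pc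
    have h1 := hG _ (Dom_jm hN hA hM hD hNA hNM hg' y.snd) (hG' U hD hU)
    rw [e2] at h1
    exact (Cen_phc hM θ').good ((Cen_phc hA θ).good h1)

lemma Av_closed {h q : H} : IsClosed {x : Bl H | Av I hN hA hM S L c h q x} := by
  rw [← isSeqClosed_iff_isClosed]
  intro x x₀ hx hlim
  have hf : Tendsto (fun n => (x n).fst) atTop (𝓝 x₀.fst) :=
    (TrivSqZeroExt.continuous_fst.tendsto _).comp hlim
  have hs : Tendsto (fun n => (x n).snd) atTop (𝓝 x₀.snd) :=
    (TrivSqZeroExt.continuous_snd.tendsto _).comp hlim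
  have hs' : ∀ i, Tendsto (fun n => (x n).snd i) atTop (𝓝 (x₀.snd i)) := fun i =>
    ((continuous_apply i).tendsto _).comp hs
  choose g hg e hm hG using hx
  have hfg : Tendsto (fun n => ((g n : UH H) : H →L[ℂ] H)) atTop (𝓝 x₀.fst) :=
    hf.congr fun n => e n
  have hu : x₀.fst ∈ unitary (H →L[ℂ] H) := by
    rw [Unitary.mem_iff]
    constructor
    · refine tendsto_nhds_unique (((continuous_star.tendsto _).comp hfg).mul hfg) ?_
      refine tendsto_const_nhds.congr fun n => ?_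
      exact (star_U_mul_self (g n)).symm
    · refine tendsto_nhds_unique (hfg.mul ((continuous_star.tendsto _).comp hfg)) ?_
      refine tendsto_const_nhds.congr fun n => ?_
      exact (U_mul_star_self (g n)).symm
  have hpc : ∀ {T : ℕ → H →L[ℂ] H} {T₀ : H →L[ℂ] H}, Tendsto T atTop (𝓝 T₀) →
      (∀ n, PC I (T n)) → PC I T₀ := by
    intro T T₀ hT hp B hB
    exact tendsto_nhds_unique (tendsto_const_nhds.mul hT)
      ((hT.mul tendsto_const_nhds).congr fun n => ((hp n B hB).eq).symm)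
  have hgp : PC I x₀.fst := hpc hfg hg
  refine ⟨⟨x₀.fst, hu⟩, hgp, rfl, fun i => hpc (hs' i) fun n => hm n i, fun U hD hU => ?_⟩
  have hkv : ∀ i, Tendsto (fun n => kv I N U (star ((g n : UH H) : H →L[ℂ] H) * (x n).snd i)) atTop
      (𝓝 (kv I N U (star x₀.fst * x₀.snd i))) := fun i =>
    tendsto_kv N U (((continuous_star.tendsto _).comp hfg).mul (hs' i))
  have h1 : STends (fun n => nd I hN (g n) (hg n)) atTop (nd I hN ⟨x₀.fst, hu⟩ hgp) := by
    apply STends.of_norm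
    exact tendsto_const_nhds.add (tendsto_const_nhds.mul hfg)
  have h2 : STends (fun n => jm hN hA hM (g n) (hg n) (x n).snd U) atTop
      (jm hN hA hM ⟨x₀.fst, hu⟩ hgp x₀.snd U) :=
    h1.mul ((STends_cst hA (hkv 0)).mul ((STends_cst hM (hkv 1)).mul (STends.const U)))
  exact Good.of_tendsto (Eventually.of_forall fun n => hG n U hD hU) h2

/-- the closed monoid of available node words -/
def AvM (I : ILSys Λ H) {N A M : Set Λ} (hN : MeasurableSet N) (hA : MeasurableSet A)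
    (hM : MeasurableSet M) (hNA : Disjoint N A) (hNM : Disjoint N M) (hAM : Disjoint A M)
    (S : Set Λ) (L : Set H) (c : ℝ) (h q : H) : Submonoid (Bl H) where
  carrier := {x | Av I hN hA hM S L c h q x}
  one_mem' := Av_one hN hA hM h q
  mul_mem' := fun hx hy => Av_mul hN hA hM hNA hNM hAM hx hy

end Monoid

end Crest.Agent.R339.MF
end
end

-- ▼ part R339/MF569C
section

/-!
# R339, block LI (G1): mean-field function gates, generators and final theorem (helper569)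
-/

set_option autoImplicit false
set_option linter.style.haveILetI false
set_option linter.unusedSectionVars false

noncomputable section

open scoped ComplexConjugate InnerProductSpace Topology
open Filter MeasureTheory NormedSpace

namespace Crest.Agent.R339.MF

open Crest.Agent.R339.Li Crest.Agent.R339.Li.ILSys Crest.Agent.R339.Trot

variable {Λ H : Type*} [MeasurableSpace Λ] [NormedAddCommGroup H] [InnerProductSpace ℂ H]
  [CompleteSpace H] {I : ILSys Λ H}

variable {N A M : Set Λ} (hN : MeasurableSet N) (hA : MeasurableSet A) (hM : MeasurableSet M)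
  (hNA : Disjoint N A) (hNM : Disjoint N M) (hAM : Disjoint A M) {S : Set Λ} {L : Set H} {c : ℝ}

/-- block element of the field `f = a h + b q + l` with coefficients `w = (a, b)` -/
def VV (I : ILSys Λ H) (w : Fin 2 → ℝ) (f : H) : Bl H :=
  TrivSqZeroExt.inl (I.zW f) + TrivSqZeroExt.inr (fun i => (w i : ℂ) • (I.Z * I.zW f))

@[simp] lemma VV_fst (w : Fin 2 → ℝ) (f : H) : (VV I w f).fst = I.zW f := by simp [VV]
@[simp] lemma VV_snd (w : Fin 2 → ℝ) (f : H) (i : Fin 2) :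
    (VV I w f).snd i = (w i : ℂ) • (I.Z * I.zW f) := by
  rw [VV, TrivSqZeroExt.snd_add, TrivSqZeroExt.snd_inl, TrivSqZeroExt.snd_inr, zero_add]

lemma VV_zero : VV I 0 0 = 1 := by
  apply TrivSqZeroExt.ext
  · rw [VV_fst, zW_zero]; rfl
  · funext i
    rw [VV_snd]
    simp

lemma bl_mul_snd (x y : Bl H) (i : Fin 2) :
    (x * y).snd i = x.fst * y.snd i + x.snd i * y.fst := by
  rw [TrivSqZeroExt.snd_mul]; rfl

lemma VV_mul (w w' : Fin 2 → ℝ) {f f' : H} (hr : (⟪f, f'⟫_ℂ).im = 0) :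
    VV I w f * VV I w' f' = VV I (w + w') (f + f') := by
  apply TrivSqZeroExt.ext
  · rw [TrivSqZeroExt.fst_mul, VV_fst, VV_fst, VV_fst, zW_mul_of_im hr]
  · funext i
    rw [bl_mul_snd, VV_fst, VV_fst, VV_snd, VV_snd, VV_snd, mul_smul_comm, smul_mul_assoc,
      ← mul_assoc, ← (Z_zW (I := I) f).eq, mul_assoc, zW_mul_of_im hr, ← add_smul,
      Pi.add_apply, add_comm (w i)]
    push_cast
    rfl

/-- `-i X` -/
def Xg (I : ILSys Λ H) : Bl H := TrivSqZeroExt.inl ((-Complex.I) • I.X)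

lemma Xg_fst : (Xg I).fst = (-Complex.I) • I.X := rfl
lemma Xg_snd : (Xg I).snd = 0 := rfl

lemma Xg_VV (w : Fin 2 → ℝ) (f : H) : Xg I * VV I w f = VV I (-w) (-f) * Xg I := by
  apply TrivSqZeroExt.ext
  · rw [TrivSqZeroExt.fst_mul, TrivSqZeroExt.fst_mul, VV_fst, VV_fst, Xg_fst, smul_mul_assoc,
      X_zW, mul_smul_comm]
  · funext i
    rw [bl_mul_snd, bl_mul_snd, VV_fst, VV_fst, VV_snd, VV_snd, Xg_fst, Xg_snd]
    simp only [Pi.zero_apply, zero_mul, mul_zero, add_zero, zero_add, Pi.neg_apply]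
    rw [mul_smul_comm, smul_mul_assoc, smul_mul_assoc, mul_smul_comm, ← mul_assoc,
      show I.X * I.Z = -(I.Z * I.X) by rw [Z_X, neg_neg], neg_mul, mul_assoc, X_zW, ← mul_assoc]
    push_cast
    module

/-- the generator `(i Y sin φ(f), (a Y cos φ(f), b Y cos φ(f)))` -/
def Yg (I : ILSys Λ H) (w : Fin 2 → ℝ) (f : H) : Bl H :=
  TrivSqZeroExt.inl (Complex.I • (I.Y * I.sW f)) +
    TrivSqZeroExt.inr (fun i => (w i : ℂ) • (I.Y * I.cW f))

/-- the generator `(i Z sin φ(f), (a Z cos φ(f), b Z cos φ(f)))` -/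
def Zg (I : ILSys Λ H) (w : Fin 2 → ℝ) (f : H) : Bl H :=
  TrivSqZeroExt.inl (Complex.I • (I.Z * I.sW f)) +
    TrivSqZeroExt.inr (fun i => (w i : ℂ) • (I.Z * I.cW f))

@[simp] lemma Yg_fst (w : Fin 2 → ℝ) (f : H) : (Yg I w f).fst = Complex.I • (I.Y * I.sW f) := by
  simp [Yg]
@[simp] lemma Yg_snd (w : Fin 2 → ℝ) (f : H) (i : Fin 2) :
    (Yg I w f).snd i = (w i : ℂ) • (I.Y * I.cW f) := by
  rw [Yg, TrivSqZeroExt.snd_add, TrivSqZeroExt.snd_inl, TrivSqZeroExt.snd_inr, zero_add]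
@[simp] lemma Zg_fst (w : Fin 2 → ℝ) (f : H) : (Zg I w f).fst = Complex.I • (I.Z * I.sW f) := by
  simp [Zg]
@[simp] lemma Zg_snd (w : Fin 2 → ℝ) (f : H) (i : Fin 2) :
    (Zg I w f).snd i = (w i : ℂ) • (I.Z * I.cW f) := by
  rw [Zg, TrivSqZeroExt.snd_add, TrivSqZeroExt.snd_inl, TrivSqZeroExt.snd_inr, zero_add]

lemma Z_Y_X : I.Z * I.X = Complex.I • I.Y := by
  rw [ILSys.Y, smul_smul, mul_neg, Complex.I_mul_I, neg_neg, one_smul]

lemma zW_sub (f : H) : I.zW f - I.zW (-f) = (2 * Complex.I) • (I.Z * I.sW f) := by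
  rw [zW_eq, zW_eq, cW_neg, sW_neg, mul_neg]; module

lemma zW_add (f : H) : I.zW f + I.zW (-f) = (2 : ℂ) • I.cW f := by
  rw [zW_eq, zW_eq, cW_neg, sW_neg, mul_neg]; module

/-- `(V(f) - V(-f)) X' = 2 Yg` -/
lemma VV_sub_Xg (w : Fin 2 → ℝ) (f : H) :
    VV I w f * Xg I - VV I (-w) (-f) * Xg I = (2 : ℝ) • Yg I w f := by
  apply TrivSqZeroExt.ext
  · rw [TrivSqZeroExt.fst_sub, TrivSqZeroExt.fst_mul, TrivSqZeroExt.fst_mul,
      TrivSqZeroExt.fst_smul, VV_fst, VV_fst, Xg_fst, Yg_fst, ← sub_mul, zW_sub, smul_mul_assoc,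
      mul_smul_comm, mul_assoc, ← (X_sW f).eq, ← mul_assoc, Z_Y_X, smul_mul_assoc, smul_smul,
      smul_smul, ← Complex.coe_smul, smul_smul]
    congr 1
    push_cast
    linear_combination (2 * Complex.I) * (-Complex.I_sq)
  · funext i
    rw [TrivSqZeroExt.snd_sub, Pi.sub_apply, bl_mul_snd, bl_mul_snd, TrivSqZeroExt.snd_smul,
      Pi.smul_apply, VV_fst, VV_fst, VV_snd, VV_snd, Xg_fst, Xg_snd, Yg_snd]
    simp only [Pi.zero_apply, mul_zero, zero_add, Pi.neg_apply]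
    have e : (w i : ℂ) • (I.Z * I.zW f) * (-Complex.I) • I.X -
        ((-(w i) : ℝ) : ℂ) • (I.Z * I.zW (-f)) * (-Complex.I) • I.X =
        ((w i : ℂ) * (-Complex.I)) • (I.Z * (I.zW f + I.zW (-f)) * I.X) := by
      simp only [smul_mul_assoc, mul_smul_comm, smul_smul, mul_add, add_mul]
      push_cast
      module
    rw [e, zW_add, mul_smul_comm, smul_mul_assoc, mul_assoc, ← (X_cW f).eq, ← mul_assoc, Z_Y_X,
      smul_mul_assoc, smul_smul, smul_smul, ← Complex.coe_smul, smul_smul]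
    congr 1
    push_cast
    linear_combination (2 * (w i : ℂ)) * (-Complex.I_sq)

lemma X_Y_Z : I.X * I.Y = Complex.I • I.Z := by
  rw [ILSys.Y, mul_smul_comm, ← mul_assoc, show I.X * I.Z = -(I.Z * I.X) by rw [Z_X, neg_neg],
    neg_mul, mul_assoc, X_mul_X, mul_one, smul_neg, neg_smul, neg_neg]

lemma Y_X_Z : I.Y * I.X = -(Complex.I • I.Z) := by
  rw [ILSys.Y, smul_mul_assoc, mul_assoc, X_mul_X, mul_one, neg_smul]

/-- `[X', Yg] = 2 Zg` -/
lemma Xg_Yg (w : Fin 2 → ℝ) (f : H) :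
    Xg I * Yg I w f - Yg I w f * Xg I = (2 : ℝ) • Zg I w f := by
  apply TrivSqZeroExt.ext
  · rw [TrivSqZeroExt.fst_sub, TrivSqZeroExt.fst_mul, TrivSqZeroExt.fst_mul,
      TrivSqZeroExt.fst_smul, Xg_fst, Yg_fst, Zg_fst]
    rw [smul_mul_smul_comm, smul_mul_smul_comm, ← mul_assoc, X_Y_Z, mul_assoc, ← (X_sW f).eq,
      ← mul_assoc, Y_X_Z, ← Complex.coe_smul]
    simp only [neg_mul, smul_mul_assoc, smul_neg, smul_smul]
    match_scalars
    push_cast
    linear_combination (-2 * Complex.I) * Complex.I_sq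
  · funext i
    rw [TrivSqZeroExt.snd_sub, Pi.sub_apply, bl_mul_snd, bl_mul_snd, TrivSqZeroExt.snd_smul,
      Pi.smul_apply, Xg_fst, Xg_snd, Yg_snd, Zg_snd]
    simp only [Pi.zero_apply, mul_zero, zero_mul, zero_add, add_zero]
    rw [smul_mul_smul_comm, smul_mul_smul_comm, ← mul_assoc, X_Y_Z, mul_assoc, ← (X_cW f).eq,
      ← mul_assoc, Y_X_Z, ← Complex.coe_smul]
    simp only [neg_mul, smul_mul_assoc, smul_neg, smul_smul]
    match_scalars
    push_cast
    linear_combination (-2 * (w i : ℂ)) * Complex.I_sq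

/-! ### Membership -/

section Mem

variable {c₀ : ℝ} {h q : H}

lemma star_zW_mul_Z (f : H) (a : ℂ) :
    star (I.zW f) * (a • (I.Z * I.zW f)) = a • I.Z := by
  rw [mul_smul_comm, (Z_zW (I := I) f).eq, ← mul_assoc, star_zW, zW_neg_mul, one_mul]

lemma VV_h_mem (hNc : I.Cl N) (hAc : I.Cl A) (hM : MeasurableSet M) (hNS : N ⊆ S) (hAS : A ⊆ S)
    (hNA : Disjoint N A) (a : ℝ) :
    Av I (I.Cl_meas _ hNc) (I.Cl_meas _ hAc) hM S L c₀ h q (VV I ![a, 0] ((a : ℂ) • h)) := by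
  refine ⟨zU I ((a : ℂ) • h), PC_zU _, VV_fst _ _, fun i => ?_, fun U hD hU => ?_⟩
  · rw [VV_snd]
    exact ((show PC I I.Z from fun B hB => P_Z hB).mul (PC.zW _)).smul _
  · have e : jm (I.Cl_meas _ hNc) (I.Cl_meas _ hAc) hM (zU I ((a : ℂ) • h)) (PC_zU _)
        (VV I ![a, 0] ((a : ℂ) • h)).snd U = I.cpl (I.Cl_meas _ hNc) (I.Cl_meas _ hAc) a U := by
      have e1 : star ((zU I ((a : ℂ) • h) : UH H) : H →L[ℂ] H) *
          (VV I ![a, 0] ((a : ℂ) • h)).snd 0 = (a : ℂ) • I.Z := by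
        rw [VV_snd]
        exact star_zW_mul_Z _ _
      have e2 : star ((zU I ((a : ℂ) • h) : UH H) : H →L[ℂ] H) *
          (VV I ![a, 0] ((a : ℂ) • h)).snd 1 = 0 := by
        rw [VV_snd]
        simp
      rw [jm, e1, e2, kv_zero, cst_zero', one_mul, kv_smul, kv_Z, ILSys.cpl, hD.fA]
      rfl
    rw [e]
    exact hU.cpl hNc hAc hNS hAS hNA a

lemma VV_q_mem (hNc : I.Cl N) (hA : MeasurableSet A) (hMc : I.Cl M) (hNS : N ⊆ S) (hMS : M ⊆ S)
    (hNM : Disjoint N M) (b : ℝ) :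
    Av I (I.Cl_meas _ hNc) hA (I.Cl_meas _ hMc) S L c₀ h q (VV I ![0, b] ((b : ℂ) • q)) := by
  refine ⟨zU I ((b : ℂ) • q), PC_zU _, VV_fst _ _, fun i => ?_, fun U hD hU => ?_⟩
  · rw [VV_snd]
    exact ((show PC I I.Z from fun B hB => P_Z hB).mul (PC.zW _)).smul _
  · have e : jm (I.Cl_meas _ hNc) hA (I.Cl_meas _ hMc) (zU I ((b : ℂ) • q)) (PC_zU _)
        (VV I ![0, b] ((b : ℂ) • q)).snd U = I.cpl (I.Cl_meas _ hNc) (I.Cl_meas _ hMc) b U := by
      have e1 : star ((zU I ((b : ℂ) • q) : UH H) : H →L[ℂ] H) *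
          (VV I ![0, b] ((b : ℂ) • q)).snd 1 = (b : ℂ) • I.Z := by
        rw [VV_snd]
        exact star_zW_mul_Z _ _
      have e2 : star ((zU I ((b : ℂ) • q) : UH H) : H →L[ℂ] H) *
          (VV I ![0, b] ((b : ℂ) • q)).snd 0 = 0 := by
        rw [VV_snd]
        simp
      rw [jm, e1, e2, kv_zero, cst_zero', one_mul, kv_smul, kv_Z, ILSys.cpl, hD.fM]
      rfl
    rw [e]
    exact hU.cpl hNc hMc hNS hMS hNM b

lemma VV_l_mem (hL : RealSet L) (hNc : I.Cl N) (hA : MeasurableSet A) (hM : MeasurableSet M)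
    (hNS : N ⊆ S) {l : H} (hl : l ∈ Submodule.span ℝ L) :
    Av I (I.Cl_meas _ hNc) hA hM S L c₀ h q (VV I 0 l) := by
  refine ⟨zU I l, PC_zU _, VV_fst _ _, fun i => ?_, fun U hD hU => ?_⟩
  · rw [VV_snd]
    exact ((show PC I I.Z from fun B hB => P_Z hB).mul (PC.zW _)).smul _
  · have e : jm (I.Cl_meas _ hNc) hA hM (zU I l) (PC_zU _) (VV I 0 l).snd U
        = I.cst (I.Cl_meas _ hNc) l * U := by
      have e1 : ∀ i, star ((zU I l : UH H) : H →L[ℂ] H) * (VV I 0 l).snd i = 0 := by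
        intro i
        rw [VV_snd]
        simp
      rw [jm, e1, e1, kv_zero, cst_zero', cst_zero', one_mul, one_mul]
      rfl
    rw [e]
    exact GP.good (G := I.cst (I.Cl_meas _ hNc) l) (cst_mem_GP (c := c₀) hL hNc hNS hl) hU

lemma Xg_exp_mem (hNc : I.Cl N) (hA : MeasurableSet A) (hM : MeasurableSet M) (hNS : N ⊆ S)
    (t : ℝ) : Av I (I.Cl_meas _ hNc) hA hM S L c₀ h q (exp (t • Xg I)) := by
  have hsq : ((-Complex.I) • I.X) * ((-Complex.I) • I.X) = (-1 : H →L[ℂ] H) := by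
    rw [smul_mul_smul_comm, X_mul_X, neg_mul_neg, Complex.I_mul_I, neg_one_smul]
  have h1 : exp (t • ((-Complex.I) • I.X)) = I.mx t := by
    rw [exp_smul_of_sq_neg_one hsq, ILSys.mx, ← Complex.coe_smul, ← Complex.coe_smul, smul_smul]
    rw [mul_neg, neg_smul, ← sub_eq_add_neg, mul_comm (Complex.I)]
  have h2 : exp (t • Xg I) = TrivSqZeroExt.inl (I.mx t) := by
    rw [exp_bl]
    · have e1 : (t • Xg I).fst = t • ((-Complex.I) • I.X) := rfl
      have e2 : (t • Xg I).snd = 0 := by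
        rw [TrivSqZeroExt.snd_smul, Xg_snd, smul_zero]
      rw [e1, h1, e2]
      have e3 : (fun i : Fin 2 => I.mx t * (0 : Fin 2 → (H →L[ℂ] H)) i) = 0 := by
        funext i
        simp
      rw [e3, TrivSqZeroExt.inr_zero, add_zero]
    · intro i
      have e2 : (t • Xg I).snd = 0 := by
        rw [TrivSqZeroExt.snd_smul, Xg_snd, smul_zero]
      rw [e2]
      exact Commute.zero_right _
  rw [h2]
  have hu : I.mx t ∈ unitary (H →L[ℂ] H) := by
    rw [Unitary.mem_iff, star_mx, mx_mul, mx_mul]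
    simp [mx_zero]
  refine ⟨⟨I.mx t, hu⟩, fun B hB => P_mx hB t, rfl, fun i => ?_, fun U hD hU => ?_⟩
  · show PC I (0 : H →L[ℂ] H)
    exact fun B _ => Commute.zero_right _
  · have e : jm (I.Cl_meas _ hNc) hA hM ⟨I.mx t, hu⟩ (fun B hB => P_mx hB t)
        (TrivSqZeroExt.inl (I.mx t) : Bl H).snd U = I.rot (I.Cl_meas _ hNc) t * U := by
      show nd I _ _ _ * (I.cst hA (kv I N U (_ * 0)) * (I.cst hM (kv I N U (_ * 0)) * U)) = _
      rw [kv_zero_op, cst_zero', cst_zero', one_mul, one_mul]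
      rfl
    rw [e]
    exact hU.rot hNc hNS t

end Mem

end Crest.Agent.R339.MF
end
end

-- ▼ part R339/MF569D
section

/-!
# R339, block LI (G1): mean-field function gates, final theorem `mft` (helper569)
-/

set_option autoImplicit false
set_option linter.style.haveILetI false
set_option linter.unusedSectionVars false

noncomputable section

open scoped ComplexConjugate InnerProductSpace Topology
open Filter MeasureTheory NormedSpace

namespace Crest.Agent.R339.MF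

open Crest.Agent.R339.Li Crest.Agent.R339.Li.ILSys Crest.Agent.R339.Trot

variable {Λ H : Type*} [MeasurableSpace Λ] [NormedAddCommGroup H] [InnerProductSpace ℂ H]
  [CompleteSpace H] {I : ILSys Λ H}

variable {N A M : Set Λ} {S : Set Λ} {L : Set H} {c₀ : ℝ} {h q : H}

/-- the fields `w₀ h + w₁ q + l`, `l` in the real span of the labels -/
def Dr (L : Set H) (h q : H) (w : Fin 2 → ℝ) (f : H) : Prop :=
  ∃ l ∈ Submodule.span ℝ L, f = (w 0 : ℂ) • h + (w 1 : ℂ) • q + l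

omit [CompleteSpace H] in
lemma Dr.neg {w : Fin 2 → ℝ} {f : H} (hf : Dr L h q w f) : Dr L h q (-w) (-f) := by
  obtain ⟨l, hl, rfl⟩ := hf
  refine ⟨-l, Submodule.neg_mem _ hl, ?_⟩
  simp only [Pi.neg_apply]
  push_cast
  module

omit [CompleteSpace H] in
lemma Dr.smul {w : Fin 2 → ℝ} {f : H} (hf : Dr L h q w f) (r : ℝ) : Dr L h q (r • w) (r • f) := by
  obtain ⟨l, hl, rfl⟩ := hf
  refine ⟨r • l, Submodule.smul_mem _ _ hl, ?_⟩
  simp only [Pi.smul_apply, smul_eq_mul]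
  rw [← Complex.coe_smul, ← Complex.coe_smul]
  push_cast
  module

/-- all fields are real -/
structure Rl (L : Set H) (h q : H) : Prop where
  real : RealSet L
  hq : (⟪h, q⟫_ℂ).im = 0
  lh : ∀ l ∈ L, (⟪l, h⟫_ℂ).im = 0
  lq : ∀ l ∈ L, (⟪l, q⟫_ℂ).im = 0

lemma Rl.all (hr : Rl L h q) : RealSet (insert h (insert q L)) := by
  have sw : ∀ x y : H, (⟪x, y⟫_ℂ).im = 0 → (⟪y, x⟫_ℂ).im = 0 := by
    intro x y hxy
    rw [← inner_conj_symm, Complex.conj_im, hxy, neg_zero]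
  have self : ∀ x : H, (⟪x, x⟫_ℂ).im = 0 := fun x => by
    simpa using inner_self_im (𝕜 := ℂ) x
  intro x hx y hy
  rcases hx with rfl | rfl | hx <;> rcases hy with rfl | rfl | hy
  · exact self _
  · exact hr.hq
  · exact sw _ _ (hr.lh _ hy)
  · exact sw _ _ hr.hq
  · exact self _
  · exact sw _ _ (hr.lq _ hy)
  · exact hr.lh _ hx
  · exact hr.lq _ hx
  · exact hr.real _ hx _ hy

lemma Dr.mem_span {w : Fin 2 → ℝ} {f : H} (hf : Dr L h q w f) :
    f ∈ Submodule.span ℝ (insert h (insert q L)) := by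
  obtain ⟨l, hl, rfl⟩ := hf
  rw [Complex.coe_smul, Complex.coe_smul]
  refine Submodule.add_mem _ (Submodule.add_mem _ (Submodule.smul_mem _ _ ?_)
    (Submodule.smul_mem _ _ ?_)) ?_
  · exact Submodule.subset_span (Set.mem_insert _ _)
  · exact Submodule.subset_span (Set.mem_insert_of_mem _ (Set.mem_insert _ _))
  · exact Submodule.span_mono ((Set.subset_insert _ _).trans (Set.subset_insert _ _)) hl

lemma Dr.im (hr : Rl L h q) {w w' : Fin 2 → ℝ} {f f' : H} (hf : Dr L h q w f)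
    (hf' : Dr L h q w' f') : (⟪f, f'⟫_ℂ).im = 0 :=
  hr.all.span hf.mem_span hf'.mem_span

section Main

variable (hN : I.Cl N) (hA : I.Cl A) (hM : I.Cl M) (hNS : N ⊆ S) (hAS : A ⊆ S) (hMS : M ⊆ S)
  (hNA : Disjoint N A) (hNM : Disjoint N M) (hAM : Disjoint A M) (hr : Rl L h q)

include hNS hAS hMS hr in
lemma VV_mem {w : Fin 2 → ℝ} {f : H} (hf : Dr L h q w f) :
    VV I w f ∈ AvM I (I.Cl_meas _ hN) (I.Cl_meas _ hA) (I.Cl_meas _ hM) hNA hNM hAM S L c₀ h q := by
  obtain ⟨l, hl, rfl⟩ := hf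
  have d1 : Dr L h q ![w 0, 0] ((w 0 : ℂ) • h) := ⟨0, Submodule.zero_mem _, by simp⟩
  have d2 : Dr L h q ![0, w 1] ((w 1 : ℂ) • q) := ⟨0, Submodule.zero_mem _, by simp⟩
  have d12 : Dr L h q ![w 0, w 1] ((w 0 : ℂ) • h + (w 1 : ℂ) • q) :=
    ⟨0, Submodule.zero_mem _, by simp⟩
  have d3 : Dr L h q 0 l := ⟨l, hl, by simp⟩
  have e1 : VV I ![w 0, 0] ((w 0 : ℂ) • h) * VV I ![0, w 1] ((w 1 : ℂ) • q) =
      VV I ![w 0, w 1] ((w 0 : ℂ) • h + (w 1 : ℂ) • q) := by
    rw [VV_mul _ _ (d1.im hr d2)]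
    congr 1
    funext i
    fin_cases i <;> simp
  have e2 : VV I ![w 0, w 1] ((w 0 : ℂ) • h + (w 1 : ℂ) • q) * VV I 0 l =
      VV I w ((w 0 : ℂ) • h + (w 1 : ℂ) • q + l) := by
    rw [VV_mul _ _ (d12.im hr d3)]
    congr 1
    funext i
    fin_cases i <;> simp
  rw [← e2, ← e1]
  exact mul_mem (mul_mem (VV_h_mem hN hA (I.Cl_meas _ hM) hNS hAS hNA _)
    (VV_q_mem hN (I.Cl_meas _ hA) hM hNS hMS hNM _)) (VV_l_mem hr.real hN _ _ hNS hl)

lemma isClosed_AvM : IsClosed ((AvM I (I.Cl_meas _ hN) (I.Cl_meas _ hA) (I.Cl_meas _ hM)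
    hNA hNM hAM S L c₀ h q : Submonoid (Bl H)) : Set (Bl H)) :=
  Av_closed (I.Cl_meas _ hN) (I.Cl_meas _ hA) (I.Cl_meas _ hM)

include hNS hAS hMS hr in
lemma VX_mem {w : Fin 2 → ℝ} {f : H} (hf : Dr L h q w f) :
    VV I w f * Xg I ∈ lieOf (AvM I (I.Cl_meas _ hN) (I.Cl_meas _ hA) (I.Cl_meas _ hM)
      hNA hNM hAM S L c₀ h q) := by
  haveI := I.nontriv
  have hd := hf.smul (1 / 2)
  have m1 := VV_mem (c₀ := c₀) hN hA hM hNS hAS hMS hNA hNM hAM hr hd
  have m2 := VV_mem (c₀ := c₀) hN hA hM hNS hAS hMS hNA hNM hAM hr hd.neg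
  have hX : Xg I ∈ lieOf (AvM I (I.Cl_meas _ hN) (I.Cl_meas _ hA) (I.Cl_meas _ hM)
      hNA hNM hAM S L c₀ h q) := fun t =>
    Xg_exp_mem hN (I.Cl_meas _ hA) (I.Cl_meas _ hM) hNS t
  have huv : VV I ((1 / 2 : ℝ) • w) ((1 / 2 : ℝ) • f) *
      VV I (-((1 / 2 : ℝ) • w)) (-((1 / 2 : ℝ) • f)) = 1 := by
    rw [VV_mul _ _ (hd.im hr hd.neg), add_neg_cancel, add_neg_cancel, VV_zero]
  have hvu : VV I (-((1 / 2 : ℝ) • w)) (-((1 / 2 : ℝ) • f)) *
      VV I ((1 / 2 : ℝ) • w) ((1 / 2 : ℝ) • f) = 1 := by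
    rw [VV_mul _ _ (hd.neg.im hr hd), neg_add_cancel, neg_add_cancel, VV_zero]
  have key := conj_mem_lieOf hX m1 m2 huv hvu
  have e : VV I ((1 / 2 : ℝ) • w) ((1 / 2 : ℝ) • f) * Xg I *
      VV I (-((1 / 2 : ℝ) • w)) (-((1 / 2 : ℝ) • f)) = VV I w f * Xg I := by
    rw [mul_assoc, Xg_VV, neg_neg, neg_neg, ← mul_assoc, VV_mul _ _ (hd.im hr hd), ← add_smul,
      ← add_smul]
    norm_num
  rwa [e] at key

include hNS hAS hMS hr in
lemma Yg_mem {w : Fin 2 → ℝ} {f : H} (hf : Dr L h q w f) :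
    Yg I w f ∈ lieOf (AvM I (I.Cl_meas _ hN) (I.Cl_meas _ hA) (I.Cl_meas _ hM)
      hNA hNM hAM S L c₀ h q) := by
  haveI := I.nontriv
  have h1 := VX_mem (c₀ := c₀) hN hA hM hNS hAS hMS hNA hNM hAM hr hf
  have h2 := VX_mem (c₀ := c₀) hN hA hM hNS hAS hMS hNA hNM hAM hr hf.neg
  have h3 := smul_mem_lieOf (add_mem_lieOf (isClosed_AvM hN hA hM hNA hNM hAM) h1
    (neg_mem_lieOf h2)) (1 / 2 : ℝ)
  rw [← sub_eq_add_neg, VV_sub_Xg, smul_smul] at h3
  norm_num at h3
  exact h3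

include hNS hAS hMS hr in
lemma Zg_mem {w : Fin 2 → ℝ} {f : H} (hf : Dr L h q w f) :
    Zg I w f ∈ lieOf (AvM I (I.Cl_meas _ hN) (I.Cl_meas _ hA) (I.Cl_meas _ hM)
      hNA hNM hAM S L c₀ h q) := by
  haveI := I.nontriv
  have hX : Xg I ∈ lieOf (AvM I (I.Cl_meas _ hN) (I.Cl_meas _ hA) (I.Cl_meas _ hM)
      hNA hNM hAM S L c₀ h q) := fun t =>
    Xg_exp_mem hN (I.Cl_meas _ hA) (I.Cl_meas _ hM) hNS t
  have h1 := Yg_mem (c₀ := c₀) hN hA hM hNS hAS hMS hNA hNM hAM hr hf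
  have h3 := smul_mem_lieOf (bracket_mem_lieOf (isClosed_AvM hN hA hM hNA hNM hAM) hX h1)
    (1 / 2 : ℝ)
  rw [Xg_Yg, smul_smul] at h3
  norm_num at h3
  exact h3

include hNS hAS hMS hNA hNM hAM hr in
/-- **Mean-field function gate**, abstract partner fields. -/
theorem mft_aux {κ : Type*} [Fintype κ] (c : κ → ℝ) (w : κ → Fin 2 → ℝ) (f : κ → H)
    (hf : ∀ k, Dr L h q (w k) (f k)) (t : ℝ) (g : UH H) (hg : PC I (g : H →L[ℂ] H))
    (hgE : (g : H →L[ℂ] H) = exp ((Complex.I * (t : ℂ)) • (I.Z * ∑ k, (c k : ℂ) • I.sW (f k))))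
    {U : UH H} (hU : Dom I A M h q U) (hG : I.Good S L c₀ U) :
    I.Good S L c₀ (nd I (I.Cl_meas _ hN) g hg *
      (I.cst (I.Cl_meas _ hA) ((t : ℂ) •
        kv I N U (I.Z * ∑ k, ((c k * w k 0 : ℝ) : ℂ) • I.cW (f k))) *
      (I.cst (I.Cl_meas _ hM) ((t : ℂ) •
        kv I N U (I.Z * ∑ k, ((c k * w k 1 : ℝ) : ℂ) • I.cW (f k))) * U))) := by
  haveI := I.nontriv
  set X : Bl H := ∑ k, c k • Zg I (w k) (f k) with hX
  have hmem : X ∈ lieOf (AvM I (I.Cl_meas _ hN) (I.Cl_meas _ hA) (I.Cl_meas _ hM)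
      hNA hNM hAM S L c₀ h q) :=
    sum_mem_lieOf (isClosed_AvM hN hA hM hNA hNM hAM) _ _ fun k _ =>
      smul_mem_lieOf (Zg_mem hN hA hM hNS hAS hMS hNA hNM hAM hr (hf k)) _
  have hx : Av I (I.Cl_meas _ hN) (I.Cl_meas _ hA) (I.Cl_meas _ hM) S L c₀ h q (exp (t • X)) :=
    hmem t
  have hfst : X.fst = Complex.I • (I.Z * ∑ k, (c k : ℂ) • I.sW (f k)) := by
    rw [hX, TrivSqZeroExt.fst_sum, Finset.mul_sum, Finset.smul_sum]
    refine Finset.sum_congr rfl fun k _ => ?_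
    rw [TrivSqZeroExt.fst_smul, Zg_fst, ← Complex.coe_smul, mul_smul_comm, smul_comm]
  have hsnd : ∀ i, X.snd i = I.Z * ∑ k, ((c k * w k i : ℝ) : ℂ) • I.cW (f k) := by
    intro i
    rw [hX, TrivSqZeroExt.snd_sum, Finset.sum_apply, Finset.mul_sum]
    refine Finset.sum_congr rfl fun k _ => ?_
    rw [TrivSqZeroExt.snd_smul, Pi.smul_apply, Zg_snd, ← Complex.coe_smul, smul_smul,
      mul_smul_comm]
    push_cast
    rfl
  have hcomm : ∀ j k, Commute (I.sW (f j)) (I.cW (f k)) := by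
    intro j k
    have hW : ∀ x y : H, (⟪x, y⟫_ℂ).im = 0 → Commute (I.W x) (I.W y) := by
      intro x y hxy
      have hyx : (⟪y, x⟫_ℂ).im = 0 := by rw [← inner_conj_symm, Complex.conj_im, hxy, neg_zero]
      show I.W x * I.W y = I.W y * I.W x
      rw [I.W_mul, I.W_mul, hxy, hyx, add_comm]
    have h1 := (hf j).im hr (hf k)
    have h2 : (⟪f j, -f k⟫_ℂ).im = 0 := by rw [inner_neg_right, Complex.neg_im, h1, neg_zero]
    have h3 : (⟪-f j, f k⟫_ℂ).im = 0 := by rw [inner_neg_left, Complex.neg_im, h1, neg_zero]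
    have h4 : (⟪-f j, -f k⟫_ℂ).im = 0 := by rw [inner_neg_neg, h1]
    exact (((hW _ _ h1).sub_left (hW _ _ h3)).smul_left _).add_right
      (((hW _ _ h2).sub_left (hW _ _ h4)).smul_left _) |>.smul_right _
  have hcx : ∀ i, Commute X.fst (X.snd i) := by
    intro i
    rw [hfst, hsnd]
    refine Commute.smul_left ?_ _
    have hz : Commute I.Z (∑ k, (c k : ℂ) • I.sW (f k)) :=
      Commute.sum_right _ _ _ fun k _ => (Z_sW _).smul_right _
    have hz' : Commute I.Z (∑ k, ((c k * w k i : ℝ) : ℂ) • I.cW (f k)) :=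
      Commute.sum_right _ _ _ fun k _ => (Z_cW _).smul_right _
    have hs : Commute (∑ k, (c k : ℂ) • I.sW (f k)) (∑ k, ((c k * w k i : ℝ) : ℂ) • I.cW (f k)) :=
      Commute.sum_left _ _ _ fun j _ => Commute.sum_right _ _ _ fun k _ =>
        ((hcomm j k).smul_left _).smul_right _
    exact ((Commute.refl _).mul_left hz.symm).mul_right (hz'.mul_left hs)
  have hexp : exp (t • X) = TrivSqZeroExt.inl (exp (t • X.fst)) +
      TrivSqZeroExt.inr (fun i => exp (t • X.fst) * (t • X.snd i)) := by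
    rw [exp_bl]
    · rfl
    · intro i
      exact ((hcx i).smul_left t).smul_right t
  have hgX : exp (t • X.fst) = (g : H →L[ℂ] H) := by
    rw [hgE, hfst, ← Complex.coe_smul, smul_smul, mul_comm]
  rw [hgX] at hexp
  have hefst : (exp (t • X)).fst = (g : H →L[ℂ] H) := by rw [hexp]; simp
  have hesnd : ∀ i, (exp (t • X)).snd i = (g : H →L[ℂ] H) * (t • X.snd i) := by
    intro i
    rw [hexp, TrivSqZeroExt.snd_add, TrivSqZeroExt.snd_inl, TrivSqZeroExt.snd_inr, zero_add]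
  obtain ⟨g', hg', e, hm, hgood⟩ := hx
  have hgg : g' = g := uh_ext (e.symm.trans hefst)
  subst hgg
  have h1 := hgood U hU hG
  have hk : ∀ i, kv I N U (star (g' : H →L[ℂ] H) * (exp (t • X)).snd i) =
      (t : ℂ) • kv I N U (I.Z * ∑ k, ((c k * w k i : ℝ) : ℂ) • I.cW (f k)) := by
    intro i
    rw [hesnd, ← mul_assoc, star_U_mul_self, one_mul, kv_rsmul, hsnd]
  rw [jm, hk, hk] at h1
  exact h1

include hNS hAS hMS hNA hNM hAM in
/-- **(G1) Mean-field function gate.**  `h = e_A(U)`, `q = e_M(U)`, fields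
`f k = a k • h + b k • q + l k`; node `exp (i t Z Σ c_k sin φ(f k))`, kicks of the partners
`zW (t P_N U* Z (Σ c_k a_k cos φ(f k)) U Om)` (on `A`) and the same with `b` (on `M`). -/
theorem mft {κ : Type*} [Fintype κ] {U : UH H} (hU : PC I (U : H →L[ℂ] H))
    (hr : Rl L (I.eA A U) (I.eA M U)) (c a b : κ → ℝ) (l : κ → H)
    (hl : ∀ k, l k ∈ Submodule.span ℝ L) (t : ℝ) (g : UH H) (hg : PC I (g : H →L[ℂ] H))
    (hgE : (g : H →L[ℂ] H) = exp ((Complex.I * (t : ℂ)) • (I.Z * ∑ k, (c k : ℂ) •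
      I.sW ((a k : ℂ) • I.eA A U + (b k : ℂ) • I.eA M U + l k))))
    (hG : I.Good S L c₀ U) :
    I.Good S L c₀ (nd I (I.Cl_meas _ hN) g hg *
      (I.cst (I.Cl_meas _ hA) ((t : ℂ) • kv I N U (I.Z * ∑ k, ((c k * a k : ℝ) : ℂ) •
        I.cW ((a k : ℂ) • I.eA A U + (b k : ℂ) • I.eA M U + l k))) *
      (I.cst (I.Cl_meas _ hM) ((t : ℂ) • kv I N U (I.Z * ∑ k, ((c k * b k : ℝ) : ℂ) •
        I.cW ((a k : ℂ) • I.eA A U + (b k : ℂ) • I.eA M U + l k))) * U))) :=
  mft_aux hN hA hM hNS hAS hMS hNA hNM hAM hr c (fun k => ![a k, b k]) _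
    (fun k => ⟨l k, hl k, rfl⟩) t g hg hgE ⟨hU, rfl, rfl⟩ hG

end Main

end Crest.Agent.R339.MF
end
end

-- ▼ part R339/MF569E
section

/-!
# R339, block LI (G1): the hypothesis `Mft` of helper90's cell theorem holds (helper569)
-/

set_option autoImplicit false
set_option linter.style.haveILetI false

noncomputable section

open scoped ComplexConjugate InnerProductSpace Topology
open Filter MeasureTheory NormedSpace

namespace Crest.Agent.R339.Cel

open Crest.Agent.R339.Li Crest.Agent.R339.Li.ILSys Crest.Agent.R339.MF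

variable {Λ H : Type*} [MeasurableSpace Λ] [NormedAddCommGroup H] [InnerProductSpace ℂ H]
  [CompleteSpace H]

theorem mft_holds (I : ILSys Λ H) (S : Set Λ) (L : Set H) (cc : ℝ) : Mft I S L cc := by
  intro N A M hN hA hM hNS hAS hMS hNA hNM hAM U hU n c a b l f hl hr hf hG t w hw hwe
  have hR : Rl L (I.eA A U) (I.eA M U) := by
    refine ⟨fun x hx y hy => hr x ?_ y ?_, hr _ ?_ _ ?_, fun x hx => hr _ ?_ _ ?_,
      fun x hx => hr _ ?_ _ ?_⟩ <;> simp_all
  have hf' : f = fun k => (a k : ℂ) • I.eA A U + (b k : ℂ) • I.eA M U + l k := funext hf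
  have hE : (w : H →L[ℂ] H) = exp ((Complex.I * (t : ℂ)) • (I.Z * ∑ k, (c k : ℂ) •
      I.sW ((a k : ℂ) • I.eA A U + (b k : ℂ) • I.eA M U + l k))) := by
    rw [hwe, eI, snS, hf']
    congr 2
    push_cast
    ring
  have := mft hN hA hM hNS hAS hMS hNA hNM hAM hU hR c a b l hl t w hw hE hG
  subst hf'
  exact this


end Crest.Agent.R339.Cel
end
end

-- ▼ part R339/DF833A
section

/-!
# Row 339, (DF): tools
-/

set_option autoImplicit false

namespace Crest.Agent.R339.DF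

open MeasureTheory ProbabilityTheory Filter Topology Matrix Real
open Crest.Agent.R339.Guerra (G lin mp_update mp_int)
open Crest.Agent.R339.Trig

noncomputable section

abbrev γ : Measure ℝ := gaussianReal 0 1

/-- factorisation over an independent coordinate -/
theorem int_mul_coord {ι : Type*} [Fintype ι] [DecidableEq ι] (j : ι) {Y : (ι → ℝ) → ℝ}
    {φ : ℝ → ℝ} (hY : ∀ ω t, Y (Function.update ω j t) = Y ω) (hYm : Measurable Y)
    (hφ : Measurable φ) :
    ∫ ω, Y ω * φ (ω j) ∂(G ι) = (∫ ω, Y ω ∂(G ι)) * ∫ t, φ t ∂γ := by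
  have hm : Measurable (fun ω : ι → ℝ => Y ω * φ (ω j)) :=
    hYm.mul (hφ.comp (measurable_pi_apply j))
  rw [← mp_int (mp_update (ι := ι) j) hm.aestronglyMeasurable]
  have e : ∀ p : (ι → ℝ) × ℝ, Y (Function.update p.1 j p.2) * φ (Function.update p.1 j p.2 j) =
      Y p.1 * φ p.2 := by
    intro p; rw [hY]; simp
  simp only [e]
  exact integral_prod_mul Y φ

/-- linear images of the standard Gaussian vector -/
theorem map_lin {ι : Type*} [Fintype ι] [DecidableEq ι] (A : ι → ι → ℝ) {Q : Matrix ι ι ℝ}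
    (hQ : ∀ i j, Q i j = ∑ k, A i k * A j k) : (G ι).map (lin A) = gl Q := by
  have hP : Q.PosSemidef := by
    have h1 := Matrix.posSemidef_self_mul_conjTranspose (Matrix.of A)
    have h2 : Matrix.of A * (Matrix.of A)ᴴ = Q := by
      ext i j
      rw [Matrix.mul_apply, hQ]
      refine Finset.sum_congr rfl fun k _ => ?_
      simp [Matrix.conjTranspose_apply]
    rwa [h2] at h1
  have hm : Measurable (lin A) := (Guerra.continuous_lin A).measurable
  have : IsProbabilityMeasure ((G ι).map (lin A)) := Measure.isProbabilityMeasure_map hm.aemeasurable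
  refine eq_of_charFun fun a => ?_
  rw [charFun_gl hP, integral_map hm.aemeasurable (measurable_cexp a).aestronglyMeasurable]
  set b : ι → ℝ := fun k => ∑ i, a i * A i k with hb
  have h1 : ∀ g : ι → ℝ, ∑ i, a i * lin A g i = ∑ k, b k * g k := by
    intro g
    simp only [lin, hb, Finset.sum_mul, Finset.mul_sum]
    rw [Finset.sum_comm]
    refine Finset.sum_congr rfl fun k _ => Finset.sum_congr rfl fun i _ => by ring
  have h2 : ∀ g : ι → ℝ, Complex.exp (((∑ i, a i * lin A g i : ℝ) : ℂ) * Complex.I) =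
      ∏ k, Complex.exp (((b k * g k : ℝ) : ℂ) * Complex.I) := by
    intro g
    rw [h1, Complex.ofReal_sum, Finset.sum_mul, Complex.exp_sum]
  simp_rw [h2]
  rw [integral_fintype_prod_eq_prod (f := fun k (x : ℝ) =>
    Complex.exp (((b k * x : ℝ) : ℂ) * Complex.I))]
  have h3 : ∀ k, ∫ x : ℝ, Complex.exp (((b k * x : ℝ) : ℂ) * Complex.I) ∂gaussianReal 0 1 =
      Complex.exp (((-(b k)^2/2 : ℝ) : ℂ)) := by
    intro k
    have := charFun_gaussianReal (μ := 0) (v := 1) (b k)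
    rw [charFun_apply_real] at this
    simp only [Complex.ofReal_mul]
    rw [this]
    congr 1
    push_cast
    ring
  simp_rw [h3]
  rw [← Complex.exp_sum, ← Complex.ofReal_sum]
  congr 2
  have h4 : ∑ k, b k ^ 2 = ∑ i, ∑ j, a i * Q i j * a j := by
    simp only [hb, sq, Finset.sum_mul_sum]
    rw [Finset.sum_comm]
    refine Finset.sum_congr rfl fun i _ => ?_
    rw [Finset.sum_comm]
    refine Finset.sum_congr rfl fun j _ => ?_
    rw [hQ i j, Finset.mul_sum, Finset.sum_mul]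
    refine Finset.sum_congr rfl fun k _ => by ring
  rw [← h4, neg_div, Finset.sum_div, ← Finset.sum_neg_distrib]
  refine Finset.sum_congr rfl fun k _ => by ring

/-- Bessel's inequality -/
theorem bessel {Ω : Type*} [MeasurableSpace Ω] {P : Measure Ω} {R : ℕ} {φ : ℕ → Ω → ℝ}
    {c : ℝ} (hc : 0 < c) (hφ : ∀ i < R, MemLp (φ i) 2 P)
    (ho : ∀ i < R, ∀ j < R, ∫ ω, φ i ω * φ j ω ∂P = if i = j then c else 0)
    {δ : Ω → ℝ} (hδ : MemLp δ 2 P) :
    ∑ i ∈ Finset.range R, (∫ ω, φ i ω * δ ω ∂P) ^ 2 ≤ c * ∫ ω, δ ω ^ 2 ∂P := by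
  set w : ℕ → ℝ := fun i => ∫ ω, φ i ω * δ ω ∂P with hw
  have hi1 : ∀ i ∈ Finset.range R, Integrable (fun ω => φ i ω * δ ω) P := fun i hi =>
    (hφ i (Finset.mem_range.1 hi)).integrable_mul hδ
  have hi2 : ∀ i ∈ Finset.range R, ∀ j ∈ Finset.range R,
      Integrable (fun ω => φ i ω * φ j ω) P := fun i hi j hj =>
    (hφ i (Finset.mem_range.1 hi)).integrable_mul (hφ j (Finset.mem_range.1 hj))
  have hi3 : Integrable (fun ω => δ ω ^ 2) P := hδ.integrable_sq
  have h0 : 0 ≤ ∫ ω, (c * δ ω - ∑ i ∈ Finset.range R, w i * φ i ω) ^ 2 ∂P :=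
    integral_nonneg fun ω => sq_nonneg _
  have e : ∀ ω, (c * δ ω - ∑ i ∈ Finset.range R, w i * φ i ω) ^ 2 =
      c ^ 2 * δ ω ^ 2 - ∑ i ∈ Finset.range R, (2 * c * w i) * (φ i ω * δ ω) +
      ∑ i ∈ Finset.range R, ∑ j ∈ Finset.range R, (w i * w j) * (φ i ω * φ j ω) := by
    intro ω
    have h1 : (∑ i ∈ Finset.range R, w i * φ i ω) ^ 2 =
        ∑ i ∈ Finset.range R, ∑ j ∈ Finset.range R, (w i * w j) * (φ i ω * φ j ω) := by
      rw [sq, Finset.sum_mul_sum]
      refine Finset.sum_congr rfl fun i _ => Finset.sum_congr rfl fun j _ => by ring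
    rw [sub_sq, h1, mul_pow]
    congr 2
    rw [Finset.mul_sum]
    refine Finset.sum_congr rfl fun i _ => by ring
  simp only [e] at h0
  have i4 : Integrable (fun ω => ∑ i ∈ Finset.range R, (2 * c * w i) * (φ i ω * δ ω)) P :=
    integrable_finsetSum _ fun i hi => (hi1 i hi).const_mul _
  have i5 : Integrable (fun ω => ∑ i ∈ Finset.range R, ∑ j ∈ Finset.range R,
      (w i * w j) * (φ i ω * φ j ω)) P :=
    integrable_finsetSum _ fun i hi => integrable_finsetSum _ fun j hj =>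
      (hi2 i hi j hj).const_mul _
  have i6 : Integrable (fun ω => c ^ 2 * δ ω ^ 2 -
      ∑ i ∈ Finset.range R, (2 * c * w i) * (φ i ω * δ ω)) P := (hi3.const_mul _).sub i4
  rw [integral_add i6 i5, integral_sub (hi3.const_mul _) i4, integral_const_mul,
    integral_finsetSum _ fun i hi => (hi1 i hi).const_mul _,
    integral_finsetSum _ fun i hi => integrable_finsetSum _ fun j hj =>
      (hi2 i hi j hj).const_mul _] at h0
  have e2 : ∑ i ∈ Finset.range R, ∫ ω, 2 * c * w i * (φ i ω * δ ω) ∂P =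
      2 * c * ∑ i ∈ Finset.range R, w i ^ 2 := by
    rw [Finset.mul_sum]
    refine Finset.sum_congr rfl fun i _ => ?_
    rw [integral_const_mul]
    show 2 * c * w i * w i = _
    ring
  have e3 : ∑ i ∈ Finset.range R, ∫ ω, ∑ j ∈ Finset.range R, w i * w j * (φ i ω * φ j ω) ∂P =
      c * ∑ i ∈ Finset.range R, w i ^ 2 := by
    rw [Finset.mul_sum]
    refine Finset.sum_congr rfl fun i hi => ?_
    rw [integral_finsetSum _ fun j hj => (hi2 i hi j hj).const_mul _]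
    rw [Finset.sum_eq_single i]
    · rw [integral_const_mul, ho i (Finset.mem_range.1 hi) i (Finset.mem_range.1 hi), if_pos rfl]
      ring
    · intro j hj hji
      rw [integral_const_mul, ho i (Finset.mem_range.1 hi) j (Finset.mem_range.1 hj),
        if_neg (Ne.symm hji), mul_zero]
    · intro h; exact absurd hi h
  rw [e2, e3] at h0
  have h1 : c * ∑ i ∈ Finset.range R, w i ^ 2 ≤ c * (c * ∫ ω, δ ω ^ 2 ∂P) := by
    linarith
  exact le_of_mul_le_mul_left h1 hc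

/-! ### the truncated identity -/

/-- truncation -/
def clip (L x : ℝ) : ℝ := max (-L) (min L x)

theorem clip_cont (L : ℝ) : Continuous (clip L) := by unfold clip; fun_prop

theorem clip_odd {L : ℝ} (hL : 0 ≤ L) (x : ℝ) : clip L (-x) = -clip L x := by
  unfold clip
  simp only [max_def, min_def]
  split_ifs <;> linarith

theorem clip_abs {L : ℝ} (hL : 0 ≤ L) (x : ℝ) : |clip L x| ≤ L := by
  unfold clip
  rw [abs_le]
  exact ⟨le_max_left _ _, max_le (by linarith) (min_le_left _ _)⟩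

theorem clip_abs_le {L : ℝ} (hL : 0 ≤ L) (x : ℝ) : |clip L x| ≤ |x| := by
  unfold clip
  rcases le_total 0 x with hx | hx
  · rw [abs_of_nonneg hx, abs_le]
    simp only [max_def, min_def]
    constructor <;> split_ifs <;> linarith
  · rw [abs_of_nonpos hx, abs_le]
    simp only [max_def, min_def]
    constructor <;> split_ifs <;> linarith

theorem clip_dist {L x y : ℝ} (hy : |y| ≤ L) : |clip L x - x| ≤ |x - y| := by
  obtain ⟨h1, h2⟩ := abs_le.1 hy
  unfold clip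
  rcases le_total x y with h | h
  · rw [abs_of_nonpos (by linarith : x - y ≤ 0), abs_le]
    simp only [max_def, min_def]
    constructor <;> split_ifs <;> linarith
  · rw [abs_of_nonneg (by linarith : 0 ≤ x - y), abs_le]
    simp only [max_def, min_def]
    constructor <;> split_ifs <;> linarith

theorem clip_eq {L x : ℝ} (hx : |x| ≤ L) : clip L x = x := by
  have := clip_dist (x := x) hx
  rw [sub_self, abs_zero] at this
  have h2 := abs_nonneg (clip L x - x)
  have h3 : |clip L x - x| = 0 := le_antisymm this h2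
  rw [abs_eq_zero] at h3
  linarith

theorem integrable_sq_γ : Integrable (fun g : ℝ => g ^ 2) γ := by
  exact (memLp_id_gaussianReal (μ := 0) (v := 1) 2).integrable_sq

theorem int_sq_γ : ∫ g : ℝ, g ^ 2 ∂γ = 1 := by
  have h := variance_of_integral_eq_zero (μ := γ) (X := id) aemeasurable_id (by simp)
  have h2 : Var[id; γ] = 1 := by
    have := variance_id_gaussianReal (μ := 0) (v := 1)
    simpa using this
  rw [h2] at h
  simpa using h.symm

/-- the normalised truncation -/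
structure Trunc (θ : ℝ → ℝ) (B tr : ℝ) : Prop where
  cont : Continuous θ
  odd : ∀ x, θ (-x) = -θ x
  bd : ∀ x, |θ x| ≤ B
  one : ∫ g, θ g ^ 2 ∂γ = 1
  tr : ∫ g, (θ g - g) ^ 2 ∂γ ≤ tr

theorem exists_trunc {tr : ℝ} (htr : 0 < tr) : ∃ (θ : ℝ → ℝ) (B : ℝ), Trunc θ B tr := by
  have hc : ∀ g : ℝ, Tendsto (fun n : ℕ => clip n g) atTop (𝓝 g) := by
    intro g
    refine tendsto_const_nhds.congr' ?_
    obtain ⟨N, hN⟩ := exists_nat_ge |g|
    filter_upwards [eventually_ge_atTop N] with n hn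
    exact (clip_eq (hN.trans (by exact_mod_cast hn))).symm
  have h1 : Tendsto (fun n : ℕ => ∫ g, clip n g ^ 2 ∂γ) atTop (𝓝 1) := by
    rw [← int_sq_γ]
    refine tendsto_integral_of_dominated_convergence (fun g => g ^ 2) (fun n => ?_)
      integrable_sq_γ (fun n => ?_) ?_
    · exact ((clip_cont n).pow 2).aestronglyMeasurable
    · refine Eventually.of_forall fun g => ?_
      rw [Real.norm_eq_abs, abs_pow, ← sq_abs g]
      exact pow_le_pow_left₀ (abs_nonneg _) (clip_abs_le (Nat.cast_nonneg n) g) 2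
    · exact Eventually.of_forall fun g => (hc g).pow 2
  have h2 : Tendsto (fun n : ℕ => ∫ g, g * clip n g ∂γ) atTop (𝓝 1) := by
    have e : ∫ g : ℝ, g * g ∂γ = 1 := by
      rw [← int_sq_γ]; congr 1; ext g; ring
    rw [← e]
    refine tendsto_integral_of_dominated_convergence (fun g => g ^ 2) (fun n => ?_)
      integrable_sq_γ (fun n => ?_) ?_
    · exact (continuous_id.mul (clip_cont n)).aestronglyMeasurable
    · refine Eventually.of_forall fun g => ?_
      rw [Real.norm_eq_abs, abs_mul, ← sq_abs g, sq]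
      exact mul_le_mul_of_nonneg_left (clip_abs_le (Nat.cast_nonneg n) g) (abs_nonneg _)
    · exact Eventually.of_forall fun g => tendsto_const_nhds.mul (hc g)
  have h3 : Tendsto (fun n : ℕ => 2 - 2 * ((∫ g, g * clip n g ∂γ) /
      √(∫ g, clip n g ^ 2 ∂γ))) atTop (𝓝 0) := by
    have h4 := (h2.div (h1.sqrt) (by simp)).const_mul 2
    have h5 := h4.const_sub 2
    simpa using h5
  obtain ⟨n, hn1, hn2⟩ := ((h3.eventually_lt_const htr).and
    (h1.eventually_const_lt (by norm_num : (1/2:ℝ) < 1))).exists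
  set c := √(∫ g, clip n g ^ 2 ∂γ) with hcdef
  have hcp : 0 < c := Real.sqrt_pos.2 (by linarith)
  have hc2 : c ^ 2 = ∫ g, clip n g ^ 2 ∂γ := Real.sq_sqrt (by linarith)
  have hn0 : (0:ℝ) ≤ n := Nat.cast_nonneg n
  have e1 : ∫ g, (clip n g / c) ^ 2 ∂γ = 1 := by
    simp only [div_pow]
    rw [integral_div, ← hc2]
    exact div_self (by positivity)
  refine ⟨fun g => clip n g / c, n / c, (clip_cont n).div_const c, fun x => ?_, fun x => ?_,
    e1, ?_⟩
  · rw [clip_odd hn0, neg_div]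
  · rw [abs_div, abs_of_pos hcp]
    exact div_le_div_of_nonneg_right (clip_abs hn0 x) hcp.le
  · have i1 : Integrable (fun g : ℝ => (clip n g / c) ^ 2) γ := by
      refine (integrable_const ((n / c) ^ 2)).mono' ?_ (Eventually.of_forall fun g => ?_)
      · exact (((clip_cont n).div_const c).pow 2).aestronglyMeasurable
      · rw [Real.norm_eq_abs, abs_pow, abs_div, abs_of_pos hcp]
        exact pow_le_pow_left₀ (by positivity)
          (div_le_div_of_nonneg_right (clip_abs hn0 g) hcp.le) 2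
    have i2 : Integrable (fun g : ℝ => g * clip n g) γ := by
      refine integrable_sq_γ.mono' (continuous_id.mul (clip_cont n)).aestronglyMeasurable
        (Eventually.of_forall fun g => ?_)
      rw [Real.norm_eq_abs, abs_mul, ← sq_abs g, sq]
      exact mul_le_mul_of_nonneg_left (clip_abs_le hn0 g) (abs_nonneg _)
    have e2 : ∀ g : ℝ, (clip n g / c - g) ^ 2 =
        (clip n g / c) ^ 2 - (2 / c) * (g * clip n g) + g ^ 2 := by
      intro g; field_simp; ring
    simp only [e2]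
    have i3 : Integrable (fun g : ℝ => (clip n g / c) ^ 2 - (2 / c) * (g * clip n g)) γ :=
      i1.sub (i2.const_mul _)
    rw [integral_add i3 integrable_sq_γ, integral_sub i1 (i2.const_mul _), integral_const_mul,
      int_sq_γ, e1]
    refine le_trans (le_of_eq ?_) hn1.le
    field_simp
    ring

namespace Trunc

variable {θ : ℝ → ℝ} {B tr : ℝ}


theorem int (h : Trunc θ B tr) : Integrable θ γ :=
  (integrable_const B).mono' h.cont.aestronglyMeasurable (Eventually.of_forall fun g => by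
    rw [Real.norm_eq_abs]; exact h.bd g)

theorem zero (h : Trunc θ B tr) : ∫ g, θ g ∂γ = 0 := by
  have h1 : γ.map (fun g : ℝ => -g) = γ := by
    have := gaussianReal_map_neg (μ := 0) (v := 1)
    simpa using this
  have h2 : ∫ g, θ g ∂γ = ∫ g, θ (-g) ∂γ := by
    conv_lhs => rw [← h1]
    rw [integral_map (by fun_prop) h.cont.aestronglyMeasurable]
  simp only [h.odd] at h2
  rw [integral_neg] at h2
  linarith

theorem int_gθ (h : Trunc θ B tr) : Integrable (fun g : ℝ => g * θ g) γ := by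
  have hid : Integrable (fun g : ℝ => g) γ := Guerra.integrable_id_γ
  refine (hid.abs.const_mul B).mono' (continuous_id.mul h.cont).aestronglyMeasurable
    (Eventually.of_forall fun g => ?_)
  rw [Real.norm_eq_abs, abs_mul, mul_comm]
  exact mul_le_mul_of_nonneg_right (h.bd g) (abs_nonneg _)

theorem int_sq (h : Trunc θ B tr) : Integrable (fun g : ℝ => θ g ^ 2) γ := by
  refine (integrable_const (B ^ 2)).mono' (h.cont.pow 2).aestronglyMeasurable
    (Eventually.of_forall fun g => ?_)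
  rw [Real.norm_eq_abs, abs_pow]
  exact pow_le_pow_left₀ (abs_nonneg _) (h.bd g) 2


/-- the covariance of the truncation with the identity -/
theorem kap (h : Trunc θ B tr) : ∫ g, g * θ g ∂γ = 1 - (∫ g, (θ g - g) ^ 2 ∂γ) / 2 := by
  have e2 : ∀ g : ℝ, (θ g - g) ^ 2 = θ g ^ 2 - 2 * (g * θ g) + g ^ 2 := by
    intro g; ring
  simp only [e2]
  have i1 : Integrable (fun g : ℝ => θ g ^ 2 - 2 * (g * θ g)) γ :=
    h.int_sq.sub (h.int_gθ.const_mul _)
  rw [integral_add i1 integrable_sq_γ, integral_sub h.int_sq (h.int_gθ.const_mul _),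
    integral_const_mul, int_sq_γ, h.one]
  ring

theorem kap_ge (h : Trunc θ B tr) : 1 - tr / 2 ≤ ∫ g, g * θ g ∂γ := by
  rw [h.kap]; have := h.tr; linarith

theorem kap_le (h : Trunc θ B tr) : ∫ g, g * θ g ∂γ ≤ 1 := by
  rw [h.kap]
  have : 0 ≤ ∫ g, (θ g - g) ^ 2 ∂γ := integral_nonneg fun g => sq_nonneg _
  linarith

end Trunc

end

end Crest.Agent.R339.DF
end

-- ▼ part R339/DF833B
section

/-!
# Row 339, (DF): the scheme
-/

set_option autoImplicit false
set_option linter.unusedSectionVars false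

namespace Crest.Agent.R339.DF

open MeasureTheory ProbabilityTheory Filter Topology Matrix Real
open Crest.Agent.R339.Guerra (G lin mp_update mp_int)
open Crest.Agent.R339.Trig
open Crest.Agent.R339.D3 (Sched Chain Step xp Kern comp)
open Crest.Agent.R164.GC (tE g2)

noncomputable section

variable {R : ℕ}

/-- the noise variables -/
def nz (k : ℕ) (ω : Fin (R + 1) → ℝ) : ℝ := if h : k < R then ω (Fin.succ ⟨k, h⟩) else 0

theorem nz_of_lt {k : ℕ} (h : k < R) (ω : Fin (R + 1) → ℝ) :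
    nz k ω = ω (Fin.succ ⟨k, h⟩) := by simp [nz, h]

/-- the Euler chain -/
def XX (d : ℝ) (m : ℕ → ℝ) (f f1 : ℕ → ℝ → ℝ) : ℕ → (Fin (R + 1) → ℝ) → ℝ
  | 0, _ => 0
  | k + 1, ω => xp (m k) d (f (k + 1)) (f1 (k + 1)) (XX d m f f1 k ω) (nz k ω)

/-- data -/
structure Dat (R : ℕ) (M C d : ℝ) (m : ℕ → ℝ) (f f1 f2 : ℕ → ℝ → ℝ) (θ : ℝ → ℝ) (B tr : ℝ) :
    Prop where
  S : Sched M C R d m (fun _ => d) f f1 f2
  R0 : 0 < R
  d0 : 0 < d
  odd : ∀ r < R, ∀ x, f1 r (-x) = -f1 r x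
  even : ∀ r < R, ∀ x, f2 r (-x) = f2 r x
  T : Trunc θ B tr
  pos : ∀ k < R, 0 < ∫ ω, f2 k (XX d m f f1 k ω) ^ 2 ∂G (Fin (R + 1))

section

variable {M C d : ℝ} {m : ℕ → ℝ} {f f1 f2 : ℕ → ℝ → ℝ} {θ : ℝ → ℝ} {B tr : ℝ}

theorem sched_f2_cont (S : Sched M C R d m (fun _ => d) f f1 f2) {k : ℕ} (hk : k < R) :
    Continuous (f2 k) := by
  rw [S.f2_eq k hk]
  exact D3.g2_cont (S.step k hk)

theorem g2_bd {M C m v : ℝ} {f f1 f2 : ℝ → ℝ} (h : Step M C m v f f1 f2) (x : ℝ) :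
    |g2 m v f f1 f2 x| ≤ C + M := by
  unfold g2
  have b1 := R164.GC.tE_abs_le h.sm.lip m v h.sm.B2 x
  have b2 := R164.GC.tE_abs_le h.sm.lip m v (h.sm.B1.pow 2) x
  have b3 := R164.GC.tE_sq_le h.sm.lip m v h.sm.B1.eg x
  have b4 := sq_nonneg (tE m v f f1 x)
  rw [one_pow] at b2
  have b5 := (le_abs_self _).trans b2
  refine (abs_add_le _ _).trans (add_le_add b1 ?_)
  rw [abs_mul, abs_of_pos h.hm, abs_of_nonneg (by linarith)]
  have := h.hmM
  have := h.hm
  nlinarith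

theorem sched_f2_bd (S : Sched M C R d m (fun _ => d) f f1 f2) {k : ℕ} (hk : k < R) (x : ℝ) :
    |f2 k x| ≤ C + M := by
  rw [S.f2_eq k hk]
  exact g2_bd (S.step k hk) x

/-- the `L²` norm -/
def nr (R : ℕ) (d : ℝ) (m : ℕ → ℝ) (f f1 f2 : ℕ → ℝ → ℝ) (k : ℕ) : ℝ :=
  √(∫ ω, f2 k (XX d m f f1 k ω) ^ 2 ∂G (Fin (R + 1)))

/-- the normalised control -/
def aa (d : ℝ) (m : ℕ → ℝ) (f f1 f2 : ℕ → ℝ → ℝ) (k : ℕ) (ω : Fin (R + 1) → ℝ) : ℝ :=
  f2 k (XX d m f f1 k ω) / nr R d m f f1 f2 k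

/-- the increments of the messages -/
def Dd (d : ℝ) (m : ℕ → ℝ) (f f1 f2 : ℕ → ℝ → ℝ) (θ : ℝ → ℝ) : ℕ → (Fin (R + 1) → ℝ) → ℝ
  | 0, ω => √d * θ (ω 0)
  | k + 1, ω => √d * (aa d m f f1 f2 k ω * θ (nz k ω))

/-- the messages -/
def Mm (d : ℝ) (m : ℕ → ℝ) (f f1 f2 : ℕ → ℝ → ℝ) (θ : ℝ → ℝ) (j : ℕ) (ω : Fin (R + 1) → ℝ) : ℝ :=
  ∑ i ∈ Finset.range (j + 1), Dd d m f f1 f2 θ i ω

/-! ### dependence -/

theorem XX_congr {ω ω' : Fin (R + 1) → ℝ} : ∀ k : ℕ,
    (∀ i : Fin (R + 1), 1 ≤ (i : ℕ) → (i : ℕ) ≤ k → ω i = ω' i) →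
    XX d m f f1 k ω = XX d m f f1 k ω'
  | 0, _ => rfl
  | k + 1, h => by
    have ih := XX_congr k
      (fun i h1 hi => h i h1 (by omega))
    have hn : nz k ω = nz k ω' := by
      unfold nz
      split
      · rename_i hk
        refine h _ ?_ ?_ <;> simp
      · rfl
    simp only [XX, ih, hn]

theorem Dd_congr {ω ω' : Fin (R + 1) → ℝ} (k : ℕ)
    (h : ∀ i : Fin (R + 1), (i : ℕ) ≤ k → ω i = ω' i) :
    Dd d m f f1 f2 θ k ω = Dd d m f f1 f2 θ k ω' := by
  cases k with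
  | zero => simp only [Dd]; rw [h 0 (by simp)]
  | succ k =>
    have h1 := XX_congr (d := d) (m := m) (f := f) (f1 := f1) k
      (fun i _ hi => h i (by omega))
    have hn : nz k ω = nz k ω' := by
      unfold nz
      split
      · rename_i hk
        refine h _ ?_
        simp
      · rfl
    simp only [Dd, aa, h1, hn]

theorem Mm_congr {ω ω' : Fin (R + 1) → ℝ} (k : ℕ)
    (h : ∀ i : Fin (R + 1), (i : ℕ) ≤ k → ω i = ω' i) :
    Mm d m f f1 f2 θ k ω = Mm d m f f1 f2 θ k ω' := by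
  unfold Mm
  refine Finset.sum_congr rfl fun i hi => Dd_congr i fun j hj => h j ?_
  rw [Finset.mem_range] at hi
  omega

theorem update_ne_of_le {l k : ℕ} (hl : l < R) (hk : k ≤ l) (ω : Fin (R + 1) → ℝ) (t : ℝ)
    (i : Fin (R + 1)) (hi : (i : ℕ) ≤ k) :
    Function.update ω (Fin.succ ⟨l, hl⟩) t i = ω i := by
  rw [Function.update_of_ne]
  intro h
  have := congrArg Fin.val h
  simp at this
  omega

/-! ### continuity and bounds -/

theorem nz_cont (k : ℕ) : Continuous (nz (R := R) k) := by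
  unfold nz
  split
  · exact continuous_apply _
  · exact continuous_const

theorem XX_cont (S : Sched M C R d m (fun _ => d) f f1 f2) : ∀ k ≤ R,
    Continuous (XX (R := R) d m f f1 k)
  | 0, _ => continuous_const
  | k + 1, hk => by
    have ih := XX_cont S k (by omega)
    have h1 := D3.xp_cont (S.step k (by omega))
    have h2 : Continuous (fun ω : Fin (R + 1) → ℝ => (XX d m f f1 k ω, nz k ω)) :=
      ih.prodMk (nz_cont k)
    exact h1.comp h2

namespace Dat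

variable (D : Dat R M C d m f f1 f2 θ B tr)

include D

theorem f2c {k : ℕ} (hk : k < R) : Continuous (f2 k) := sched_f2_cont D.S hk

theorem b2 (k : ℕ) (hk : k < R) (x : ℝ) : |f2 k x| ≤ C + M := sched_f2_bd D.S hk x

theorem nr_pos {k : ℕ} (hk : k < R) : 0 < nr R d m f f1 f2 k := Real.sqrt_pos.2 (D.pos k hk)

theorem C0 : 0 ≤ C := D.S.C0

theorem CM0 : 0 ≤ C + M := add_nonneg D.S.C0 D.S.M0

theorem sd : 0 < √d := Real.sqrt_pos.2 D.d0

theorem sdd : √d * √d = d := Real.mul_self_sqrt D.d0.le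

theorem aa_cont {k : ℕ} (hk : k < R) : Continuous (aa (R := R) d m f f1 f2 k) :=
  ((D.f2c hk).comp (XX_cont D.S k hk.le)).div_const _

theorem aa_bd {k : ℕ} (hk : k < R) (ω : Fin (R + 1) → ℝ) :
    |aa d m f f1 f2 k ω| ≤ (C + M) / nr R d m f f1 f2 k := by
  unfold aa
  rw [abs_div, abs_of_pos (D.nr_pos hk)]
  exact div_le_div_of_nonneg_right (D.b2 k hk _) (D.nr_pos hk).le

theorem Dd_cont {k : ℕ} (hk : k ≤ R) : Continuous (Dd (R := R) d m f f1 f2 θ k) := by
  cases k with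
  | zero => exact continuous_const.mul (D.T.cont.comp (continuous_apply 0))
  | succ k =>
    exact continuous_const.mul ((D.aa_cont (by omega)).mul (D.T.cont.comp (nz_cont k)))

/-- bounds of the increments -/
theorem Dd_bd {k : ℕ} (hk : k ≤ R) : ∃ K, ∀ ω : Fin (R + 1) → ℝ,
    |Dd d m f f1 f2 θ k ω| ≤ K := by
  cases k with
  | zero =>
    refine ⟨√d * B, fun ω => ?_⟩
    simp only [Dd]
    rw [abs_mul, abs_of_pos D.sd]
    exact mul_le_mul_of_nonneg_left (D.T.bd _) D.sd.le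
  | succ k =>
    refine ⟨√d * ((C + M) / nr R d m f f1 f2 k * B), fun ω => ?_⟩
    simp only [Dd]
    rw [abs_mul, abs_of_pos D.sd, abs_mul]
    refine mul_le_mul_of_nonneg_left ?_ D.sd.le
    exact mul_le_mul (D.aa_bd (by omega) ω) (D.T.bd _) (abs_nonneg _)
      (div_nonneg D.CM0 (D.nr_pos (by omega)).le)

theorem Mm_cont {k : ℕ} (hk : k ≤ R) : Continuous (Mm (R := R) d m f f1 f2 θ k) := by
  unfold Mm
  refine continuous_finsetSum _ fun i hi => D.Dd_cont ?_
  rw [Finset.mem_range] at hi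
  omega

theorem Mm_bd : ∃ K, ∀ k ≤ R, ∀ ω : Fin (R + 1) → ℝ, |Mm d m f f1 f2 θ k ω| ≤ K := by
  have h : ∀ i, ∃ K, i ≤ R → ∀ ω : Fin (R + 1) → ℝ, |Dd d m f f1 f2 θ i ω| ≤ K := fun i => by
    by_cases hi : i ≤ R
    · obtain ⟨K, hK⟩ := D.Dd_bd hi; exact ⟨K, fun _ => hK⟩
    · exact ⟨0, fun h => absurd h hi⟩
  choose K hK using h
  refine ⟨∑ i ∈ Finset.range (R + 1), |K i|, fun k hk ω => ?_⟩
  unfold Mm
  refine (Finset.abs_sum_le_sum_abs _ _).trans ?_
  refine (Finset.sum_le_sum fun i hi => ?_).trans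
    (Finset.sum_le_sum_of_subset_of_nonneg (Finset.range_mono (by omega : k + 1 ≤ R + 1))
      fun i _ _ => abs_nonneg (K i))
  rw [Finset.mem_range] at hi
  exact (hK i (by omega) ω).trans (le_abs_self _)

theorem bdd_memLp {Y : (Fin (R + 1) → ℝ) → ℝ} (hY : Continuous Y) {K : ℝ} (hK : ∀ ω, |Y ω| ≤ K) :
    MemLp Y 2 (G (Fin (R + 1))) :=
  MemLp.of_bound hY.aestronglyMeasurable K (Eventually.of_forall fun ω => by
    rw [Real.norm_eq_abs]; exact hK ω)

theorem Dd_memLp {k : ℕ} (hk : k ≤ R) :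
    MemLp (Dd (R := R) d m f f1 f2 θ k) 2 (G (Fin (R + 1))) := by
  obtain ⟨K, hK⟩ := D.Dd_bd hk
  exact D.bdd_memLp (D.Dd_cont hk) hK

omit D in
theorem nz_memLp {k : ℕ} (hk : k < R) : MemLp (nz (R := R) k) 2 (G (Fin (R + 1))) := by
  have h1 : MemLp (fun x : ℝ => x) 2 γ := memLp_id_gaussianReal (μ := 0) (v := 1) 2
  have h2 := h1.comp_measurePreserving
    (measurePreserving_eval (fun _ : Fin (R + 1) => γ) (Fin.succ ⟨k, hk⟩))
  refine h2.ae_eq (Eventually.of_forall fun ω => ?_)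
  exact (nz_of_lt hk ω).symm

/-! ### orthogonality relations -/

theorem int_aa_sq {k : ℕ} (hk : k < R) :
    ∫ ω, aa d m f f1 f2 k ω ^ 2 ∂G (Fin (R + 1)) = 1 := by
  unfold aa
  simp only [div_pow]
  rw [integral_div]
  unfold nr
  rw [Real.sq_sqrt (D.pos k hk).le]
  exact div_self (D.pos k hk).ne'

theorem aa_update {k l : ℕ} (hl : l < R) (hk : k ≤ l) (ω : Fin (R + 1) → ℝ) (t : ℝ) :
    aa d m f f1 f2 k (Function.update ω (Fin.succ ⟨l, hl⟩) t) = aa d m f f1 f2 k ω := by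
  unfold aa
  rw [XX_congr k fun i _ hi => update_ne_of_le hl hk ω t i hi]

theorem Dd_update {k l : ℕ} (hl : l < R) (hk : k ≤ l) (ω : Fin (R + 1) → ℝ) (t : ℝ) :
    Dd d m f f1 f2 θ k (Function.update ω (Fin.succ ⟨l, hl⟩) t) = Dd d m f f1 f2 θ k ω :=
  Dd_congr k fun i hi => update_ne_of_le hl hk ω t i hi

omit D in
theorem nz_update {k l : ℕ} (hl : l < R) (hk : k < l) (ω : Fin (R + 1) → ℝ) (t : ℝ) :
    nz k (Function.update ω (Fin.succ ⟨l, hl⟩) t) = nz k ω := by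
  have hk' : k < R := by omega
  rw [nz_of_lt hk', nz_of_lt hk']
  exact update_ne_of_le (k := k + 1) hl (by omega) ω t _ (by simp)

theorem o1_lt {i l : ℕ} (hl : l < R) (hi : i ≤ l) :
    ∫ ω, Dd d m f f1 f2 θ i ω * Dd d m f f1 f2 θ (l + 1) ω ∂G (Fin (R + 1)) = 0 := by
  have e : ∀ ω : Fin (R + 1) → ℝ, Dd d m f f1 f2 θ i ω * Dd d m f f1 f2 θ (l + 1) ω =
      (Dd d m f f1 f2 θ i ω * (√d * aa d m f f1 f2 l ω)) * θ (ω (Fin.succ ⟨l, hl⟩)) := by
    intro ω
    simp only [Dd, nz_of_lt hl]; ring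
  simp only [e]
  rw [int_mul_coord (Fin.succ ⟨l, hl⟩)
    (Y := fun ω => Dd d m f f1 f2 θ i ω * (√d * aa d m f f1 f2 l ω)) (φ := θ)
    (fun ω t => by rw [D.Dd_update hl hi, D.aa_update hl le_rfl])
    (((D.Dd_cont (by omega)).mul (continuous_const.mul (D.aa_cont hl))).measurable)
    D.T.cont.measurable, D.T.zero, mul_zero]

theorem o1_self {i : ℕ} (hi : i ≤ R) :
    ∫ ω, Dd d m f f1 f2 θ i ω * Dd d m f f1 f2 θ i ω ∂G (Fin (R + 1)) = d := by
  cases i with
  | zero =>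
    have e : ∀ ω : Fin (R + 1) → ℝ, Dd d m f f1 f2 θ 0 ω * Dd d m f f1 f2 θ 0 ω =
        d * (θ (ω 0)) ^ 2 := by
      intro ω
      simp only [Dd]
      linear_combination (θ (ω 0) ^ 2) * D.sdd
    simp only [e]
    rw [int_mul_coord (0 : Fin (R + 1)) (Y := fun _ => d) (φ := fun t => θ t ^ 2)
      (fun _ _ => rfl) measurable_const (D.T.cont.pow 2).measurable, D.T.one]
    simp
  | succ l =>
    have hl : l < R := by omega
    have e : ∀ ω : Fin (R + 1) → ℝ, Dd d m f f1 f2 θ (l + 1) ω * Dd d m f f1 f2 θ (l + 1) ω =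
        (d * aa d m f f1 f2 l ω ^ 2) * (θ (ω (Fin.succ ⟨l, hl⟩))) ^ 2 := by
      intro ω
      simp only [Dd, nz_of_lt hl]
      linear_combination ((aa d m f f1 f2 l ω * θ (ω (Fin.succ ⟨l, hl⟩))) ^ 2) * D.sdd
    simp only [e]
    rw [int_mul_coord (Fin.succ ⟨l, hl⟩) (Y := fun ω => d * aa d m f f1 f2 l ω ^ 2)
      (φ := fun t => θ t ^ 2) (fun ω t => by rw [D.aa_update hl le_rfl])
      ((continuous_const.mul ((D.aa_cont hl).pow 2)).measurable)
      (D.T.cont.pow 2).measurable, D.T.one, integral_const_mul, D.int_aa_sq hl]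
    ring

theorem o1 {i j : ℕ} (hi : i ≤ R) (hj : j ≤ R) :
    ∫ ω, Dd d m f f1 f2 θ i ω * Dd d m f f1 f2 θ j ω ∂G (Fin (R + 1)) =
      if i = j then d else 0 := by
  rcases lt_trichotomy i j with h | h | h
  · rw [if_neg h.ne]
    obtain ⟨l, rfl⟩ : ∃ l, j = l + 1 := ⟨j - 1, by omega⟩
    exact D.o1_lt (by omega) (by omega)
  · subst h; rw [if_pos rfl]; exact D.o1_self hi
  · rw [if_neg h.ne']
    obtain ⟨l, rfl⟩ : ∃ l, i = l + 1 := ⟨i - 1, by omega⟩
    simp only [mul_comm (Dd d m f f1 f2 θ (l + 1) _)]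
    exact D.o1_lt (by omega) (by omega)

/-- the covariance of noise and increments -/
theorem o2 {k j : ℕ} (hk : k < R) (hj : j ≤ R) :
    ∫ ω, nz k ω * Dd d m f f1 f2 θ j ω ∂G (Fin (R + 1)) =
      if j = k + 1 then √d * (∫ ω, aa d m f f1 f2 k ω ∂G (Fin (R + 1))) * (∫ g, g * θ g ∂γ)
      else 0 := by
  rcases lt_trichotomy j (k + 1) with h | h | h
  · rw [if_neg h.ne]
    have e : ∀ ω : Fin (R + 1) → ℝ, nz k ω * Dd d m f f1 f2 θ j ω =
        Dd d m f f1 f2 θ j ω * (ω (Fin.succ ⟨k, hk⟩)) := by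
      intro ω; rw [nz_of_lt hk]; ring
    simp only [e]
    rw [int_mul_coord (Fin.succ ⟨k, hk⟩) (Y := fun ω => Dd d m f f1 f2 θ j ω)
      (φ := fun t => t) (fun ω t => by rw [D.Dd_update hk (by omega)])
      ((D.Dd_cont hj).measurable) measurable_id]
    simp
  · subst h
    rw [if_pos rfl]
    have e : ∀ ω : Fin (R + 1) → ℝ, nz k ω * Dd d m f f1 f2 θ (k + 1) ω =
        (√d * aa d m f f1 f2 k ω) *
          ((fun t : ℝ => t * θ t) (ω (Fin.succ ⟨k, hk⟩))) := by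
      intro ω
      simp only [Dd, nz_of_lt hk]; ring
    simp only [e]
    rw [int_mul_coord (Fin.succ ⟨k, hk⟩) (Y := fun ω => √d * aa d m f f1 f2 k ω)
      (φ := fun t => t * θ t) (fun ω t => by rw [D.aa_update hk le_rfl])
      ((continuous_const.mul (D.aa_cont hk)).measurable)
      (continuous_id.mul D.T.cont).measurable, integral_const_mul]
  · rw [if_neg h.ne']
    obtain ⟨l, rfl⟩ : ∃ l, j = l + 1 := ⟨j - 1, by omega⟩
    have hl : l < R := by omega
    have e : ∀ ω : Fin (R + 1) → ℝ, nz k ω * Dd d m f f1 f2 θ (l + 1) ω =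
        (nz k ω * (√d * aa d m f f1 f2 l ω)) * θ (ω (Fin.succ ⟨l, hl⟩)) := by
      intro ω
      simp only [Dd, nz_of_lt hl]; ring
    simp only [e]
    rw [int_mul_coord (Fin.succ ⟨l, hl⟩) (Y := fun ω => nz k ω * (√d * aa d m f f1 f2 l ω))
      (φ := θ) (fun ω t => by rw [D.aa_update hl le_rfl, nz_update hl (by omega)])
      (((nz_cont k).mul (continuous_const.mul (D.aa_cont hl))).measurable)
      D.T.cont.measurable, D.T.zero, mul_zero]

omit D in
theorem o3_lt {i j : ℕ} (hj : j < R) (hij : i < j) :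
    ∫ ω : Fin (R + 1) → ℝ, nz i ω * nz j ω ∂G (Fin (R + 1)) = 0 := by
  have e : ∀ ω : Fin (R + 1) → ℝ, nz i ω * nz j ω = nz i ω * ω (Fin.succ ⟨j, hj⟩) := by
    intro ω; rw [nz_of_lt hj]
  simp only [e]
  rw [int_mul_coord (Fin.succ ⟨j, hj⟩) (Y := fun ω => nz i ω)
    (φ := fun t => t) (fun ω t => by rw [nz_update hj hij])
    ((nz_cont i).measurable) measurable_id]
  simp

omit D in
theorem o3 {i j : ℕ} (hi : i < R) (hj : j < R) :
    ∫ ω : Fin (R + 1) → ℝ, nz i ω * nz j ω ∂G (Fin (R + 1)) = if i = j then 1 else 0 := by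
  rcases lt_trichotomy i j with h | h | h
  · rw [if_neg h.ne]; exact o3_lt hj h
  · subst h
    rw [if_pos rfl]
    have e : ∀ ω : Fin (R + 1) → ℝ, nz i ω * nz i ω = 1 * (ω (Fin.succ ⟨i, hi⟩)) ^ 2 := by
      intro ω; rw [nz_of_lt hi]; ring
    simp only [e]
    rw [int_mul_coord (Fin.succ ⟨i, hi⟩) (Y := fun _ => 1)
      (φ := fun t => t ^ 2) (fun ω t => rfl) measurable_const (by fun_prop), int_sq_γ]
    simp
  · rw [if_neg h.ne']
    simp only [mul_comm (nz i _)]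
    exact o3_lt hi h

end Dat

end

end

end Crest.Agent.R339.DF
private theorem rz_4592b2f9d0 : type_of% @_root_.Crest.Agent.R339.DF.Dd.eq_1 := @_root_.Crest.Agent.R339.DF.Dd.eq_1 -- L82
private theorem rz_d9990b13d1 : type_of% @_root_.Crest.Agent.R339.DF.XX.eq_def := @_root_.Crest.Agent.R339.DF.XX.eq_def -- L29
private theorem rz_bbacb2f997 : type_of% @_root_.Crest.Agent.R339.DF.XX.eq_1 := @_root_.Crest.Agent.R339.DF.XX.eq_1 -- L29
end

-- ▼ part R339/DF833C
section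

/-!
# Row 339, (DF): the scheme in the label coordinates and its value
-/

set_option autoImplicit false
set_option linter.unusedSectionVars false

namespace Crest.Agent.R339.DF

open MeasureTheory ProbabilityTheory Filter Topology Matrix Real
open Crest.Agent.R339.Guerra (G lin mp_update mp_int)
open Crest.Agent.R339.Trig
open Crest.Agent.R339.D3 (Sched Chain Step xp Kern comp)
open Crest.Agent.R164.GC (tE g2)

noncomputable section

variable {R : ℕ} {M C d : ℝ} {m : ℕ → ℝ} {f f1 f2 : ℕ → ℝ → ℝ} {θ : ℝ → ℝ} {B tr : ℝ}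

/-- from noise to labels -/
def Bm (R : ℕ) (d : ℝ) : Matrix (Fin (R + 1)) (Fin (R + 1)) ℝ := Matrix.of fun i j =>
  Fin.cases (Fin.cases 1 (fun _ => 0) j)
    (fun i' => Fin.cases 0 (fun j' => if j' ≤ i' then √d else 0) j) i

@[simp] theorem Bm00 : Bm R d 0 0 = 1 := rfl
@[simp] theorem Bm0s (j : Fin R) : Bm R d 0 j.succ = 0 := rfl
@[simp] theorem Bms0 (i : Fin R) : Bm R d i.succ 0 = 0 := rfl
@[simp] theorem Bmss (i j : Fin R) : Bm R d i.succ j.succ = if j ≤ i then √d else 0 := rfl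

/-- the covariance -/
def Qs (R : ℕ) (d : ℝ) : Matrix (Fin (R + 1)) (Fin (R + 1)) ℝ := Bm R d * (Bm R d)ᵀ

/-- the labels as a linear function of the noise -/
abbrev bl (R : ℕ) (d : ℝ) (ω : Fin (R + 1) → ℝ) : Fin (R + 1) → ℝ := lin (fun i j => Bm R d i j) ω

theorem sum_nz (ω : Fin (R + 1) → ℝ) (k : Fin R) :
    ∑ l : Fin R, (if l ≤ k then √d else 0) * ω l.succ =
      √d * ∑ l ∈ Finset.range (k + 1), nz l ω := by
  have h1 : ∑ l : Fin R, (if l ≤ k then √d else 0) * ω l.succ =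
      ∑ l ∈ Finset.range R, (if l ≤ (k:ℕ) then √d else 0) * nz l ω := by
    rw [← Fin.sum_univ_eq_sum_range (fun l => (if l ≤ (k:ℕ) then √d else 0) * nz l ω) R]
    refine Finset.sum_congr rfl fun l _ => ?_
    rw [nz_of_lt l.2]
    rfl
  rw [h1, Finset.mul_sum]
  symm
  have hk := k.2
  refine Finset.sum_subset_zero_on_sdiff (Finset.range_mono (by omega)) (fun l hl => ?_)
    (fun l hl => ?_)
  · rw [Finset.mem_sdiff, Finset.mem_range, Finset.mem_range] at hl
    rw [if_neg (by omega), zero_mul]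
  · rw [Finset.mem_range] at hl
    rw [if_pos (by omega)]

theorem bl_zero (ω : Fin (R + 1) → ℝ) : bl R d ω 0 = ω 0 := by
  simp [lin, Fin.sum_univ_succ]

theorem bl_succ (ω : Fin (R + 1) → ℝ) (k : Fin R) :
    bl R d ω k.succ = √d * ∑ l ∈ Finset.range (k + 1), nz l ω := by
  rw [← sum_nz]
  simp [lin, Fin.sum_univ_succ]

/-- from labels to noise -/
def zeta (d : ℝ) (x : Fin (R + 1) → ℝ) : Fin (R + 1) → ℝ := fun i =>
  Fin.cases (x 0) (fun k => (x k.succ - if (k : ℕ) = 0 then 0 else x k.castSucc) / √d) i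

@[simp] theorem zeta_zero (x : Fin (R + 1) → ℝ) : zeta d x 0 = x 0 := rfl
@[simp] theorem zeta_succ (x : Fin (R + 1) → ℝ) (k : Fin R) :
    zeta d x k.succ = (x k.succ - if (k : ℕ) = 0 then 0 else x k.castSucc) / √d := rfl

theorem zeta_bl (hd : 0 < d) (ω : Fin (R + 1) → ℝ) : zeta d (bl R d ω) = ω := by
  have hs : √d ≠ 0 := (Real.sqrt_pos.2 hd).ne'
  ext i
  refine Fin.cases ?_ (fun k => ?_) i
  · rw [zeta_zero, bl_zero]
  · rw [zeta_succ, bl_succ]
    have e : (if (k : ℕ) = 0 then 0 else bl R d ω k.castSucc) =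
        √d * ∑ l ∈ Finset.range k, nz l ω := by
      split
      · rename_i h; rw [h]; simp
      · rename_i h
        obtain ⟨k', hk'⟩ : ∃ k' : Fin R, k.castSucc = k'.succ ∧ (k : ℕ) = k' + 1 := by
          refine ⟨⟨k - 1, by have := k.2; omega⟩, ?_, ?_⟩
          · ext; simp; omega
          · simp; omega
        rw [hk'.1, bl_succ, hk'.2]
    rw [e, Finset.sum_range_succ, mul_add, add_sub_cancel_left, mul_div_cancel_left₀ _ hs,
      nz_of_lt k.2]

theorem zeta_cont : Continuous (zeta (R := R) d) := by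
  have hc : ∀ i : Fin (R + 1), Continuous (fun x : Fin (R + 1) → ℝ => x i) := fun i =>
    continuous_apply i
  refine continuous_pi fun i => ?_
  refine Fin.cases ?_ (fun k => ?_) i
  · exact hc 0
  · simp only [zeta_succ]
    split
    · exact ((hc _).sub continuous_const).div_const _
    · exact ((hc _).sub (hc _)).div_const _

theorem zeta_neg (x : Fin (R + 1) → ℝ) : zeta d (-x) = -zeta d x := by
  ext i
  refine Fin.cases ?_ (fun k => ?_) i
  · simp
  · simp only [zeta_succ, Pi.neg_apply]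
    split <;> ring

/-- the messages as functions of the labels -/
def FF (d : ℝ) (m : ℕ → ℝ) (f f1 f2 : ℕ → ℝ → ℝ) (θ : ℝ → ℝ) (j : Fin R)
    (x : Fin (R + 1) → ℝ) : ℝ := Mm d m f f1 f2 θ j (zeta d x)

/-- the final magnetisation as a function of the noise -/
def gg (R : ℕ) (d : ℝ) (m : ℕ → ℝ) (f f1 f2 : ℕ → ℝ → ℝ) (θ : ℝ → ℝ)
    (ω : Fin (R + 1) → ℝ) : ℝ := clip 1 (Mm d m f f1 f2 θ R ω)

/-- the final magnetisation as a function of the labels -/
def GG (d : ℝ) (m : ℕ → ℝ) (f f1 f2 : ℕ → ℝ → ℝ) (θ : ℝ → ℝ)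
    (x : Fin (R + 1) → ℝ) : ℝ := gg R d m f f1 f2 θ (zeta d x)

namespace Dat

variable (D : Dat R M C d m f f1 f2 θ B tr)

include D

theorem XX_odd (ω : Fin (R + 1) → ℝ) : ∀ k ≤ R, XX d m f f1 k (-ω) = -XX d m f f1 k ω
  | 0, _ => by simp [XX]
  | k + 1, hk => by
    have ih := XX_odd ω k (by omega)
    have hn : nz k (-ω) = -nz k ω := by
      rw [nz_of_lt (by omega), nz_of_lt (by omega)]; rfl
    have hdr : ∀ x, tE (m k) d (f (k + 1)) (f1 (k + 1)) x = f1 k x := fun x => by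
      rw [D.S.f1_eq k (by omega)]
    simp only [XX, ih, hn, xp, D3.drift, hdr, D.odd k (by omega)]
    ring

theorem Dd_odd (ω : Fin (R + 1) → ℝ) {k : ℕ} (hk : k ≤ R) :
    Dd d m f f1 f2 θ k (-ω) = -Dd d m f f1 f2 θ k ω := by
  cases k with
  | zero => simp only [Dd, Pi.neg_apply, D.T.odd]; ring
  | succ k =>
    have hn : nz k (-ω) = -nz k ω := by
      rw [nz_of_lt (by omega), nz_of_lt (by omega)]; rfl
    simp only [Dd, aa, D.XX_odd ω k (by omega), D.even k (by omega), hn, D.T.odd]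
    ring

theorem Mm_odd (ω : Fin (R + 1) → ℝ) {k : ℕ} (hk : k ≤ R) :
    Mm d m f f1 f2 θ k (-ω) = -Mm d m f f1 f2 θ k ω := by
  unfold Mm
  rw [← Finset.sum_neg_distrib]
  refine Finset.sum_congr rfl fun i hi => D.Dd_odd ω ?_
  rw [Finset.mem_range] at hi; omega

theorem FF_odd (j : Fin R) (x : Fin (R + 1) → ℝ) :
    FF d m f f1 f2 θ j (-x) = -FF d m f f1 f2 θ j x := by
  unfold FF
  rw [zeta_neg, D.Mm_odd _ j.2.le]

theorem FF_cont (j : Fin R) : Continuous (FF (R := R) d m f f1 f2 θ j) :=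
  (D.Mm_cont j.2.le).comp zeta_cont

theorem gg_cont : Continuous (gg R d m f f1 f2 θ) := (clip_cont 1).comp (D.Mm_cont le_rfl)

theorem GG_cont : Continuous (GG (R := R) d m f f1 f2 θ) := D.gg_cont.comp zeta_cont

omit D in
theorem gg_bd (ω : Fin (R + 1) → ℝ) : |gg R d m f f1 f2 θ ω| ≤ 1 := clip_abs zero_le_one _

theorem GG_odd (x : Fin (R + 1) → ℝ) : GG d m f f1 f2 θ (-x) = -GG d m f f1 f2 θ x := by
  unfold GG gg
  rw [zeta_neg, D.Mm_odd _ le_rfl, clip_odd zero_le_one]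

theorem adm : ∃ K, Adm (fun j : Fin R => FF (R := R) d m f f1 f2 θ j) K := by
  obtain ⟨K, hK⟩ := D.Mm_bd
  refine ⟨K, fun j => (D.FF_cont j).stronglyMeasurable, fun j x => hK j j.2.le _, fun j => ?_⟩
  intro x y hxy
  unfold FF
  refine Mm_congr _ fun i => ?_
  refine Fin.cases (fun _ => ?_) (fun k hk => ?_) i
  · rw [zeta_zero, zeta_zero]
    exact hxy 0 (by simp)
  · have h1 : x k.succ = y k.succ := hxy _ (by
      simp only [Set.mem_ofPred_eq, Fin.le_def, Fin.val_castSucc]; exact hk)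
    have h2 : x k.castSucc = y k.castSucc := hxy _ (by
      simp only [Set.mem_ofPred_eq, Fin.le_def, Fin.val_castSucc]
      simp only [Fin.val_succ] at hk
      omega)
    rw [zeta_succ, zeta_succ, h1, h2]

/-- the law of the labels -/
theorem law : (G (Fin (R + 1))).map (bl R d) = gl (Qs R d) :=
  map_lin _ fun i j => by
    unfold Qs
    rw [Matrix.mul_apply]
    rfl

theorem int_gl {φ : (Fin (R + 1) → ℝ) → ℝ} (hφ : Continuous φ) :
    ∫ x, φ x ∂gl (Qs R d) = ∫ ω, φ (bl R d ω) ∂G (Fin (R + 1)) := by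
  rw [← D.law, integral_map (Guerra.continuous_lin _).measurable.aemeasurable
    hφ.aestronglyMeasurable]

theorem int_Mm {i j : ℕ} (hi : i ≤ R) (hj : j ≤ R) :
    ∫ ω, Mm d m f f1 f2 θ i ω * Mm d m f f1 f2 θ j ω ∂G (Fin (R + 1)) =
      ∑ a ∈ Finset.range (i + 1), ∑ b ∈ Finset.range (j + 1), if a = b then d else 0 := by
  have e : ∀ ω : Fin (R + 1) → ℝ, Mm d m f f1 f2 θ i ω * Mm d m f f1 f2 θ j ω =
      ∑ a ∈ Finset.range (i + 1), ∑ b ∈ Finset.range (j + 1),
        Dd d m f f1 f2 θ a ω * Dd d m f f1 f2 θ b ω := by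
    intro ω; unfold Mm; rw [Finset.sum_mul_sum]
  simp only [e]
  have hint : ∀ a ∈ Finset.range (i + 1), ∀ b ∈ Finset.range (j + 1), Integrable
      (fun ω : Fin (R + 1) → ℝ => Dd d m f f1 f2 θ a ω * Dd d m f f1 f2 θ b ω)
      (G (Fin (R + 1))) := fun a ha b hb => by
    rw [Finset.mem_range] at ha hb
    exact (D.Dd_memLp (by omega)).integrable_mul (D.Dd_memLp (by omega))
  rw [integral_finsetSum _ fun a ha => integrable_finsetSum _ fun b hb => hint a ha b hb]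
  refine Finset.sum_congr rfl fun a ha => ?_
  rw [integral_finsetSum _ fun b hb => hint a ha b hb]
  refine Finset.sum_congr rfl fun b hb => ?_
  rw [Finset.mem_range] at ha hb
  exact D.o1 (by omega) (by omega)

theorem Qs_ss (i j : Fin R) : Qs R d i.succ j.succ =
    ∑ a ∈ Finset.range ((i : ℕ) + 1), ∑ b ∈ Finset.range ((j : ℕ) + 1),
      if a = b then d else 0 := by
  unfold Qs
  rw [Matrix.mul_apply, Fin.sum_univ_succ]
  simp only [Matrix.transpose_apply, Bms0, Bmss, mul_zero, zero_add]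
  have h1 : ∑ l : Fin R, (if l ≤ i then √d else 0) * (if l ≤ j then √d else 0) =
      ∑ l ∈ Finset.range R, if l ≤ (i : ℕ) ∧ l ≤ (j : ℕ) then d else 0 := by
    rw [← Fin.sum_univ_eq_sum_range (fun l => if l ≤ (i : ℕ) ∧ l ≤ (j : ℕ) then d else 0) R]
    refine Finset.sum_congr rfl fun l _ => ?_
    simp only [Fin.le_def]
    by_cases h1 : (l : ℕ) ≤ (i : ℕ) <;> by_cases h2 : (l : ℕ) ≤ (j : ℕ) <;>
      simp [h1, h2, D.sdd]
  rw [h1]
  have hi := i.2
  have h2 : ∑ a ∈ Finset.range ((i : ℕ) + 1), ∑ b ∈ Finset.range ((j : ℕ) + 1),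
      (if a = b then d else 0) =
      ∑ a ∈ Finset.range ((i : ℕ) + 1), if a ≤ (i : ℕ) ∧ a ≤ (j : ℕ) then d else 0 := by
    refine Finset.sum_congr rfl fun a ha => ?_
    rw [Finset.mem_range] at ha
    rw [Finset.sum_ite_eq]
    simp only [Finset.mem_range]
    by_cases h : a ≤ (j : ℕ)
    · rw [if_pos (by omega), if_pos ⟨by omega, h⟩]
    · rw [if_neg (by omega), if_neg (by omega)]
  rw [h2]
  symm
  refine Finset.sum_subset (Finset.range_mono (by omega)) fun a _ ha => ?_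
  rw [Finset.mem_range, not_lt] at ha
  rw [if_neg (by omega)]

/-- state evolution is exact -/
theorem cov_eq : cov (fun j : Fin R => FF (R := R) d m f f1 f2 θ j) = Qs R d := by
  obtain ⟨K, hA⟩ := D.adm
  symm
  refine eq_cov hA ?_
  ext i j
  refine Fin.cases ?_ (fun i' => ?_) i
  · refine Fin.cases ?_ (fun j' => ?_) j
    · rw [step_zero_zero]
      unfold Qs
      rw [Matrix.mul_apply, Fin.sum_univ_succ]
      simp
    · rw [step_zero_succ]
      unfold Qs
      rw [Matrix.mul_apply, Fin.sum_univ_succ]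
      simp
  · refine Fin.cases ?_ (fun j' => ?_) j
    · rw [step_succ_zero]
      unfold Qs
      rw [Matrix.mul_apply, Fin.sum_univ_succ]
      simp
    · rw [step_succ_succ, D.Qs_ss]
      refine (D.int_gl (φ := fun x => FF d m f f1 f2 θ i' x * FF d m f f1 f2 θ j' x)
        ((D.FF_cont i').mul (D.FF_cont j'))).trans ?_
      unfold FF
      simp only [zeta_bl D.d0]
      exact D.int_Mm i'.2.le j'.2.le

theorem det_Bm : IsUnit (Bm R d).det := by
  have h : (Bm R d).BlockTriangular OrderDual.toDual := by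
    intro i j hij
    have hij' : i < j := hij
    revert hij'
    refine Fin.cases ?_ (fun i' => ?_) i
    · refine Fin.cases ?_ (fun j' _ => rfl) j
      intro h; exact absurd h (lt_irrefl _)
    · refine Fin.cases (fun _ => rfl) (fun j' h => ?_) j
      rw [Bmss, if_neg]
      rw [Fin.succ_lt_succ_iff] at h
      exact not_le.2 h
  rw [Matrix.det_of_isLowerTriangular _ h]
  rw [isUnit_iff_ne_zero, Finset.prod_ne_zero_iff]
  intro i _
  refine Fin.cases ?_ (fun i' => ?_) i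
  · simp
  · rw [Bmss, if_pos le_rfl]; exact D.sd.ne'

theorem det_cov : IsUnit (cov (fun j : Fin R => FF (R := R) d m f f1 f2 θ j)).det := by
  rw [D.cov_eq]
  unfold Qs
  rw [Matrix.det_mul, Matrix.det_transpose]
  exact D.det_Bm.mul D.det_Bm

/-- the value of the scheme -/
theorem value_eq : genValue (fun j : Fin R => FF (R := R) d m f f1 f2 θ j)
    (GG d m f f1 f2 θ) (cov (fun j : Fin R => FF (R := R) d m f f1 f2 θ j)) =
    ∑ k ∈ Finset.range R,
      ((∫ ω, Dd d m f f1 f2 θ k ω * gg R d m f f1 f2 θ ω ∂G (Fin (R + 1))) / √d) *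
        (∫ ω, nz k ω * gg R d m f f1 f2 θ ω ∂G (Fin (R + 1))) := by
  rw [D.cov_eq]
  set y : Fin (R + 1) → ℝ := fun i => ∫ ω, ω i * gg R d m f f1 f2 θ ω ∂G (Fin (R + 1)) with hy
  have hggi : ∀ i : Fin (R + 1), Integrable (fun ω : Fin (R + 1) → ℝ =>
      ω i * gg R d m f f1 f2 θ ω) (G (Fin (R + 1))) := fun i => by
    refine (Guerra.integrable_coord i).abs.mono'
      ((continuous_apply i).mul D.gg_cont).aestronglyMeasurable (Eventually.of_forall fun ω => ?_)
    rw [Real.norm_eq_abs, abs_mul]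
    have := gg_bd (d := d) (m := m) (f := f) (f1 := f1) (f2 := f2) (θ := θ) ω
    have h2 := abs_nonneg (ω i)
    nlinarith
  -- the vector of first moments
  have hb : (fun i => ∫ x, x i * GG d m f f1 f2 θ x ∂gl (Qs R d)) = Bm R d *ᵥ y := by
    funext i
    rw [D.int_gl (φ := fun x => x i * GG d m f f1 f2 θ x) ((continuous_apply i).mul D.GG_cont)]
    unfold GG
    simp only [zeta_bl D.d0]
    have e : ∀ ω : Fin (R + 1) → ℝ, bl R d ω i * gg R d m f f1 f2 θ ω =
        ∑ k, Bm R d i k * (ω k * gg R d m f f1 f2 θ ω) := by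
      intro ω
      show (∑ k, Bm R d i k * ω k) * _ = _
      rw [Finset.sum_mul]
      refine Finset.sum_congr rfl fun k _ => by ring
    simp only [e]
    rw [integral_finsetSum _ fun k _ => (hggi k).const_mul _]
    simp only [integral_const_mul]
    rfl
  -- the inverse
  set z : Fin (R + 1) → ℝ := fun i => Fin.cases 0 (fun k : Fin R =>
    (∫ ω, Dd d m f f1 f2 θ k ω * gg R d m f f1 f2 θ ω ∂G (Fin (R + 1))) / √d) i with hz
  have hz0 : z 0 = 0 := rfl
  have hzs : ∀ k : Fin R, z k.succ =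
    (∫ ω, Dd d m f f1 f2 θ k ω * gg R d m f f1 f2 θ ω ∂G (Fin (R + 1))) / √d := fun _ => rfl
  have hDi : ∀ k ≤ R, Integrable (fun ω : Fin (R + 1) → ℝ =>
      Dd d m f f1 f2 θ k ω * gg R d m f f1 f2 θ ω) (G (Fin (R + 1))) := fun k hk =>
    (D.Dd_memLp hk).integrable_mul (D.bdd_memLp D.gg_cont gg_bd)
  have hBz0 : (Bm R d *ᵥ z) 0 = 0 := by
    simp only [Matrix.mulVec, dotProduct, Fin.sum_univ_succ, Bm00, Bm0s, hz0]
    simp
  have hBzs : ∀ j : Fin R, (Bm R d *ᵥ z) j.succ =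
      ∫ x, FF d m f f1 f2 θ j x * GG d m f f1 f2 θ x ∂gl (Qs R d) := by
    intro j
    rw [D.int_gl (φ := fun x => FF d m f f1 f2 θ j x * GG d m f f1 f2 θ x)
      ((D.FF_cont j).mul D.GG_cont)]
    unfold FF GG
    simp only [zeta_bl D.d0]
    have e1 : ∀ ω : Fin (R + 1) → ℝ, Mm d m f f1 f2 θ j ω * gg R d m f f1 f2 θ ω =
        ∑ k ∈ Finset.range ((j : ℕ) + 1), Dd d m f f1 f2 θ k ω * gg R d m f f1 f2 θ ω := by
      intro ω; unfold Mm; rw [Finset.sum_mul]
    simp only [e1]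
    have hj := j.2
    rw [integral_finsetSum _ fun k hk => hDi k (by rw [Finset.mem_range] at hk; omega)]
    simp only [Matrix.mulVec, dotProduct, Fin.sum_univ_succ, Bms0, Bmss, hz0, hzs]
    rw [zero_mul, zero_add]
    have h1 : ∑ l : Fin R, (if l ≤ j then √d else 0) *
        ((∫ ω, Dd d m f f1 f2 θ l ω * gg R d m f f1 f2 θ ω ∂G (Fin (R + 1))) / √d) =
        ∑ l ∈ Finset.range R, if l ≤ (j : ℕ) then
          (∫ ω, Dd d m f f1 f2 θ l ω * gg R d m f f1 f2 θ ω ∂G (Fin (R + 1))) else 0 := by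
      rw [← Fin.sum_univ_eq_sum_range (fun l => if l ≤ (j : ℕ) then
        (∫ ω, Dd d m f f1 f2 θ l ω * gg R d m f f1 f2 θ ω ∂G (Fin (R + 1))) else 0) R]
      refine Finset.sum_congr rfl fun l _ => ?_
      simp only [Fin.le_def]
      split
      · rw [mul_div_cancel₀ _ D.sd.ne']
      · rw [zero_mul]
    rw [h1]
    symm
    refine Finset.sum_subset_zero_on_sdiff (Finset.range_mono (by omega)) (fun l hl => ?_)
      (fun l hl => ?_)
    · rw [Finset.mem_sdiff, Finset.mem_range, Finset.mem_range] at hl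
      rw [if_neg (by omega)]
    · rw [Finset.mem_range] at hl
      rw [if_pos (by omega)]
  unfold genValue
  rw [hb]
  set w := (Qs R d)⁻¹ *ᵥ (Bm R d *ᵥ y) with hw
  have hsum : ∑ j : Fin R, w j.succ *
      ∫ x, FF d m f f1 f2 θ j x * GG d m f f1 f2 θ x ∂gl (Qs R d) = w ⬝ᵥ (Bm R d *ᵥ z) := by
    rw [dotProduct, Fin.sum_univ_succ, hBz0, mul_zero, zero_add]
    refine Finset.sum_congr rfl fun j _ => by rw [hBzs]
  rw [hsum]
  have hdB : IsUnit (Bm R d).det := D.det_Bm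
  have hdBt : IsUnit ((Bm R d)ᵀ).det := by rw [Matrix.det_transpose]; exact hdB
  have hwt : (Bm R d)ᵀ *ᵥ w = y := by
    rw [hw, Matrix.mulVec_mulVec, Matrix.mulVec_mulVec]
    unfold Qs
    rw [Matrix.mul_inv_rev]
    have : (Bm R d)ᵀ * (((Bm R d)ᵀ)⁻¹ * (Bm R d)⁻¹) * Bm R d = 1 := by
      rw [← Matrix.mul_assoc, Matrix.mul_nonsing_inv _ hdBt, Matrix.one_mul,
        Matrix.nonsing_inv_mul _ hdB]
    rw [this, Matrix.one_mulVec]
  have h3 : w ⬝ᵥ (Bm R d *ᵥ z) = y ⬝ᵥ z := by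
    rw [← hwt, Matrix.mulVec_transpose, Matrix.dotProduct_mulVec]
  rw [h3, dotProduct, Fin.sum_univ_succ, hz0, mul_zero, zero_add]
  rw [← Fin.sum_univ_eq_sum_range (fun k =>
    ((∫ ω, Dd d m f f1 f2 θ k ω * gg R d m f f1 f2 θ ω ∂G (Fin (R + 1))) / √d) *
        (∫ ω, nz k ω * gg R d m f f1 f2 θ ω ∂G (Fin (R + 1)))) R]
  refine Finset.sum_congr rfl fun k _ => ?_
  rw [hzs, mul_comm]
  congr 1
  simp only [hy]
  congr 1
  ext ω
  rw [nz_of_lt k.2]

end Dat

end

end Crest.Agent.R339.DF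
end

-- ▼ part R339/DF833D
section

/-!
# Row 339, (DF): the lower bound for the value of the scheme
-/

set_option autoImplicit false
set_option linter.unusedSectionVars false

namespace Crest.Agent.R339.DF

open MeasureTheory ProbabilityTheory Filter Topology Matrix Real
open Crest.Agent.R339.Guerra (G lin mp_update mp_int)
open Crest.Agent.R339.Trig
open Crest.Agent.R339.D3 (Sched Chain Step xp Kern comp gr K4 DD)
open Crest.Agent.R164.GC (tE g2)

noncomputable section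

variable {R : ℕ} {M C d : ℝ} {m : ℕ → ℝ} {f f1 f2 : ℕ → ℝ → ℝ} {θ : ℝ → ℝ} {B tr : ℝ}

/-- the Euler chain on the canonical space -/
theorem chain (m : ℕ → ℝ) (d : ℝ) (f f1 : ℕ → ℝ → ℝ) :
    Chain (G (Fin (R + 1))) R m (fun _ => d) f f1 0 (nz (R := R)) (XX d m f f1) where
  meas := fun r _ => (nz_cont r).measurable
  law := fun r hr => by
    have h := (measurePreserving_eval (fun _ : Fin (R + 1) => γ) (Fin.succ ⟨r, hr⟩)).map_eq
    have e : nz (R := R) r = Function.eval (Fin.succ ⟨r, hr⟩) := by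
      funext ω; exact nz_of_lt hr ω
    rw [e]; exact h
  indep := fun r hr => by
    have h0 : iIndepFun (fun (i : Fin (R + 1)) (ω : Fin (R + 1) → ℝ) => ω i) (G (Fin (R + 1))) :=
      iIndepFun_pi (μ := fun _ : Fin (R + 1) => γ) (X := fun _ x => x)
        (fun _ => aemeasurable_id)
    have h1 := h0.indepFun_finset (Finset.univ.filter fun i : Fin (R + 1) => (i : ℕ) ≤ r)
      {Fin.succ ⟨r, hr⟩} (by
        rw [Finset.disjoint_singleton_right, Finset.mem_filter]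
        rintro ⟨-, h⟩
        simp at h) (fun i => measurable_pi_apply i)
    have h2 : (fun (ω : Fin (R + 1) → ℝ) (i : Fin r) => nz (R := R) i ω) =
        (fun (w : (Finset.univ.filter fun i : Fin (R + 1) => (i : ℕ) ≤ r) → ℝ) (i : Fin r) =>
          w ⟨Fin.succ ⟨i, by have := i.2; omega⟩, by
            rw [Finset.mem_filter]
            refine ⟨Finset.mem_univ _, ?_⟩
            have := i.2
            simp⟩) ∘ (fun ω i => ω i) := by
      funext ω i
      exact nz_of_lt (by have := i.2; omega) ω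
    have h3 : nz (R := R) r = (fun w : (({Fin.succ ⟨r, hr⟩} : Finset (Fin (R + 1))) → ℝ) =>
        w ⟨Fin.succ ⟨r, hr⟩, Finset.mem_singleton_self _⟩) ∘ (fun ω i => ω i) := by
      funext ω
      exact nz_of_lt hr ω
    rw [h2, h3]
    exact h1.comp (measurable_pi_lambda _ fun i => measurable_pi_apply _)
      (measurable_pi_apply _)
  X0 := fun _ => rfl
  Xs := fun _ _ _ => rfl

namespace Dat

variable (D : Dat R M C d m f f1 f2 θ B tr)

include D

/-- the defect -/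
def dl (R : ℕ) (d : ℝ) (m : ℕ → ℝ) (f f1 f2 : ℕ → ℝ → ℝ) (θ : ℝ → ℝ)
    (ω : Fin (R + 1) → ℝ) : ℝ := gg R d m f f1 f2 θ ω - Mm d m f f1 f2 θ R ω

theorem Mm_memLp {k : ℕ} (hk : k ≤ R) :
    MemLp (Mm (R := R) d m f f1 f2 θ k) 2 (G (Fin (R + 1))) := by
  obtain ⟨K, hK⟩ := D.Mm_bd
  exact D.bdd_memLp (D.Mm_cont hk) (hK k hk)

theorem dl_memLp : MemLp (dl R d m f f1 f2 θ) 2 (G (Fin (R + 1))) :=
  (D.bdd_memLp D.gg_cont gg_bd).sub (D.Mm_memLp le_rfl)

theorem Rd_le : (R : ℝ) * d ≤ 1 := by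
  have h := D.S.vs
  simp only [Finset.sum_const, Finset.card_range, nsmul_eq_mul] at h
  exact h

theorem ea_bd {k : ℕ} (hk : k < R) : (∫ ω, aa d m f f1 f2 k ω ∂G (Fin (R + 1))) ^ 2 ≤ 1 := by
  have hmem : MemLp (aa (R := R) d m f f1 f2 k) 2 (G (Fin (R + 1))) :=
    D.bdd_memLp (D.aa_cont hk) (D.aa_bd hk)
  have h := variance_eq_sub hmem
  have h2 := variance_nonneg (aa (R := R) d m f f1 f2 k) (G (Fin (R + 1)))
  have h3 : ∫ ω, (aa (R := R) d m f f1 f2 k ^ 2) ω ∂G (Fin (R + 1)) = 1 := D.int_aa_sq hk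
  rw [h3] at h
  linarith

/-- the algebraic lower bound -/
theorem value_ge {η : ℝ} (hη : 0 ≤ η)
    (hdl : ∫ ω, dl R d m f f1 f2 θ ω ^ 2 ∂G (Fin (R + 1)) ≤ η ^ 2) :
    d * ∑ k ∈ Finset.range R, (∫ ω, aa d m f f1 f2 k ω ∂G (Fin (R + 1))) -
      tr / 2 - 2 * η - η ^ 2 ≤
    genValue (fun j : Fin R => FF (R := R) d m f f1 f2 θ j)
      (GG d m f f1 f2 θ) (cov (fun j : Fin R => FF (R := R) d m f f1 f2 θ j)) := by
  rw [D.value_eq]
  have hd := D.d0
  have hsd := D.sd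
  have hsdd := D.sdd
  set u := √d with hu
  set P := G (Fin (R + 1)) with hP
  set κ := ∫ g, g * θ g ∂γ with hκ
  set ea : ℕ → ℝ := fun k => ∫ ω, aa d m f f1 f2 k ω ∂P with hea
  set α : ℕ → ℝ := fun k => ∫ ω, Dd d m f f1 f2 θ k ω * dl R d m f f1 f2 θ ω ∂P with hα
  set β : ℕ → ℝ := fun k => ∫ ω, nz k ω * dl R d m f f1 f2 θ ω ∂P with hβ
  have hδ := D.dl_memLp
  have hgg : ∀ ω : Fin (R + 1) → ℝ, gg R d m f f1 f2 θ ω =
      Mm d m f f1 f2 θ R ω + dl R d m f f1 f2 θ ω := by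
    intro ω; unfold dl; ring
  have e1 : ∀ k < R, ∫ ω, Dd d m f f1 f2 θ k ω * gg R d m f f1 f2 θ ω ∂P = d + α k := by
    intro k hk
    have i1 : Integrable (fun ω => Dd d m f f1 f2 θ k ω * Mm d m f f1 f2 θ R ω) P :=
      (D.Dd_memLp hk.le).integrable_mul (D.Mm_memLp le_rfl)
    have i2 : Integrable (fun ω => Dd d m f f1 f2 θ k ω * dl R d m f f1 f2 θ ω) P :=
      (D.Dd_memLp hk.le).integrable_mul hδ
    simp only [hgg, mul_add]
    rw [integral_add i1 i2]
    congr 1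
    have e : ∀ ω : Fin (R + 1) → ℝ, Dd d m f f1 f2 θ k ω * Mm d m f f1 f2 θ R ω =
        ∑ b ∈ Finset.range (R + 1), Dd d m f f1 f2 θ k ω * Dd d m f f1 f2 θ b ω := by
      intro ω; unfold Mm; rw [Finset.mul_sum]
    simp only [e]
    have hint : ∀ b ∈ Finset.range (R + 1),
        Integrable (fun ω => Dd d m f f1 f2 θ k ω * Dd d m f f1 f2 θ b ω) P := fun b hb =>
      (D.Dd_memLp hk.le).integrable_mul (D.Dd_memLp (by rw [Finset.mem_range] at hb; omega))
    rw [integral_finsetSum _ hint]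
    rw [Finset.sum_eq_single k]
    · exact D.o1_self hk.le
    · intro b hb hbk
      rw [Finset.mem_range] at hb
      have := D.o1 hk.le (by omega : b ≤ R)
      rw [if_neg (Ne.symm hbk)] at this
      exact this
    · intro h; exact absurd (Finset.mem_range.2 (by omega)) h
  have e2 : ∀ k < R, ∫ ω, nz k ω * gg R d m f f1 f2 θ ω ∂P = u * ea k * κ + β k := by
    intro k hk
    have i1 : Integrable (fun ω => nz k ω * Mm d m f f1 f2 θ R ω) P :=
      (nz_memLp hk).integrable_mul (D.Mm_memLp le_rfl)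
    have i2 : Integrable (fun ω => nz k ω * dl R d m f f1 f2 θ ω) P :=
      (nz_memLp hk).integrable_mul hδ
    simp only [hgg, mul_add]
    rw [integral_add i1 i2]
    congr 1
    have e : ∀ ω : Fin (R + 1) → ℝ, nz k ω * Mm d m f f1 f2 θ R ω =
        ∑ b ∈ Finset.range (R + 1), nz k ω * Dd d m f f1 f2 θ b ω := by
      intro ω; unfold Mm; rw [Finset.mul_sum]
    simp only [e]
    have hint : ∀ b ∈ Finset.range (R + 1),
        Integrable (fun ω => nz k ω * Dd d m f f1 f2 θ b ω) P := fun b hb =>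
      (nz_memLp hk).integrable_mul (D.Dd_memLp (by rw [Finset.mem_range] at hb; omega))
    rw [integral_finsetSum _ hint]
    rw [Finset.sum_eq_single (k + 1)]
    · have := D.o2 hk (by omega : k + 1 ≤ R)
      rw [if_pos rfl] at this
      exact this
    · intro b hb hbk
      rw [Finset.mem_range] at hb
      have := D.o2 hk (by omega : b ≤ R)
      rw [if_neg hbk] at this
      exact this
    · intro h; exact absurd (Finset.mem_range.2 (by omega)) h
  have hval : ∑ k ∈ Finset.range R,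
      ((∫ ω, Dd d m f f1 f2 θ k ω * gg R d m f f1 f2 θ ω ∂P) / u) *
        (∫ ω, nz k ω * gg R d m f f1 f2 θ ω ∂P) =
      κ * (d * ∑ k ∈ Finset.range R, ea k) + u * ∑ k ∈ Finset.range R, β k +
        κ * ∑ k ∈ Finset.range R, α k * ea k + (∑ k ∈ Finset.range R, α k * β k) / u := by
    have h1 : ∀ k ∈ Finset.range R,
        ((∫ ω, Dd d m f f1 f2 θ k ω * gg R d m f f1 f2 θ ω ∂P) / u) *
        (∫ ω, nz k ω * gg R d m f f1 f2 θ ω ∂P) =
        κ * (d * ea k) + u * β k + κ * (α k * ea k) + α k * β k / u := by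
      intro k hk
      rw [Finset.mem_range] at hk
      rw [e1 k hk, e2 k hk]
      field_simp
      rw [← hsdd]
      ring
    rw [Finset.sum_congr rfl h1]
    simp only [Finset.sum_add_distrib, ← Finset.mul_sum, ← Finset.sum_div]
  rw [hval]
  have hb1 : ∑ k ∈ Finset.range R, α k ^ 2 ≤ d * η ^ 2 := by
    refine (bessel hd (φ := fun k => Dd d m f f1 f2 θ k) (fun i hi => D.Dd_memLp hi.le)
      (fun i hi j hj => D.o1 hi.le hj.le) hδ).trans ?_
    exact mul_le_mul_of_nonneg_left hdl hd.le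
  have hb2 : ∑ k ∈ Finset.range R, β k ^ 2 ≤ η ^ 2 := by
    refine (bessel one_pos (φ := fun k => nz k) (fun i hi => nz_memLp hi)
      (fun i hi j hj => o3 hi hj) hδ).trans ?_
    rw [one_mul]; exact hdl
  have hRd := D.Rd_le
  have hcsβ : (∑ k ∈ Finset.range R, β k) ^ 2 ≤ R * η ^ 2 := by
    have h := Finset.sum_mul_sq_le_sq_mul_sq (Finset.range R) (fun _ => (1:ℝ)) β
    simp only [one_mul, one_pow, Finset.sum_const, Finset.card_range, nsmul_eq_mul,
      mul_one] at h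
    exact h.trans (mul_le_mul_of_nonneg_left hb2 (Nat.cast_nonneg R))
  have hR0 : (0:ℝ) ≤ R := Nat.cast_nonneg R
  have b1 : |u * ∑ k ∈ Finset.range R, β k| ≤ η := by
    refine abs_le_of_sq_le_sq ?_ hη
    calc (u * ∑ k ∈ Finset.range R, β k) ^ 2 = (u * u) * (∑ k ∈ Finset.range R, β k) ^ 2 := by ring
      _ = d * (∑ k ∈ Finset.range R, β k) ^ 2 := by rw [hsdd]
      _ ≤ d * (R * η ^ 2) := mul_le_mul_of_nonneg_left hcsβ hd.le
      _ = (R * d) * η ^ 2 := by ring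
      _ ≤ 1 * η ^ 2 := mul_le_mul_of_nonneg_right hRd (sq_nonneg _)
      _ = η ^ 2 := one_mul _
  have hea2 : ∑ k ∈ Finset.range R, ea k ^ 2 ≤ R := by
    calc ∑ k ∈ Finset.range R, ea k ^ 2 ≤ ∑ _k ∈ Finset.range R, (1:ℝ) :=
          Finset.sum_le_sum fun k hk => D.ea_bd (Finset.mem_range.1 hk)
      _ = R := by simp
  have hκ1 : κ ≤ 1 := D.T.kap_le
  have hκ2 : 1 - tr / 2 ≤ κ := D.T.kap_ge
  have hκabs : |κ| ≤ 1 := by
    -- Cauchy-Schwarz
    refine abs_le_of_sq_le_sq ?_ zero_le_one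
    have hk0 : κ = 1 - (∫ g, (θ g - g) ^ 2 ∂γ) / 2 := D.T.kap
    have hk1 : 0 ≤ ∫ g, (θ g + g) ^ 2 ∂γ := integral_nonneg fun g => sq_nonneg _
    have hk2 : ∫ g, (θ g + g) ^ 2 ∂γ = 2 + 2 * κ := by
      have e : ∀ g : ℝ, (θ g + g) ^ 2 = θ g ^ 2 + 2 * (g * θ g) + g ^ 2 := by intro g; ring
      simp only [e]
      have i1 : Integrable (fun g : ℝ => θ g ^ 2 + 2 * (g * θ g)) γ :=
        D.T.int_sq.add (D.T.int_gθ.const_mul _)
      rw [integral_add i1 integrable_sq_γ, integral_add D.T.int_sq (D.T.int_gθ.const_mul _),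
        integral_const_mul, int_sq_γ, D.T.one]
      ring
    rw [hk2] at hk1
    nlinarith
  have b2 : |κ * ∑ k ∈ Finset.range R, α k * ea k| ≤ η := by
    rw [abs_mul]
    have h1 : |∑ k ∈ Finset.range R, α k * ea k| ≤ η := by
      refine abs_le_of_sq_le_sq ?_ hη
      refine (Finset.sum_mul_sq_le_sq_mul_sq (Finset.range R) α ea).trans ?_
      calc (∑ k ∈ Finset.range R, α k ^ 2) * ∑ k ∈ Finset.range R, ea k ^ 2
          ≤ (d * η ^ 2) * R := mul_le_mul hb1 hea2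
            (Finset.sum_nonneg fun k _ => sq_nonneg _) (by positivity)
        _ = (R * d) * η ^ 2 := by ring
        _ ≤ 1 * η ^ 2 := mul_le_mul_of_nonneg_right hRd (sq_nonneg _)
        _ = η ^ 2 := one_mul _
    calc |κ| * |∑ k ∈ Finset.range R, α k * ea k| ≤ 1 * η :=
          mul_le_mul hκabs h1 (abs_nonneg _) zero_le_one
      _ = η := one_mul _
  have b3 : |(∑ k ∈ Finset.range R, α k * β k) / u| ≤ η ^ 2 := by
    refine abs_le_of_sq_le_sq ?_ (sq_nonneg _)
    rw [div_pow, sq u, hsdd, div_le_iff₀ hd]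
    refine (Finset.sum_mul_sq_le_sq_mul_sq (Finset.range R) α β).trans ?_
    calc (∑ k ∈ Finset.range R, α k ^ 2) * ∑ k ∈ Finset.range R, β k ^ 2
        ≤ (d * η ^ 2) * η ^ 2 := mul_le_mul hb1 hb2
          (Finset.sum_nonneg fun k _ => sq_nonneg _) (by positivity)
      _ = (η ^ 2) ^ 2 * d := by ring
  have b4 : |d * ∑ k ∈ Finset.range R, ea k| ≤ 1 := by
    refine abs_le_of_sq_le_sq ?_ zero_le_one
    have h := Finset.sum_mul_sq_le_sq_mul_sq (Finset.range R) (fun _ => (1:ℝ)) ea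
    simp only [one_mul, one_pow, Finset.sum_const, Finset.card_range, nsmul_eq_mul,
      mul_one] at h
    calc (d * ∑ k ∈ Finset.range R, ea k) ^ 2 = d ^ 2 * (∑ k ∈ Finset.range R, ea k) ^ 2 := by ring
      _ ≤ d ^ 2 * (R * R) := by
          refine mul_le_mul_of_nonneg_left (h.trans ?_) (sq_nonneg _)
          exact mul_le_mul_of_nonneg_left hea2 hR0
      _ = (R * d) ^ 2 := by ring
      _ ≤ 1 ^ 2 := pow_le_pow_left₀ (by positivity) hRd 2
  have b5 : d * ∑ k ∈ Finset.range R, ea k - tr / 2 ≤ κ * (d * ∑ k ∈ Finset.range R, ea k) := by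
    have h1 : (1 - κ) * (d * ∑ k ∈ Finset.range R, ea k) ≤ tr / 2 := by
      have h2 : 0 ≤ 1 - κ := by linarith
      have h3 := (le_abs_self _).trans b4
      nlinarith
    linarith
  have c1 := (abs_le.1 b1).1
  have c2 := (abs_le.1 b2).1
  have c3 := (abs_le.1 b3).1
  linarith

end Dat

end

end Crest.Agent.R339.DF
end

-- ▼ part R339/DF833E
section

/-!
# Row 339, (DF): the defect
-/

set_option autoImplicit false
set_option linter.unusedSectionVars false

namespace Crest.Agent.R339.DF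

open MeasureTheory ProbabilityTheory Filter Topology Matrix Real
open Crest.Agent.R339.Guerra (G lin mp_update mp_int)
open Crest.Agent.R339.Trig
open Crest.Agent.R339.D3 (Sched Chain Step xp Kern comp gr K4 DD)
open Crest.Agent.R164.GC (tE g2)

noncomputable section

/-- Pythagoras -/
theorem pyth {Ω : Type*} [MeasurableSpace Ω] {P : Measure Ω} {R : ℕ} {φ : ℕ → Ω → ℝ}
    {c : ℕ → ℝ} (hφ : ∀ i < R, MemLp (φ i) 2 P)
    (ho : ∀ i < R, ∀ j < R, ∫ ω, φ i ω * φ j ω ∂P = if i = j then c i else 0) :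
    ∫ ω, (∑ i ∈ Finset.range R, φ i ω) ^ 2 ∂P = ∑ i ∈ Finset.range R, c i := by
  have hi2 : ∀ i ∈ Finset.range R, ∀ j ∈ Finset.range R,
      Integrable (fun ω => φ i ω * φ j ω) P := fun i hi j hj =>
    (hφ i (Finset.mem_range.1 hi)).integrable_mul (hφ j (Finset.mem_range.1 hj))
  have e : ∀ ω, (∑ i ∈ Finset.range R, φ i ω) ^ 2 =
      ∑ i ∈ Finset.range R, ∑ j ∈ Finset.range R, φ i ω * φ j ω := by
    intro ω; rw [sq, Finset.sum_mul_sum]
  simp only [e]
  rw [integral_finsetSum _ fun i hi => integrable_finsetSum _ fun j hj => hi2 i hi j hj]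
  refine Finset.sum_congr rfl fun i hi => ?_
  rw [integral_finsetSum _ fun j hj => hi2 i hi j hj]
  rw [Finset.sum_eq_single i]
  · rw [ho i (Finset.mem_range.1 hi) i (Finset.mem_range.1 hi), if_pos rfl]
  · intro j hj hji
    rw [ho i (Finset.mem_range.1 hi) j (Finset.mem_range.1 hj), if_neg (Ne.symm hji)]
  · intro h; exact absurd hi h

variable {R : ℕ} {M C d : ℝ} {m : ℕ → ℝ} {f f1 f2 : ℕ → ℝ → ℝ} {θ : ℝ → ℝ} {B tr : ℝ}

/-- the truncation error -/
def Ee (d : ℝ) (m : ℕ → ℝ) (f f1 f2 : ℕ → ℝ → ℝ) (θ : ℝ → ℝ) (k : ℕ) (ω : Fin (R + 1) → ℝ) : ℝ :=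
  √d * f2 k (XX d m f f1 k ω) * (θ (nz k ω) - nz k ω)

/-- the remainder of the strong estimate -/
def T4 (R : ℕ) (d : ℝ) (m : ℕ → ℝ) (f f1 f2 : ℕ → ℝ → ℝ) (ω : Fin (R + 1) → ℝ) : ℝ :=
  f1 R (XX d m f f1 R ω) - f1 0 0 -
      ∑ i ∈ Finset.range R, f2 i (XX d m f f1 i ω) * (√d * nz i ω)

namespace Dat

variable (D : Dat R M C d m f f1 f2 θ B tr)

include D

theorem f1_le (x : ℝ) : |f1 R x| ≤ 1 := by
  have hR := D.R0
  have h := (D.S.step (R - 1) (by omega)).sm.b1 x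
  rwa [show R - 1 + 1 = R by omega] at h

theorem f1_zero : f1 0 0 = 0 := by
  have h := D.odd 0 D.R0 0
  rw [neg_zero] at h
  linarith

theorem decomp (ω : Fin (R + 1) → ℝ) :
    Mm d m f f1 f2 θ R ω - f1 R (XX d m f f1 R ω) =
      Dd d m f f1 f2 θ 0 ω +
      (∑ k ∈ Finset.range R, (1 - nr R d m f f1 f2 k) * Dd d m f f1 f2 θ (k + 1) ω) +
      (∑ k ∈ Finset.range R, Ee d m f f1 f2 θ k ω) - T4 R d m f f1 f2 ω := by
  have h0 := D.f1_zero
  have e1 : Mm d m f f1 f2 θ R ω = Dd d m f f1 f2 θ 0 ω +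
      ∑ k ∈ Finset.range R, Dd d m f f1 f2 θ (k + 1) ω := by
    unfold Mm
    rw [Finset.sum_range_succ', add_comm]
  have e2 : ∑ k ∈ Finset.range R, Dd d m f f1 f2 θ (k + 1) ω =
      (∑ k ∈ Finset.range R, (1 - nr R d m f f1 f2 k) * Dd d m f f1 f2 θ (k + 1) ω) +
      (∑ k ∈ Finset.range R, Ee d m f f1 f2 θ k ω) +
      ∑ k ∈ Finset.range R, f2 k (XX d m f f1 k ω) * (√d * nz k ω) := by
    rw [← Finset.sum_add_distrib, ← Finset.sum_add_distrib]
    refine Finset.sum_congr rfl fun k hk => ?_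
    have hn := (D.nr_pos (Finset.mem_range.1 hk)).ne'
    simp only [Ee, Dd, aa]
    field_simp
    ring
  rw [e1, e2]
  unfold T4
  rw [h0]
  ring

theorem Ee_memLp {k : ℕ} (hk : k < R) :
    MemLp (Ee (R := R) d m f f1 f2 θ k) 2 (G (Fin (R + 1))) := by
  have h1 : MemLp (fun ω : Fin (R + 1) → ℝ => θ (nz k ω) - nz k ω) 2 (G (Fin (R + 1))) :=
    (D.bdd_memLp (D.T.cont.comp (nz_cont k)) fun ω => D.T.bd _).sub (nz_memLp hk)
  refine MemLp.of_le_mul (c := √d * (C + M)) h1 ?_ (Eventually.of_forall fun ω => ?_)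
  · exact ((continuous_const.mul ((D.f2c hk).comp (XX_cont D.S k hk.le))).mul
      ((D.T.cont.comp (nz_cont k)).sub (nz_cont k))).aestronglyMeasurable
  · unfold Ee
    rw [norm_mul, norm_mul, Real.norm_eq_abs, Real.norm_eq_abs, abs_of_pos D.sd]
    exact mul_le_mul_of_nonneg_right (mul_le_mul_of_nonneg_left (D.b2 k hk _) D.sd.le)
      (norm_nonneg _)

theorem Ee_update {k l : ℕ} (hl : l < R) (hk : k < l) (ω : Fin (R + 1) → ℝ) (t : ℝ) :
    Ee d m f f1 f2 θ k (Function.update ω (Fin.succ ⟨l, hl⟩) t) = Ee d m f f1 f2 θ k ω := by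
  unfold Ee
  rw [XX_congr k fun i _ hi => update_ne_of_le hl hk.le ω t i hi, nz_update hl hk]

theorem f2_update {k l : ℕ} (hl : l < R) (hk : k ≤ l) (ω : Fin (R + 1) → ℝ) (t : ℝ) :
    f2 k (XX d m f f1 k (Function.update ω (Fin.succ ⟨l, hl⟩) t)) =
      f2 k (XX d m f f1 k ω) := by
  rw [XX_congr k fun i _ hi => update_ne_of_le hl hk ω t i hi]

theorem int_θ_sub : ∫ g, (θ g - g) ∂γ = 0 := by
  rw [integral_sub D.T.int Guerra.integrable_id_γ, D.T.zero]
  simp

theorem Ee_orth_lt {i l : ℕ} (hl : l < R) (hi : i < l) :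
    ∫ ω, Ee d m f f1 f2 θ i ω * Ee d m f f1 f2 θ l ω ∂G (Fin (R + 1)) = 0 := by
  have e : ∀ ω : Fin (R + 1) → ℝ, Ee d m f f1 f2 θ i ω * Ee d m f f1 f2 θ l ω =
      (Ee d m f f1 f2 θ i ω * (√d * f2 l (XX d m f f1 l ω))) *
        ((fun t => θ t - t) (ω (Fin.succ ⟨l, hl⟩))) := by
    intro ω
    simp only [Ee, nz_of_lt hl]; ring
  simp only [e]
  have hc : Continuous (Ee (R := R) d m f f1 f2 θ i) :=
    (continuous_const.mul ((D.f2c (by omega)).comp (XX_cont D.S i (by omega)))).mul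
      ((D.T.cont.comp (nz_cont i)).sub (nz_cont i))
  rw [int_mul_coord (Fin.succ ⟨l, hl⟩)
    (Y := fun ω => Ee d m f f1 f2 θ i ω * (√d * f2 l (XX d m f f1 l ω)))
    (φ := fun t => θ t - t)
    (fun ω t => by rw [D.Ee_update hl hi, D.f2_update hl le_rfl])
    ((hc.mul (continuous_const.mul ((D.f2c hl).comp (XX_cont D.S l hl.le)))).measurable)
    (D.T.cont.sub continuous_id).measurable, D.int_θ_sub, mul_zero]

theorem Ee_self {l : ℕ} (hl : l < R) :
    ∫ ω, Ee d m f f1 f2 θ l ω * Ee d m f f1 f2 θ l ω ∂G (Fin (R + 1)) =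
      d * (∫ ω, f2 l (XX d m f f1 l ω) ^ 2 ∂G (Fin (R + 1))) * ∫ g, (θ g - g) ^ 2 ∂γ := by
  have e : ∀ ω : Fin (R + 1) → ℝ, Ee d m f f1 f2 θ l ω * Ee d m f f1 f2 θ l ω =
      (d * f2 l (XX d m f f1 l ω) ^ 2) *
        ((fun t => (θ t - t) ^ 2) (ω (Fin.succ ⟨l, hl⟩))) := by
    intro ω
    simp only [Ee, nz_of_lt hl]
    linear_combination ((f2 l (XX d m f f1 l ω) *
      (θ (ω (Fin.succ ⟨l, hl⟩)) - ω (Fin.succ ⟨l, hl⟩))) ^ 2) * D.sdd
  simp only [e]
  rw [int_mul_coord (Fin.succ ⟨l, hl⟩)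
    (Y := fun ω => d * f2 l (XX d m f f1 l ω) ^ 2)
    (φ := fun t => (θ t - t) ^ 2)
    (fun ω t => by rw [D.f2_update hl le_rfl])
    ((continuous_const.mul (((D.f2c hl).comp (XX_cont D.S l hl.le)).pow 2)).measurable)
    ((D.T.cont.sub continuous_id).pow 2).measurable, integral_const_mul]

theorem int_T3 : ∫ ω, (∑ k ∈ Finset.range R, Ee d m f f1 f2 θ k ω) ^ 2 ∂G (Fin (R + 1)) ≤
    (C + M) ^ 2 * tr := by
  rw [pyth (c := fun l => d * (∫ ω, f2 l (XX d m f f1 l ω) ^ 2 ∂G (Fin (R + 1))) *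
    ∫ g, (θ g - g) ^ 2 ∂γ) (fun i hi => D.Ee_memLp hi) (fun i hi j hj => ?_)]
  · have hv0 : 0 ≤ ∫ g, (θ g - g) ^ 2 ∂γ := integral_nonneg fun g => sq_nonneg _
    have h1 : ∀ l ∈ Finset.range R, d * (∫ ω, f2 l (XX d m f f1 l ω) ^ 2 ∂G (Fin (R + 1))) *
        ∫ g, (θ g - g) ^ 2 ∂γ ≤ d * (C + M) ^ 2 * tr := by
      intro l hl
      rw [Finset.mem_range] at hl
      have h2 : ∫ ω, f2 l (XX d m f f1 l ω) ^ 2 ∂G (Fin (R + 1)) ≤ (C + M) ^ 2 := by
        have h3 : ∀ ω : Fin (R + 1) → ℝ, f2 l (XX d m f f1 l ω) ^ 2 ≤ (C + M) ^ 2 := fun ω => by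
          rw [← sq_abs]
          exact pow_le_pow_left₀ (abs_nonneg _) (D.b2 l hl _) 2
        calc ∫ ω, f2 l (XX d m f f1 l ω) ^ 2 ∂G (Fin (R + 1))
            ≤ ∫ _ω, (C + M) ^ 2 ∂G (Fin (R + 1)) := by
              refine integral_mono_of_nonneg (Eventually.of_forall fun ω => sq_nonneg _)
                (integrable_const _) (Eventually.of_forall h3)
          _ = (C + M) ^ 2 := by simp
      exact mul_le_mul (mul_le_mul_of_nonneg_left h2 D.d0.le) D.T.tr hv0
        (mul_nonneg D.d0.le (sq_nonneg _))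
    refine (Finset.sum_le_sum h1).trans ?_
    rw [Finset.sum_const, Finset.card_range, nsmul_eq_mul]
    have htr : 0 ≤ tr := hv0.trans D.T.tr
    calc (R : ℝ) * (d * (C + M) ^ 2 * tr) = (R * d) * ((C + M) ^ 2 * tr) := by ring
      _ ≤ 1 * ((C + M) ^ 2 * tr) := mul_le_mul_of_nonneg_right D.Rd_le (by positivity)
      _ = _ := one_mul _
  · rcases lt_trichotomy i j with h | h | h
    · rw [if_neg h.ne]; exact D.Ee_orth_lt hj h
    · subst h; rw [if_pos rfl]; exact D.Ee_self hi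
    · rw [if_neg h.ne']
      simp only [mul_comm (Ee d m f f1 f2 θ i _)]
      exact D.Ee_orth_lt hi h

theorem int_T2 {ρ : ℝ} (hρ : ∀ k < R, |1 - nr R d m f f1 f2 k| ≤ ρ) :
    ∫ ω, (∑ k ∈ Finset.range R, (1 - nr R d m f f1 f2 k) * Dd d m f f1 f2 θ (k + 1) ω) ^ 2
      ∂G (Fin (R + 1)) ≤ ρ ^ 2 := by
  rw [pyth (φ := fun k ω => (1 - nr R d m f f1 f2 k) * Dd d m f f1 f2 θ (k + 1) ω)
    (c := fun k => (1 - nr R d m f f1 f2 k) ^ 2 * d)
    (fun i hi => (D.Dd_memLp (by omega)).const_mul _) (fun i hi j hj => ?_)]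
  · have h1 : ∀ k ∈ Finset.range R, (1 - nr R d m f f1 f2 k) ^ 2 * d ≤ ρ ^ 2 * d := by
      intro k hk
      rw [Finset.mem_range] at hk
      refine mul_le_mul_of_nonneg_right ?_ D.d0.le
      rw [← sq_abs]
      exact pow_le_pow_left₀ (abs_nonneg _) (hρ k hk) 2
    refine (Finset.sum_le_sum h1).trans ?_
    rw [Finset.sum_const, Finset.card_range, nsmul_eq_mul]
    calc (R : ℝ) * (ρ ^ 2 * d) = (R * d) * ρ ^ 2 := by ring
      _ ≤ 1 * ρ ^ 2 := mul_le_mul_of_nonneg_right D.Rd_le (sq_nonneg _)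
      _ = _ := one_mul _
  · have e : ∀ ω : Fin (R + 1) → ℝ, (1 - nr R d m f f1 f2 i) * Dd d m f f1 f2 θ (i + 1) ω *
        ((1 - nr R d m f f1 f2 j) * Dd d m f f1 f2 θ (j + 1) ω) =
        ((1 - nr R d m f f1 f2 i) * (1 - nr R d m f f1 f2 j)) *
          (Dd d m f f1 f2 θ (i + 1) ω * Dd d m f f1 f2 θ (j + 1) ω) := by intro ω; ring
    simp only [e]
    rw [integral_const_mul, D.o1 (by omega) (by omega)]
    by_cases h : i = j
    · subst h; rw [if_pos rfl, if_pos rfl]; ring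
    · rw [if_neg (by omega), if_neg h, mul_zero]

/-- the size of the defect -/
theorem dl_sq {ρ : ℝ} (hρ : ∀ k < R, |1 - nr R d m f f1 f2 k| ≤ ρ) :
    ∫ ω, dl R d m f f1 f2 θ ω ^ 2 ∂G (Fin (R + 1)) ≤
      4 * (d + ρ ^ 2 + (C + M) ^ 2 * tr + DD M C * Real.exp 1 * d) := by
  obtain ⟨hs1, hs2⟩ := D3.strong D.S D.d0.le (chain (R := R) m d f f1) (r := R) le_rfl
  have hs1' : Integrable (fun ω => T4 R d m f f1 f2 ω ^ 2) (G (Fin (R + 1))) := hs1
  have hs2' : ∫ ω, T4 R d m f f1 f2 ω ^ 2 ∂G (Fin (R + 1)) ≤ DD M C * Real.exp 1 * d := hs2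
  have m1 : MemLp (fun ω : Fin (R + 1) → ℝ => Dd d m f f1 f2 θ 0 ω) 2 (G (Fin (R + 1))) :=
    D.Dd_memLp (Nat.zero_le R)
  have m2 : MemLp (fun ω : Fin (R + 1) → ℝ =>
      ∑ k ∈ Finset.range R, (1 - nr R d m f f1 f2 k) * Dd d m f f1 f2 θ (k + 1) ω) 2
      (G (Fin (R + 1))) :=
    memLp_finsetSum _ fun k hk => (D.Dd_memLp (by
      rw [Finset.mem_range] at hk; omega)).const_mul _
  have m3 : MemLp (fun ω : Fin (R + 1) → ℝ =>
      ∑ k ∈ Finset.range R, Ee d m f f1 f2 θ k ω) 2 (G (Fin (R + 1))) :=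
    memLp_finsetSum _ fun k hk => D.Ee_memLp (Finset.mem_range.1 hk)
  have i1 := m1.integrable_sq
  have i2 := m2.integrable_sq
  have i3 := m3.integrable_sq
  have hle : ∀ ω : Fin (R + 1) → ℝ, dl R d m f f1 f2 θ ω ^ 2 ≤
      4 * (Dd d m f f1 f2 θ 0 ω ^ 2 +
      (∑ k ∈ Finset.range R, (1 - nr R d m f f1 f2 k) * Dd d m f f1 f2 θ (k + 1) ω) ^ 2 +
      (∑ k ∈ Finset.range R, Ee d m f f1 f2 θ k ω) ^ 2 + T4 R d m f f1 f2 ω ^ 2) := by
    intro ω
    have h1 : |dl R d m f f1 f2 θ ω| ≤ |Mm d m f f1 f2 θ R ω - f1 R (XX d m f f1 R ω)| := by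
      unfold dl gg
      exact clip_dist (D.f1_le _)
    rw [D.decomp] at h1
    have h2 := pow_le_pow_left₀ (abs_nonneg _) h1 2
    rw [sq_abs, sq_abs] at h2
    refine h2.trans ?_
    generalize Dd d m f f1 f2 θ 0 ω = a
    generalize (∑ k ∈ Finset.range R, (1 - nr R d m f f1 f2 k) *
      Dd d m f f1 f2 θ (k + 1) ω) = b
    generalize (∑ k ∈ Finset.range R, Ee d m f f1 f2 θ k ω) = c
    generalize T4 R d m f f1 f2 ω = e
    nlinarith [sq_nonneg (a - b), sq_nonneg (a - c), sq_nonneg (a + e), sq_nonneg (b - c),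
      sq_nonneg (b + e), sq_nonneg (c + e)]
  have j1 := i1.add i2
  have j2 := j1.add i3
  have j3 := j2.add hs1'
  calc ∫ ω, dl R d m f f1 f2 θ ω ^ 2 ∂G (Fin (R + 1))
      ≤ ∫ ω, 4 * (Dd d m f f1 f2 θ 0 ω ^ 2 +
      (∑ k ∈ Finset.range R, (1 - nr R d m f f1 f2 k) * Dd d m f f1 f2 θ (k + 1) ω) ^ 2 +
      (∑ k ∈ Finset.range R, Ee d m f f1 f2 θ k ω) ^ 2 + T4 R d m f f1 f2 ω ^ 2)
        ∂G (Fin (R + 1)) :=
        integral_mono D.dl_memLp.integrable_sq (j3.const_mul 4) hle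
    _ = 4 * ((∫ ω, Dd d m f f1 f2 θ 0 ω ^ 2 ∂G (Fin (R + 1))) +
      (∫ ω, (∑ k ∈ Finset.range R, (1 - nr R d m f f1 f2 k) *
        Dd d m f f1 f2 θ (k + 1) ω) ^ 2 ∂G (Fin (R + 1))) +
      (∫ ω, (∑ k ∈ Finset.range R, Ee d m f f1 f2 θ k ω) ^ 2 ∂G (Fin (R + 1))) +
      ∫ ω, T4 R d m f f1 f2 ω ^ 2 ∂G (Fin (R + 1))) := by
        rw [integral_const_mul]
        congr 1
        have k3 := integral_add j2 hs1'
        have k2 := integral_add j1 i3
        have k1 := integral_add i1 i2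
        simp only [Pi.add_apply] at k1 k2 k3
        rw [k3, k2, k1]
    _ ≤ _ := by
        have e1 : ∫ ω, Dd d m f f1 f2 θ 0 ω ^ 2 ∂G (Fin (R + 1)) = d := by
          simp only [sq]
          exact D.o1_self (Nat.zero_le R)
        have e2 := D.int_T2 hρ
        have e3 := D.int_T3
        linarith

end Dat

end

end Crest.Agent.R339.DF
end

-- ▼ part R339/DF833F
section

/-!
# Row 339, (DF): the final statement
-/

set_option autoImplicit false
set_option linter.unusedSectionVars false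

namespace Crest.Agent.R339.DF

open MeasureTheory ProbabilityTheory Filter Topology Matrix Real
open Crest.Agent.R339.Guerra (G lin mp_update mp_int)
open Crest.Agent.R339.Trig
open Crest.Agent.R339.D3 (Sched Chain Step xp Kern comp gr K4 DD)
open Crest.Agent.R164.GC (tE g2)

noncomputable section

/-- the constant of the marginals -/
def X4 (M C : ℝ) : ℝ := Real.exp (gr M C) * K4 M C

/-- the deviation of the norms -/
def rho (M C s : ℝ) : ℝ := s + s * (2 * C * C * X4 M C)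

/-- the defect -/
def Er (M C s : ℝ) : ℝ := 4 * (s ^ 2 + rho M C s ^ 2 + DD M C * Real.exp 1 * s ^ 2)

/-- the total error -/
def err (M C s : ℝ) : ℝ := rho M C s + s * (C * X4 M C) + 2 * √(Er M C s) + Er M C s

theorem rho_tendsto (M C : ℝ) : Tendsto (rho M C) (𝓝 0) (𝓝 0) := by
  have h : Continuous (rho M C) := by unfold rho; fun_prop
  have := h.tendsto 0
  simpa [rho] using this

theorem err_tendsto (M C : ℝ) : Tendsto (err M C) (𝓝 0) (𝓝 0) := by
  have h : Continuous (err M C) := by unfold err Er rho; fun_prop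
  have := h.tendsto 0
  simpa [err, rho, Er] using this

variable {R : ℕ} {M C d : ℝ} {m : ℕ → ℝ} {f f1 f2 : ℕ → ℝ → ℝ} {θ : ℝ → ℝ} {B tr : ℝ}

theorem X4_nonneg (S : Sched M C R d m (fun _ => d) f f1 f2) (hR : 0 < R) : 0 ≤ X4 M C :=
  mul_nonneg (Real.exp_pos _).le (S.step 0 hR).K4_nonneg

/-- marginals of the control -/
theorem marg1 (S : Sched M C R d m (fun _ => d) f f1 f2) (hR : 0 < R) (hd : 0 ≤ d) {k : ℕ}
    (hk : k < R) :
    |∫ ω, f2 k (XX d m f f1 k ω) ∂G (Fin (R + 1)) - comp (Kern m (fun _ => d) f) k 0 (f2 k) 0| ≤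
      √d * (C * X4 M C) := by
  cases k with
  | zero =>
    have := X4_nonneg S hR
    have := S.C0
    simp only [XX, D3.comp]
    rw [integral_const, probReal_univ, one_smul, sub_self, abs_zero]
    positivity
  | succ k =>
    have hs := S.step k (by omega)
    exact D3.marg_close S hd (chain (R := R) m d f f1) hk.le hs.l2 hs.sm.b2

/-- marginals of the square of the control -/
theorem marg2 (S : Sched M C R d m (fun _ => d) f f1 f2) (hR : 0 < R) (hd : 0 ≤ d) {k : ℕ}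
    (hk : k < R) :
    |∫ ω, f2 k (XX d m f f1 k ω) ^ 2 ∂G (Fin (R + 1)) -
      comp (Kern m (fun _ => d) f) k 0 (fun y => f2 k y ^ 2) 0| ≤
      √d * (2 * C * C * X4 M C) := by
  cases k with
  | zero =>
    have := X4_nonneg S hR
    have := S.C0
    simp only [XX, D3.comp]
    rw [integral_const, probReal_univ, one_smul, sub_self, abs_zero]
    positivity
  | succ k =>
    have hs := S.step k (by omega)
    have hC := S.C0
    refine D3.marg_close S hd (chain (R := R) m d f f1) hk.le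
      (V := fun y => f2 (k + 1) y ^ 2) (L := 2 * C * C) (B := C ^ 2) (fun x y => ?_) (fun x => ?_)
    · have e : f2 (k + 1) x ^ 2 - f2 (k + 1) y ^ 2 =
          (f2 (k + 1) x + f2 (k + 1) y) * (f2 (k + 1) x - f2 (k + 1) y) := by ring
      rw [e, abs_mul, mul_assoc]
      refine mul_le_mul ?_ (hs.l2 x y) (abs_nonneg _) (by positivity)
      refine (abs_add_le _ _).trans ?_
      have := hs.sm.b2 x
      have := hs.sm.b2 y
      linarith
    · rw [abs_pow]
      exact pow_le_pow_left₀ (abs_nonneg _) (hs.sm.b2 x) 2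

/-- the discrete incremental scheme -/
theorem df_pos (S : Sched M C R d m (fun _ => d) f f1 f2) (hR : 0 < R) (hd : 0 < d)
    (odd : ∀ r < R, ∀ x, f1 r (-x) = -f1 r x) (even : ∀ r < R, ∀ x, f2 r (-x) = f2 r x)
    {s : ℝ} (hs : 0 ≤ s) (hds : √d ≤ s)
    (hth : ∀ k < R, |comp (Kern m (fun _ => d) f) k 0 (fun y => f2 k y ^ 2) 0 - 1| ≤ s)
    (hρ1 : rho M C s < 1) {ε : ℝ} (hε : 0 < ε) :
    ∃ (F : Fin R → (Fin (R + 1) → ℝ) → ℝ) (g : (Fin (R + 1) → ℝ) → ℝ) (K : ℝ),
      Adm F K ∧ (∀ j, Continuous (F j)) ∧ (∀ j x, F j (-x) = -F j x) ∧ Continuous g ∧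
      (∀ x, g (-x) = -g x) ∧ (∀ x, |g x| ≤ 1) ∧ IsUnit (cov F).det ∧
      d * (∑ k ∈ Finset.range R, comp (Kern m (fun _ => d) f) k 0 (f2 k) 0) -
        (err M C s + ε) ≤ genValue F g (cov F) := by
  have hC := S.C0
  have hX := X4_nonneg S hR
  set P := G (Fin (R + 1)) with hP
  have hdev : ∀ k < R, |∫ ω, f2 k (XX d m f f1 k ω) ^ 2 ∂P - 1| ≤ rho M C s := by
    intro k hk
    have h1 := marg2 S hR hd.le hk
    have h2 := hth k hk
    have h3 : √d * (2 * C * C * X4 M C) ≤ s * (2 * C * C * X4 M C) :=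
      mul_le_mul_of_nonneg_right hds (by positivity)
    unfold rho
    rw [abs_le] at *
    constructor <;> linarith [h1.1, h1.2, h2.1, h2.2]
  have hpos : ∀ k < R, 0 < ∫ ω, f2 k (XX d m f f1 k ω) ^ 2 ∂P := by
    intro k hk
    have := (abs_le.1 (hdev k hk)).1
    linarith
  have hrho0 : 0 ≤ rho M C s := by unfold rho; positivity
  have hnr : ∀ k < R, |1 - nr R d m f f1 f2 k| ≤ rho M C s := by
    intro k hk
    have h1 := hdev k hk
    have h2 : nr R d m f f1 f2 k ^ 2 = ∫ ω, f2 k (XX d m f f1 k ω) ^ 2 ∂P :=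
      Real.sq_sqrt (hpos k hk).le
    rw [← h2] at h1
    have h3 : 0 ≤ nr R d m f f1 f2 k := Real.sqrt_nonneg _
    have h4 : |nr R d m f f1 f2 k ^ 2 - 1| = |1 - nr R d m f f1 f2 k| *
        (1 + nr R d m f f1 f2 k) := by
      rw [show nr R d m f f1 f2 k ^ 2 - 1 =
        -((1 - nr R d m f f1 f2 k) * (1 + nr R d m f f1 f2 k)) by ring, abs_neg, abs_mul,
        abs_of_nonneg (by linarith : 0 ≤ 1 + nr R d m f f1 f2 k)]
    rw [h4] at h1
    refine le_trans ?_ h1
    have := abs_nonneg (1 - nr R d m f f1 f2 k)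
    nlinarith
  -- the parameter of the truncation
  obtain ⟨tr, htr0, htr⟩ : ∃ tr : ℝ, 0 < tr ∧
      tr / 2 + 4 * ((C + M) * √tr) + 4 * ((C + M) ^ 2 * tr) ≤ ε := by
    have h1 : Continuous (fun tr : ℝ => tr / 2 + 4 * ((C + M) * √tr) +
      4 * ((C + M) ^ 2 * tr)) := by fun_prop
    have h2 := h1.tendsto 0
    simp only [Real.sqrt_zero, mul_zero, zero_div, add_zero] at h2
    have h3 := (h2.mono_left (nhdsWithin_le_nhds (s := Set.Ioi 0))).eventually_lt_const hε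
    obtain ⟨tr, h4, h5⟩ := (h3.and self_mem_nhdsWithin).exists
    exact ⟨tr, h5, h4.le⟩
  obtain ⟨θ, B, hT⟩ := exists_trunc htr0
  have D : Dat R M C d m f f1 f2 θ B tr := ⟨S, hR, hd, odd, even, hT, hpos⟩
  obtain ⟨K, hK⟩ := D.adm
  refine ⟨fun j => FF (R := R) d m f f1 f2 θ j, GG d m f f1 f2 θ, K, hK, D.FF_cont, D.FF_odd,
    D.GG_cont, D.GG_odd, fun x => Dat.gg_bd _, D.det_cov, ?_⟩
  -- the defect
  have hCM := D.CM0
  have hDD := D3.DD_nonneg M C
  have hEr0 : 0 ≤ Er M C s := by unfold Er; positivity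
  have hd2 : d ≤ s ^ 2 := by
    have h := pow_le_pow_left₀ (Real.sqrt_nonneg d) hds 2
    rwa [Real.sq_sqrt hd.le] at h
  have hE := D.dl_sq hnr
  set E' := Er M C s + 4 * ((C + M) ^ 2 * tr) with hE'
  have hE'0 : 0 ≤ E' := by positivity
  have hE2 : ∫ ω, Dat.dl R d m f f1 f2 θ ω ^ 2 ∂P ≤ √E' ^ 2 := by
    rw [Real.sq_sqrt hE'0]
    refine hE.trans ?_
    rw [hE']
    unfold Er
    have h1 : DD M C * Real.exp 1 * d ≤ DD M C * Real.exp 1 * s ^ 2 :=
      mul_le_mul_of_nonneg_left hd2 (by positivity)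
    linarith
  have hv := D.value_ge (Real.sqrt_nonneg _) hE2
  rw [Real.sq_sqrt hE'0] at hv
  have hsq : √E' ≤ √(Er M C s) + 2 * ((C + M) * √tr) := by
    refine (Real.sqrt_le_left (by positivity)).2 ?_
    have h1 : √(Er M C s) ^ 2 = Er M C s := Real.sq_sqrt hEr0
    have h2 : √tr ^ 2 = tr := Real.sq_sqrt htr0.le
    have h3 : (√(Er M C s) + 2 * ((C + M) * √tr)) ^ 2 =
        √(Er M C s) ^ 2 + 4 * (√(Er M C s) * ((C + M) * √tr)) +
          4 * ((C + M) ^ 2 * √tr ^ 2) := by ring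
    rw [h3, h1, h2, hE']
    have h4 : 0 ≤ √(Er M C s) * ((C + M) * √tr) := by positivity
    linarith
  -- the controls
  have hea : ∀ k ∈ Finset.range R, comp (Kern m (fun _ => d) f) k 0 (f2 k) 0 -
      (rho M C s + s * (C * X4 M C)) ≤ ∫ ω, aa d m f f1 f2 k ω ∂P := by
    intro k hk
    rw [Finset.mem_range] at hk
    have h1 := marg1 S hR hd.le hk
    have h2 : √d * (C * X4 M C) ≤ s * (C * X4 M C) :=
      mul_le_mul_of_nonneg_right hds (by positivity)
    have h3 : ∫ ω, f2 k (XX d m f f1 k ω) ∂P =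
        nr R d m f f1 f2 k * ∫ ω, aa d m f f1 f2 k ω ∂P := by
      rw [← integral_const_mul]
      congr 1
      ext ω
      unfold aa
      rw [mul_div_cancel₀ _ (D.nr_pos hk).ne']
    have h4 : |∫ ω, aa d m f f1 f2 k ω ∂P| ≤ 1 := by
      refine abs_le_of_sq_le_sq ?_ zero_le_one
      rw [one_pow]; exact D.ea_bd hk
    have h5 : |(1 - nr R d m f f1 f2 k) * ∫ ω, aa d m f f1 f2 k ω ∂P| ≤ rho M C s := by
      rw [abs_mul]
      calc |1 - nr R d m f f1 f2 k| * |∫ ω, aa d m f f1 f2 k ω ∂P| ≤ rho M C s * 1 :=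
            mul_le_mul (hnr k hk) h4 (abs_nonneg _) hrho0
        _ = _ := mul_one _
    rw [h3] at h1
    have h6 := (abs_le.1 h1).1
    have h7 := (abs_le.1 h5).1
    linarith
  have hsum : d * (∑ k ∈ Finset.range R, comp (Kern m (fun _ => d) f) k 0 (f2 k) 0) -
      (rho M C s + s * (C * X4 M C)) ≤
      d * ∑ k ∈ Finset.range R, ∫ ω, aa d m f f1 f2 k ω ∂P := by
    have h1 := Finset.sum_le_sum hea
    rw [Finset.sum_sub_distrib, Finset.sum_const, Finset.card_range, nsmul_eq_mul] at h1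
    have h2 := mul_le_mul_of_nonneg_left h1 hd.le
    have h3 : (R * d) * (rho M C s + s * (C * X4 M C)) ≤
        1 * (rho M C s + s * (C * X4 M C)) :=
      mul_le_mul_of_nonneg_right D.Rd_le (by positivity)
    linarith
  unfold err
  linarith

/-- **(DF)**: the output in the form used by the assembly -/
theorem dfStmt (M C : ℝ) : ∀ ε > (0:ℝ), ∃ θ > (0:ℝ), ∃ d0 > (0:ℝ),
    ∀ (R : ℕ) (d : ℝ) (m : ℕ → ℝ) (f f1 f2 : ℕ → ℝ → ℝ), 0 < d → d ≤ d0 →
    D3.Sched M C R d m (fun _ => d) f f1 f2 →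
    (∀ r x, f1 r (-x) = - f1 r x) → (∀ r x, f2 r (-x) = f2 r x) →
    (∀ k < R, |D3.comp (D3.Kern m (fun _ => d) f) k 0 (fun y => f2 k y ^ 2) 0 - 1| ≤ θ) →
    ∃ (F : Fin R → (Fin (R + 1) → ℝ) → ℝ) (g : (Fin (R + 1) → ℝ) → ℝ) (C' : ℝ),
      Trig.Adm F C' ∧ (∀ i, Continuous (F i)) ∧ (∀ i x, F i (-x) = - F i x) ∧ Continuous g ∧
      (∀ x, g (-x) = - g x) ∧ (∀ x, |g x| ≤ 1) ∧ IsUnit (cov F).det ∧
      d * (∑ k ∈ Finset.range R, D3.comp (D3.Kern m (fun _ => d) f) k 0 (f2 k) 0) - ε ≤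
        genValue F g (cov F) := by
  intro ε hε
  have h1 := ((err_tendsto M C).mono_left
    (nhdsWithin_le_nhds (s := Set.Ioi 0))).eventually_lt_const (half_pos hε)
  have h2 := ((rho_tendsto M C).mono_left
    (nhdsWithin_le_nhds (s := Set.Ioi 0))).eventually_lt_const one_pos
  obtain ⟨s, ⟨h3, h4⟩, h5⟩ := ((h1.and h2).and self_mem_nhdsWithin).exists
  have hs : (0:ℝ) < s := h5
  refine ⟨s, hs, s ^ 2, by positivity, fun R d m f f1 f2 hd hd0 S odd even hth => ?_⟩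
  have hds : √d ≤ s := (Real.sqrt_le_left hs.le).2 hd0
  rcases Nat.eq_zero_or_pos R with hR | hR
  · subst hR
    refine ⟨fun j => j.elim0, fun _ => 0, 0, ⟨fun j => j.elim0, fun j => j.elim0,
      fun j => j.elim0⟩, fun j => j.elim0, fun j => j.elim0, continuous_const, fun x => by simp,
      fun x => by simp, ?_, ?_⟩
    · have hA : Adm (fun j : Fin 0 => (j.elim0 : (Fin (0 + 1) → ℝ) → ℝ)) 0 :=
        ⟨fun j => j.elim0, fun j => j.elim0, fun j => j.elim0⟩
      have : cov (fun j : Fin 0 => (j.elim0 : (Fin (0 + 1) → ℝ) → ℝ)) = 1 := by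
        symm
        refine eq_cov hA ?_
        ext i j
        have hi : i = 0 := Fin.ext (by omega)
        have hj : j = 0 := Fin.ext (by omega)
        subst hi; subst hj
        rw [step_zero_zero]; rfl
      rw [this]; simp
    · simp [genValue]
      exact hε.le
  · obtain ⟨F, g, K, a1, a2, a3, a4, a5, a6, a7, a8⟩ := df_pos S hR hd
      (fun r _ => odd r) (fun r _ => even r) hs.le hds hth h4 (half_pos hε)
    exact ⟨F, g, K, a1, a2, a3, a4, a5, a6, a7, by linarith⟩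

end

end Crest.Agent.R339.DF
end

-- ▼ part R339/DF833G

/-!
# Row 339: the classical half, without hypotheses
-/

set_option autoImplicit false

namespace Crest.Agent.R339.Asm

open MeasureTheory ProbabilityTheory Filter Topology Set
open Crest.MathPhysics.SpinGlass
open Crest.Agent.R339.Var Crest.Agent.R339.Ref Crest.Agent.R339.Trig Crest.Agent.R339.Site

/-- (DF) -/
theorem dfStmt : DFStmt := by
  intro M C _ ε hε
  obtain ⟨θ, hθ, d0, hd0, h⟩ := DF.dfStmt M C ε hε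
  exact ⟨θ, hθ, d0, hd0, fun R d m f f1 f2 hd hdd S odd even _ hth =>
    h R d m f f1 f2 hd hdd S odd even hth⟩


/-- the statement from (C2) alone -/
theorem final_of_QStmt (hQ : QStmt) :
    ∀ ε > (0 : ℝ), ∃ angles : List (ℝ × ℝ), ∃ N : ℕ, ∀ n ≥ N,
      (∫ J, maxPairEnergy n J ∂(gaussianCouplings n)) / n - ε ≤
        (∫ J, expectedEnergy n J (alternatingState n J angles) ∂(gaussianCouplings n)) / n :=
  final dfStmt hQ

end Crest.Agent.R339.Asm
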