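import Crest.Agent.R339.Li728B

/-!
# R339, block LI: functional analysis (helper728)

* `exists_unitary_lim`: unitaries converging strongly on a total set, with their adjoints.
* `norm_exp_sub_apply_le`: `‖(e^{iA} - e^{iB}) v‖ ≤ ‖(A - B) v‖` for commuting selfadjoint `A`, `B`.
-/

set_option autoImplicit false

noncomputable section

open scoped ComplexConjugate InnerProductSpace Topology
open Filter

namespace Crest.Agent.R339.Li

variable {H : Type*} [NormedAddCommGroup H] [InnerProductSpace ℂ H] [CompleteSpace H]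

section Lim

variable {α : Type*} {l : Filter α} [l.NeBot] {U : α → UH H} {T : Set H}





end Lim

section Exp

open Complex in
/-- `exp (i A)` for selfadjoint `A` -/
def eU (A : H →L[ℂ] H) (hA : star A = A) : UH H :=
  selfAdjoint.expUnitary ⟨A, hA⟩

@[simp] lemma coe_eU (A : H →L[ℂ] H) (hA : star A = A) :
    (eU A hA : H →L[ℂ] H) = NormedSpace.exp (Complex.I • A) := rfl




/-- conjugation of exponentials by unitaries -/
lemma star_mul_exp_mul (U : UH H) (A : H →L[ℂ] H) :
    star (U : H →L[ℂ] H) * NormedSpace.exp A * (U : H →L[ℂ] H) =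
      NormedSpace.exp (star (U : H →L[ℂ] H) * A * (U : H →L[ℂ] H)) := by
  letI : NormedAlgebra ℚ (H →L[ℂ] H) := NormedAlgebra.restrictScalars ℚ ℂ (H →L[ℂ] H)
  have := NormedSpace.exp_units_conj' (⟨(U : H →L[ℂ] H), star (U : H →L[ℂ] H), U_mul_star_self U,
    star_U_mul_self U⟩ : (H →L[ℂ] H)ˣ) A
  simpa using this.symm

/-- operators commuting with `A` commute with `exp (c A)` -/
lemma commute_exp {A B : H →L[ℂ] H} (h : Commute A B) : Commute A (NormedSpace.exp B) := by
  letI : NormedAlgebra ℚ (H →L[ℂ] H) := NormedAlgebra.restrictScalars ℚ ℂ (H →L[ℂ] H)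
  exact h.exp_right

end Exp

end Crest.Agent.R339.Li
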