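import Crest.Agent.R339.Kahane
import Crest.Prelude.Def_SpinGlass

-- ▼ part R339/GTree
section

/-!
# Row 339, part (A): the tree functional and its mixed second derivatives
-/

set_option autoImplicit false

namespace Crest.Agent.R339.Guerra

open MeasureTheory ProbabilityTheory Real

noncomputable section

/-- positive functions with nonnegative first and nonpositive mixed second derivatives. -/
structure Cls {I : Type*} [Fintype I] (c : ℝ) (W : (I → ℝ) → ℝ) (P : I → (I → ℝ) → ℝ)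
    (H : I → I → (I → ℝ) → ℝ) : Prop where
  pos : ∀ h, 0 < W h
  dW : ∀ h, HasFDerivAt W (dual fun a => P a h) h
  dP : ∀ a h, HasFDerivAt (P a) (dual fun b => H a b h) h
  cH : ∀ a b, Continuous (H a b)
  Pnn : ∀ a h, 0 ≤ P a h
  Hnp : ∀ a b h, a ≠ b → H a b h ≤ 0
  Pb : ∀ a h, P a h ≤ c * W h
  Hb : ∀ a b h, |H a b h| ≤ c * W h

def InCls {I : Type*} [Fintype I] (W : (I → ℝ) → ℝ) : Prop :=
  ∃ c P H, 0 ≤ c ∧ Cls (I := I) c W P H

variable {I : Type*} [Fintype I]

theorem Cls.cW {c : ℝ} {W : (I → ℝ) → ℝ} {P : I → (I → ℝ) → ℝ}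
    {H : I → I → (I → ℝ) → ℝ} (hc : Cls c W P H) : Continuous W :=
  continuous_iff_continuousAt.2 fun h => (hc.dW h).continuousAt

theorem Cls.cP {c : ℝ} {W : (I → ℝ) → ℝ} {P : I → (I → ℝ) → ℝ}
    {H : I → I → (I → ℝ) → ℝ} (hc : Cls c W P H) (a : I) : Continuous (P a) :=
  continuous_iff_continuousAt.2 fun h => (hc.dP a h).continuousAt

/-- base case: partition function -/
theorem inCls_base [DecidableEq I] [Nonempty I] (β : ℝ) (hβ : 0 < β) :
    InCls (fun h : I → ℝ => ∑ a, Real.exp (β * h a)) := by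
  refine ⟨β + β ^ 2, fun a h => β * Real.exp (β * h a),
    fun a b h => if a = b then β ^ 2 * Real.exp (β * h a) else 0, by positivity, ?_⟩
  have hexp : ∀ (a : I) (h : I → ℝ), HasFDerivAt (fun h : I → ℝ => Real.exp (β * h a))
      (Real.exp (β * h a) • (β • (ContinuousLinearMap.proj a : (I → ℝ) →L[ℝ] ℝ))) h := by
    intro a h
    have h1 : HasFDerivAt (fun h : I → ℝ => β * h a)
        (β • (ContinuousLinearMap.proj a : (I → ℝ) →L[ℝ] ℝ)) h :=
      (hasFDerivAt_apply a h).const_mul β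
    exact h1.exp
  have hle : ∀ (a : I) (h : I → ℝ), Real.exp (β * h a) ≤ ∑ a, Real.exp (β * h a) := fun a h =>
    Finset.single_le_sum (f := fun a => Real.exp (β * h a)) (fun b _ => (Real.exp_pos _).le)
      (Finset.mem_univ a)
  refine ⟨fun h => ?_, fun h => ?_, fun a h => ?_, fun a b => ?_, fun a h => ?_,
    fun a b h hab => ?_, fun a h => ?_, fun a b h => ?_⟩
  · exact Finset.sum_pos (fun a _ => Real.exp_pos _) Finset.univ_nonempty
  · have h1 := HasFDerivAt.fun_sum (u := Finset.univ) fun a _ => hexp a h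
    refine h1.congr_fderiv ?_
    ext v
    simp only [dual_apply, _root_.sum_apply, _root_.smul_apply,
      ContinuousLinearMap.proj_apply, smul_eq_mul]
    refine Finset.sum_congr rfl fun a _ => by ring
  · have h1 := (hexp a h).const_mul β
    refine h1.congr_fderiv ?_
    ext v
    simp only [dual_apply, _root_.smul_apply,
      ContinuousLinearMap.proj_apply, smul_eq_mul, ite_mul, zero_mul, Finset.sum_ite_eq,
      Finset.mem_univ, if_true]
    ring
  · by_cases hab : a = b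
    · simp only [hab, if_true]; fun_prop
    · simp only [hab, if_false]; exact continuous_const
  · positivity
  · simp [hab]
  · have := hle a h
    have h2 : 0 ≤ ∑ a, Real.exp (β * h a) := Finset.sum_nonneg fun b _ => (Real.exp_pos _).le
    nlinarith [sq_nonneg β]
  · have := hle a h
    have h2 : 0 ≤ ∑ a, Real.exp (β * h a) := Finset.sum_nonneg fun b _ => (Real.exp_pos _).le
    by_cases hab : a = b
    · simp only [hab, if_true]
      rw [abs_of_nonneg (by positivity)]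
      subst hab
      nlinarith [sq_nonneg β]
    · simp only [hab, if_false, abs_zero]
      positivity

/-- disjoint blocks -/
theorem inCls_block {N : ℕ} (hN : 0 < N) {W : (I → ℝ) → ℝ} (hW : InCls W) :
    InCls (fun h : Fin N × I → ℝ => (1 / (N:ℝ)) * ∑ c, W (fun a => h (c, a))) := by
  obtain ⟨c0, P, H, hc0, hc⟩ := hW
  have hN' : (0:ℝ) < N := by exact_mod_cast hN
  have hNN : (0:ℝ) < 1 / (N:ℝ) := by positivity
  refine ⟨c0, fun x h => (1 / (N:ℝ)) * P x.2 (fun a => h (x.1, a)),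
    fun x y h => if x.1 = y.1 then (1 / (N:ℝ)) * H x.2 y.2 (fun a => h (x.1, a)) else 0, hc0, ?_⟩
  -- the restriction map
  have hr : ∀ (c : Fin N) (h : Fin N × I → ℝ), HasFDerivAt
      (fun (h : Fin N × I → ℝ) (a : I) => h (c, a))
      (ContinuousLinearMap.pi fun a : I =>
        (ContinuousLinearMap.proj (c, a) : (Fin N × I → ℝ) →L[ℝ] ℝ)) h := by
    intro c h
    rw [hasFDerivAt_pi]
    intro a
    exact hasFDerivAt_apply (c, a) h
  refine ⟨fun h => ?_, fun h => ?_, fun a h => ?_, fun a b => ?_, fun a h => ?_,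
    fun a b h hab => ?_, fun a h => ?_, fun a b h => ?_⟩
  · haveI : Nonempty (Fin N) := ⟨⟨0, hN⟩⟩
    exact mul_pos hNN (Finset.sum_pos (fun a _ => hc.pos _) Finset.univ_nonempty)
  · have h1 := HasFDerivAt.fun_sum (u := Finset.univ) fun (c : Fin N) _ =>
      (hc.dW (fun a => h (c, a))).comp h (hr c h)
    have h2 := h1.const_mul (1 / (N:ℝ))
    refine h2.congr_fderiv ?_
    ext v
    simp only [dual_apply, _root_.sum_apply, _root_.smul_apply,
      ContinuousLinearMap.comp_apply, ContinuousLinearMap.pi_apply,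
      ContinuousLinearMap.proj_apply, smul_eq_mul, Fintype.sum_prod_type]
    rw [Finset.mul_sum]
    refine Finset.sum_congr rfl fun c _ => ?_
    rw [Finset.mul_sum]
    refine Finset.sum_congr rfl fun a _ => by ring
  · have h1 := (hc.dP a.2 (fun b => h (a.1, b))).comp h (hr a.1 h)
    have h2 := h1.const_mul (1 / (N:ℝ))
    refine h2.congr_fderiv ?_
    ext v
    simp only [dual_apply, _root_.smul_apply,
      ContinuousLinearMap.comp_apply, ContinuousLinearMap.pi_apply,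
      ContinuousLinearMap.proj_apply, smul_eq_mul, Fintype.sum_prod_type]
    rw [Finset.sum_eq_single a.1]
    · simp only [if_true]
      rw [Finset.mul_sum]
      refine Finset.sum_congr rfl fun b _ => by ring
    · intro c _ hca
      refine Finset.sum_eq_zero fun b _ => ?_
      rw [if_neg (Ne.symm hca)]; ring
    · intro h; exact absurd (Finset.mem_univ _) h
  · by_cases hab : a.1 = b.1
    · simp only [hab, if_true]
      have : Continuous fun h : Fin N × I → ℝ => fun d : I => h (b.1, d) := by fun_prop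
      exact continuous_const.mul ((hc.cH a.2 b.2).comp this)
    · simp only [hab, if_false]; exact continuous_const
  · exact mul_nonneg hNN.le (hc.Pnn _ _)
  · by_cases h1 : a.1 = b.1
    · rw [if_pos h1]
      have h2 : a.2 ≠ b.2 := fun h2 => hab (Prod.ext h1 h2)
      exact mul_nonpos_of_nonneg_of_nonpos hNN.le (hc.Hnp _ _ _ h2)
    · rw [if_neg h1]
  · have h1 := hc.Pb a.2 (fun d => h (a.1, d))
    have h2 : W (fun d => h (a.1, d)) ≤ ∑ c, W (fun d => h (c, d)) :=
      Finset.single_le_sum (f := fun c => W (fun d => h (c, d)))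
        (fun b _ => (hc.pos _).le) (Finset.mem_univ a.1)
    calc (1 / (N:ℝ)) * P a.2 (fun d => h (a.1, d)) ≤ (1 / (N:ℝ)) *
        (c0 * W (fun d => h (a.1, d))) := mul_le_mul_of_nonneg_left h1 hNN.le
      _ ≤ (1 / (N:ℝ)) * (c0 * ∑ c, W (fun d => h (c, d))) := by gcongr
      _ = _ := by ring
  · have h2 : W (fun d => h (a.1, d)) ≤ ∑ c, W (fun d => h (c, d)) :=
      Finset.single_le_sum (f := fun c => W (fun d => h (c, d)))
        (fun b _ => (hc.pos _).le) (Finset.mem_univ a.1)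
    have h3 : 0 < ∑ c, W (fun d => h (c, d)) := lt_of_lt_of_le (hc.pos _) h2
    by_cases hab : a.1 = b.1
    · rw [if_pos hab, abs_mul, abs_of_pos hNN]
      calc (1 / (N:ℝ)) * |H a.2 b.2 (fun d => h (a.1, d))| ≤ (1 / (N:ℝ)) *
          (c0 * W (fun d => h (a.1, d))) := mul_le_mul_of_nonneg_left (hc.Hb _ _ _) hNN.le
        _ ≤ (1 / (N:ℝ)) * (c0 * ∑ c, W (fun d => h (c, d))) := by gcongr
        _ = _ := by ring
    · rw [if_neg hab, abs_zero]
      positivity

/-- concave powers -/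
theorem inCls_pow {p : ℝ} (hp : 0 < p) (hp1 : p ≤ 1) {W : (I → ℝ) → ℝ} (hW : InCls W) :
    InCls (fun h : I → ℝ => W h ^ p) := by
  obtain ⟨c0, P, H, hc0, hc⟩ := hW
  refine ⟨p * c0 + p * (1 - p) * c0 ^ 2, fun a h => p * (W h ^ (p - 1) * P a h),
    fun a b h => p * ((p - 1) * W h ^ (p - 2) * P b h * P a h + W h ^ (p - 1) * H a b h), ?_, ?_⟩
  · have : 0 ≤ 1 - p := by linarith
    positivity
  have hpow : ∀ (r : ℝ) (h : I → ℝ), HasFDerivAt (fun h => W h ^ r)
      ((r * W h ^ (r - 1)) • (dual fun a => P a h)) h := by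
    intro r h
    exact (hc.dW h).rpow_const (Or.inl (hc.pos h).ne')
  have hw : ∀ (r : ℝ) h, 0 < W h ^ r := fun r h => Real.rpow_pos_of_pos (hc.pos h) r
  have hw1 : ∀ h, W h ^ (p - 1) * W h = W h ^ p := by
    intro h
    nth_rewrite 2 [← Real.rpow_one (W h)]
    rw [← Real.rpow_add (hc.pos h)]; congr 1; ring
  have hw2 : ∀ h, W h ^ (p - 2) * W h ^ 2 = W h ^ p := by
    intro h
    rw [← Real.rpow_natCast, ← Real.rpow_add (hc.pos h)]; congr 1; push_cast; ring
  have h1p : 0 ≤ 1 - p := by linarith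
  refine ⟨fun h => hw p h, fun h => ?_, fun a h => ?_, fun a b => ?_, fun a h => ?_,
    fun a b h hab => ?_, fun a h => ?_, fun a b h => ?_⟩
  · refine (hpow p h).congr_fderiv ?_
    ext v
    simp only [dual_apply, _root_.smul_apply, smul_eq_mul]
    rw [Finset.mul_sum]
    refine Finset.sum_congr rfl fun c _ => by ring
  · have h1 := ((hpow (p - 1) h).mul (hc.dP a h)).const_mul p
    refine h1.congr_fderiv ?_
    ext v
    simp only [dual_apply, _root_.smul_apply, _root_.add_apply,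
      smul_eq_mul]
    have e : p - 1 - 1 = p - 2 := by ring
    rw [e, Finset.mul_sum, Finset.mul_sum, Finset.mul_sum, ← Finset.sum_add_distrib,
      Finset.mul_sum]
    refine Finset.sum_congr rfl fun c _ => by ring
  · have hcr : ∀ r : ℝ, Continuous fun h => W h ^ r := fun r =>
      hc.cW.rpow_const fun h => Or.inl (hc.pos h).ne'
    have c1 := hcr (p - 2)
    have c2 := hcr (p - 1)
    have c3 := hc.cP a
    have c4 := hc.cP b
    have c5 := hc.cH a b
    fun_prop
  · have := hw (p - 1) h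
    have := hc.Pnn a h
    positivity
  · have a1 := hw (p - 1) h
    have a2 := hw (p - 2) h
    have a3 := hc.Pnn a h
    have a4 := hc.Pnn b h
    have a5 := hc.Hnp a b h hab
    have b1 : (p - 1) * W h ^ (p - 2) * P b h * P a h ≤ 0 := by
      have : 0 ≤ W h ^ (p - 2) * P b h * P a h := by positivity
      nlinarith
    have b2 : W h ^ (p - 1) * H a b h ≤ 0 := mul_nonpos_of_nonneg_of_nonpos a1.le a5
    exact mul_nonpos_of_nonneg_of_nonpos hp.le (by linarith)
  · have a1 := hw (p - 1) h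
    have a2 := hc.Pb a h
    have a3 : W h ^ (p - 1) * P a h ≤ c0 * W h ^ p := by
      calc W h ^ (p - 1) * P a h ≤ W h ^ (p - 1) * (c0 * W h) :=
            mul_le_mul_of_nonneg_left a2 a1.le
        _ = c0 * (W h ^ (p - 1) * W h) := by ring
        _ = _ := by rw [hw1]
    have a4 : 0 ≤ p * (1 - p) * c0 ^ 2 * W h ^ p := by
      have := hw p h
      positivity
    have a5 := mul_le_mul_of_nonneg_left a3 hp.le
    linarith
  · have a1 := hw (p - 1) h
    have a1' := hw (p - 2) h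
    have a2 := hc.Pb a h
    have a2' := hc.Pb b h
    have a3 := hc.Hb a b h
    have p1 := hc.Pnn a h
    have p2 := hc.Pnn b h
    have b1 : |W h ^ (p - 1) * H a b h| ≤ c0 * W h ^ p := by
      rw [abs_mul, abs_of_pos a1]
      calc W h ^ (p - 1) * |H a b h| ≤ W h ^ (p - 1) * (c0 * W h) :=
            mul_le_mul_of_nonneg_left a3 a1.le
        _ = c0 * (W h ^ (p - 1) * W h) := by ring
        _ = _ := by rw [hw1]
    have b2 : |(p - 1) * W h ^ (p - 2) * P b h * P a h| ≤ (1 - p) * c0 ^ 2 * W h ^ p := by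
      have e : (p - 1) * W h ^ (p - 2) * P b h * P a h =
        -((1 - p) * (W h ^ (p - 2) * (P b h * P a h))) := by ring
      rw [e, abs_neg, abs_of_nonneg (by positivity)]
      have : P b h * P a h ≤ (c0 * W h) * (c0 * W h) :=
        mul_le_mul a2' a2 p1 (mul_nonneg hc0 (hc.pos h).le)
      calc (1 - p) * (W h ^ (p - 2) * (P b h * P a h)) ≤
          (1 - p) * (W h ^ (p - 2) * ((c0 * W h) * (c0 * W h))) := by gcongr
        _ = (1 - p) * c0 ^ 2 * (W h ^ (p - 2) * W h ^ 2) := by ring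
        _ = _ := by rw [hw2]
    rw [abs_mul, abs_of_pos hp]
    have b3 := abs_add_le ((p - 1) * W h ^ (p - 2) * P b h * P a h) (W h ^ (p - 1) * H a b h)
    have b4 : |(p - 1) * W h ^ (p - 2) * P b h * P a h + W h ^ (p - 1) * H a b h| ≤
      (1 - p) * c0 ^ 2 * W h ^ p + c0 * W h ^ p := by linarith
    have b5 := mul_le_mul_of_nonneg_left b4 hp.le
    linarith

/-- what we need for `F = (1/m) log W` -/
theorem InCls.log {W : (I → ℝ) → ℝ} (hW : InCls W) {m : ℝ} (hm : 0 < m) :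
    ∃ (c : ℝ) (P : I → (I → ℝ) → ℝ) (H : I → I → (I → ℝ) → ℝ), 0 ≤ c ∧
      (∀ h, HasFDerivAt (fun h => (1 / m) * Real.log (W h)) (dual fun a => P a h) h) ∧
      (∀ a h, HasFDerivAt (P a) (dual fun b => H a b h) h) ∧
      (∀ a b, Continuous (H a b)) ∧
      (∀ a h, |P a h| ≤ c) ∧ (∀ a b h, |H a b h| ≤ c) ∧
      (∀ a b h, a ≠ b → H a b h ≤ 0) := by
  obtain ⟨c0, P, H, hc0, hc⟩ := hW
  have hm' : 0 < 1 / m := by positivity
  refine ⟨(1 / m) * (c0 + c0 ^ 2), fun a h => (1 / m) * (P a h * (W h)⁻¹),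
    fun a b h => (1 / m) * (H a b h * (W h)⁻¹ - P b h * P a h * ((W h)⁻¹) ^ 2),
    by positivity, fun h => ?_, fun a h => ?_, fun a b => ?_, fun a h => ?_, fun a b h => ?_,
    fun a b h hab => ?_⟩
  · have h1 := ((hc.dW h).log (hc.pos h).ne').const_mul (1 / m)
    refine h1.congr_fderiv ?_
    ext v
    simp only [dual_apply, _root_.smul_apply, smul_eq_mul]
    rw [Finset.mul_sum, Finset.mul_sum]
    refine Finset.sum_congr rfl fun c _ => by ring
  · have hinv : HasFDerivAt (fun h => (W h)⁻¹) ((-((W h) ^ 2)⁻¹) • (dual fun a => P a h)) h := by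
      have := (hasDerivAt_inv (hc.pos h).ne').comp_hasFDerivAt h (hc.dW h)
      exact this
    have h1 := ((hc.dP a h).mul hinv).const_mul (1 / m)
    refine h1.congr_fderiv ?_
    ext v
    simp only [dual_apply, _root_.smul_apply, _root_.add_apply,
      smul_eq_mul]
    rw [Finset.mul_sum, Finset.mul_sum, Finset.mul_sum, ← Finset.sum_add_distrib,
      Finset.mul_sum]
    refine Finset.sum_congr rfl fun c _ => ?_
    rw [inv_pow]; ring
  · have c1 : Continuous fun h => (W h)⁻¹ := hc.cW.inv₀ fun h => (hc.pos h).ne'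
    have c3 := hc.cP a
    have c4 := hc.cP b
    have c5 := hc.cH a b
    fun_prop
  · have a1 := hc.pos h
    have a2 := hc.Pb a h
    have a3 := hc.Pnn a h
    have a4 : P a h * (W h)⁻¹ ≤ c0 := by
      rw [← div_eq_mul_inv, div_le_iff₀ a1]; exact a2
    rw [abs_of_nonneg (by positivity)]
    have : 0 ≤ c0 ^ 2 := by positivity
    exact mul_le_mul_of_nonneg_left (by linarith) hm'.le
  · have a1 := hc.pos h
    have a2 := hc.Pb a h
    have a3 := hc.Pnn a h
    have a2' := hc.Pb b h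
    have a3' := hc.Pnn b h
    have a4 : P a h * (W h)⁻¹ ≤ c0 := by
      rw [← div_eq_mul_inv, div_le_iff₀ a1]; exact a2
    have a4' : P b h * (W h)⁻¹ ≤ c0 := by
      rw [← div_eq_mul_inv, div_le_iff₀ a1]; exact a2'
    have a5 : |H a b h * (W h)⁻¹| ≤ c0 := by
      rw [abs_mul, abs_of_pos (inv_pos.2 a1), ← div_eq_mul_inv, div_le_iff₀ a1]
      exact hc.Hb a b h
    have a6 : |P b h * P a h * ((W h)⁻¹) ^ 2| ≤ c0 ^ 2 := by
      rw [abs_of_nonneg (by positivity)]
      calc P b h * P a h * ((W h)⁻¹) ^ 2 = (P b h * (W h)⁻¹) * (P a h * (W h)⁻¹) := by ring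
        _ ≤ c0 * c0 := mul_le_mul a4' a4 (by positivity) hc0
        _ = _ := by ring
    rw [abs_mul, abs_of_pos hm']
    refine mul_le_mul_of_nonneg_left ?_ hm'.le
    exact (abs_sub _ _).trans (by linarith)
  · have a1 := hc.pos h
    have a3 := hc.Pnn a h
    have a3' := hc.Pnn b h
    have a5 := hc.Hnp a b h hab
    have b1 : H a b h * (W h)⁻¹ ≤ 0 := mul_nonpos_of_nonpos_of_nonneg a5 (inv_pos.2 a1).le
    have b2 : 0 ≤ P b h * P a h * ((W h)⁻¹) ^ 2 := by positivity
    exact mul_nonpos_of_nonneg_of_nonpos hm'.le (by linarith)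

end

end Crest.Agent.R339.Guerra
end

-- ▼ part R339/GUp
section

/-!
# Row 339, part (A): the tree functional, upper bound by Jensen
-/

set_option autoImplicit false

namespace Crest.Agent.R339.Guerra

open MeasureTheory ProbabilityTheory Real

noncomputable section

/-- Levels: list of pairs `(m_k, δ_k)`, outermost first. -/
abbrev Lev := List (ℝ × ℝ)

/-- the exponent of the next level -/
def mh (β : ℝ) : Lev → ℝ
  | [] => β
  | x :: _ => x.1

/-- `0 < m_1 ≤ ... ≤ m_K ≤ β`, `δ_k ≥ 0` -/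
def Good (β : ℝ) : Lev → Prop
  | [] => True
  | x :: ℓ => 0 < x.1 ∧ x.1 ≤ mh β ℓ ∧ 0 ≤ x.2 ∧ Good β ℓ

theorem mh_pos {β : ℝ} (hβ : 0 < β) : ∀ {ℓ : Lev}, Good β ℓ → 0 < mh β ℓ
  | [], _ => hβ
  | _ :: _, h => h.1

/-- index set of the tree -/
def Idx (N : ℕ) (S : Type) : Lev → Type
  | [] => S
  | _ :: ℓ => Fin N × Idx N S ℓ

instance Idx.fintype (N : ℕ) (S : Type) [Fintype S] : ∀ ℓ, Fintype (Idx N S ℓ)
  | [] => inferInstanceAs (Fintype S)
  | _ :: ℓ => letI := Idx.fintype N S ℓ; inferInstanceAs (Fintype (Fin N × Idx N S ℓ))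

instance Idx.deceq (N : ℕ) (S : Type) [DecidableEq S] : ∀ ℓ, DecidableEq (Idx N S ℓ)
  | [] => inferInstanceAs (DecidableEq S)
  | _ :: ℓ => letI := Idx.deceq N S ℓ; inferInstanceAs (DecidableEq (Fin N × Idx N S ℓ))

def leaf {N : ℕ} {S : Type} : ∀ ℓ : Lev, Idx N S ℓ → S
  | [], a => a
  | _ :: ℓ, a => leaf ℓ a.2

/-- the nested power average -/
def W (β : ℝ) {N : ℕ} {S : Type} [Fintype S] : ∀ ℓ : Lev, (Idx N S ℓ → ℝ) → ℝ
  | [], h => ∑ a : S, Real.exp (β * h a)
  | x :: ℓ, h => (1 / (N:ℝ)) * ∑ c : Fin N, (W β ℓ (fun a => h (c, a))) ^ (x.1 / mh β ℓ)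

theorem inCls_W {β : ℝ} (hβ : 0 < β) {N : ℕ} (hN : 0 < N) {S : Type} [Fintype S]
    [DecidableEq S] [Nonempty S] : ∀ ℓ : Lev, Good β ℓ → InCls (W β (N := N) (S := S) ℓ)
  | [], _ => inCls_base (I := S) β hβ
  | x :: ℓ, h => by
    have h1 := inCls_W hβ hN (S := S) ℓ h.2.2.2
    have h2 := mh_pos hβ h.2.2.2
    have h3 := inCls_pow (p := x.1 / mh β ℓ) (div_pos h.1 h2) ((div_le_one h2).2 h.2.1) h1
    exact inCls_block hN h3

/-- integrability of class functions of a Gaussian vector -/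
theorem InCls.integrable {I ι : Type*} [Fintype I] [Fintype ι] {W : (I → ℝ) → ℝ}
    (hW : InCls W) (u : I → ℝ) (A : I → ι → ℝ) :
    Integrable (fun g => W (fun a => u a + lin A g a)) (G ι) := by
  obtain ⟨c, P, H, hc, hF, -, -, hPb, -, -⟩ := hW.log one_pos
  have hWc : Continuous W := by
    obtain ⟨_, _, _, _, h⟩ := hW; exact h.cW
  have hWp : ∀ h, 0 < W h := by
    obtain ⟨_, _, _, _, h⟩ := hW; exact h.pos
  set K := c * Fintype.card I with hK
  have hK0 : 0 ≤ K := by positivity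
  set K2 := ∑ a, ∑ j, |A a j| with hK2
  have hcont : Continuous (fun g : ι → ℝ => W (fun a => u a + lin A g a)) := by
    refine hWc.comp ?_
    have := continuous_lin A
    fun_prop
  refine integrable_of_exp_bound hcont.aestronglyMeasurable
    (Real.exp (|(1 / (1:ℝ)) * Real.log (W 0)| + K * ‖u‖)) (K * K2) fun g => ?_
  rw [abs_of_pos (hWp _)]
  have h1 := growth hF hc hPb (fun a => u a + lin A g a)
  have h2 : ‖(fun a => u a + lin A g a)‖ ≤ ‖u‖ + K2 * ∑ j, |g j| := by
    calc ‖(fun a => u a + lin A g a)‖ = ‖u + lin A g‖ := rfl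
      _ ≤ ‖u‖ + ‖lin A g‖ := norm_add_le _ _
      _ ≤ _ := by have := norm_lin_le A g; linarith
  have h3 := mul_le_mul_of_nonneg_left h2 hK0
  have h4 : Real.log (W fun a => u a + lin A g a) ≤
      |(1 / (1:ℝ)) * Real.log (W 0)| + K * ‖u‖ + K * K2 * ∑ j, |g j| := by
    have := le_abs_self ((1 / (1:ℝ)) * Real.log (W fun a => u a + lin A g a))
    rw [← hK] at h1
    linarith
  rw [← Real.exp_add, ← Real.log_le_iff_le_exp (hWp _)]
  exact h4

theorem InCls.pos {I : Type*} [Fintype I] {W : (I → ℝ) → ℝ} (hW : InCls W) (h : I → ℝ) :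
    0 < W h := by
  obtain ⟨_, _, _, _, h'⟩ := hW; exact h'.pos h

theorem InCls.cont {I : Type*} [Fintype I] {W : (I → ℝ) → ℝ} (hW : InCls W) :
    Continuous W := by
  obtain ⟨_, _, _, _, h'⟩ := hW; exact h'.cW

theorem InCls.integrable_log {I ι : Type*} [Fintype I] [Fintype ι] {W : (I → ℝ) → ℝ}
    (hW : InCls W) (u : I → ℝ) (A : I → ι → ℝ) :
    Integrable (fun g => Real.log (W (fun a => u a + lin A g a))) (G ι) := by
  obtain ⟨c, P, H, hc, hF, -, -, hPb, -, -⟩ := hW.log one_pos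
  have h1 := integrable_comp_lin (F := fun h => (1 / (1:ℝ)) * Real.log (W (u + h)))
    (P := fun a h => P a (u + h)) (c := c) (fun h => by
      have h2 : HasFDerivAt (fun h : I → ℝ => u + h) (ContinuousLinearMap.id ℝ (I → ℝ)) h :=
        (hasFDerivAt_id h).const_add u
      have h3 := (hF (u + h)).comp h h2
      exact h3) hc (fun a h => hPb a _) A
  refine h1.congr (Filter.Eventually.of_forall fun g => ?_)
  simp only [one_div, inv_one, one_mul]
  rfl

/-! ### the Parisi recursion -/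

/-- one step of the recursion -/
def T (m δ : ℝ) (f : ℝ → ℝ) (x : ℝ) : ℝ :=
  (1 / m) * Real.log (∫ y, Real.exp (m * f (x + Real.sqrt δ * y)) ∂γ)

/-- the Parisi function `Φ(0,·)` -/
def Phi (β : ℝ) : Lev → ℝ → ℝ
  | [] => fun x => Real.log (2 * Real.cosh (β * x)) / β
  | x :: ℓ => T x.1 x.2 (Phi β ℓ)

/-- one-sided form of being 1-Lipschitz -/
def Lip (f : ℝ → ℝ) : Prop := ∀ x y, f x ≤ f y + |x - y|

theorem Lip.continuous {f : ℝ → ℝ} (hf : Lip f) : Continuous f := by
  have : LipschitzWith 1 f := LipschitzWith.of_dist_le_mul fun x y => by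
    rw [Real.dist_eq, Real.dist_eq, NNReal.coe_one, one_mul, abs_le]
    have h1 := hf x y
    have h2 := hf y x
    rw [abs_sub_comm] at h2
    constructor <;> linarith
  exact this.continuous

theorem Lip.abs_le {f : ℝ → ℝ} (hf : Lip f) (x : ℝ) : |f x| ≤ |f 0| + |x| := by
  have h1 := hf x 0
  have h2 := hf 0 x
  rw [zero_sub, abs_neg] at h2
  rw [sub_zero] at h1
  rw [abs_le']
  have h3 := le_abs_self (f 0)
  have h4 := neg_abs_le (f 0)
  constructor <;> linarith

theorem Lip.integrable_exp {f : ℝ → ℝ} (hf : Lip f) (m x s : ℝ) :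
    Integrable (fun y : ℝ => Real.exp (m * f (x + s * y))) γ := by
  have hc := hf.continuous
  refine ((integrable_exp_abs1 (|m| * |s|)).const_mul
    (Real.exp (|m| * (|f 0| + |x|)))).mono' (by fun_prop) ?_
  filter_upwards with y
  rw [Real.norm_eq_abs, abs_of_pos (Real.exp_pos _), ← Real.exp_add]
  apply Real.exp_le_exp.mpr
  have h1 := hf.abs_le (x + s * y)
  have h2 : |x + s * y| ≤ |x| + |s| * |y| := by
    refine (abs_add_le _ _).trans ?_
    rw [abs_mul]
  calc m * f (x + s * y) ≤ |m * f (x + s * y)| := le_abs_self _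
    _ = |m| * |f (x + s * y)| := abs_mul _ _
    _ ≤ |m| * (|f 0| + (|x| + |s| * |y|)) :=
        mul_le_mul_of_nonneg_left (by linarith) (abs_nonneg _)
    _ = _ := by ring

theorem Lip.integrable {f : ℝ → ℝ} (hf : Lip f) (x s : ℝ) :
    Integrable (fun y : ℝ => f (x + s * y)) γ := by
  have hc := hf.continuous
  refine ((integrable_const (|f 0| + |x|)).add ((integrable_id_γ.abs).const_mul |s|)).mono'
    (by fun_prop) ?_
  filter_upwards with y
  rw [Real.norm_eq_abs]
  have h1 := hf.abs_le (x + s * y)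
  have h2 : |x + s * y| ≤ |x| + |s| * |y| := by
    refine (abs_add_le _ _).trans ?_
    rw [abs_mul]
  simp only [Pi.add_apply]
  linarith

theorem lip_T {m δ : ℝ} (hm : 0 < m) {f : ℝ → ℝ} (hf : Lip f) : Lip (T m δ f) := by
  intro x y
  have h1 : ∫ z, Real.exp (m * f (x + Real.sqrt δ * z)) ∂γ ≤
      Real.exp (m * |x - y|) * ∫ z, Real.exp (m * f (y + Real.sqrt δ * z)) ∂γ := by
    rw [← integral_const_mul]
    refine integral_mono (hf.integrable_exp _ _ _) ((hf.integrable_exp _ _ _).const_mul _)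
      fun z => ?_
    simp only
    rw [← Real.exp_add]
    apply Real.exp_le_exp.mpr
    have h2 := hf (x + Real.sqrt δ * z) (y + Real.sqrt δ * z)
    have e : x + Real.sqrt δ * z - (y + Real.sqrt δ * z) = x - y := by ring
    rw [e] at h2
    nlinarith
  have hp : ∀ x, 0 < ∫ z, Real.exp (m * f (x + Real.sqrt δ * z)) ∂γ := fun x =>
    integral_exp_pos (hf.integrable_exp _ _ _)
  have h3 := Real.log_le_log (hp x) h1
  rw [Real.log_mul (Real.exp_pos _).ne' (hp y).ne', Real.log_exp] at h3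
  unfold T
  have h4 : 0 < 1 / m := by positivity
  have h5 := mul_le_mul_of_nonneg_left h3 h4.le
  have e2 : 1 / m * (m * |x - y| + Real.log (∫ z, Real.exp (m * f (y + Real.sqrt δ * z)) ∂γ)) =
    |x - y| + 1 / m * Real.log (∫ z, Real.exp (m * f (y + Real.sqrt δ * z)) ∂γ) := by
    field_simp
  linarith

theorem lip_base {β : ℝ} (hβ : 0 < β) : Lip (fun x => Real.log (2 * Real.cosh (β * x)) / β) := by
  intro x y
  have h0 : ∀ x, 2 * Real.cosh (β * x) = Real.exp (β * x) + Real.exp (-(β * x)) := by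
    intro x; rw [Real.cosh_eq]; ring
  have hp : ∀ x, 0 < 2 * Real.cosh (β * x) := fun x => by have := Real.cosh_pos (β * x); linarith
  have h1 : 2 * Real.cosh (β * x) ≤ Real.exp (β * |x - y|) * (2 * Real.cosh (β * y)) := by
    rw [h0, h0, mul_add, ← Real.exp_add, ← Real.exp_add]
    have h2 := le_abs_self (x - y)
    have h3 := neg_abs_le (x - y)
    refine add_le_add (Real.exp_le_exp.mpr ?_) (Real.exp_le_exp.mpr ?_) <;> nlinarith
  have h3 := Real.log_le_log (hp x) h1
  rw [Real.log_mul (Real.exp_pos _).ne' (hp y).ne', Real.log_exp] at h3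
  simp only
  rw [div_le_iff₀ hβ]
  have e : (Real.log (2 * Real.cosh (β * y)) / β + |x - y|) * β =
    β * |x - y| + Real.log (2 * Real.cosh (β * y)) := by
    field_simp
    ring
  rw [e]; exact h3

theorem lip_Phi {β : ℝ} (hβ : 0 < β) : ∀ ℓ : Lev, Good β ℓ → Lip (Phi β ℓ)
  | [], _ => lip_base hβ
  | x :: ℓ, h => lip_T h.1 (lip_Phi hβ ℓ h.2.2.2)

/-! ### the Gaussian fields `Y` -/

def JB (N n : ℕ) : Lev → Type
  | [] => Empty
  | _ :: ℓ => (Fin N × Fin n) ⊕ (Fin N × JB N n ℓ)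

instance JB.fintype (N n : ℕ) : ∀ ℓ, Fintype (JB N n ℓ)
  | [] => inferInstanceAs (Fintype Empty)
  | _ :: ℓ => letI := JB.fintype N n ℓ
    inferInstanceAs (Fintype ((Fin N × Fin n) ⊕ (Fin N × JB N n ℓ)))

instance JB.deceq (N n : ℕ) : ∀ ℓ, DecidableEq (JB N n ℓ)
  | [] => inferInstanceAs (DecidableEq Empty)
  | _ :: ℓ => letI := JB.deceq N n ℓ
    inferInstanceAs (DecidableEq ((Fin N × Fin n) ⊕ (Fin N × JB N n ℓ)))

/-- coefficients of the field `Y` -/
def Bm {N n : ℕ} {S : Type} (s : Fin n → S → ℝ) : ∀ ℓ : Lev, Idx N S ℓ → JB N n ℓ → ℝ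
  | [], _, _ => 0
  | x :: _, a, Sum.inl j => if a.1 = j.1 then Real.sqrt x.2 * s j.2 (leaf _ a.2) else 0
  | _ :: ℓ, a, Sum.inr j => if a.1 = j.1 then Bm s ℓ a.2 j.2 else 0

theorem lin_Bm_cons {N n : ℕ} {S : Type} [Fintype S] (s : Fin n → S → ℝ) (x : ℝ × ℝ) (ℓ : Lev)
    (g : JB N n (x :: ℓ) → ℝ) (c : Fin N) (a : Idx N S ℓ) :
    lin (Bm s (x :: ℓ)) g ((c, a) : Fin N × Idx N S ℓ) =
      (∑ i, s i (leaf ℓ a) * (Real.sqrt x.2 * g (Sum.inl (c, i)))) +
        lin (Bm s ℓ) (fun j => g (Sum.inr (c, j))) a := by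
  unfold lin
  have e : ∑ j : JB N n (x :: ℓ), Bm s (x :: ℓ) ((c, a) : Fin N × Idx N S ℓ) j * g j =
    ∑ j : (Fin N × Fin n) ⊕ (Fin N × JB N n ℓ),
      Bm s (x :: ℓ) ((c, a) : Fin N × Idx N S ℓ) j * g j := rfl
  rw [e, Fintype.sum_sum_type, Fintype.sum_prod_type, Fintype.sum_prod_type]
  congr 1
  · rw [Finset.sum_eq_single c]
    · refine Finset.sum_congr rfl fun i _ => ?_
      simp only [Bm, if_true]; ring
    · intro c' _ hc
      refine Finset.sum_eq_zero fun i _ => ?_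
      simp only [Bm]
      rw [if_neg (Ne.symm hc)]; ring
    · intro h; exact absurd (Finset.mem_univ _) h
  · rw [Finset.sum_eq_single c]
    · refine Finset.sum_congr rfl fun i _ => ?_
      simp only [Bm, if_true]
    · intro c' _ hc
      refine Finset.sum_eq_zero fun i _ => ?_
      simp only [Bm]
      rw [if_neg (Ne.symm hc)]; ring
    · intro h; exact absurd (Finset.mem_univ _) h

/-- the spin of site `i` -/
def sp {n : ℕ} (i : Fin n) (σ : Fin n → Bool) : ℝ := if σ i then -1 else 1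

theorem upper_base {β : ℝ} (hβ : 0 < β) {n : ℕ} (x : Fin n → ℝ) :
    ∑ σ : Fin n → Bool, Real.exp (β * ∑ i, sp i σ * x i) =
      Real.exp (β * ∑ i, Phi β [] (x i)) := by
  have h1 : ∀ σ : Fin n → Bool, Real.exp (β * ∑ i, sp i σ * x i) =
      ∏ i, Real.exp (β * ((if σ i then (-1:ℝ) else 1) * x i)) := by
    intro σ
    rw [Finset.mul_sum, Real.exp_sum]
    rfl
  simp only [h1]
  have h2 := (Finset.prod_univ_sum (fun _ : Fin n => (Finset.univ : Finset Bool))
    (fun i b => Real.exp (β * ((if b then (-1:ℝ) else 1) * x i)))).symm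
  rw [Fintype.piFinset_univ] at h2
  rw [h2, Finset.mul_sum, Real.exp_sum]
  refine Finset.prod_congr rfl fun i _ => ?_
  have hp : 0 < 2 * Real.cosh (β * x i) := by have := Real.cosh_pos (β * x i); linarith
  simp only [Phi]
  rw [mul_div_cancel₀ _ hβ.ne', Real.exp_log hp, Real.cosh_eq]
  simp
  ring

/-- upper bound by Jensen's inequality -/
theorem upper {β : ℝ} (hβ : 0 < β) {N n : ℕ} (hN : 0 < N) : ∀ (ℓ : Lev), Good β ℓ →
    ∀ x : Fin n → ℝ,
    ∫ g, W β ℓ (fun a : Idx N (Fin n → Bool) ℓ => (∑ i, sp i (leaf ℓ a) * x i) +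
      lin (Bm sp ℓ) g a) ∂(G (JB N n ℓ)) ≤ Real.exp (mh β ℓ * ∑ i, Phi β ℓ (x i))
  | [], _, x => by
    have h1 : ∀ g : JB N n [] → ℝ, W β [] (fun a : Idx N (Fin n → Bool) [] =>
        (∑ i, sp i (leaf [] a) * x i) + lin (Bm sp []) g a) =
        Real.exp (β * ∑ i, Phi β [] (x i)) := by
      intro g
      rw [← upper_base hβ]
      simp only [W]
      refine Finset.sum_congr rfl fun a _ => ?_
      congr 2
      have : lin (Bm (N := N) sp []) g a = 0 := by
        unfold lin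
        refine Finset.sum_eq_zero fun j _ => ?_
        exact (show Empty from j).elim
      rw [this, add_zero]
      rfl
    simp only [h1]
    rw [integral_const]
    simp [mh]
  | lv :: ℓ, hG, x => by
    obtain ⟨hm, hmm, hδ, hG'⟩ := hG
    have hm2 := mh_pos hβ hG'
    set p := lv.1 / mh β ℓ with hp
    have hp0 : 0 < p := div_pos hm hm2
    have hp1 : p ≤ 1 := (div_le_one hm2).2 hmm
    have hN' : (0:ℝ) < N := by exact_mod_cast hN
    have hcls := inCls_W hβ hN (S := Fin n → Bool) ℓ hG'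
    have hclsp := inCls_pow hp0 hp1 hcls
    -- the function of one child
    set Ψ : (Fin n ⊕ JB N n ℓ → ℝ) → ℝ := fun k =>
      (W β ℓ (fun a : Idx N (Fin n → Bool) ℓ =>
        (∑ i, sp i (leaf ℓ a) * (x i + Real.sqrt lv.2 * k (Sum.inl i))) +
        lin (Bm sp ℓ) (fun j => k (Sum.inr j)) a)) ^ p with hΨ
    have hΨi : Integrable Ψ (G (Fin n ⊕ JB N n ℓ)) := by
      have h1 := hclsp.integrable (ι := Fin n ⊕ JB N n ℓ)
        (fun a => ∑ i, sp i (leaf ℓ a) * x i)
        (fun a => Sum.elim (fun i => sp i (leaf ℓ a) * Real.sqrt lv.2) (fun j => Bm sp ℓ a j))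
      refine h1.congr (Filter.Eventually.of_forall fun k => ?_)
      simp only [hΨ, lin, Fintype.sum_sum_type, Sum.elim_inl, Sum.elim_inr]
      congr 2
      ext a
      rw [← add_assoc, ← Finset.sum_add_distrib]
      congr 1
      refine Finset.sum_congr rfl fun i _ => by ring
    have hchild : ∀ (g : JB N n (lv :: ℓ) → ℝ), W β (lv :: ℓ)
        (fun a : Idx N (Fin n → Bool) (lv :: ℓ) => (∑ i, sp i (leaf (lv :: ℓ) a) * x i) +
          lin (Bm sp (lv :: ℓ)) g a) =
        (1 / (N:ℝ)) * ∑ c : Fin N, Ψ (fun k => g (Sum.map (Prod.mk c) (Prod.mk c) k)) := by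
      intro g
      simp only [W, hΨ]
      congr 1
      refine Finset.sum_congr rfl fun c _ => ?_
      congr 2
      ext a
      rw [lin_Bm_cons, ← add_assoc]
      congr 1
      rw [← Finset.sum_add_distrib]
      refine Finset.sum_congr rfl fun i _ => ?_
      simp only [leaf, Sum.map_inl]
      ring
    simp only [hchild]
    have hmp : ∀ c : Fin N, MeasurePreserving
        (fun (g : (Fin N × Fin n) ⊕ (Fin N × JB N n ℓ) → ℝ) =>
          fun k => g (Sum.map (Prod.mk c) (Prod.mk c) k))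
        (G ((Fin N × Fin n) ⊕ (Fin N × JB N n ℓ))) (G (Fin n ⊕ JB N n ℓ)) := by
      intro c
      refine mp_comp (Sum.map (Prod.mk c) (Prod.mk c)) ?_
      exact Function.Injective.sumMap (Prod.mk_right_injective c) (Prod.mk_right_injective c)
    have hint : ∀ c : Fin N, ∫ g : (Fin N × Fin n) ⊕ (Fin N × JB N n ℓ) → ℝ,
        Ψ (fun k => g (Sum.map (Prod.mk c) (Prod.mk c) k)) ∂(G _) = ∫ k, Ψ k ∂(G _) :=
      fun c => mp_int (hmp c) hΨi.aestronglyMeasurable
    have hmain : ∫ g, (1 / (N:ℝ)) * ∑ c : Fin N, Ψ (fun k => g (Sum.map (Prod.mk c) (Prod.mk c) k))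
        ∂(G ((Fin N × Fin n) ⊕ (Fin N × JB N n ℓ))) = ∫ k, Ψ k ∂(G _) := by
      rw [integral_const_mul, integral_finsetSum]
      · simp only [hint, Finset.sum_const, Finset.card_univ, Fintype.card_fin, nsmul_eq_mul]
        field_simp
      · intro c _
        exact (hmp c).integrable_comp_of_integrable hΨi
    refine (le_of_eq hmain).trans ?_
    -- split
    have hsum := mp_sum (ι := Fin n) (κ := JB N n ℓ)
    rw [← mp_int hsum hΨi.aestronglyMeasurable]
    have hΨi2 : Integrable (fun q : (Fin n → ℝ) × (JB N n ℓ → ℝ) => Ψ (Sum.elim q.1 q.2))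
        ((G (Fin n)).prod (G (JB N n ℓ))) := hsum.integrable_comp_of_integrable hΨi
    rw [integral_prod _ hΨi2]
    -- inner Jensen and induction
    have hinner : ∀ y : Fin n → ℝ, ∫ g, Ψ (Sum.elim y g) ∂(G (JB N n ℓ)) ≤
        ∏ i, Real.exp (lv.1 * Phi β ℓ (x i + Real.sqrt lv.2 * y i)) := by
      intro y
      have h1 := hcls.integrable (ι := JB N n ℓ)
        (fun a => ∑ i, sp i (leaf ℓ a) * (x i + Real.sqrt lv.2 * y i)) (Bm sp ℓ)
      have h2 := hclsp.integrable (ι := JB N n ℓ)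
        (fun a => ∑ i, sp i (leaf ℓ a) * (x i + Real.sqrt lv.2 * y i)) (Bm sp ℓ)
      have h3 := (Real.concaveOn_rpow hp0.le hp1).le_map_integral
        (μ := G (JB N n ℓ)) (f := fun g => W β ℓ (fun a : Idx N (Fin n → Bool) ℓ =>
          (∑ i, sp i (leaf ℓ a) * (x i + Real.sqrt lv.2 * y i)) + lin (Bm sp ℓ) g a))
        (Real.continuous_rpow_const hp0.le).continuousOn isClosed_Ici
        (Filter.Eventually.of_forall fun g => (hcls.pos _).le) h1 h2
      have h4 : ∫ g, Ψ (Sum.elim y g) ∂(G (JB N n ℓ)) =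
        ∫ g, (W β ℓ (fun a : Idx N (Fin n → Bool) ℓ =>
          (∑ i, sp i (leaf ℓ a) * (x i + Real.sqrt lv.2 * y i)) + lin (Bm sp ℓ) g a)) ^ p
          ∂(G (JB N n ℓ)) := by
        simp only [hΨ, Sum.elim_inl, Sum.elim_inr]
      rw [h4]
      refine h3.trans ?_
      have h5 := upper hβ hN ℓ hG' (fun i => x i + Real.sqrt lv.2 * y i)
      have h6 : 0 ≤ ∫ g, W β ℓ (fun a : Idx N (Fin n → Bool) ℓ =>
          (∑ i, sp i (leaf ℓ a) * (x i + Real.sqrt lv.2 * y i)) + lin (Bm sp ℓ) g a)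
          ∂(G (JB N n ℓ)) := integral_nonneg fun g => (hcls.pos _).le
      refine (Real.rpow_le_rpow h6 h5 hp0.le).trans (le_of_eq ?_)
      rw [← Real.exp_mul, ← Real.exp_sum]
      congr 1
      rw [Finset.mul_sum, Finset.sum_mul]
      refine Finset.sum_congr rfl fun i _ => ?_
      rw [hp]
      field_simp
    have hL := lip_Phi hβ ℓ hG'
    have hprodi : Integrable (fun y : Fin n → ℝ =>
        ∏ i, Real.exp (lv.1 * Phi β ℓ (x i + Real.sqrt lv.2 * y i))) (G (Fin n)) :=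
      Integrable.fintype_prod (f := fun i y => Real.exp (lv.1 * Phi β ℓ (x i + Real.sqrt lv.2 * y)))
        (fun i => hL.integrable_exp _ _ _)
    calc ∫ y, ∫ g, Ψ (Sum.elim y g) ∂(G (JB N n ℓ)) ∂(G (Fin n))
        ≤ ∫ y, ∏ i, Real.exp (lv.1 * Phi β ℓ (x i + Real.sqrt lv.2 * y i)) ∂(G (Fin n)) :=
          integral_mono (hΨi2.integral_prod_left) hprodi hinner
      _ = ∏ i, ∫ y, Real.exp (lv.1 * Phi β ℓ (x i + Real.sqrt lv.2 * y)) ∂γ :=
          integral_fintype_prod_eq_prod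
            (f := fun i y => Real.exp (lv.1 * Phi β ℓ (x i + Real.sqrt lv.2 * y)))
      _ = Real.exp (mh β (lv :: ℓ) * ∑ i, Phi β (lv :: ℓ) (x i)) := by
          rw [Finset.mul_sum, Real.exp_sum]
          refine Finset.prod_congr rfl fun i _ => ?_
          have hpos : 0 < ∫ y, Real.exp (lv.1 * Phi β ℓ (x i + Real.sqrt lv.2 * y)) ∂γ :=
            integral_exp_pos (hL.integrable_exp _ _ _)
          simp only [mh, Phi, T]
          rw [← mul_assoc, mul_one_div, div_self hm.ne', one_mul, Real.exp_log hpos]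

end

end Crest.Agent.R339.Guerra
private theorem rz_4d1d9a47c8 : type_of% @_root_.Crest.Agent.R339.Guerra.Bm.eq_def := @_root_.Crest.Agent.R339.Guerra.Bm.eq_def -- L250
private theorem rz_12f053a8ae : type_of% @_root_.Crest.Agent.R339.Guerra.Bm.eq_1 := @_root_.Crest.Agent.R339.Guerra.Bm.eq_1 -- L250
private theorem rz_54c534aa8e : type_of% @_root_.Crest.Agent.R339.Guerra.Phi.eq_def := @_root_.Crest.Agent.R339.Guerra.Phi.eq_def -- L125
private theorem rz_bde422228a : type_of% @_root_.Crest.Agent.R339.Guerra.Phi.eq_1 := @_root_.Crest.Agent.R339.Guerra.Phi.eq_1 -- L125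
private theorem rz_ba77c4f7fb : type_of% @_root_.Crest.Agent.R339.Guerra.W.eq_def := @_root_.Crest.Agent.R339.Guerra.W.eq_def -- L50
private theorem rz_d1485506c4 : type_of% @_root_.Crest.Agent.R339.Guerra.W.eq_1 := @_root_.Crest.Agent.R339.Guerra.W.eq_1 -- L50
private theorem rz_4571077dd0 : type_of% @_root_.Crest.Agent.R339.Guerra.leaf.eq_def := @_root_.Crest.Agent.R339.Guerra.leaf.eq_def -- L45
private theorem rz_a3726197f9 : type_of% @_root_.Crest.Agent.R339.Guerra.leaf.eq_1 := @_root_.Crest.Agent.R339.Guerra.leaf.eq_1 -- L45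
private theorem rz_1d13843b56 : type_of% @_root_.Crest.Agent.R339.Guerra.mh.eq_1 := @_root_.Crest.Agent.R339.Guerra.mh.eq_1 -- L19
end

-- ▼ part R339/GLow
section

/-!
# Row 339, part (A): lower bound for the scalar tree, and a law of large numbers
-/

set_option autoImplicit false

namespace Crest.Agent.R339.Guerra

open MeasureTheory ProbabilityTheory Real

noncomputable section

/-! ### the scalar Gaussian tree -/

def JA (N : ℕ) : Lev → Type
  | [] => Empty
  | _ :: ℓ => Fin N ⊕ (Fin N × JA N ℓ)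

instance JA.fintype (N : ℕ) : ∀ ℓ, Fintype (JA N ℓ)
  | [] => inferInstanceAs (Fintype Empty)
  | _ :: ℓ => letI := JA.fintype N ℓ
    inferInstanceAs (Fintype (Fin N ⊕ (Fin N × JA N ℓ)))

instance JA.deceq (N : ℕ) : ∀ ℓ, DecidableEq (JA N ℓ)
  | [] => inferInstanceAs (DecidableEq Empty)
  | _ :: ℓ => letI := JA.deceq N ℓ
    inferInstanceAs (DecidableEq (Fin N ⊕ (Fin N × JA N ℓ)))

/-- variance of one scalar increment -/
def vv (n : ℕ) (q δ : ℝ) : ℝ := (n / 2 : ℝ) * ((q + δ) ^ 2 - q ^ 2)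

/-- coefficients of the scalar field -/
def Am {N : ℕ} {S : Type} (n : ℕ) : ∀ (ℓ : Lev) (_ : ℝ), Idx N S ℓ → JA N ℓ → ℝ
  | [], _, _, _ => 0
  | x :: _, q, a, Sum.inl j => if a.1 = j then Real.sqrt (vv n q x.2) else 0
  | x :: ℓ, q, a, Sum.inr j => if a.1 = j.1 then Am n ℓ (q + x.2) a.2 j.2 else 0

theorem lin_Am_cons {N n : ℕ} {S : Type} [Fintype S] (x : ℝ × ℝ) (ℓ : Lev) (q : ℝ)
    (g : JA N (x :: ℓ) → ℝ) (c : Fin N) (a : Idx N S ℓ) :
    lin (Am n (x :: ℓ) q) g ((c, a) : Fin N × Idx N S ℓ) =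
      Real.sqrt (vv n q x.2) * g (Sum.inl c) +
        lin (Am n ℓ (q + x.2)) (fun j => g (Sum.inr (c, j))) a := by
  unfold lin
  have e : ∑ j : JA N (x :: ℓ), Am n (x :: ℓ) q ((c, a) : Fin N × Idx N S ℓ) j * g j =
    ∑ j : Fin N ⊕ (Fin N × JA N ℓ),
      Am n (x :: ℓ) q ((c, a) : Fin N × Idx N S ℓ) j * g j := rfl
  rw [e, Fintype.sum_sum_type, Fintype.sum_prod_type]
  congr 1
  · rw [Finset.sum_eq_single c]
    · simp only [Am, if_true]
    · intro c' _ hc
      simp only [Am]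
      rw [if_neg (Ne.symm hc)]; ring
    · intro h; exact absurd (Finset.mem_univ _) h
  · rw [Finset.sum_eq_single c]
    · refine Finset.sum_congr rfl fun i _ => ?_
      simp only [Am, if_true]
    · intro c' _ hc
      refine Finset.sum_eq_zero fun i _ => ?_
      simp only [Am]
      rw [if_neg (Ne.symm hc)]; ring
    · intro h; exact absurd (Finset.mem_univ _) h

theorem W_shift {β : ℝ} (hβ : 0 < β) {N : ℕ} (hN : 0 < N) {S : Type} [Fintype S]
    [DecidableEq S] [Nonempty S] :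
    ∀ (ℓ : Lev), Good β ℓ → ∀ (h : Idx N S ℓ → ℝ) (t : ℝ),
      W β ℓ (fun a => t + h a) = Real.exp (mh β ℓ * t) * W β ℓ h
  | [], _, h, t => by
    simp only [W, mh]
    rw [Finset.mul_sum]
    refine Finset.sum_congr rfl fun a _ => ?_
    rw [← Real.exp_add, mul_add]
  | x :: ℓ, hG, h, t => by
    obtain ⟨hm, hmm, hδ, hG'⟩ := hG
    have hm2 := mh_pos hβ hG'
    have hcls := inCls_W hβ hN (S := S) ℓ hG'
    have ih : ∀ c : Fin N, W β ℓ (fun a => t + h ((c, a) : Fin N × Idx N S ℓ)) =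
      Real.exp (mh β ℓ * t) * W β ℓ (fun a => h ((c, a) : Fin N × Idx N S ℓ)) := fun c =>
      W_shift hβ hN ℓ hG' _ t
    simp only [W, ih]
    have e : ∀ c : Fin N, (Real.exp (mh β ℓ * t) *
        W β ℓ (fun a => h ((c, a) : Fin N × Idx N S ℓ))) ^ (x.1 / mh β ℓ) =
        Real.exp (x.1 * t) * (W β ℓ (fun a => h ((c, a) : Fin N × Idx N S ℓ))) ^
          (x.1 / mh β ℓ) := by
      intro c
      rw [Real.mul_rpow (Real.exp_pos _).le (hcls.pos _).le, ← Real.exp_mul]
      congr 2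
      field_simp
    simp only [e]
    rw [← Finset.mul_sum]
    simp only [mh]
    ring

/-- the single level functional -/
def lam (N : ℕ) (m v : ℝ) : ℝ :=
  ∫ y, (1 / m) * Real.log ((1 / (N:ℝ)) * ∑ c : Fin N, Real.exp (m * (Real.sqrt v * y c)))
    ∂(G (Fin N))

def lamSum (n N : ℕ) : Lev → ℝ → ℝ
  | [], _ => 0
  | x :: ℓ, q => lam N x.1 (vv n q x.2) + lamSum n N ℓ (q + x.2)

/-- convexity of `V ↦ log avg exp` -/
theorem logavg_ge {N : ℕ} (hN : 0 < N) {m : ℝ} (hm : 0 < m) (s V : Fin N → ℝ) :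
    (1 / m) * Real.log ((1 / (N:ℝ)) * ∑ c, Real.exp (m * s c)) +
      ∑ c, (Real.exp (m * s c) / ∑ c', Real.exp (m * s c')) * V c ≤
    (1 / m) * Real.log ((1 / (N:ℝ)) * ∑ c, Real.exp (m * (s c + V c))) := by
  have : Nonempty (Fin N) := ⟨⟨0, hN⟩⟩
  have hN' : (0:ℝ) < N := by exact_mod_cast hN
  set Z := ∑ c', Real.exp (m * s c') with hZ
  have hZp : 0 < Z := Finset.sum_pos (fun a _ => Real.exp_pos _) Finset.univ_nonempty
  set w : Fin N → ℝ := fun c => Real.exp (m * s c) / Z with hw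
  have hw0 : ∀ c ∈ Finset.univ, 0 ≤ w c := fun c _ => by positivity
  have hw1 : ∑ c, w c = 1 := by
    rw [← Finset.sum_div]; exact div_self hZp.ne'
  have hj := convexOn_exp.map_sum_le (t := Finset.univ) (w := w) (p := fun c => m * V c)
    hw0 hw1 (fun _ _ => Set.mem_univ _)
  simp only [smul_eq_mul] at hj
  have h1 : Z * Real.exp (m * ∑ c, w c * V c) ≤ ∑ c, Real.exp (m * (s c + V c)) := by
    calc Z * Real.exp (m * ∑ c, w c * V c) = Z * Real.exp (∑ c, w c * (m * V c)) := by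
          rw [Finset.mul_sum]
          congr 2
          refine Finset.sum_congr rfl fun c _ => by ring
      _ ≤ Z * ∑ c, w c * Real.exp (m * V c) := mul_le_mul_of_nonneg_left hj hZp.le
      _ = ∑ c, Real.exp (m * (s c + V c)) := by
          rw [Finset.mul_sum]
          refine Finset.sum_congr rfl fun c _ => ?_
          rw [mul_add, Real.exp_add]
          simp only [hw]
          field_simp
  have h2 : (1 / (N:ℝ)) * Z * Real.exp (m * ∑ c, w c * V c) ≤
      (1 / (N:ℝ)) * ∑ c, Real.exp (m * (s c + V c)) := by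
    rw [mul_assoc]
    exact mul_le_mul_of_nonneg_left h1 (by positivity)
  have h3 := Real.log_le_log (by positivity) h2
  rw [Real.log_mul (by positivity) (Real.exp_pos _).ne', Real.log_exp] at h3
  have h4 := mul_le_mul_of_nonneg_left h3 (by positivity : 0 ≤ 1 / m)
  have e : 1 / m * (Real.log (1 / (N:ℝ) * Z) + m * ∑ c, w c * V c) =
    1 / m * Real.log (1 / (N:ℝ) * Z) + ∑ c, w c * V c := by field_simp
  rw [e] at h4
  exact h4

theorem integrable_logavg {N : ℕ} (hN : 0 < N) {m : ℝ} (hm : 0 < m) (v : ℝ) :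
    Integrable (fun y : Fin N → ℝ => (1 / m) * Real.log ((1 / (N:ℝ)) *
      ∑ c : Fin N, Real.exp (m * (Real.sqrt v * y c)))) (G (Fin N)) := by
  have : Nonempty (Fin N) := ⟨⟨0, hN⟩⟩
  have hN' : (0:ℝ) < N := by exact_mod_cast hN
  have h1 := (inCls_base (I := Fin N) m hm).integrable_log (ι := Fin N) (fun _ => 0)
    (fun a j => if a = j then Real.sqrt v else 0)
  have h2 := ((integrable_const (Real.log (1 / (N:ℝ)))).add h1).const_mul (1 / m)
  refine h2.congr (Filter.Eventually.of_forall fun y => ?_)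
  simp only [Pi.add_apply]
  have e : ∀ c, lin (fun a j : Fin N => if a = j then Real.sqrt v else 0) y c =
      Real.sqrt v * y c := by
    intro c; simp [lin]
  simp only [e, zero_add]
  rw [Real.log_mul (by positivity)
    (Finset.sum_pos (fun a _ => Real.exp_pos _) Finset.univ_nonempty).ne']

/-- the lower bound for the scalar tree -/
theorem lower {β : ℝ} (hβ : 0 < β) {N n : ℕ} (hN : 0 < N) {S : Type} [Fintype S]
    [DecidableEq S] [Nonempty S] (u : S → ℝ) : ∀ (ℓ : Lev), Good β ℓ → ∀ q : ℝ,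
    (1 / β) * Real.log (∑ a, Real.exp (β * u a)) + lamSum n N ℓ q ≤
    ∫ g, (1 / mh β ℓ) * Real.log (W β ℓ (fun a : Idx N S ℓ => u (leaf ℓ a) +
      lin (Am n ℓ q) g a)) ∂(G (JA N ℓ))
  | [], _, q => by
    have h1 : ∀ g : JA N [] → ℝ, W β [] (fun a : Idx N S [] =>
        u (leaf [] a) + lin (Am n [] q) g a) = ∑ a, Real.exp (β * u a) := by
      intro g
      simp only [W]
      refine Finset.sum_congr rfl fun a _ => ?_
      congr 2
      have : lin (Am (N := N) (S := S) n [] q) g a = 0 := by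
        unfold lin
        refine Finset.sum_eq_zero fun j _ => ?_
        exact (show Empty from j).elim
      rw [this, add_zero]
      rfl
    simp only [h1, mh, lamSum, add_zero]
    rw [integral_const]
    simp
  | lv :: ℓ, hG, q => by
    obtain ⟨hm, hmm, hδ, hG'⟩ := hG
    have hm2 := mh_pos hβ hG'
    have hN' : (0:ℝ) < N := by exact_mod_cast hN
    have hcls := inCls_W hβ hN (S := S) ℓ hG'
    have hcls1 := inCls_W hβ hN (S := S) (lv :: ℓ) ⟨hm, hmm, hδ, hG'⟩
    have : Nonempty (Fin N) := ⟨⟨0, hN⟩⟩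
    set V : (JA N ℓ → ℝ) → ℝ := fun g => (1 / mh β ℓ) * Real.log (W β ℓ
      (fun a : Idx N S ℓ => u (leaf ℓ a) + lin (Am n ℓ (q + lv.2)) g a)) with hV
    have hVi : Integrable V (G (JA N ℓ)) :=
      (hcls.integrable_log (fun a => u (leaf ℓ a)) (Am n ℓ (q + lv.2))).const_mul _
    -- the function
    set Ψ : ((Fin N ⊕ (Fin N × JA N ℓ)) → ℝ) → ℝ := fun g => (1 / mh β (lv :: ℓ)) *
      Real.log (W β (lv :: ℓ) (fun a : Idx N S (lv :: ℓ) => u (leaf (lv :: ℓ) a) +
      lin (Am n (lv :: ℓ) q) g a)) with hΨ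
    have hΨi : Integrable Ψ (G (Fin N ⊕ (Fin N × JA N ℓ))) :=
      (hcls1.integrable_log (ι := Fin N ⊕ (Fin N × JA N ℓ)) (fun a => u (leaf (lv :: ℓ) a))
        (Am n (lv :: ℓ) q)).const_mul _
    have hΨe : ∀ g, Ψ g = (1 / lv.1) * Real.log ((1 / (N:ℝ)) * ∑ c, Real.exp (lv.1 *
        (Real.sqrt (vv n q lv.2) * g (Sum.inl c) + V (fun j => g (Sum.inr (c, j)))))) := by
      intro g
      have hmhe : mh β (lv :: ℓ) = lv.1 := rfl
      simp only [hΨ, hmhe, W]
      congr 3
      refine Finset.sum_congr rfl fun c _ => ?_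
      have e1 : (fun a : Idx N S ℓ => u (leaf (lv :: ℓ) ((c, a) : Fin N × Idx N S ℓ)) +
          lin (Am n (lv :: ℓ) q) g ((c, a) : Fin N × Idx N S ℓ)) =
          fun a => Real.sqrt (vv n q lv.2) * g (Sum.inl c) + (u (leaf ℓ a) +
            lin (Am n ℓ (q + lv.2)) (fun j => g (Sum.inr (c, j))) a) := by
        ext a
        have e0 := lin_Am_cons (n := n) lv ℓ q (g : JA N (lv :: ℓ) → ℝ) c a
        exact (congrArg (fun z => u (leaf ℓ a) + z) e0).trans (by ring)
      rw [e1, W_shift hβ hN ℓ hG']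
      set w := W β ℓ fun a => u (leaf ℓ a) + lin (Am n ℓ (q + lv.2))
        (fun j => g (Sum.inr (c, j))) a with hw
      have hwp : 0 < w := hcls.pos _
      have e2 : w = Real.exp (mh β ℓ * V (fun j => g (Sum.inr (c, j)))) := by
        simp only [hV, ← hw]
        rw [← mul_assoc, mul_one_div, div_self hm2.ne', one_mul, Real.exp_log hwp]
      rw [e2, ← Real.exp_add, ← Real.exp_mul]
      congr 1
      field_simp
    have hsum := mp_sum (ι := Fin N) (κ := Fin N × JA N ℓ)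
    have hgoal : ∫ g, Ψ g ∂(G (Fin N ⊕ (Fin N × JA N ℓ))) =
        ∫ y, ∫ g, Ψ (Sum.elim y g) ∂(G (Fin N × JA N ℓ)) ∂(G (Fin N)) := by
      rw [← mp_int hsum hΨi.aestronglyMeasurable]
      exact integral_prod _ (hsum.integrable_comp_of_integrable hΨi)
    have hΨi2 : Integrable (fun q : (Fin N → ℝ) × (Fin N × JA N ℓ → ℝ) => Ψ (Sum.elim q.1 q.2))
        ((G (Fin N)).prod (G (Fin N × JA N ℓ))) := hsum.integrable_comp_of_integrable hΨi
    have hmp : ∀ c : Fin N, MeasurePreserving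
        (fun (g : (Fin N × JA N ℓ) → ℝ) => fun k => g (c, k))
        (G (Fin N × JA N ℓ)) (G (JA N ℓ)) := fun c => mp_comp (Prod.mk c)
          (Prod.mk_right_injective c)
    have hVc : ∀ c : Fin N, ∫ g : (Fin N × JA N ℓ) → ℝ, V (fun j => g (c, j))
        ∂(G (Fin N × JA N ℓ)) = ∫ g, V g ∂(G (JA N ℓ)) := fun c =>
      mp_int (hmp c) hVi.aestronglyMeasurable
    have hVci : ∀ c : Fin N, Integrable (fun g : (Fin N × JA N ℓ) → ℝ => V (fun j => g (c, j)))
        (G (Fin N × JA N ℓ)) := fun c => (hmp c).integrable_comp_of_integrable hVi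
    have hinner : ∀ᵐ y ∂(G (Fin N)), (1 / lv.1) * Real.log ((1 / (N:ℝ)) *
        ∑ c : Fin N, Real.exp (lv.1 * (Real.sqrt (vv n q lv.2) * y c))) +
        ∫ g, V g ∂(G (JA N ℓ)) ≤ ∫ g, Ψ (Sum.elim y g) ∂(G (Fin N × JA N ℓ)) := by
      filter_upwards [hΨi2.prod_right_ae] with y hy
      set w : Fin N → ℝ := fun c => Real.exp (lv.1 * (Real.sqrt (vv n q lv.2) * y c)) /
        ∑ c', Real.exp (lv.1 * (Real.sqrt (vv n q lv.2) * y c')) with hw
      have hZp : 0 < ∑ c', Real.exp (lv.1 * (Real.sqrt (vv n q lv.2) * y c')) :=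
        Finset.sum_pos (fun a _ => Real.exp_pos _) Finset.univ_nonempty
      have hw1 : ∑ c, w c = 1 := by
        rw [← Finset.sum_div]; exact div_self hZp.ne'
      have e1 : ∫ g : (Fin N × JA N ℓ) → ℝ, ((1 / lv.1) * Real.log ((1 / (N:ℝ)) *
          ∑ c : Fin N, Real.exp (lv.1 * (Real.sqrt (vv n q lv.2) * y c))) +
          ∑ c, w c * V (fun j => g (c, j))) ∂(G (Fin N × JA N ℓ)) =
          (1 / lv.1) * Real.log ((1 / (N:ℝ)) *
            ∑ c : Fin N, Real.exp (lv.1 * (Real.sqrt (vv n q lv.2) * y c))) +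
          ∫ g, V g ∂(G (JA N ℓ)) := by
        rw [integral_add (integrable_const _) (integrable_finsetSum _ fun c _ =>
          (hVci c).const_mul _), integral_finsetSum _ fun c _ => (hVci c).const_mul _]
        simp only [integral_const_mul, hVc]
        rw [← Finset.sum_mul, hw1]
        simp
      rw [← e1]
      refine integral_mono ((integrable_const _).add (integrable_finsetSum _ fun c _ =>
          (hVci c).const_mul _)) hy fun g => ?_
      simp only
      rw [hΨe]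
      exact logavg_ge hN hm _ _
    have hfin : lam N lv.1 (vv n q lv.2) + ∫ g, V g ∂(G (JA N ℓ)) ≤
        ∫ y, ∫ g, Ψ (Sum.elim y g) ∂(G (Fin N × JA N ℓ)) ∂(G (Fin N)) := by
      have e1 : lam N lv.1 (vv n q lv.2) + ∫ g, V g ∂(G (JA N ℓ)) =
          ∫ y : Fin N → ℝ, ((1 / lv.1) * Real.log ((1 / (N:ℝ)) *
            ∑ c : Fin N, Real.exp (lv.1 * (Real.sqrt (vv n q lv.2) * y c))) +
            ∫ g, V g ∂(G (JA N ℓ))) ∂(G (Fin N)) := by
        rw [integral_add (integrable_logavg hN hm _) (integrable_const _), integral_const]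
        simp [lam]
      rw [e1]
      exact integral_mono_ae ((integrable_logavg hN hm _).add (integrable_const _))
        hΨi2.integral_prod_left hinner
    have ih := lower hβ (n := n) hN u ℓ hG' (q + lv.2)
    have hgoal2 : ∫ g, (1 / mh β (lv :: ℓ)) * Real.log (W β (lv :: ℓ)
        (fun a : Idx N S (lv :: ℓ) => u (leaf (lv :: ℓ) a) +
        lin (Am n (lv :: ℓ) q) g a)) ∂(G (JA N (lv :: ℓ))) =
        ∫ g, Ψ g ∂(G (Fin N ⊕ (Fin N × JA N ℓ))) := rfl
    rw [hgoal2, hgoal]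
    simp only [lamSum]
    refine le_trans ?_ hfin
    simp only [hV]
    linarith

/-! ### law of large numbers for one level -/

theorem int_exp_γ (t : ℝ) : ∫ x, Real.exp (t * x) ∂γ = Real.exp (t ^ 2 / 2) := by
  have h := congrFun (mgf_id_gaussianReal (μ := 0) (v := 1)) t
  simp only [mgf, id] at h
  rw [h]; congr 1; simp

theorem int_exp_coord {N : ℕ} (t : ℝ) (c : Fin N) :
    ∫ y : Fin N → ℝ, Real.exp (t * y c) ∂(G (Fin N)) = Real.exp (t ^ 2 / 2) := by
  rw [← int_exp_γ]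
  exact mp_int (measurePreserving_eval (fun _ : Fin N => γ) c)
    (f := fun x => Real.exp (t * x)) (by fun_prop)

/-- convexity: `(avg w)⁻² ≤ avg w⁻²` -/
theorem inv_sq_avg {N : ℕ} (hN : 0 < N) (w : Fin N → ℝ) (hw : ∀ c, 0 < w c) :
    (((1 / (N:ℝ)) * ∑ c, w c)⁻¹) ^ 2 ≤ (1 / (N:ℝ)) * ∑ c, ((w c)⁻¹) ^ 2 := by
  have : Nonempty (Fin N) := ⟨⟨0, hN⟩⟩
  have hN' : (0:ℝ) < N := by exact_mod_cast hN
  have hcv : ConvexOn ℝ (Set.Ioi (0:ℝ)) (fun x : ℝ => x ^ (-2 : ℤ)) :=
    (convexOn_zpow (-2))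
  have hj := hcv.map_sum_le (t := Finset.univ) (w := fun _ : Fin N => 1 / (N:ℝ))
    (p := w) (fun _ _ => by positivity) (by simp [hN'.ne']) (fun c _ => hw c)
  simp only [smul_eq_mul, ← Finset.mul_sum] at hj
  have e : ∀ x : ℝ, x ^ (-2:ℤ) = (x⁻¹) ^ 2 := by
    intro x; rw [zpow_neg, inv_pow]; rfl
  simp only [e] at hj
  exact hj

theorem lam_ge {m v : ℝ} (hm : 0 < m) (hv : 0 ≤ v) {ε : ℝ} (hε : 0 < ε) :
    ∃ N0 : ℕ, ∀ N : ℕ, N0 ≤ N → 0 < N → m * v / 2 - ε ≤ lam N m v := by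
  set s := m * Real.sqrt v with hs
  have hs2 : s ^ 2 = m ^ 2 * v := by rw [hs, mul_pow, Real.sq_sqrt hv]
  set C1 := Real.exp (s ^ 2) with hC1
  set C2 := Real.exp (3 * s ^ 2) with hC2
  have hC1p : 0 < C1 := Real.exp_pos _
  have hC2p : 0 < C2 := Real.exp_pos _
  set t : ℝ := C2 / (ε * m) with ht
  have htp : 0 < t := by positivity
  obtain ⟨N0, hN0⟩ := exists_nat_gt (t * C1 / (ε * m))
  refine ⟨N0, fun N hN hNpos => ?_⟩
  have : Nonempty (Fin N) := ⟨⟨0, hNpos⟩⟩
  have hN' : (0:ℝ) < N := by exact_mod_cast hNpos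
  have hNN : t * C1 / (ε * m) < N := hN0.trans_le (by exact_mod_cast hN)
  set w : Fin N → (Fin N → ℝ) → ℝ := fun c y => Real.exp (s * y c - s ^ 2 / 2) with hw
  have hwp : ∀ c y, 0 < w c y := fun c y => Real.exp_pos _
  have hwe : ∀ c y, w c y = Real.exp (-(s ^ 2 / 2)) * Real.exp (s * y c) := by
    intro c y; simp only [hw]; rw [← Real.exp_add]; congr 1; ring
  set Sa : (Fin N → ℝ) → ℝ := fun y => (1 / (N:ℝ)) * ∑ c, w c y with hSa
  have hSap : ∀ y, 0 < Sa y := fun y => by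
    have : 0 < ∑ c, w c y := Finset.sum_pos (fun a _ => hwp a y) Finset.univ_nonempty
    positivity
  have hwi : ∀ c, Integrable (w c) (G (Fin N)) := fun c =>
    ((integrable_exp_coord s c).const_mul (Real.exp (-(s ^ 2 / 2)))).congr
      (Filter.Eventually.of_forall fun y => (hwe c y).symm)
  have hw1 : ∀ c, ∫ y, w c y ∂(G (Fin N)) = 1 := by
    intro c
    simp only [hwe]
    rw [integral_const_mul, int_exp_coord, ← Real.exp_add]
    simp
  have hw2e : ∀ c y, (w c y) ^ 2 = Real.exp (-(s ^ 2)) * Real.exp ((2 * s) * y c) := by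
    intro c y; rw [hwe, mul_pow, ← Real.exp_nat_mul, ← Real.exp_nat_mul]
    congr 2 <;> (push_cast; ring)
  have hw2i : ∀ c, Integrable (fun y => (w c y) ^ 2) (G (Fin N)) := fun c =>
    ((integrable_exp_coord (2 * s) c).const_mul (Real.exp (-(s ^ 2)))).congr
      (Filter.Eventually.of_forall fun y => (hw2e c y).symm)
  have hw2 : ∀ c, ∫ y, (w c y) ^ 2 ∂(G (Fin N)) = C1 := by
    intro c
    simp only [hw2e]
    rw [integral_const_mul, int_exp_coord, ← Real.exp_add, hC1]
    congr 1; ring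
  have hwm2e : ∀ c y, ((w c y)⁻¹) ^ 2 = Real.exp (s ^ 2) * Real.exp ((-2 * s) * y c) := by
    intro c y
    rw [hwe, mul_inv, ← Real.exp_neg, ← Real.exp_neg, mul_pow, ← Real.exp_nat_mul,
      ← Real.exp_nat_mul]
    congr 2 <;> (push_cast; ring)
  have hwm2i : ∀ c, Integrable (fun y => ((w c y)⁻¹) ^ 2) (G (Fin N)) := fun c =>
    ((integrable_exp_coord (-2 * s) c).const_mul (Real.exp (s ^ 2))).congr
      (Filter.Eventually.of_forall fun y => (hwm2e c y).symm)
  have hwm2 : ∀ c, ∫ y, ((w c y)⁻¹) ^ 2 ∂(G (Fin N)) = C2 := by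
    intro c
    simp only [hwm2e]
    rw [integral_const_mul, int_exp_coord, ← Real.exp_add, hC2]
    congr 1; ring
  have hmeas : ∀ c, Measurable (w c) := fun c => by simp only [hw]; fun_prop
  have hSam : Measurable Sa := by
    simp only [hSa]
    exact (Finset.measurable_sum _ fun c _ => hmeas c).const_mul _
  -- variance of the average
  have hvar : Integrable (fun y => (Sa y - 1) ^ 2) (G (Fin N)) ∧
      ∫ y, (Sa y - 1) ^ 2 ∂(G (Fin N)) ≤ C1 / N := by
    set f : ℝ → ℝ := fun x => Real.exp (s * x - s ^ 2 / 2) with hf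
    have hfm : Measurable f := by simp only [hf]; fun_prop
    have hfi2 : MemLp f 2 γ := by
      rw [memLp_two_iff_integrable_sq hfm.aestronglyMeasurable]
      have : (fun x => f x ^ 2) = fun x => Real.exp (-(s ^ 2)) * Real.exp ((2 * s) * x) := by
        ext x
        simp only [hf]
        rw [← Real.exp_nat_mul, ← Real.exp_add]; congr 1; push_cast; ring
      rw [this]
      exact (integrable_exp_mul_gaussianReal (2 * s)).const_mul _
    have hvs := variance_sum_pi (ι := Fin N) (Ω := fun _ => ℝ) (μ := fun _ => γ)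
      (X := fun _ => f) (fun _ => hfi2)
    have hmean : ∫ x, f x ∂γ = 1 := by
      have : f = fun x => Real.exp (-(s ^ 2 / 2)) * Real.exp (s * x) := by
        ext x; simp only [hf]; rw [← Real.exp_add]; congr 1; ring
      rw [this, integral_const_mul, int_exp_γ, ← Real.exp_add]; simp
    have hvf : Var[f; γ] ≤ C1 := by
      rw [variance_eq_sub hfi2]
      have h1 : ∫ x, (f ^ 2) x ∂γ = C1 := by
        have : (f ^ 2) = fun x => Real.exp (-(s ^ 2)) * Real.exp ((2 * s) * x) := by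
          ext x
          simp only [hf, Pi.pow_apply]
          rw [← Real.exp_nat_mul, ← Real.exp_add]; congr 1; push_cast; ring
        rw [this, integral_const_mul, int_exp_γ, ← Real.exp_add, hC1]; congr 1; ring
      rw [h1]
      nlinarith [sq_nonneg (∫ x, f x ∂γ)]
    have hSmem : MemLp (∑ c : Fin N, fun y : Fin N → ℝ => f (y c)) 2 (G (Fin N)) := by
      refine memLp_finsetSum' _ fun c _ => ?_
      exact hfi2.comp_measurePreserving (measurePreserving_eval (fun _ : Fin N => γ) c)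
    have hSe : ∀ y, Sa y - 1 = (1 / (N:ℝ)) *
        ((∑ c : Fin N, fun y : Fin N → ℝ => f (y c)) y - N) := by
      intro y
      simp only [hSa, hw, Finset.sum_apply, hf]
      rw [mul_sub]
      congr 1
      field_simp
    have hEs : ∫ y, (∑ c : Fin N, fun y : Fin N → ℝ => f (y c)) y ∂(G (Fin N)) = N := by
      have e1 : (fun y : Fin N → ℝ => (∑ c : Fin N, fun y : Fin N → ℝ => f (y c)) y) =
          fun y => ∑ c, w c y := by
        ext y; simp only [Finset.sum_apply]; rfl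
      rw [e1, integral_finsetSum _ fun c _ => hwi c]
      simp [hw1]
    constructor
    · have h1 : MemLp (fun y => Sa y - 1) 2 (G (Fin N)) := by
        have h2 := (hSmem.sub (memLp_const (N:ℝ))).const_mul (1 / (N:ℝ))
        refine h2.ae_eq (Filter.Eventually.of_forall fun y => ?_)
        exact (hSe y).symm
      exact h1.integrable_sq
    · have h3 : ∫ y, (Sa y - 1) ^ 2 ∂(G (Fin N)) = (1 / (N:ℝ)) ^ 2 *
          Var[∑ c : Fin N, fun y : Fin N → ℝ => f (y c); G (Fin N)] := by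
        rw [variance_eq_integral hSmem.aestronglyMeasurable.aemeasurable, hEs,
          ← integral_const_mul]
        congr 1
        ext y
        rw [hSe y]; ring
      rw [h3]
      have h4 : Var[∑ c : Fin N, fun y : Fin N → ℝ => f (y c); G (Fin N)] ≤ N * C1 := by
        refine (le_of_eq hvs).trans ?_
        simp only [Finset.sum_const, Finset.card_univ, Fintype.card_fin, nsmul_eq_mul]
        exact mul_le_mul_of_nonneg_left hvf hN'.le
      calc (1 / (N:ℝ)) ^ 2 * Var[∑ c : Fin N, fun y : Fin N → ℝ => f (y c); G (Fin N)]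
          ≤ (1 / (N:ℝ)) ^ 2 * (N * C1) := mul_le_mul_of_nonneg_left h4 (by positivity)
        _ = C1 / N := by field_simp
  -- inverse second moment of the average
  have hinv : Integrable (fun y => ((Sa y)⁻¹) ^ 2) (G (Fin N)) ∧
      ∫ y, ((Sa y)⁻¹) ^ 2 ∂(G (Fin N)) ≤ C2 := by
    have hle : ∀ y, ((Sa y)⁻¹) ^ 2 ≤ (1 / (N:ℝ)) * ∑ c, ((w c y)⁻¹) ^ 2 := fun y =>
      inv_sq_avg hNpos (fun c => w c y) (fun c => hwp c y)
    have hi : Integrable (fun y => (1 / (N:ℝ)) * ∑ c, ((w c y)⁻¹) ^ 2) (G (Fin N)) :=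
      (integrable_finsetSum _ fun c _ => hwm2i c).const_mul _
    have hi2 : Integrable (fun y => ((Sa y)⁻¹) ^ 2) (G (Fin N)) := by
      refine hi.mono' ((hSam.inv.pow_const 2).aestronglyMeasurable)
        (Filter.Eventually.of_forall fun y => ?_)
      rw [Real.norm_eq_abs, abs_of_nonneg (by positivity)]
      exact hle y
    refine ⟨hi2, (integral_mono hi2 hi hle).trans (le_of_eq ?_)⟩
    rw [integral_const_mul, integral_finsetSum _ fun c _ => hwm2i c]
    simp only [hwm2, Finset.sum_const, Finset.card_univ, Fintype.card_fin, nsmul_eq_mul]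
    field_simp
  -- pointwise bound
  have hlog : ∀ y, -(t / 2 * (Sa y - 1) ^ 2 + 1 / (2 * t) * ((Sa y)⁻¹) ^ 2) ≤
      Real.log (Sa y) := by
    intro y
    have h1 := Real.one_sub_inv_le_log_of_pos (hSap y)
    have h2 : 1 - (Sa y)⁻¹ = (Sa y - 1) * (Sa y)⁻¹ := by
      rw [sub_mul, mul_inv_cancel₀ (hSap y).ne']; ring
    have h3 : 0 ≤ (t * (Sa y - 1) + (Sa y)⁻¹) ^ 2 / (2 * t) := by positivity
    have h4 : (t * (Sa y - 1) + (Sa y)⁻¹) ^ 2 / (2 * t) =
      t / 2 * (Sa y - 1) ^ 2 + (Sa y - 1) * (Sa y)⁻¹ + 1 / (2 * t) * ((Sa y)⁻¹) ^ 2 := by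
      field_simp
      ring
    linarith
  have hexp : ∀ y : Fin N → ℝ, (1 / m) * Real.log ((1 / (N:ℝ)) *
      ∑ c : Fin N, Real.exp (m * (Real.sqrt v * y c))) = m * v / 2 + (1 / m) * Real.log (Sa y) := by
    intro y
    have h1 : (1 / (N:ℝ)) * ∑ c : Fin N, Real.exp (m * (Real.sqrt v * y c)) =
        Real.exp (s ^ 2 / 2) * Sa y := by
      simp only [hSa, hw]
      rw [Finset.mul_sum, Finset.mul_sum, Finset.mul_sum]
      refine Finset.sum_congr rfl fun c _ => ?_
      have e1 : Real.exp (s ^ 2 / 2) * (1 / (N:ℝ) * Real.exp (s * y c - s ^ 2 / 2)) =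
        1 / (N:ℝ) * (Real.exp (s ^ 2 / 2) * Real.exp (s * y c - s ^ 2 / 2)) := by ring
      rw [e1, ← Real.exp_add]
      congr 2
      rw [hs]; ring
    rw [h1, Real.log_mul (Real.exp_pos _).ne' (hSap y).ne', Real.log_exp, hs2]
    field_simp
  have hli : Integrable (fun y => Real.log (Sa y)) (G (Fin N)) := by
    have h1 := integrable_logavg hNpos hm v
    have h2 := ((h1.congr (Filter.Eventually.of_forall fun y => hexp y)).sub
      (integrable_const (m * v / 2))).const_mul m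
    refine h2.congr (Filter.Eventually.of_forall fun y => ?_)
    simp only [Pi.sub_apply]
    field_simp
    ring
  unfold lam
  simp only [hexp]
  rw [integral_add (integrable_const _) (hli.const_mul _), integral_const, integral_const_mul]
  simp only [probReal_univ, one_smul]
  have hb : -(t / 2 * (C1 / N) + 1 / (2 * t) * C2) ≤ ∫ y, Real.log (Sa y) ∂(G (Fin N)) := by
    have h1 : ∫ y, -(t / 2 * (Sa y - 1) ^ 2 + 1 / (2 * t) * ((Sa y)⁻¹) ^ 2) ∂(G (Fin N)) ≤
        ∫ y, Real.log (Sa y) ∂(G (Fin N)) :=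
      integral_mono ((hvar.1.const_mul _).add (hinv.1.const_mul _)).neg hli hlog
    rw [integral_neg, integral_add (hvar.1.const_mul _) (hinv.1.const_mul _),
      integral_const_mul, integral_const_mul] at h1
    have h2 : t / 2 * ∫ y, (Sa y - 1) ^ 2 ∂(G (Fin N)) ≤ t / 2 * (C1 / N) :=
      mul_le_mul_of_nonneg_left hvar.2 (by positivity)
    have h3 : 1 / (2 * t) * ∫ y, ((Sa y)⁻¹) ^ 2 ∂(G (Fin N)) ≤ 1 / (2 * t) * C2 :=
      mul_le_mul_of_nonneg_left hinv.2 (by positivity)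
    linarith
  have h5 : t / 2 * (C1 / N) ≤ ε * m / 2 := by
    have : t * C1 / (ε * m) < N := hNN
    rw [div_lt_iff₀ (by positivity)] at this
    rw [show t / 2 * (C1 / N) = t * C1 / (2 * N) by field_simp]
    rw [div_le_div_iff₀ (by positivity) (by positivity)]
    nlinarith
  have h6 : 1 / (2 * t) * C2 = ε * m / 2 := by
    rw [ht]; field_simp
  have h7 : -(ε * m) ≤ ∫ y, Real.log (Sa y) ∂(G (Fin N)) := by linarith
  have h8 : -ε ≤ 1 / m * ∫ y, Real.log (Sa y) ∂(G (Fin N)) := by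
    have := mul_le_mul_of_nonneg_left h7 (by positivity : 0 ≤ 1 / m)
    have e : 1 / m * -(ε * m) = -ε := by field_simp
    linarith
  linarith

end

end Crest.Agent.R339.Guerra
private theorem rz_7b89f64ef9 : type_of% @_root_.Crest.Agent.R339.Guerra.Am.eq_def := @_root_.Crest.Agent.R339.Guerra.Am.eq_def -- L35
private theorem rz_49c5a59506 : type_of% @_root_.Crest.Agent.R339.Guerra.Am.eq_1 := @_root_.Crest.Agent.R339.Guerra.Am.eq_1 -- L35
private theorem rz_e18dd7229f : type_of% @_root_.Crest.Agent.R339.Guerra.lamSum.eq_def := @_root_.Crest.Agent.R339.Guerra.lamSum.eq_def -- L101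
private theorem rz_f852153571 : type_of% @_root_.Crest.Agent.R339.Guerra.lamSum.eq_1 := @_root_.Crest.Agent.R339.Guerra.lamSum.eq_1 -- L101
end

-- ▼ part R339/Guerra

/-!
# Row 339, part (A): Guerra's bound for the mean-field spin glass
-/

set_option autoImplicit false

namespace Crest.Agent.R339.Guerra

open MeasureTheory ProbabilityTheory Real

noncomputable section

/-! ### covariances -/

/-- overlap along the tree -/
def qw {N : ℕ} {S : Type} : ∀ (ℓ : Lev) (_ : ℝ), Idx N S ℓ → Idx N S ℓ → ℝ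
  | [], q, _, _ => q
  | x :: ℓ, q, a, b => if a.1 = b.1 then qw ℓ (q + x.2) a.2 b.2 else q

theorem qw_self {N : ℕ} {S : Type} : ∀ (ℓ : Lev) (q : ℝ) (a : Idx N S ℓ),
    qw ℓ q a a = q + (ℓ.map Prod.snd).sum
  | [], q, _ => by simp [qw]
  | x :: ℓ, q, a => by
    simp only [qw, if_true, List.map_cons, List.sum_cons]
    rw [qw_self ℓ (q + x.2) a.2]; ring

theorem good_nonneg {β : ℝ} : ∀ {ℓ : Lev}, Good β ℓ → ∀ x ∈ ℓ, 0 ≤ x.2
  | [], _, x, hx => by simp at hx
  | y :: ℓ, h, x, hx => by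
    rcases List.mem_cons.1 hx with rfl | hx
    · exact h.2.2.1
    · exact good_nonneg h.2.2.2 x hx

theorem sum_Am {N n : ℕ} {S : Type} : ∀ (ℓ : Lev) (q : ℝ), 0 ≤ q →
    (∀ x ∈ ℓ, 0 ≤ x.2) → ∀ a b : Idx N S ℓ,
    ∑ j, Am n ℓ q a j * Am n ℓ q b j = (n / 2 : ℝ) * ((qw ℓ q a b) ^ 2 - q ^ 2)
  | [], q, _, _, a, b => by
    have : ∑ j, Am n [] q a j * Am n [] q b j = 0 :=
      Finset.sum_eq_zero fun j _ => (show Empty from j).elim
    rw [this]; simp [qw]
  | x :: ℓ, q, hq, hδ, a, b => by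
    have hx : 0 ≤ x.2 := hδ x (by simp)
    have hv : 0 ≤ vv n q x.2 := by
      unfold vv
      have : 0 ≤ (q + x.2) ^ 2 - q ^ 2 := by nlinarith
      positivity
    have ih := sum_Am (N := N) (n := n) (S := S) ℓ (q + x.2) (by linarith)
      (fun y hy => hδ y (by simp [hy])) a.2 b.2
    have e : ∑ j : JA N (x :: ℓ), Am n (x :: ℓ) q a j * Am n (x :: ℓ) q b j =
      ∑ j : Fin N ⊕ (Fin N × JA N ℓ), Am n (x :: ℓ) q a j * Am n (x :: ℓ) q b j := rfl
    rw [e, Fintype.sum_sum_type, Fintype.sum_prod_type]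
    by_cases hab : a.1 = b.1
    · have h1 : ∑ c : Fin N, Am n (x :: ℓ) q a (Sum.inl c) * Am n (x :: ℓ) q b (Sum.inl c) =
          vv n q x.2 := by
        rw [Finset.sum_eq_single a.1]
        · simp only [Am, hab, if_true]
          exact Real.mul_self_sqrt hv
        · intro c _ hc
          simp only [Am]; rw [if_neg (Ne.symm hc)]; ring
        · intro h; exact absurd (Finset.mem_univ _) h
      have h2 : ∑ c : Fin N, ∑ j : JA N ℓ, Am n (x :: ℓ) q a (Sum.inr (c, j)) *
          Am n (x :: ℓ) q b (Sum.inr (c, j)) =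
          ∑ j, Am n ℓ (q + x.2) a.2 j * Am n ℓ (q + x.2) b.2 j := by
        rw [Finset.sum_eq_single a.1]
        · simp only [Am, hab, if_true]
        · intro c _ hc
          refine Finset.sum_eq_zero fun j _ => ?_
          simp only [Am]; rw [if_neg (Ne.symm hc)]; ring
        · intro h; exact absurd (Finset.mem_univ _) h
      rw [h1, h2, ih]
      simp only [qw, hab, if_true, vv]; ring
    · have h1 : ∑ c : Fin N, Am n (x :: ℓ) q a (Sum.inl c) * Am n (x :: ℓ) q b (Sum.inl c) =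
          0 := by
        refine Finset.sum_eq_zero fun c _ => ?_
        simp only [Am]
        by_cases h : a.1 = c
        · have : ¬ b.1 = c := fun h' => hab (h.trans h'.symm)
          rw [if_neg this]; ring
        · rw [if_neg h]; ring
      have h2 : ∑ c : Fin N, ∑ j : JA N ℓ, Am n (x :: ℓ) q a (Sum.inr (c, j)) *
          Am n (x :: ℓ) q b (Sum.inr (c, j)) = 0 := by
        refine Finset.sum_eq_zero fun c _ => Finset.sum_eq_zero fun j _ => ?_
        simp only [Am]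
        by_cases h : a.1 = c
        · have : ¬ b.1 = c := fun h' => hab (h.trans h'.symm)
          rw [if_neg this]; ring
        · rw [if_neg h]; ring
      rw [h1, h2]
      simp only [qw, hab, if_false]; ring

/-- `n` times the overlap -/
def rr {n : ℕ} (σ τ : Fin n → Bool) : ℝ := ∑ i, sp i σ * sp i τ

theorem sum_Bm {N n : ℕ} : ∀ (ℓ : Lev) (q : ℝ), (∀ x ∈ ℓ, 0 ≤ x.2) →
    ∀ a b : Idx N (Fin n → Bool) ℓ,
    ∑ j, Bm sp ℓ a j * Bm sp ℓ b j = (qw ℓ q a b - q) * rr (leaf ℓ a) (leaf ℓ b)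
  | [], q, _, a, b => by
    have : ∑ j, Bm (N := N) sp [] a j * Bm sp [] b j = 0 :=
      Finset.sum_eq_zero fun j _ => (show Empty from j).elim
    rw [this]; simp [qw]
  | x :: ℓ, q, hδ, a, b => by
    have hx : 0 ≤ x.2 := hδ x (by simp)
    have ih := sum_Bm (N := N) (n := n) ℓ (q + x.2)
      (fun y hy => hδ y (by simp [hy])) a.2 b.2
    have e : ∑ j : JB N n (x :: ℓ), Bm sp (x :: ℓ) a j * Bm sp (x :: ℓ) b j =
      ∑ j : (Fin N × Fin n) ⊕ (Fin N × JB N n ℓ), Bm sp (x :: ℓ) a j * Bm sp (x :: ℓ) b j := rfl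
    rw [e, Fintype.sum_sum_type, Fintype.sum_prod_type, Fintype.sum_prod_type]
    by_cases hab : a.1 = b.1
    · have h1 : ∑ c : Fin N, ∑ i : Fin n, Bm sp (x :: ℓ) a (Sum.inl (c, i)) *
          Bm sp (x :: ℓ) b (Sum.inl (c, i)) = x.2 * rr (leaf ℓ a.2) (leaf ℓ b.2) := by
        rw [Finset.sum_eq_single a.1]
        · simp only [Bm, hab, if_true]
          unfold rr
          rw [Finset.mul_sum]
          refine Finset.sum_congr rfl fun i _ => ?_
          have := Real.mul_self_sqrt hx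
          linear_combination (sp i (leaf ℓ a.2) * sp i (leaf ℓ b.2)) * this
        · intro c _ hc
          refine Finset.sum_eq_zero fun j _ => ?_
          simp only [Bm]; rw [if_neg (Ne.symm hc)]; ring
        · intro h; exact absurd (Finset.mem_univ _) h
      have h2 : ∑ c : Fin N, ∑ j : JB N n ℓ, Bm sp (x :: ℓ) a (Sum.inr (c, j)) *
          Bm sp (x :: ℓ) b (Sum.inr (c, j)) =
          ∑ j, Bm sp ℓ a.2 j * Bm sp ℓ b.2 j := by
        rw [Finset.sum_eq_single a.1]
        · simp only [Bm, hab, if_true]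
        · intro c _ hc
          refine Finset.sum_eq_zero fun j _ => ?_
          simp only [Bm]; rw [if_neg (Ne.symm hc)]; ring
        · intro h; exact absurd (Finset.mem_univ _) h
      rw [h1, h2, ih]
      simp only [qw, hab, if_true, leaf]; ring
    · have h1 : ∑ c : Fin N, ∑ i : Fin n, Bm sp (x :: ℓ) a (Sum.inl (c, i)) *
          Bm sp (x :: ℓ) b (Sum.inl (c, i)) = 0 := by
        refine Finset.sum_eq_zero fun c _ => Finset.sum_eq_zero fun j _ => ?_
        simp only [Bm]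
        by_cases h : a.1 = c
        · have : ¬ b.1 = c := fun h' => hab (h.trans h'.symm)
          rw [if_neg this]; ring
        · rw [if_neg h]; ring
      have h2 : ∑ c : Fin N, ∑ j : JB N n ℓ, Bm sp (x :: ℓ) a (Sum.inr (c, j)) *
          Bm sp (x :: ℓ) b (Sum.inr (c, j)) = 0 := by
        refine Finset.sum_eq_zero fun c _ => Finset.sum_eq_zero fun j _ => ?_
        simp only [Bm]
        by_cases h : a.1 = c
        · have : ¬ b.1 = c := fun h' => hab (h.trans h'.symm)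
          rw [if_neg this]; ring
        · rw [if_neg h]; ring
      rw [h1, h2]
      simp only [qw, hab, if_false]; ring

/-- coefficients of the Hamiltonian -/
def CH {n : ℕ} (σ : Fin n → Bool) (p : Fin n × Fin n) : ℝ :=
  if p.1 < p.2 then (1 / Real.sqrt n) * (sp p.1 σ * sp p.2 σ) else 0

theorem sp_sq {n : ℕ} (i : Fin n) (σ : Fin n → Bool) : sp i σ * sp i σ = 1 := by
  unfold sp; split <;> norm_num

theorem sum_CH {n : ℕ} (hn : 0 < n) (σ τ : Fin n → Bool) :
    ∑ p, CH σ p * CH τ p = (rr σ τ) ^ 2 / (2 * n) - 1 / 2 := by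
  have hn' : (0:ℝ) < n := by exact_mod_cast hn
  set u : Fin n → ℝ := fun i => sp i σ * sp i τ with hu
  have hu2 : ∀ i, u i * u i = 1 := fun i => by
    have h1 := sp_sq i σ
    have h2 := sp_sq i τ
    simp only [hu]
    linear_combination (sp i τ * sp i τ) * h1 + h2
  have h1 : ∀ p : Fin n × Fin n, CH σ p * CH τ p = if p.1 < p.2 then (1 / (n:ℝ)) * (u p.1 * u p.2)
      else 0 := by
    intro p
    unfold CH
    split
    · have : (1 / Real.sqrt n) * (1 / Real.sqrt n) = 1 / (n:ℝ) := by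
        rw [div_mul_div_comm, Real.mul_self_sqrt hn'.le, one_mul]
      simp only [hu]
      linear_combination (sp p.1 σ * sp p.2 σ * sp p.1 τ * sp p.2 τ) * this
    · ring
  simp only [h1]
  have h2 : ∑ p : Fin n × Fin n, (if p.1 < p.2 then (1 / (n:ℝ)) * (u p.1 * u p.2) else 0) =
      (1 / (n:ℝ)) * ∑ i, ∑ j, if i < j then u i * u j else 0 := by
    rw [Fintype.sum_prod_type, Finset.mul_sum]
    refine Finset.sum_congr rfl fun i _ => ?_
    rw [Finset.mul_sum]
    refine Finset.sum_congr rfl fun j _ => ?_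
    split <;> simp
  rw [h2]
  have h3 : (rr σ τ) ^ 2 = 2 * (∑ i, ∑ j, if i < j then u i * u j else 0) + n := by
    have e1 : (rr σ τ) ^ 2 = ∑ i, ∑ j, u i * u j := by
      unfold rr
      rw [sq, Finset.sum_mul_sum]
    have e2 : ∀ i j, u i * u j = (if i < j then u i * u j else 0) +
        (if j < i then u j * u i else 0) + (if i = j then 1 else 0) := by
      intro i j
      rcases lt_trichotomy i j with h | h | h
      · simp [h, h.not_gt, h.ne]
      · subst h; simp [hu2]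
      · simp [h, h.not_gt, h.ne', mul_comm]
    rw [e1]
    have e3 : ∑ i, ∑ j, u i * u j = ∑ i, ∑ j, ((if i < j then u i * u j else 0) +
        (if j < i then u j * u i else 0) + (if i = j then 1 else 0)) :=
      Finset.sum_congr rfl fun i _ => Finset.sum_congr rfl fun j _ => e2 i j
    rw [e3]
    simp only [Finset.sum_add_distrib]
    have e4 : ∑ i, ∑ j, (if j < i then u j * u i else 0) =
        ∑ i, ∑ j, (if i < j then u i * u j else 0) := by
      rw [Finset.sum_comm]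
    rw [e4]
    simp
    ring
  rw [h3]
  field_simp
  ring

/-! ### the two fields -/

/-- the field `X` (with the common shift) -/
def AX {N n : ℕ} (ℓ : Lev) (q : ℝ) (a : Idx N (Fin n → Bool) ℓ) :
    (Fin n × Fin n) ⊕ (Unit ⊕ JA N ℓ) → ℝ :=
  Sum.elim (CH (leaf ℓ a)) (Sum.elim (fun _ => Real.sqrt (1 / 2 + (n / 2 : ℝ) * q ^ 2))
    (Am n ℓ q a))

/-- the field `Y` -/
def BY {N n : ℕ} (ℓ : Lev) (q : ℝ) (a : Idx N (Fin n → Bool) ℓ) :
    Fin n ⊕ JB N n ℓ → ℝ :=
  Sum.elim (fun i => Real.sqrt q * sp i (leaf ℓ a)) (Bm sp ℓ a)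

theorem cov_AX {N n : ℕ} (hn : 0 < n) (ℓ : Lev) {q : ℝ} (hq : 0 ≤ q)
    (hδ : ∀ x ∈ ℓ, 0 ≤ x.2) (a b : Idx N (Fin n → Bool) ℓ) :
    ∑ j, AX ℓ q a j * AX ℓ q b j =
      (rr (leaf ℓ a) (leaf ℓ b)) ^ 2 / (2 * n) + (n / 2 : ℝ) * (qw ℓ q a b) ^ 2 := by
  rw [Fintype.sum_sum_type, Fintype.sum_sum_type]
  simp only [AX, Sum.elim_inl, Sum.elim_inr]
  rw [sum_CH hn, sum_Am ℓ q hq hδ]
  have h0 : 0 ≤ 1 / 2 + (n / 2 : ℝ) * q ^ 2 := by positivity
  simp only [Finset.univ_unique, Finset.sum_const, Finset.card_singleton, one_smul]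
  rw [Real.mul_self_sqrt h0]
  ring

theorem cov_BY {N n : ℕ} (ℓ : Lev) {q : ℝ} (hq : 0 ≤ q)
    (hδ : ∀ x ∈ ℓ, 0 ≤ x.2) (a b : Idx N (Fin n → Bool) ℓ) :
    ∑ j, BY ℓ q a j * BY ℓ q b j = qw ℓ q a b * rr (leaf ℓ a) (leaf ℓ b) := by
  rw [Fintype.sum_sum_type]
  simp only [BY, Sum.elim_inl, Sum.elim_inr]
  rw [sum_Bm ℓ q hδ]
  have e : ∑ i, Real.sqrt q * sp i (leaf ℓ a) * (Real.sqrt q * sp i (leaf ℓ b)) =
      q * rr (leaf ℓ a) (leaf ℓ b) := by
    unfold rr
    rw [Finset.mul_sum]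
    refine Finset.sum_congr rfl fun i _ => ?_
    have := Real.mul_self_sqrt hq
    linear_combination (sp i (leaf ℓ a) * sp i (leaf ℓ b)) * this
  rw [e]; ring

theorem rr_self {n : ℕ} (σ : Fin n → Bool) : rr σ σ = n := by
  unfold rr
  simp [sp_sq]

instance {N : ℕ} [NeZero N] {S : Type} [Nonempty S] : ∀ ℓ, Nonempty (Idx N S ℓ)
  | [] => inferInstanceAs (Nonempty S)
  | _ :: ℓ => ⟨((0 : Fin N), (instNonemptyIdxOfNeZeroNat ℓ).some)⟩

/-- comparison of the two fields -/
theorem compareXY {β : ℝ} (hβ : 0 < β) {N n : ℕ} (hN : 0 < N) (hn : 0 < n) (ℓ : Lev)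
    (hG : Good β ℓ) {q : ℝ} (hq : 0 ≤ q) (hs : q + (ℓ.map Prod.snd).sum = 1) :
    ∫ g, (1 / mh β ℓ) * Real.log (W β ℓ (lin (AX (N := N) (n := n) ℓ q) g)) ∂(G _) ≤
    ∫ g, (1 / mh β ℓ) * Real.log (W β ℓ (lin (BY (N := N) (n := n) ℓ q) g)) ∂(G _) := by
  have hcls := inCls_W hβ hN (S := Fin n → Bool) ℓ hG
  have hm := mh_pos hβ hG
  have hδ := good_nonneg hG
  have hn' : (0:ℝ) < n := by exact_mod_cast hn
  obtain ⟨c, P, H, hc, hF, hP, hHc, hPb, hHb, hH⟩ := hcls.log hm
  set A : Idx N (Fin n → Bool) ℓ →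
      ((Fin n × Fin n) ⊕ (Unit ⊕ JA N ℓ)) ⊕ (Fin n ⊕ JB N n ℓ) → ℝ :=
    fun a => Sum.elim (AX ℓ q a) (fun _ => 0) with hA
  set B : Idx N (Fin n → Bool) ℓ →
      ((Fin n × Fin n) ⊕ (Unit ⊕ JA N ℓ)) ⊕ (Fin n ⊕ JB N n ℓ) → ℝ :=
    fun a => Sum.elim (fun _ => 0) (BY ℓ q a) with hB
  have hAA : ∀ a b, ∑ j, A a j * A b j =
      (rr (leaf ℓ a) (leaf ℓ b)) ^ 2 / (2 * n) + (n / 2 : ℝ) * (qw ℓ q a b) ^ 2 := by
    intro a b
    rw [← cov_AX hn ℓ hq hδ a b, Fintype.sum_sum_type]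
    simp [hA]
  have hBB : ∀ a b, ∑ j, B a j * B b j = qw ℓ q a b * rr (leaf ℓ a) (leaf ℓ b) := by
    intro a b
    rw [← cov_BY ℓ hq hδ a b, Fintype.sum_sum_type]
    simp [hB]
  have hk := kahane hF hP hHc hc hPb hHb hH A B (fun a b j => by
    rcases j with j | j <;> simp [hA, hB]) (fun a => by
    rw [hAA, hBB, rr_self, qw_self, hs]
    field_simp
    ring) (fun a b => by
    rw [hAA, hBB]
    have : (rr (leaf ℓ a) (leaf ℓ b)) ^ 2 / (2 * n) + (n / 2 : ℝ) * (qw ℓ q a b) ^ 2 -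
      qw ℓ q a b * rr (leaf ℓ a) (leaf ℓ b) =
      (rr (leaf ℓ a) (leaf ℓ b) - n * qw ℓ q a b) ^ 2 / (2 * n) := by
      field_simp
      ring
    have h2 : 0 ≤ (rr (leaf ℓ a) (leaf ℓ b) - n * qw ℓ q a b) ^ 2 / (2 * n) := by positivity
    linarith)
  have hA1 : ∀ g, lin A g = lin (AX ℓ q) (fun k => g (Sum.inl k)) := by
    intro g; ext a
    unfold lin
    rw [Fintype.sum_sum_type]
    simp [hA]
  have hB1 : ∀ g, lin B g = lin (BY ℓ q) (fun k => g (Sum.inr k)) := by
    intro g; ext a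
    unfold lin
    rw [Fintype.sum_sum_type]
    simp [hB]
  simp only [hA1, hB1] at hk
  have hfm : ∀ {κ : Type} [Fintype κ] (C : Idx N (Fin n → Bool) ℓ → κ → ℝ),
      AEStronglyMeasurable (fun g => (1 / mh β ℓ) * Real.log (W β ℓ (lin C g))) (G κ) := by
    intro κ _ C
    have h1 := (hcls.integrable_log (fun _ => 0) C).aestronglyMeasurable.const_mul (1 / mh β ℓ)
    simpa using h1
  rw [mp_int (mp_comp (Sum.inl : _ → ((Fin n × Fin n) ⊕ (Unit ⊕ JA N ℓ)) ⊕ (Fin n ⊕ JB N n ℓ))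
      Sum.inl_injective) (hfm (AX ℓ q)),
    mp_int (mp_comp (Sum.inr : _ → ((Fin n × Fin n) ⊕ (Unit ⊕ JA N ℓ)) ⊕ (Fin n ⊕ JB N n ℓ))
      Sum.inr_injective) (hfm (BY ℓ q))] at hk
  exact hk

/-- the Hamiltonian as a linear function of the disorder -/
def Ham {n : ℕ} (J : Fin n × Fin n → ℝ) (σ : Fin n → Bool) : ℝ := ∑ p, CH σ p * J p

/-- the `X` side -/
theorem lowerX {β : ℝ} (hβ : 0 < β) {N n : ℕ} (hN : 0 < N) (ℓ : Lev)
    (hG : Good β ℓ) (q : ℝ) :
    ∫ J, (1 / β) * Real.log (∑ σ : Fin n → Bool, Real.exp (β * Ham J σ))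
        ∂(G (Fin n × Fin n)) + lamSum n N ℓ q ≤
    ∫ g, (1 / mh β ℓ) * Real.log (W β ℓ (lin (AX (N := N) (n := n) ℓ q) g)) ∂(G _) := by
  have hcls := inCls_W hβ hN (S := Fin n → Bool) ℓ hG
  have hm := mh_pos hβ hG
  set c0 := Real.sqrt (1 / 2 + (n / 2 : ℝ) * q ^ 2) with hc0
  set Ψ : ((Fin n × Fin n) ⊕ (Unit ⊕ JA N ℓ) → ℝ) → ℝ := fun g =>
    (1 / mh β ℓ) * Real.log (W β ℓ (lin (AX (N := N) (n := n) ℓ q) g)) with hΨ
  have hΨi : Integrable Ψ (G ((Fin n × Fin n) ⊕ (Unit ⊕ JA N ℓ))) := by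
    have h1 := (hcls.integrable_log (fun _ => 0) (AX (N := N) (n := n) ℓ q)).const_mul
      (1 / mh β ℓ)
    refine h1.congr (Filter.Eventually.of_forall fun g => ?_)
    simp only [hΨ, zero_add]
  have hsum := mp_sum (ι := Fin n × Fin n) (κ := Unit ⊕ JA N ℓ)
  have hΨi2 : Integrable (fun p : (Fin n × Fin n → ℝ) × (Unit ⊕ JA N ℓ → ℝ) =>
      Ψ (Sum.elim p.1 p.2)) ((G (Fin n × Fin n)).prod (G (Unit ⊕ JA N ℓ))) :=
    hsum.integrable_comp_of_integrable hΨi
  have hgoal : ∫ g, Ψ g ∂(G ((Fin n × Fin n) ⊕ (Unit ⊕ JA N ℓ))) =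
      ∫ J, ∫ h, Ψ (Sum.elim J h) ∂(G (Unit ⊕ JA N ℓ)) ∂(G (Fin n × Fin n)) := by
    rw [← mp_int hsum hΨi.aestronglyMeasurable]
    exact integral_prod _ hΨi2
  rw [hgoal]
  have hinner : ∀ J : Fin n × Fin n → ℝ,
      (1 / β) * Real.log (∑ σ : Fin n → Bool, Real.exp (β * Ham J σ)) + lamSum n N ℓ q ≤
      ∫ h, Ψ (Sum.elim J h) ∂(G (Unit ⊕ JA N ℓ)) := by
    intro J
    have e1 : ∀ h : Unit ⊕ JA N ℓ → ℝ, Ψ (Sum.elim J h) = c0 * h (Sum.inl ()) +
        (1 / mh β ℓ) * Real.log (W β ℓ (fun a : Idx N (Fin n → Bool) ℓ => Ham J (leaf ℓ a) +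
          lin (Am n ℓ q) (fun j => h (Sum.inr j)) a)) := by
      intro h
      have e2 : lin (AX (N := N) (n := n) ℓ q) (Sum.elim J h) = fun a => c0 * h (Sum.inl ()) +
          (Ham J (leaf ℓ a) + lin (Am n ℓ q) (fun j => h (Sum.inr j)) a) := by
        ext a
        unfold lin Ham
        rw [Fintype.sum_sum_type, Fintype.sum_sum_type]
        simp only [AX, Sum.elim_inl, Sum.elim_inr, Finset.univ_unique, Finset.sum_singleton]
        rw [← hc0]
        have hdef : (default : Unit) = () := rfl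
        rw [hdef]
        ring
      simp only [hΨ]
      rw [e2, W_shift hβ hN ℓ hG, Real.log_mul (Real.exp_pos _).ne' (hcls.pos _).ne',
        Real.log_exp, mul_add]
      congr 1
      field_simp
    simp only [e1]
    have hi1 : Integrable (fun h : Unit ⊕ JA N ℓ → ℝ => c0 * h (Sum.inl ()))
      (G (Unit ⊕ JA N ℓ)) := (integrable_coord _).const_mul _
    have hmp := mp_comp (Sum.inr : JA N ℓ → Unit ⊕ JA N ℓ) Sum.inr_injective
    have hi2 : Integrable (fun h : JA N ℓ → ℝ => (1 / mh β ℓ) * Real.log (W β ℓ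
      (fun a : Idx N (Fin n → Bool) ℓ => Ham J (leaf ℓ a) + lin (Am n ℓ q) h a)))
      (G (JA N ℓ)) := (hcls.integrable_log _ _).const_mul _
    have hi3 : Integrable (fun h : Unit ⊕ JA N ℓ → ℝ => (1 / mh β ℓ) * Real.log (W β ℓ
      (fun a : Idx N (Fin n → Bool) ℓ => Ham J (leaf ℓ a) +
        lin (Am n ℓ q) (fun j => h (Sum.inr j)) a))) (G (Unit ⊕ JA N ℓ)) :=
      hmp.integrable_comp_of_integrable hi2
    rw [integral_add hi1 hi3, integral_const_mul,
      integral_coord, mul_zero, zero_add, mp_int hmp hi2.aestronglyMeasurable]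
    exact lower hβ hN (Ham J) ℓ hG q
  have hZi : Integrable (fun J => (1 / β) * Real.log (∑ σ : Fin n → Bool,
      Real.exp (β * Ham J σ))) (G (Fin n × Fin n)) := by
    have h1 := ((inCls_base (I := Fin n → Bool) β hβ).integrable_log (ι := Fin n × Fin n)
      (fun _ => 0) CH).const_mul (1 / β)
    simpa [lin, Ham] using h1
  have e3 : ∫ J, (1 / β) * Real.log (∑ σ : Fin n → Bool, Real.exp (β * Ham J σ))
        ∂(G (Fin n × Fin n)) + lamSum n N ℓ q =
      ∫ J, ((1 / β) * Real.log (∑ σ : Fin n → Bool, Real.exp (β * Ham J σ)) + lamSum n N ℓ q)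
        ∂(G (Fin n × Fin n)) := by
    rw [integral_add hZi (integrable_const _), integral_const]
    simp
  rw [e3]
  exact integral_mono (hZi.add (integrable_const _)) hΨi2.integral_prod_left hinner

/-- the `Y` side -/
theorem upperY {β : ℝ} (hβ : 0 < β) {N n : ℕ} (hN : 0 < N) (ℓ : Lev)
    (hG : Good β ℓ) (q : ℝ) :
    ∫ g, (1 / mh β ℓ) * Real.log (W β ℓ (lin (BY (N := N) (n := n) ℓ q) g)) ∂(G _) ≤
      n * ∫ y, Phi β ℓ (Real.sqrt q * y) ∂γ := by
  have hcls := inCls_W hβ hN (S := Fin n → Bool) ℓ hG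
  have hm := mh_pos hβ hG
  set Ψ : (Fin n ⊕ JB N n ℓ → ℝ) → ℝ := fun g =>
    (1 / mh β ℓ) * Real.log (W β ℓ (lin (BY (N := N) (n := n) ℓ q) g)) with hΨ
  have hΨi : Integrable Ψ (G (Fin n ⊕ JB N n ℓ)) := by
    have h1 := (hcls.integrable_log (fun _ => 0) (BY (N := N) (n := n) ℓ q)).const_mul
      (1 / mh β ℓ)
    refine h1.congr (Filter.Eventually.of_forall fun g => ?_)
    simp only [hΨ, zero_add]
  have hsum := mp_sum (ι := Fin n) (κ := JB N n ℓ)
  have hΨi2 : Integrable (fun p : (Fin n → ℝ) × (JB N n ℓ → ℝ) =>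
      Ψ (Sum.elim p.1 p.2)) ((G (Fin n)).prod (G (JB N n ℓ))) :=
    hsum.integrable_comp_of_integrable hΨi
  have hgoal : ∫ g, Ψ g ∂(G (Fin n ⊕ JB N n ℓ)) =
      ∫ y, ∫ h, Ψ (Sum.elim y h) ∂(G (JB N n ℓ)) ∂(G (Fin n)) := by
    rw [← mp_int hsum hΨi.aestronglyMeasurable]
    exact integral_prod _ hΨi2
  rw [hgoal]
  have hinner : ∀ y : Fin n → ℝ, ∫ h, Ψ (Sum.elim y h) ∂(G (JB N n ℓ)) ≤
      ∑ i, Phi β ℓ (Real.sqrt q * y i) := by
    intro y
    have e2 : ∀ h : JB N n ℓ → ℝ, lin (BY (N := N) (n := n) ℓ q) (Sum.elim y h) =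
        fun a => (∑ i, sp i (leaf ℓ a) * (Real.sqrt q * y i)) + lin (Bm sp ℓ) h a := by
      intro h
      ext a
      unfold lin
      rw [Fintype.sum_sum_type]
      simp only [BY, Sum.elim_inl, Sum.elim_inr]
      congr 1
      refine Finset.sum_congr rfl fun i _ => by ring
    simp only [hΨ, e2]
    set w : (JB N n ℓ → ℝ) → ℝ := fun h => W β ℓ (fun a : Idx N (Fin n → Bool) ℓ =>
      (∑ i, sp i (leaf ℓ a) * (Real.sqrt q * y i)) + lin (Bm sp ℓ) h a) with hw
    have hwi : Integrable w (G (JB N n ℓ)) := hcls.integrable _ _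
    have hwp : ∀ h, 0 < w h := fun h => hcls.pos _
    have hwl : Integrable (fun h => Real.log (w h)) (G (JB N n ℓ)) := hcls.integrable_log _ _
    have hup := upper hβ hN ℓ hG (fun i => Real.sqrt q * y i)
    set M := Real.exp (mh β ℓ * ∑ i, Phi β ℓ (Real.sqrt q * y i)) with hM
    have hMp : 0 < M := Real.exp_pos _
    have h1 : ∀ h, Real.log (w h) ≤ Real.log M + (M⁻¹ * w h - 1) := by
      intro h
      have h2 := Real.log_le_sub_one_of_pos (mul_pos (inv_pos.2 hMp) (hwp h))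
      rw [Real.log_mul (inv_pos.2 hMp).ne' (hwp h).ne', Real.log_inv] at h2
      linarith
    have h3 : ∫ h, Real.log (w h) ∂(G (JB N n ℓ)) ≤ Real.log M := by
      calc ∫ h, Real.log (w h) ∂(G (JB N n ℓ))
          ≤ ∫ h, (Real.log M + (M⁻¹ * w h - 1)) ∂(G (JB N n ℓ)) :=
            integral_mono hwl ((integrable_const _).add ((hwi.const_mul _).sub
              (integrable_const _))) h1
        _ = Real.log M + (M⁻¹ * ∫ h, w h ∂(G (JB N n ℓ)) - 1) := by
            have hi5 : Integrable (fun h => M⁻¹ * w h - 1) (G (JB N n ℓ)) :=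
              (hwi.const_mul _).sub (integrable_const _)
            rw [integral_add (integrable_const _) hi5,
              integral_sub (hwi.const_mul _) (integrable_const _),
              integral_const_mul, integral_const, integral_const]
            simp
        _ ≤ Real.log M := by
            have h4 : M⁻¹ * ∫ h, w h ∂(G (JB N n ℓ)) ≤ M⁻¹ * M :=
              mul_le_mul_of_nonneg_left hup (inv_pos.2 hMp).le
            rw [inv_mul_cancel₀ hMp.ne'] at h4
            linarith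
    rw [integral_const_mul]
    have h5 := mul_le_mul_of_nonneg_left h3 (by positivity : 0 ≤ 1 / mh β ℓ)
    refine h5.trans (le_of_eq ?_)
    rw [hM, Real.log_exp]
    field_simp
  have hL := lip_Phi hβ ℓ hG
  have hi1 : Integrable (fun y : ℝ => Phi β ℓ (Real.sqrt q * y)) γ := by
    simpa using hL.integrable 0 (Real.sqrt q)
  have hi : ∀ i : Fin n, Integrable (fun y : Fin n → ℝ => Phi β ℓ (Real.sqrt q * y i))
      (G (Fin n)) := fun i =>
    (measurePreserving_eval (fun _ : Fin n => γ) i).integrable_comp_of_integrable hi1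
  calc ∫ y, ∫ h, Ψ (Sum.elim y h) ∂(G (JB N n ℓ)) ∂(G (Fin n))
      ≤ ∫ y, ∑ i, Phi β ℓ (Real.sqrt q * y i) ∂(G (Fin n)) :=
        integral_mono hΨi2.integral_prod_left (integrable_finsetSum _ fun i _ => hi i) hinner
    _ = ∑ i : Fin n, ∫ y, Phi β ℓ (Real.sqrt q * y) ∂γ := by
        rw [integral_finsetSum _ fun i _ => hi i]
        refine Finset.sum_congr rfl fun i _ => ?_
        exact mp_int (measurePreserving_eval (fun _ : Fin n => γ) i) hi1.aestronglyMeasurable
    _ = n * ∫ y, Phi β ℓ (Real.sqrt q * y) ∂γ := by simp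

/-- the Parisi penalty -/
def pen : ℝ → Lev → ℝ
  | _, [] => 0
  | q, x :: ℓ => x.1 * ((q + x.2) ^ 2 - q ^ 2) + pen (q + x.2) ℓ

theorem lamSum_ge {β : ℝ} (hβ : 0 < β) (n : ℕ) : ∀ (ℓ : Lev), Good β ℓ → ∀ q : ℝ, 0 ≤ q →
    ∀ ε : ℝ, 0 < ε → ∃ N0 : ℕ, ∀ N : ℕ, N0 ≤ N → 0 < N →
      (n / 4 : ℝ) * pen q ℓ - ε ≤ lamSum n N ℓ q
  | [], _, q, _, ε, hε => ⟨0, fun N _ _ => by simp [pen, lamSum, hε.le]⟩
  | x :: ℓ, hG, q, hq, ε, hε => by
    obtain ⟨hm, hmm, hδ, hG'⟩ := hG
    have hv : 0 ≤ vv n q x.2 := by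
      unfold vv
      have : 0 ≤ (q + x.2) ^ 2 - q ^ 2 := by nlinarith
      positivity
    obtain ⟨N1, h1⟩ := lam_ge hm hv (half_pos hε)
    obtain ⟨N2, h2⟩ := lamSum_ge hβ n ℓ hG' (q + x.2) (by linarith) (ε / 2) (half_pos hε)
    refine ⟨max N1 N2, fun N hN hN0 => ?_⟩
    have h3 := h1 N (le_of_max_le_left hN) hN0
    have h4 := h2 N (le_of_max_le_right hN) hN0
    simp only [pen, lamSum]
    unfold vv at h3 ⊢
    linarith

/-- Guerra's bound for the free energy -/
theorem guerra_free {β : ℝ} (hβ : 0 < β) {n : ℕ} (hn : 0 < n) (ℓ : Lev)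
    (hG : Good β ℓ) {q : ℝ} (hq : 0 ≤ q) (hs : q + (ℓ.map Prod.snd).sum = 1) :
    ∫ J, (1 / β) * Real.log (∑ σ : Fin n → Bool, Real.exp (β * Ham J σ))
        ∂(G (Fin n × Fin n)) ≤
    n * (∫ y, Phi β ℓ (Real.sqrt q * y) ∂γ - pen q ℓ / 4) := by
  refine le_of_forall_pos_le_add fun ε hε => ?_
  obtain ⟨N0, hN0⟩ := lamSum_ge hβ n ℓ hG q hq ε hε
  have h1 := hN0 (max N0 1) (le_max_left _ _) (by positivity)
  have hN : 0 < max N0 1 := by positivity
  have h2 := lowerX hβ (n := n) hN ℓ hG q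
  have h3 := compareXY hβ hN hn ℓ hG hq hs
  have h4 := upperY hβ (n := n) hN ℓ hG q
  linarith

/-! ### translation to the statement's objects -/

open Crest.MathPhysics.SpinGlass

theorem pairEnergy_eq (n : ℕ) (J : Fin n → Fin n → ℝ) (σ : Fin n → Bool) :
    pairEnergy n J σ = Ham (fun p => J p.1 p.2) σ := by
  unfold pairEnergy Ham
  rw [Fintype.sum_prod_type, Finset.mul_sum]
  refine Finset.sum_congr rfl fun i _ => ?_
  rw [Finset.mul_sum]
  refine Finset.sum_congr rfl fun j _ => ?_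
  simp only [CH, spinSign, sp]
  by_cases h : i < j
  · rw [if_pos h, if_pos h]; ring
  · rw [if_neg h, if_neg h]; ring

theorem mp_uncurry (n : ℕ) : MeasurePreserving
    (fun J : Fin n → Fin n → ℝ => fun p : Fin n × Fin n => J p.1 p.2)
    (gaussianCouplings n) (G (Fin n × Fin n)) := by
  have hm : Measurable
      (fun J : Fin n → Fin n → ℝ => fun p : Fin n × Fin n => J p.1 p.2) := by
    refine measurable_pi_lambda _ fun p => ?_
    exact (measurable_pi_apply p.2).comp (measurable_pi_apply p.1)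
  refine ⟨hm, (Measure.pi_eq fun s hs => ?_).symm⟩
  rw [Measure.map_apply hm (MeasurableSet.univ_pi hs)]
  have : (fun J : Fin n → Fin n → ℝ => fun p : Fin n × Fin n => J p.1 p.2) ⁻¹' (Set.univ.pi s) =
      Set.univ.pi (fun i => Set.univ.pi (fun j => s (i, j))) := by
    ext J
    simp [Set.mem_pi, Prod.forall]
  rw [this, gaussianCouplings, Measure.pi_pi, Fintype.prod_prod_type]
  refine Finset.prod_congr rfl fun i _ => ?_
  rw [Measure.pi_pi]

theorem Ham_integrable {n : ℕ} (σ : Fin n → Bool) :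
    Integrable (fun J : Fin n × Fin n → ℝ => Ham J σ) (G (Fin n × Fin n)) :=
  integrable_finsetSum _ fun p _ => (integrable_coord p).const_mul _

/-- the maximal energy as a function of the uncurried couplings -/
def mx {n : ℕ} (J : Fin n × Fin n → ℝ) : ℝ :=
  Finset.univ.sup' Finset.univ_nonempty (fun σ : Fin n → Bool => Ham J σ)

theorem maxPairEnergy_eq (n : ℕ) (J : Fin n → Fin n → ℝ) :
    maxPairEnergy n J = mx (fun p : Fin n × Fin n => J p.1 p.2) := by
  unfold maxPairEnergy mx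
  congr 1
  ext σ
  exact pairEnergy_eq n J σ

theorem mx_measurable {n : ℕ} : Measurable (mx (n := n)) := by
  have h : Measurable (Finset.univ.sup' Finset.univ_nonempty
      (fun (σ : Fin n → Bool) (J : Fin n × Fin n → ℝ) => Ham J σ)) :=
    Finset.measurable_sup' _ fun σ _ => by
      unfold Ham
      fun_prop
  have e : mx (n := n) = Finset.univ.sup' Finset.univ_nonempty
      (fun (σ : Fin n → Bool) (J : Fin n × Fin n → ℝ) => Ham J σ) := by
    ext J
    simp [mx, Finset.sup'_apply]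
  rw [e]; exact h

theorem mx_integrable {n : ℕ} : Integrable (mx (n := n)) (G (Fin n × Fin n)) := by
  have hi : Integrable (fun J => ∑ σ : Fin n → Bool, |Ham J σ|) (G (Fin n × Fin n)) :=
    integrable_finsetSum _ fun σ _ => (Ham_integrable σ).abs
  refine hi.mono' mx_measurable.aestronglyMeasurable (Filter.Eventually.of_forall fun J => ?_)
  rw [Real.norm_eq_abs, abs_le]
  have h1 : ∀ σ : Fin n → Bool, |Ham J σ| ≤ ∑ σ : Fin n → Bool, |Ham J σ| := fun σ =>
    Finset.single_le_sum (f := fun σ : Fin n → Bool => |Ham J σ|)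
      (fun b _ => abs_nonneg _) (Finset.mem_univ σ)
  constructor
  · have h2 : Ham J (fun _ => true) ≤ mx J :=
      Finset.le_sup' (fun σ : Fin n → Bool => Ham J σ) (Finset.mem_univ _)
    have h3 := neg_abs_le (Ham J (fun _ => true))
    have h4 := h1 (fun _ => true)
    linarith
  · exact Finset.sup'_le _ _ fun σ _ => (le_abs_self _).trans (h1 σ)

theorem mx_le {β : ℝ} (hβ : 0 < β) {n : ℕ} (J : Fin n × Fin n → ℝ) :
    mx J ≤ (1 / β) * Real.log (∑ σ : Fin n → Bool, Real.exp (β * Ham J σ)) := by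
  refine Finset.sup'_le _ _ fun σ _ => ?_
  have h1 : Real.exp (β * Ham J σ) ≤ ∑ σ : Fin n → Bool, Real.exp (β * Ham J σ) :=
    Finset.single_le_sum (f := fun σ : Fin n → Bool => Real.exp (β * Ham J σ))
      (fun b _ => (Real.exp_pos _).le) (Finset.mem_univ σ)
  have h2 := Real.log_le_log (Real.exp_pos _) h1
  rw [Real.log_exp] at h2
  have h3 := mul_le_mul_of_nonneg_left h2 (by positivity : 0 ≤ 1 / β)
  have e : 1 / β * (β * Ham J σ) = Ham J σ := by field_simp
  linarith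

/-- **Guerra's bound** for the maximal energy. -/
theorem guerra {β : ℝ} (hβ : 0 < β) {n : ℕ} (hn : 0 < n) (ℓ : Lev)
    (hG : Good β ℓ) {q : ℝ} (hq : 0 ≤ q) (hs : q + (ℓ.map Prod.snd).sum = 1) :
    (∫ J, maxPairEnergy n J ∂(gaussianCouplings n)) / n ≤
      ∫ y, Phi β ℓ (Real.sqrt q * y) ∂γ - pen q ℓ / 4 := by
  have hn' : (0:ℝ) < n := by exact_mod_cast hn
  rw [div_le_iff₀ hn']
  simp only [maxPairEnergy_eq]
  rw [mp_int (mp_uncurry n) mx_integrable.aestronglyMeasurable]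
  have hZi : Integrable (fun J => (1 / β) * Real.log (∑ σ : Fin n → Bool,
      Real.exp (β * Ham J σ))) (G (Fin n × Fin n)) := by
    have h1 := ((inCls_base (I := Fin n → Bool) β hβ).integrable_log (ι := Fin n × Fin n)
      (fun _ => 0) CH).const_mul (1 / β)
    simpa [lin, Ham] using h1
  have h1 := guerra_free hβ hn ℓ hG hq hs
  have h2 := integral_mono mx_integrable hZi (fun J => mx_le hβ J)
  linarith

end

end Crest.Agent.R339.Guerra
private theorem rz_127bf80c29 : type_of% @_root_.Crest.Agent.R339.Guerra.pen.eq_def := @_root_.Crest.Agent.R339.Guerra.pen.eq_def -- L491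
private theorem rz_1a76331f01 : type_of% @_root_.Crest.Agent.R339.Guerra.pen.eq_1 := @_root_.Crest.Agent.R339.Guerra.pen.eq_1 -- L491
private theorem rz_87bb01bd1b : type_of% @_root_.Crest.Agent.R339.Guerra.qw.eq_def := @_root_.Crest.Agent.R339.Guerra.qw.eq_def -- L19
private theorem rz_2b4d6597bc : type_of% @_root_.Crest.Agent.R339.Guerra.qw.eq_1 := @_root_.Crest.Agent.R339.Guerra.qw.eq_1 -- L19
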