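import Mathlib
import Crest.Agent.R339.Lab373C
import Crest.Agent.R339.Heavy682E
import Crest.Agent.R339.Asm539C

-- ▼ part R339/Lab373D
section

/-!
# The light side: fine estimate for the pulse blocks, propagation of CvH and of strong convergence
-/

set_option autoImplicit false

noncomputable section

open scoped ComplexConjugate InnerProductSpace Topology
open Filter Asymptotics Crest.MathPhysics.SpinGlass Crest.Agent.R339.Site

namespace Crest.Agent.R339.Lab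

variable {K : Type*} [NormedAddCommGroup K] [InnerProductSpace ℂ K]

/-! ### strong continuity -/

lemma continuous_Wl_apply (v : Sp K) : Continuous fun g : K => Wl g v := by
  have h : ∀ g : K, Wl g v = WithLp.toLp 2 (fun b => Wy g (v b)) := by
    intro g
    ext b
    exact Wl_apply g v b
  simp only [h]
  refine (PiLp.continuous_toLp 2 (fun _ : Bool => Fock K)).comp ?_
  exact continuous_pi fun b => continuous_Wy_apply (v b)

lemma tendsto_Dl_zero {u : ℕ → K} (hu : Tendsto u atTop (𝓝 0)) (v : Sp K) :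
    Tendsto (fun n => Dl (u n) v) atTop (𝓝 0) := by
  have h1 := ((continuous_Wl_apply v).tendsto 0).comp hu
  have h2 := h1.sub_const v
  simpa [Wl_zero, Dl_apply] using h2

/-! ### commutator of `W g` and a product of pulses -/

lemma norm_comm_Pu_le (β : ℝ) (u g : K) (v : Sp K) :
    ‖Wl g (((Pu β u : USp K) : Sp K →L[ℂ] Sp K) v) - ((Pu β u : USp K) : Sp K →L[ℂ] Sp K) (Wl g v)‖ ≤
      2 * ‖u‖ * ‖g‖ * ‖v‖ := by
  rw [Pu_apply, Pu_apply, ← isSpin_mixU, Wl_Ez, ← map_sub, norm_U_apply, ← isSpin_mixU, ← map_sub,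
    norm_U_apply]
  refine (norm_Rz_sub _ _).trans ?_
  rw [norm_U_apply, norm_Wl_apply, abs_mul, abs_two]
  have := abs_im_inner_le u g
  have h2 := mul_le_mul_of_nonneg_right (mul_le_mul_of_nonneg_left this (zero_le_two (α := ℝ)))
    (norm_nonneg v)
  linarith

lemma norm_comm_Qs_le (β : ℕ → ℝ) (u : ℕ → ℕ → K) (N n : ℕ) (g : K) (v : Sp K) :
    ‖Wl g (((Qs β u N n : USp K) : Sp K →L[ℂ] Sp K) v) -
      ((Qs β u N n : USp K) : Sp K →L[ℂ] Sp K) (Wl g v)‖ ≤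
      (∑ i ∈ Finset.range N, 2 * ‖u i n‖) * ‖g‖ * ‖v‖ := by
  induction N with
  | zero => simp
  | succ N ih =>
    rw [Qs_succ_apply, Qs_succ_apply, Finset.sum_range_succ]
    set Q := ((Qs β u N n : USp K) : Sp K →L[ℂ] Sp K)
    set P := ((Pu (β N) (u N n) : USp K) : Sp K →L[ℂ] Sp K) with hP
    have e : Wl g (P (Q v)) - P (Q (Wl g v)) = (Wl g (P (Q v)) - P (Wl g (Q v))) +
        P (Wl g (Q v) - Q (Wl g v)) := by rw [map_sub]; abel
    rw [e]
    refine (norm_add_le _ _).trans ?_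
    have h1 := norm_comm_Pu_le (β N) (u N n) g (Q v)
    have h2 : ‖Q v‖ = ‖v‖ := norm_U_apply _ _
    rw [h2] at h1
    have h3 : ‖P (Wl g (Q v) - Q (Wl g v))‖ = ‖Wl g (Q v) - Q (Wl g v)‖ := norm_U_apply _ _
    rw [h3]
    nlinarith

lemma norm_Qs_sub_le (β : ℕ → ℝ) (u : ℕ → ℕ → K) (N n : ℕ) (v : Sp K) :
    ‖((Qs β u N n : USp K) : Sp K →L[ℂ] Sp K) v - v‖ ≤ ∑ i ∈ Finset.range N, 2 * ‖Dl (u i n) v‖ := by
  induction N with
  | zero => simp
  | succ N ih =>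
    rw [Qs_succ_apply, Finset.sum_range_succ]
    set Q := ((Qs β u N n : USp K) : Sp K →L[ℂ] Sp K)
    set P := ((Pu (β N) (u N n) : USp K) : Sp K →L[ℂ] Sp K) with hP
    have e : P (Q v) - v = P (Q v - v) + (P v - v) := by rw [map_sub]; abel
    rw [e]
    refine (norm_add_le _ _).trans (add_le_add ?_ (norm_Pu_sub_le _ _ _))
    rw [norm_U_apply]
    exact ih

/-! ### the fine estimate -/

section light

variable {ε : ℕ → ℝ} {w : ℕ → K} {lam : ℕ → Sp K} {lam₀ : Sp K}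

/-- tiny displacements -/
lemma Light.Dl_zet_o (L : Light ε w lam lam₀) {d : ℕ → K} (hd : d =o[atTop] ε)
    (him : (fun n => (⟪w n, d n⟫_ℂ).im) =o[atTop] ε) :
    (fun n => Dl (d n) (zet w lam n)) =o[atTop] ε := by
  simp only [zet, Dl_Ez_neg]
  refine isLittleO_U _ ?_
  obtain ⟨C, hC, h⟩ := L.cvh.M1 L.nice
  have h2 : (fun n => ‖Dl (d n) (lam n)‖) =o[atTop] ε := by
    refine IsBigO.trans_isLittleO (IsBigO.of_bound C ?_) hd
    filter_upwards [h] with n hn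
    rw [norm_norm]
    exact hn (d n)
  have h1 : (fun n => 2 * |(⟪w n, d n⟫_ℂ).im| * ‖lam n‖) =o[atTop] ε := by
    have := (him.norm_left.const_mul_left 2).mul_isBigO L.lam_bdd.norm_left
    simpa using this
  refine IsBigO.trans_isLittleO (IsBigO.of_bound 1 (Eventually.of_forall fun n => ?_)) (h1.add h2)
  rw [one_mul, Real.norm_of_nonneg (by positivity)]
  exact norm_inn_le _ _ _

lemma norm_Wl_sub_Wl_neg_le (u u' : K) (v : Sp K) :
    ‖Wl u v - Wl (-u') v‖ ≤ ‖u'‖ * ‖u‖ * ‖v‖ + ‖Dl (u + u') v‖ := by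
  have e : Wl u v - Wl (-u') v = Wl (-u') (Wl u' (Wl u v) - v) := by
    rw [map_sub, Wl_neg_Wl]
  rw [e, norm_Wl_apply, Wl_Wl]
  have e2 : Complex.exp (-(Complex.I * ((⟪u', u⟫_ℂ).im : ℂ))) • Wl (u' + u) v - v =
      (Complex.exp (-(Complex.I * ((⟪u', u⟫_ℂ).im : ℂ))) - 1) • Wl (u' + u) v +
        Dl (u + u') v := by
    rw [Dl_apply, sub_smul, one_smul, add_comm u u']
    abel
  rw [e2]
  refine (norm_add_le _ _).trans (add_le_add_left ?_ _)
  rw [norm_smul, norm_Wl_apply]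
  exact mul_le_mul_of_nonneg_right ((norm_cexp_neg_I_mul_sub_one _).trans (abs_im_inner_le u' u))
    (norm_nonneg _)

/-- cancellation of opposite pulses -/
lemma Light.Hd_cancel (L : Light ε w lam lam₀) {u u' : ℕ → K} (hu : Sm ε w u) (hu' : Sm ε w u')
    (hd : (fun n => u n + u' n) =o[atTop] ε) :
    (fun n => Hd (u n) (zet w lam n) + Hd (u' n) (zet w lam n)) =o[atTop] ε := by
  have him : (fun n => (⟪w n, u n + u' n⟫_ℂ).im) =o[atTop] ε := by
    refine (hu.im.add hu'.im).congr_left fun n => ?_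
    rw [inner_add_right, Complex.add_im]
  have h1 := L.Dl_zet_o hd him
  have hq : (fun n => ‖u' n‖ * ‖u n‖ * ‖zet w lam n‖) =o[atTop] ε := by
    have := (mul_self_isLittleO L.eps hu'.bd.norm_left hu.bd.norm_left).mul_isBigO
      L.zet_bdd.norm_left
    simpa using this
  have hq' : (fun n => ‖u n‖ * ‖u' n‖ * ‖zet w lam n‖) =o[atTop] ε := by
    refine hq.congr_left fun n => ?_
    ring
  have a1 : (fun n => Wl (u n) (zet w lam n) - Wl (-u' n) (zet w lam n)) =o[atTop] ε := by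
    refine IsBigO.trans_isLittleO (IsBigO.of_bound 1 (Eventually.of_forall fun n => ?_))
      (hq.add h1.norm_left)
    rw [one_mul, Real.norm_of_nonneg (by positivity)]
    exact norm_Wl_sub_Wl_neg_le _ _ _
  have a2 : (fun n => Wl (u' n) (zet w lam n) - Wl (-u n) (zet w lam n)) =o[atTop] ε := by
    refine IsBigO.trans_isLittleO (IsBigO.of_bound 1 (Eventually.of_forall fun n => ?_))
      (hq'.add h1.norm_left)
    rw [one_mul, Real.norm_of_nonneg (by positivity), add_comm (u n) (u' n)]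
    exact norm_Wl_sub_Wl_neg_le _ _ _
  refine ((a1.add a2).const_smul_left (1 / 2 : ℂ)).congr_left fun n => ?_
  rw [Hd_apply, Hd_apply, Pi.smul_apply, ← smul_add]
  congr 1
  abel

/-- The fine estimate: `m` blocks of four pulses act trivially up to `o(ε)`. -/
lemma Light.fine (L : Light ε w lam lam₀) (β : ℕ → ℝ) (u : ℕ → ℕ → K) (m : ℕ)
    (hu : ∀ i < 4 * m, Sm ε w (u i)) (hβ0 : ∀ r < m, β (4 * r + 2) = β (4 * r))
    (hβ1 : ∀ r < m, β (4 * r + 3) = β (4 * r + 1))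
    (h0 : ∀ r < m, (fun n => u (4 * r) n + u (4 * r + 2) n) =o[atTop] ε)
    (h1 : ∀ r < m, (fun n => u (4 * r + 1) n + u (4 * r + 3) n) =o[atTop] ε)
    {A : Sp K →L[ℂ] Sp K} (hA : IsSpin A) :
    (fun n => ((Qs β u (4 * m) n : USp K) : Sp K →L[ℂ] Sp K) (A (zet w lam n)) - A (zet w lam n))
      =o[atTop] ε := by
  have hsum : ∀ m' ≤ m, (fun n => ∑ i ∈ Finset.range (4 * m'),
      Zb (β i) (A (Hd (u i n) (zet w lam n)))) =o[atTop] ε := by
    intro m' hm'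
    induction m' with
    | zero => exact (isLittleO_zero _ _).congr_left fun n => by simp
    | succ r ih =>
      have ih' := ih (by omega)
      have hr : r < m := by omega
      have c0 := isLittleO_clm (Zb (β (4 * r)) * A) (L.Hd_cancel (hu (4 * r) (by omega))
        (hu (4 * r + 2) (by omega)) (h0 r hr))
      have c1 := isLittleO_clm (Zb (β (4 * r + 1)) * A) (L.Hd_cancel (hu (4 * r + 1) (by omega))
        (hu (4 * r + 3) (by omega)) (h1 r hr))
      refine ((ih'.add c0).add c1).congr_left fun n => ?_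
      rw [show 4 * (r + 1) = 4 * r + 1 + 1 + 1 + 1 by ring, Finset.sum_range_succ,
        Finset.sum_range_succ, Finset.sum_range_succ, Finset.sum_range_succ,
        show 4 * r + 1 + 1 = 4 * r + 2 by ring, show 4 * r + 2 + 1 = 4 * r + 3 by ring,
        hβ0 r hr, hβ1 r hr, map_add, map_add]
      simp only [mul_apply_eq_comp]
      abel
  have h2 := L.prod β u (4 * m) hu hA
  refine (h2.add (hsum m le_rfl)).congr_left fun n => ?_
  abel

end light

/-! ### propagation through a label gate -/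

/-- the phase -/
def phs (w w' : K) : ℂ := Complex.exp (-(Complex.I * ((⟪w', w⟫_ℂ).im : ℂ)))

lemma norm_phs (w w' : K) : ‖phs w w'‖ = 1 := norm_cexp_neg_I_mul _

lemma phs_Ez (w w' : K) (v : Sp K) : phs w w' • ((Ez w' : USp K) : Sp K →L[ℂ] Sp K)
    (((Ez (-w) : USp K) : Sp K →L[ℂ] Sp K) v) = ((Ez (w' - w) : USp K) : Sp K →L[ℂ] Sp K) v := by
  rw [Ez_Ez, smul_smul, phs, ← Complex.exp_add, sub_eq_add_neg w' w, inner_neg_right,
    Complex.neg_im]
  simp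

lemma abs_cos_sub_one_le (θ : ℝ) : |Real.cos θ - 1| ≤ |θ| := by
  have h := norm_cexp_I_mul_sub_one θ
  refine le_trans ?_ h
  have h2 := Complex.abs_re_le_norm (Complex.exp (Complex.I * (θ : ℂ)) - 1)
  refine le_trans (le_of_eq ?_) h2
  rw [Complex.sub_re, Complex.one_re, mul_comm, Complex.exp_ofReal_mul_I_re]

/-- First difference of `(ρ - 1) Ez(-w) v`. -/
lemma norm_Dl_Qs_sub_le (β : ℕ → ℝ) (u : ℕ → ℕ → K) (N n : ℕ) (w g : K) (v : Sp K) :
    ‖Dl g (((Qs β u N n : USp K) : Sp K →L[ℂ] Sp K) (((Ez (-w) : USp K) : Sp K →L[ℂ] Sp K) v) -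
      ((Ez (-w) : USp K) : Sp K →L[ℂ] Sp K) v)‖ ≤
    (∑ i ∈ Finset.range N, 2 * ‖u i n‖) * ‖g‖ * ‖v‖ +
    2 * ‖w‖ * ‖g‖ * (‖((Qs β u N n : USp K) : Sp K →L[ℂ] Sp K)
        (((Ez (-w) : USp K) : Sp K →L[ℂ] Sp K) v) - ((Ez (-w) : USp K) : Sp K →L[ℂ] Sp K) v‖ +
      ‖((Qs β u N n : USp K) : Sp K →L[ℂ] Sp K) (Zop (((Ez (-w) : USp K) : Sp K →L[ℂ] Sp K) v)) -
        Zop (((Ez (-w) : USp K) : Sp K →L[ℂ] Sp K) v)‖) +
    2 * ∑ i ∈ Finset.range N, 2 * (2 * |(⟪w, u i n⟫_ℂ).im| * ‖Dl g v‖ + ‖Dl (u i n) (Dl g v)‖) := by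
  set Q := ((Qs β u N n : USp K) : Sp K →L[ℂ] Sp K) with hQ
  set E := ((Ez (-w) : USp K) : Sp K →L[ℂ] Sp K) with hE
  set θ := 2 * (⟪-w, g⟫_ℂ).im with hθ
  have hθw : |θ| ≤ 2 * ‖w‖ * ‖g‖ := by
    rw [hθ, abs_mul, abs_two, mul_assoc]
    have := abs_im_inner_le (-w) g
    rw [norm_neg] at this
    exact mul_le_mul_of_nonneg_left this zero_le_two
  -- Dl g (E v) = E (Rz θ v - v) + E (Rz θ (Dl g v))
  have e1 : Dl g (E v) = E (Rz θ v - v) + E (Rz θ (Dl g v)) := by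
    rw [Dl_apply, Dl_apply, hE, Wl_Ez, ← hθ, map_sub, map_sub, map_sub]
    abel
  have e2 : Dl g (Q (E v) - E v) = (Wl g (Q (E v)) - Q (Wl g (E v))) +
      ((Q (E (Rz θ v - v)) - E (Rz θ v - v)) + (Q (E (Rz θ (Dl g v))) - E (Rz θ (Dl g v)))) := by
    have : (Q (E (Rz θ v - v)) - E (Rz θ v - v)) + (Q (E (Rz θ (Dl g v))) - E (Rz θ (Dl g v))) =
        Q (Dl g (E v)) - Dl g (E v) := by
      rw [e1, map_add]; abel
    rw [this]
    simp only [Dl_apply, map_sub]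
    abel
  rw [e2]
  refine (norm_add_le _ _).trans ?_
  rw [add_assoc]
  refine add_le_add ?_ ((norm_add_le _ _).trans (add_le_add ?_ ?_))
  · have := norm_comm_Qs_le β u N n g (E v)
    rwa [show ‖E v‖ = ‖v‖ from norm_U_apply _ _] at this
  · -- Rz θ v - v = (cos θ - 1) v + i sin θ Z v
    have e3 : Rz θ v - v = (((Real.cos θ - 1 : ℝ)) : ℂ) • v +
        (Complex.I * ((Real.sin θ : ℝ) : ℂ)) • Zop v := by
      rw [Rz_eq]; push_cast; module
    have e4 : Q (E (Rz θ v - v)) - E (Rz θ v - v) = (((Real.cos θ - 1 : ℝ)) : ℂ) • (Q (E v) - E v) +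
        (Complex.I * ((Real.sin θ : ℝ) : ℂ)) • (Q (Zop (E v)) - Zop (E v)) := by
      rw [e3, map_add, map_smul, map_smul, map_add, map_smul, map_smul, hE, ← Zop_Ez]
      module
    rw [e4]
    refine (norm_add_le _ _).trans ?_
    rw [norm_smul, norm_smul, Complex.norm_real, norm_mul, Complex.norm_I, one_mul,
      Complex.norm_real, Real.norm_eq_abs, Real.norm_eq_abs, mul_add]
    refine add_le_add (mul_le_mul_of_nonneg_right ((abs_cos_sub_one_le θ).trans hθw)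
      (norm_nonneg _)) (mul_le_mul_of_nonneg_right ?_ (norm_nonneg _))
    exact (Real.abs_sin_le_abs (x := θ)).trans hθw
  · have hx : ∀ A : Sp K →L[ℂ] Sp K, IsSpin A → (∀ x, ‖A x‖ = ‖x‖) →
        ‖Q (A (E (Dl g v))) - A (E (Dl g v))‖ ≤ ∑ i ∈ Finset.range N,
          2 * (2 * |(⟪w, u i n⟫_ℂ).im| * ‖Dl g v‖ + ‖Dl (u i n) (Dl g v)‖) := by
      intro A hA hAn
      refine (norm_Qs_sub_le β u N n _).trans (Finset.sum_le_sum fun i _ => ?_)
      refine mul_le_mul_of_nonneg_left ?_ zero_le_two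
      rw [← hA.Dl, hAn, hE, Dl_Ez_neg, norm_U_apply]
      exact norm_inn_le _ _ _
    have h1 := hx 1 isSpin_one (fun x => rfl)
    have h2 := hx Zop isSpin_Zop norm_Zop_apply
    rw [one_apply_eq_self] at h1
    set S := ∑ i ∈ Finset.range N,
          2 * (2 * |(⟪w, u i n⟫_ℂ).im| * ‖Dl g v‖ + ‖Dl (u i n) (Dl g v)‖) with hS
    have e4 : Q (E (Rz θ (Dl g v))) - E (Rz θ (Dl g v)) =
        ((Real.cos θ : ℝ) : ℂ) • (Q (E (Dl g v)) - E (Dl g v)) +
        (Complex.I * ((Real.sin θ : ℝ) : ℂ)) • (Q (Zop (E (Dl g v))) - Zop (E (Dl g v))) := by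
      rw [Rz_eq, map_add, map_smul, map_smul, map_add, map_smul, map_smul, hE, ← Zop_Ez]
      module
    rw [e4]
    refine (norm_add_le _ _).trans ?_
    rw [norm_smul, norm_smul, Complex.norm_real, norm_mul, Complex.norm_I, one_mul,
      Complex.norm_real, Real.norm_eq_abs, Real.norm_eq_abs]
    have c1 := Real.abs_cos_le_one θ
    have c2 := Real.abs_sin_le_one θ
    have d1 : |Real.cos θ| * ‖Q (E (Dl g v)) - E (Dl g v)‖ ≤ 1 * S :=
      mul_le_mul c1 h1 (norm_nonneg _) zero_le_one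
    have d2 : |Real.sin θ| * ‖Q (Zop (E (Dl g v))) - Zop (E (Dl g v))‖ ≤ 1 * S :=
      mul_le_mul c2 h2 (norm_nonneg _) zero_le_one
    linarith

/-- Propagation of `CvH` through a label gate (`w, w'` may be unbounded). -/
lemma cvh_prop {w w' : ℕ → K} {x : K} {lam : ℕ → Sp K} {lam₀ : Sp K} (hc : CvH lam lam₀)
    (hn : Nice lam₀) (β : ℕ → ℝ) (u : ℕ → ℕ → K) (N : ℕ)
    (hu : ∀ i < N, Tendsto (u i) atTop (𝓝 0))
    (him : ∀ i < N, Tendsto (fun n => (⟪w n, u i n⟫_ℂ).im) atTop (𝓝 0))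
    (hx : Tendsto (fun n => w' n - w n) atTop (𝓝 x))
    (hr1 : Tendsto (fun n => (1 + ‖w n‖ + ‖w' n‖) * ‖((Qs β u N n : USp K) : Sp K →L[ℂ] Sp K)
      (zet w lam n) - zet w lam n‖) atTop (𝓝 0))
    (hr2 : Tendsto (fun n => (1 + ‖w n‖ + ‖w' n‖) * ‖((Qs β u N n : USp K) : Sp K →L[ℂ] Sp K)
      (Zop (zet w lam n)) - Zop (zet w lam n)‖) atTop (𝓝 0)) :
    CvH (fun n => phs (w n) (w' n) • ((Ez (w' n) : USp K) : Sp K →L[ℂ] Sp K)
      (((Qs β u N n : USp K) : Sp K →L[ℂ] Sp K) (zet w lam n)))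
      (((Ez x : USp K) : Sp K →L[ℂ] Sp K) lam₀) := by
  have h0 := hc.Ez hn hx
  obtain ⟨C, hC, hM1⟩ := hc.M1 hn
  obtain ⟨δ, hδ, hLB⟩ := hc
  obtain ⟨C', hC', h1, h2⟩ := hn
  -- the remainder
  set r1 : ℕ → ℝ := fun n => (1 + ‖w n‖ + ‖w' n‖) * ‖((Qs β u N n : USp K) : Sp K →L[ℂ] Sp K)
      (zet w lam n) - zet w lam n‖ with hr1d
  set r2 : ℕ → ℝ := fun n => (1 + ‖w n‖ + ‖w' n‖) * ‖((Qs β u N n : USp K) : Sp K →L[ℂ] Sp K)
      (Zop (zet w lam n)) - Zop (zet w lam n)‖ with hr2d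
  set R : ℕ → Sp K := fun n => phs (w n) (w' n) • ((Ez (w' n) : USp K) : Sp K →L[ℂ] Sp K)
      (((Qs β u N n : USp K) : Sp K →L[ℂ] Sp K) (zet w lam n) - zet w lam n) with hR
  have hlam : Tendsto (fun n => ‖lam n‖) atTop (𝓝 ‖lam₀‖) := by
    have : CvH lam lam₀ := ⟨δ, hδ, hLB⟩
    exact this.tendsto.norm
  set δ' : ℕ → ℝ := fun n => 4 * r1 n + 2 * r2 n + (∑ i ∈ Finset.range N, 2 * ‖u i n‖) * ‖lam n‖ +
    2 * ∑ i ∈ Finset.range N, 2 * (2 * |(⟪w n, u i n⟫_ℂ).im| * C + (C' * ‖u i n‖ + 2 * |δ n|))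
    with hδ'
  have hδ't : Tendsto δ' atTop (𝓝 0) := by
    have a1 : Tendsto (fun n => (∑ i ∈ Finset.range N, 2 * ‖u i n‖) * ‖lam n‖) atTop
        (𝓝 ((∑ i ∈ Finset.range N, 2 * ‖(0 : K)‖) * ‖lam₀‖)) := by
      refine Tendsto.mul (tendsto_finsetSum _ fun i hi => ?_) hlam
      exact ((hu i (Finset.mem_range.mp hi)).norm).const_mul 2
    have a2 : Tendsto (fun n => 2 * ∑ i ∈ Finset.range N,
        2 * (2 * |(⟪w n, u i n⟫_ℂ).im| * C + (C' * ‖u i n‖ + 2 * |δ n|))) atTop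
        (𝓝 (2 * ∑ i ∈ Finset.range N, 2 * (2 * |(0 : ℝ)| * C + (C' * ‖(0 : K)‖ + 2 * |(0 : ℝ)|)))) := by
      refine Tendsto.const_mul 2 (tendsto_finsetSum _ fun i hi => ?_)
      have b1 := (him i (Finset.mem_range.mp hi)).abs
      have b2 := (hu i (Finset.mem_range.mp hi)).norm
      exact (((b1.const_mul 2).mul_const C).add ((b2.const_mul C').add (hδ.abs.const_mul 2))).const_mul 2
    have := (((hr1.const_mul 4).add (hr2.const_mul 2)).add a1).add a2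
    simpa using this
  have hRLB : ∀ᶠ n in atTop, LB (δ' n) (R n) := by
    filter_upwards [hM1, hLB] with n hM hL
    have hz : zet w lam n = ((Ez (-w n) : USp K) : Sp K →L[ℂ] Sp K) (lam n) := rfl
    set q1 := ‖((Qs β u N n : USp K) : Sp K →L[ℂ] Sp K) (zet w lam n) - zet w lam n‖ with hq1
    set q2 := ‖((Qs β u N n : USp K) : Sp K →L[ℂ] Sp K) (Zop (zet w lam n)) - Zop (zet w lam n)‖
      with hq2
    have hq1n : 0 ≤ q1 := norm_nonneg _
    have hq2n : 0 ≤ q2 := norm_nonneg _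
    have hr1n : r1 n = (1 + ‖w n‖ + ‖w' n‖) * q1 := rfl
    have hr2n : r2 n = (1 + ‖w n‖ + ‖w' n‖) * q2 := rfl
    have hS0 : 0 ≤ (∑ i ∈ Finset.range N, 2 * ‖u i n‖) * ‖lam n‖ := by positivity
    have hT0 : 0 ≤ 2 * ∑ i ∈ Finset.range N,
        2 * (2 * |(⟪w n, u i n⟫_ℂ).im| * C + (C' * ‖u i n‖ + 2 * |δ n|)) := by positivity
    have hw0 := norm_nonneg (w n)
    have hw'0 := norm_nonneg (w' n)
    refine ⟨?_, fun g => ?_⟩
    · rw [hR]
      simp only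
      rw [norm_smul, norm_phs, one_mul, norm_U_apply, hδ']
      simp only
      rw [hr1n, hr2n]
      have : q1 ≤ (1 + ‖w n‖ + ‖w' n‖) * q1 := by nlinarith [mul_nonneg hw0 hq1n, mul_nonneg hw'0 hq1n]
      have h3 : 0 ≤ (1 + ‖w n‖ + ‖w' n‖) * q1 := by positivity
      have h4 : 0 ≤ (1 + ‖w n‖ + ‖w' n‖) * q2 := by positivity
      linarith
    · rw [hR]
      simp only
      rw [map_smul, norm_smul, norm_phs, one_mul]
      refine (norm_Dl_Ez_le g (w' n) _).trans ?_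
      have a1 := norm_Dl_Qs_sub_le β u N n (w n) g (lam n)
      rw [← hz, ← hq1, ← hq2] at a1
      have a2 : 2 * |(⟪w' n, g⟫_ℂ).im| * q1 ≤ 2 * (‖w' n‖ * ‖g‖) * q1 :=
        mul_le_mul_of_nonneg_right (mul_le_mul_of_nonneg_left (abs_im_inner_le _ _) zero_le_two) hq1n
      have a3 : ∑ i ∈ Finset.range N, 2 * (2 * |(⟪w n, u i n⟫_ℂ).im| * ‖Dl g (lam n)‖ +
          ‖Dl (u i n) (Dl g (lam n))‖) ≤ (∑ i ∈ Finset.range N,
          2 * (2 * |(⟪w n, u i n⟫_ℂ).im| * C + (C' * ‖u i n‖ + 2 * |δ n|))) * ‖g‖ := by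
        rw [Finset.sum_mul]
        refine Finset.sum_le_sum fun i _ => ?_
        have b1 := hM g
        have b2 : ‖Dl (u i n) (Dl g (lam n))‖ ≤ (C' * ‖u i n‖ + 2 * |δ n|) * ‖g‖ := by
          have e : lam n = lam₀ + (lam n - lam₀) := by abel
          rw [e, map_add, map_add]
          refine (norm_add_le _ _).trans ?_
          have c1 := h2 (u i n) g
          have c2 := (norm_Dl_le (u i n) (Dl g (lam n - lam₀)))
          have c3 := hL.2 g
          have c4 : δ n * ‖g‖ ≤ |δ n| * ‖g‖ := mul_le_mul_of_nonneg_right (le_abs_self _)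
            (norm_nonneg _)
          nlinarith
        have b3 : 2 * |(⟪w n, u i n⟫_ℂ).im| * ‖Dl g (lam n)‖ ≤
            2 * |(⟪w n, u i n⟫_ℂ).im| * (C * ‖g‖) := mul_le_mul_of_nonneg_left b1 (by positivity)
        calc _ ≤ 2 * (2 * |(⟪w n, u i n⟫_ℂ).im| * (C * ‖g‖) + (C' * ‖u i n‖ + 2 * |δ n|) * ‖g‖) := by
              linarith
          _ = _ := by ring
      have hg := norm_nonneg g
      have a4 : 2 * (‖w' n‖ * ‖g‖) * q1 ≤ 2 * r1 n * ‖g‖ := by
        rw [hr1n]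
        have : 0 ≤ (1 + ‖w n‖) * q1 * ‖g‖ := by positivity
        nlinarith
      have a5 : 2 * ‖w n‖ * ‖g‖ * (q1 + q2) ≤ (2 * r1 n + 2 * r2 n) * ‖g‖ := by
        rw [hr1n, hr2n]
        have : 0 ≤ (1 + ‖w' n‖) * (q1 + q2) * ‖g‖ := by positivity
        nlinarith
      have a6 : δ' n * ‖g‖ = (4 * r1 n + 2 * r2 n) * ‖g‖ +
        (∑ i ∈ Finset.range N, 2 * ‖u i n‖) * ‖lam n‖ * ‖g‖ +
        2 * ((∑ i ∈ Finset.range N,
          2 * (2 * |(⟪w n, u i n⟫_ℂ).im| * C + (C' * ‖u i n‖ + 2 * |δ n|))) * ‖g‖) := by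
        rw [hδ']; ring
      rw [a6]
      have a7 : (∑ i ∈ Finset.range N, 2 * ‖u i n‖) * ‖g‖ * ‖lam n‖ =
        (∑ i ∈ Finset.range N, 2 * ‖u i n‖) * ‖lam n‖ * ‖g‖ := by ring
      linarith
  have hfin := h0.add_LB hδ't hRLB
  refine (congrArg (fun f => CvH f _) (funext fun n => ?_)).mp hfin
  rw [hR]
  simp only
  rw [map_sub, smul_sub]
  have : phs (w n) (w' n) • ((Ez (w' n) : USp K) : Sp K →L[ℂ] Sp K) (zet w lam n) =
      ((Ez (w' n - w n) : USp K) : Sp K →L[ℂ] Sp K) (lam n) := phs_Ez _ _ _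
  rw [this]
  abel

/-- Strong propagation through a label gate. -/
lemma strong_prop {w w' : ℕ → K} {x : K} {xi : ℕ → Sp K} {xi₀ : Sp K}
    (hxi : Tendsto xi atTop (𝓝 xi₀)) (β : ℕ → ℝ) (u : ℕ → ℕ → K) (N : ℕ)
    (hu : ∀ i < N, Tendsto (u i) atTop (𝓝 0))
    (him : ∀ i < N, Tendsto (fun n => (⟪w n, u i n⟫_ℂ).im) atTop (𝓝 0))
    (hx : Tendsto (fun n => w' n - w n) atTop (𝓝 x)) :
    Tendsto (fun n => phs (w n) (w' n) • ((Ez (w' n) : USp K) : Sp K →L[ℂ] Sp K)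
      (((Qs β u N n : USp K) : Sp K →L[ℂ] Sp K)
        (((Ez (-w n) : USp K) : Sp K →L[ℂ] Sp K) (xi n)))) atTop
      (𝓝 (((Ez x : USp K) : Sp K →L[ℂ] Sp K) xi₀)) := by
  -- first with `xi₀` in place of `xi n`
  have h1 : Tendsto (fun n => ((Ez (w' n - w n) : USp K) : Sp K →L[ℂ] Sp K) xi₀) atTop
      (𝓝 (((Ez x : USp K) : Sp K →L[ℂ] Sp K) xi₀)) :=
    STends_costU (fun _ => -1) (-1) tendsto_const_nhds hx xi₀
  have h2 : Tendsto (fun n => ((Qs β u N n : USp K) : Sp K →L[ℂ] Sp K)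
        (((Ez (-w n) : USp K) : Sp K →L[ℂ] Sp K) xi₀) -
        ((Ez (-w n) : USp K) : Sp K →L[ℂ] Sp K) xi₀) atTop (𝓝 0) := by
    rw [tendsto_zero_iff_norm_tendsto_zero]
    have hb : Tendsto (fun n => ∑ i ∈ Finset.range N,
        2 * (2 * |(⟪w n, u i n⟫_ℂ).im| * ‖xi₀‖ + ‖Dl (u i n) xi₀‖)) atTop
        (𝓝 (∑ i ∈ Finset.range N, 2 * (2 * |(0 : ℝ)| * ‖xi₀‖ + ‖(0 : Sp K)‖))) := by
      refine tendsto_finsetSum _ fun i hi => ?_
      have b1 := (him i (Finset.mem_range.mp hi)).abs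
      have b2 := (tendsto_Dl_zero (hu i (Finset.mem_range.mp hi)) xi₀).norm
      exact (((b1.const_mul 2).mul_const _).add b2).const_mul 2
    have hb' : Tendsto (fun n => ∑ i ∈ Finset.range N,
        2 * (2 * |(⟪w n, u i n⟫_ℂ).im| * ‖xi₀‖ + ‖Dl (u i n) xi₀‖)) atTop (𝓝 0) := by
      simpa using hb
    refine squeeze_zero (fun n => norm_nonneg _) (fun n => ?_) hb'
    refine (norm_Qs_sub_le β u N n _).trans (Finset.sum_le_sum fun i _ => ?_)
    refine mul_le_mul_of_nonneg_left ?_ zero_le_two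
    rw [Dl_Ez_neg, norm_U_apply]
    exact norm_inn_le _ _ _
  rw [tendsto_iff_norm_sub_tendsto_zero] at hxi
  have h3 : Tendsto (fun n => ‖((Ez (w' n - w n) : USp K) : Sp K →L[ℂ] Sp K) xi₀ -
      ((Ez x : USp K) : Sp K →L[ℂ] Sp K) xi₀‖ + ‖((Qs β u N n : USp K) : Sp K →L[ℂ] Sp K)
        (((Ez (-w n) : USp K) : Sp K →L[ℂ] Sp K) xi₀) -
        ((Ez (-w n) : USp K) : Sp K →L[ℂ] Sp K) xi₀‖ + ‖xi n - xi₀‖) atTop (𝓝 0) := by
    have := ((tendsto_iff_norm_sub_tendsto_zero.mp h1).add h2.norm).add hxi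
    simpa using this
  rw [tendsto_iff_norm_sub_tendsto_zero]
  refine squeeze_zero (fun n => norm_nonneg _) (fun n => ?_) h3
  set Q := ((Qs β u N n : USp K) : Sp K →L[ℂ] Sp K)
  set E := ((Ez (-w n) : USp K) : Sp K →L[ℂ] Sp K)
  set E' := ((Ez (w' n) : USp K) : Sp K →L[ℂ] Sp K)
  have e : phs (w n) (w' n) • E' (Q (E (xi n))) - ((Ez x : USp K) : Sp K →L[ℂ] Sp K) xi₀ =
      (((Ez (w' n - w n) : USp K) : Sp K →L[ℂ] Sp K) xi₀ -
        ((Ez x : USp K) : Sp K →L[ℂ] Sp K) xi₀) +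
      phs (w n) (w' n) • E' (Q (E xi₀) - E xi₀) + phs (w n) (w' n) • E' (Q (E (xi n - xi₀))) := by
    rw [← phs_Ez (w n) (w' n) xi₀]
    simp only [map_sub, smul_sub]
    abel
  rw [e]
  refine (norm_add₃_le).trans (le_of_eq ?_)
  rw [norm_smul, norm_smul, norm_phs, one_mul, one_mul, norm_U_apply, norm_U_apply, norm_U_apply,
    norm_U_apply]

end Crest.Agent.R339.Lab
end
end

-- ▼ part R339/Lab373E
section

/-!
# Calibrated pulse sequences: the induction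
-/

set_option autoImplicit false

noncomputable section

open scoped ComplexConjugate InnerProductSpace Topology
open Filter Asymptotics Crest.MathPhysics.SpinGlass Crest.Agent.R339.Site Crest.Agent.R339.Hv

namespace Crest.Agent.R339.Lab

variable {K : Type*} [NormedAddCommGroup K] [InnerProductSpace ℂ K]

/-! ### site vectors in a rotated frame -/

/-- the site vector in the rotated frame -/
def fv (j : Sp K →ₗᵢ[ℂ] K) (β : ℝ) (V : USp K) : K := j (eVec (mixU β * V))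

lemma eVec_mix (β : ℝ) (V : USp K) : eVec (mixU β * V) =
    star (V : Sp K →L[ℂ] Sp K) (Zb β ((V : Sp K →L[ℂ] Sp K) Om)) := by
  have h : star ((mixU β * V : USp K) : Sp K →L[ℂ] Sp K) =
      star (V : Sp K →L[ℂ] Sp K) * ((mixU (-β) : USp K) : Sp K →L[ℂ] Sp K) := by
    rw [← star_mixU_coe]
    show star (((mixU β : USp K) : Sp K →L[ℂ] Sp K) * (V : Sp K →L[ℂ] Sp K)) = _
    rw [star_mul]
  show star ((mixU β * V : USp K) : Sp K →L[ℂ] Sp K) (Zop (((mixU β * V : USp K) :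
    Sp K →L[ℂ] Sp K) Om)) = _
  rw [h]
  rfl

lemma eVec_eq (V : USp K) : eVec V = star (V : Sp K →L[ℂ] Sp K) (Zop ((V : Sp K →L[ℂ] Sp K) Om)) :=
  rfl

lemma norm_eVec (V : USp K) : ‖eVec V‖ = 1 := by
  rw [eVec_eq, norm_star_U_apply, norm_Zop_apply, norm_U_apply, norm_Om]

lemma norm_fv (j : Sp K →ₗᵢ[ℂ] K) (β : ℝ) (V : USp K) : ‖fv j β V‖ = 1 := by
  rw [fv, LinearIsometry.norm_map, norm_eVec]

lemma inner_star_star (V : USp K) (x y : Sp K) : ⟪star (V : Sp K →L[ℂ] Sp K) x,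
    star (V : Sp K →L[ℂ] Sp K) y⟫_ℂ = ⟪x, y⟫_ℂ := by
  rw [ContinuousLinearMap.star_eq_adjoint, ContinuousLinearMap.adjoint_inner_left,
    ← ContinuousLinearMap.star_eq_adjoint, ← mul_apply_eq_comp, U_mul_star_self]
  rfl

lemma U_star_apply (V : USp K) (x : Sp K) : (V : Sp K →L[ℂ] Sp K)
    (star (V : Sp K →L[ℂ] Sp K) x) = x := by
  rw [← mul_apply_eq_comp, U_mul_star_self]; rfl

lemma star_U_apply (V : USp K) (x : Sp K) : star (V : Sp K →L[ℂ] Sp K)
    ((V : Sp K →L[ℂ] Sp K) x) = x := by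
  rw [← mul_apply_eq_comp, star_U_mul_self]; rfl

lemma inner_U_U (V : USp K) (x y : Sp K) : ⟪(V : Sp K →L[ℂ] Sp K) x,
    (V : Sp K →L[ℂ] Sp K) y⟫_ℂ = ⟪x, y⟫_ℂ := by
  rw [← inner_star_star V, star_U_apply, star_U_apply]

/-- `e` and the rotated vector of `Q V`: the basic scalar. -/
lemma inner_eVec (β : ℝ) (Q V : USp K) : ⟪eVec V, eVec (mixU β * (Q * V))⟫_ℂ =
    ⟪(Q : Sp K →L[ℂ] Sp K) (Zop ((V : Sp K →L[ℂ] Sp K) Om)),
      Zb β ((Q : Sp K →L[ℂ] Sp K) ((V : Sp K →L[ℂ] Sp K) Om))⟫_ℂ := by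
  have h : star ((Q * V : USp K) : Sp K →L[ℂ] Sp K) =
      star (V : Sp K →L[ℂ] Sp K) * star (Q : Sp K →L[ℂ] Sp K) := by
    show star ((Q : Sp K →L[ℂ] Sp K) * (V : Sp K →L[ℂ] Sp K)) = _
    rw [star_mul]
  rw [eVec_mix, h, eVec_eq]
  show ⟪star (V : Sp K →L[ℂ] Sp K) _, star (V : Sp K →L[ℂ] Sp K) (star (Q : Sp K →L[ℂ] Sp K) _)⟫_ℂ = _
  rw [inner_star_star, ← inner_U_U Q, U_star_apply]
  rfl

/-- how the rotated vector changes under `Q` -/
lemma norm_fv_sub_le (j : Sp K →ₗᵢ[ℂ] K) (β : ℝ) (Q V : USp K) :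
    ‖fv j β (Q * V) - fv j β V‖ ≤
      ‖(Q : Sp K →L[ℂ] Sp K) ((V : Sp K →L[ℂ] Sp K) Om) - (V : Sp K →L[ℂ] Sp K) Om‖ +
      ‖(Q : Sp K →L[ℂ] Sp K) (Zb β ((V : Sp K →L[ℂ] Sp K) Om)) - Zb β ((V : Sp K →L[ℂ] Sp K) Om)‖ := by
  have h : star ((Q * V : USp K) : Sp K →L[ℂ] Sp K) =
      star (V : Sp K →L[ℂ] Sp K) * star (Q : Sp K →L[ℂ] Sp K) := by
    show star ((Q : Sp K →L[ℂ] Sp K) * (V : Sp K →L[ℂ] Sp K)) = _
    rw [star_mul]
  set ω := (V : Sp K →L[ℂ] Sp K) Om with hω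
  have e1 : fv j β (Q * V) - fv j β V = j (star (V : Sp K →L[ℂ] Sp K)
      (star (Q : Sp K →L[ℂ] Sp K) (Zb β ((Q : Sp K →L[ℂ] Sp K) ω)) - Zb β ω)) := by
    rw [fv, fv, eVec_mix, eVec_mix, h, map_sub, map_sub]
    rfl
  rw [e1, LinearIsometry.norm_map, norm_star_U_apply]
  have e2 : star (Q : Sp K →L[ℂ] Sp K) (Zb β ((Q : Sp K →L[ℂ] Sp K) ω)) - Zb β ω =
      star (Q : Sp K →L[ℂ] Sp K) (Zb β ((Q : Sp K →L[ℂ] Sp K) ω - ω) -
        ((Q : Sp K →L[ℂ] Sp K) (Zb β ω) - Zb β ω)) := by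
    rw [map_sub, map_sub, map_sub, map_sub, star_U_apply]
    abel
  rw [e2, norm_star_U_apply]
  refine (norm_sub_le _ _).trans ?_
  rw [norm_Zb_apply]

/-! ### the calibrated pulse sequence -/

/-- the calibrated pulse vector -/
def pst (j : Sp K →ₗᵢ[ℂ] K) (ε : ℝ) (y : K) (β σ : ℝ) (V : USp K) : K :=
  ((σ * Real.pi * ε / (2 * (⟪y, fv j β V⟫_ℂ).im) : ℝ) : ℂ) • fv j β V

/-- the sequence of states -/
def Vs (j : Sp K →ₗᵢ[ℂ] K) (ε : ℝ) (y : K) (β σ : ℕ → ℝ) (V : USp K) : ℕ → USp K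
  | 0 => V
  | i + 1 => Pu (β i) (pst j ε y (β i) (σ i) (Vs j ε y β σ V i)) * Vs j ε y β σ V i


section puls

variable {j : ℕ → (Sp K →ₗᵢ[ℂ] K)} {ε : ℕ → ℝ} {y : ℕ → K} {β σ : ℕ → ℝ} {V : ℕ → USp K}

/-- the pulse vectors -/
def us (j : ℕ → (Sp K →ₗᵢ[ℂ] K)) (ε : ℕ → ℝ) (y : ℕ → K) (β σ : ℕ → ℝ) (V : ℕ → USp K)
    (i n : ℕ) : K := pst (j n) (ε n) (y n) (β i) (σ i) (Vs (j n) (ε n) (y n) β σ (V n) i)

/-- the site vectors -/
def fs (j : ℕ → (Sp K →ₗᵢ[ℂ] K)) (ε : ℕ → ℝ) (y : ℕ → K) (β σ : ℕ → ℝ) (V : ℕ → USp K)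
    (i n : ℕ) : K := fv (j n) (β i) (Vs (j n) (ε n) (y n) β σ (V n) i)

lemma Vs_eq (i n : ℕ) : Vs (j n) (ε n) (y n) β σ (V n) i = Qs β (us j ε y β σ V) i n * V n := by
  induction i with
  | zero => rw [Qs_zero, one_mul]; rfl
  | succ i ih =>
    show Pu (β i) (us j ε y β σ V i n) * Vs (j n) (ε n) (y n) β σ (V n) i =
      (Pu (β i) (us j ε y β σ V i n) * Qs β (us j ε y β σ V) i n) * V n
    rw [ih, mul_assoc]

lemma us_eq (i n : ℕ) : us j ε y β σ V i n =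
    ((σ i * Real.pi * ε n / (2 * (⟪y n, fs j ε y β σ V i n⟫_ℂ).im) : ℝ) : ℂ) •
      fs j ε y β σ V i n := rfl

lemma norm_fs (i n : ℕ) : ‖fs j ε y β σ V i n‖ = 1 := norm_fv _ _ _

lemma bdd_of_eventually {E : Type*} [SeminormedAddCommGroup E] {f : ℕ → E} {T : ℝ}
    (h : ∀ᶠ n in atTop, ‖f n‖ ≤ T) : Bdd f := by
  obtain ⟨N, hN⟩ := eventually_atTop.mp h
  refine ⟨T + ∑ i ∈ Finset.range N, ‖f i‖, fun n => ?_⟩
  have h0 : 0 ≤ ∑ i ∈ Finset.range N, ‖f i‖ := Finset.sum_nonneg fun i _ => norm_nonneg _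
  rcases lt_or_ge n N with hn | hn
  · have h1 : ‖f n‖ ≤ ∑ i ∈ Finset.range N, ‖f i‖ :=
      Finset.single_le_sum (f := fun i => ‖f i‖) (fun i _ => norm_nonneg _) (Finset.mem_range.mpr hn)
    have hT : 0 ≤ T := (norm_nonneg _).trans (hN N le_rfl)
    linarith
  · have := hN n hn
    linarith

lemma bdd_of_isBigO_one {E : Type*} [SeminormedAddCommGroup E] {f : ℕ → E}
    (h : f =O[atTop] (fun _ => (1 : ℝ))) : Bdd f := by
  obtain ⟨C, hC⟩ := h.bound
  refine bdd_of_eventually (T := C) ?_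
  filter_upwards [hC] with n hn
  simpa using hn


/-- A frame: light and heavy decomposition of the current state. -/
structure Frame (ε : ℕ → ℝ) (y : ℕ → K) (V : ℕ → USp K) (w : ℕ → K) (lam : ℕ → Sp K)
    (lam₀ : Sp K) (c : ℕ → ℂ) (ηp ηm : ℕ → Sp K) : Prop where
  L : Light ε w lam lam₀
  hc : ∀ n, ‖c n‖ = 1
  dec : ∀ n, c n • (V n : Sp K →L[ℂ] Sp K) Om = ((Real.cos (ε n) : ℝ) : ℂ) • zet w lam n -
    (Complex.I * ((Real.sin (ε n) : ℝ) : ℂ)) • (ηp n + ηm n)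
  bp : Bdd ηp
  bm : Bdd ηm
  by' : Bdd y

variable {w : ℕ → K} {lam : ℕ → Sp K} {lam₀ : Sp K} {c : ℕ → ℂ} {ηp ηm : ℕ → Sp K}

lemma tendsto_sin_zero {ε : ℕ → ℝ} (hε : Tendsto ε atTop (𝓝 0)) :
    Tendsto (fun n => Real.sin (ε n)) atTop (𝓝 0) := by
  have := (Real.continuous_sin.tendsto 0).comp hε
  rwa [Real.sin_zero] at this

/-- closeness of `Q` to `1` on `ω` -/
lemma Frame.Q_om (F : Frame ε y V w lam lam₀ c ηp ηm) (u : ℕ → ℕ → K) (i : ℕ)
    (hu : ∀ k < i, Sm ε w (u k)) {A : Sp K →L[ℂ] Sp K} (hA : IsSpin A) :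
    Tendsto (fun n => ‖((Qs β u i n : USp K) : Sp K →L[ℂ] Sp K) (A ((V n : Sp K →L[ℂ] Sp K) Om)) -
      A ((V n : Sp K →L[ℂ] Sp K) Om)‖) atTop (𝓝 0) := by
  obtain ⟨Cp, hCp⟩ := F.bp
  obtain ⟨Cm, hCm⟩ := F.bm
  have h1 := (F.L.prod_O β u i hu hA).trans_tendsto F.L.eps
  have h2 : Tendsto (fun n => ‖((Qs β u i n : USp K) : Sp K →L[ℂ] Sp K) (A (zet w lam n)) -
      A (zet w lam n)‖ + 2 * (|Real.sin (ε n)| * (‖A‖ * (Cp + Cm)))) atTop (𝓝 0) := by
    have := h1.norm.add (((tendsto_sin_zero F.L.eps).abs.mul_const (‖A‖ * (Cp + Cm))).const_mul 2)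
    simpa using this
  refine squeeze_zero (fun n => norm_nonneg _) (fun n => ?_) h2
  set Q := ((Qs β u i n : USp K) : Sp K →L[ℂ] Sp K)
  set ω := (V n : Sp K →L[ℂ] Sp K) Om with hω
  have e0 : ‖Q (A ω) - A ω‖ = ‖Q (A (c n • ω)) - A (c n • ω)‖ := by
    rw [map_smul, map_smul, ← smul_sub, norm_smul, F.hc, one_mul]
  rw [e0, hω, F.dec]
  have e1 : Q (A (((Real.cos (ε n) : ℝ) : ℂ) • zet w lam n -
      (Complex.I * ((Real.sin (ε n) : ℝ) : ℂ)) • (ηp n + ηm n))) -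
      A (((Real.cos (ε n) : ℝ) : ℂ) • zet w lam n -
      (Complex.I * ((Real.sin (ε n) : ℝ) : ℂ)) • (ηp n + ηm n)) =
      ((Real.cos (ε n) : ℝ) : ℂ) • (Q (A (zet w lam n)) - A (zet w lam n)) -
      (Complex.I * ((Real.sin (ε n) : ℝ) : ℂ)) • (Q (A (ηp n + ηm n)) - A (ηp n + ηm n)) := by
    simp only [map_sub, map_smul, smul_sub]
    abel
  rw [e1]
  refine (norm_sub_le _ _).trans ?_
  rw [norm_smul, norm_smul, Complex.norm_real, norm_mul, Complex.norm_I, one_mul,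
    Complex.norm_real, Real.norm_eq_abs, Real.norm_eq_abs]
  have h3 : ‖Q (A (ηp n + ηm n)) - A (ηp n + ηm n)‖ ≤ 2 * (‖A‖ * (Cp + Cm)) := by
    have h4 : ‖A (ηp n + ηm n)‖ ≤ ‖A‖ * (Cp + Cm) :=
      (A.le_opNorm _).trans (mul_le_mul_of_nonneg_left ((norm_add_le _ _).trans
        (add_le_add (hCp n) (hCm n))) (norm_nonneg _))
    refine (norm_sub_le _ _).trans ?_
    rw [norm_U_apply]
    linarith
  have h5 : |Real.cos (ε n)| * ‖Q (A (zet w lam n)) - A (zet w lam n)‖ ≤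
      1 * ‖Q (A (zet w lam n)) - A (zet w lam n)‖ :=
    mul_le_mul_of_nonneg_right (Real.abs_cos_le_one _) (norm_nonneg _)
  have h6 := mul_le_mul_of_nonneg_left h3 (abs_nonneg (Real.sin (ε n)))
  linarith


/-- The induction over the pulses. -/
lemma Frame.ind' (F : Frame ε y V w lam lam₀ c ηp ηm) (hσ : ∀ i, σ i = 1 ∨ σ i = -1)
    {q : ℝ} (hq : 0 < q)
    (hlow : ∀ i, ∀ᶠ n in atTop, q ≤ |(⟪y n, fv (j n) (β i) (V n)⟫_ℂ).im|)
    (hA : ∀ i, (∀ k < i, Sm ε w (us j ε y β σ V k)) →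
      (∀ k < i, ∀ᶠ n in atTop, q / 2 ≤ |(⟪y n, fs j ε y β σ V k n⟫_ℂ).im|) →
      Tendsto (fun n => (⟪w n, fs j ε y β σ V i n⟫_ℂ).im) atTop (𝓝 0)) :
    ∀ i, Sm ε w (us j ε y β σ V i) ∧
      (∀ᶠ n in atTop, q / 2 ≤ |(⟪y n, fs j ε y β σ V i n⟫_ℂ).im|) ∧
      Tendsto (fun n => fs j ε y β σ V i n - fv (j n) (β i) (V n)) atTop (𝓝 0) := by
  intro i
  induction i using Nat.strong_induction_on with
  | _ i ih =>
    have hSm : ∀ k < i, Sm ε w (us j ε y β σ V k) := fun k hk => (ih k hk).1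
    -- closeness of the site vectors
    have h3 : Tendsto (fun n => fs j ε y β σ V i n - fv (j n) (β i) (V n)) atTop (𝓝 0) := by
      rw [tendsto_zero_iff_norm_tendsto_zero]
      have a1 := F.Q_om (β := β) (us j ε y β σ V) i hSm isSpin_one
      have a2 := F.Q_om (β := β) (us j ε y β σ V) i hSm (isSpin_Zb (β i))
      have a3 := a1.add a2
      rw [add_zero] at a3
      refine squeeze_zero (fun n => norm_nonneg _) (fun n => ?_) a3
      rw [fs, Vs_eq]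
      exact norm_fv_sub_le _ _ _ _
    -- the lower bound
    have h2 : ∀ᶠ n in atTop, q / 2 ≤ |(⟪y n, fs j ε y β σ V i n⟫_ℂ).im| := by
      obtain ⟨T, hT⟩ := F.by'
      have b1 : Tendsto (fun n => T * ‖fs j ε y β σ V i n - fv (j n) (β i) (V n)‖) atTop (𝓝 0) := by
        have := h3.norm.const_mul T
        simpa using this
      filter_upwards [hlow i, b1.eventually_le_const (show (0 : ℝ) < q / 2 by positivity)]
        with n hn1 hn2
      have e : (⟪y n, fv (j n) (β i) (V n)⟫_ℂ).im = (⟪y n, fs j ε y β σ V i n⟫_ℂ).im -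
          (⟪y n, fs j ε y β σ V i n - fv (j n) (β i) (V n)⟫_ℂ).im := by
        rw [inner_sub_right, Complex.sub_im]; ring
      have b2 := Lab.abs_im_inner_le (y n) (fs j ε y β σ V i n - fv (j n) (β i) (V n))
      have b3 := mul_le_mul_of_nonneg_right (hT n)
        (norm_nonneg (fs j ε y β σ V i n - fv (j n) (β i) (V n)))
      have b4 := abs_sub (⟪y n, fs j ε y β σ V i n⟫_ℂ).im
        (⟪y n, fs j ε y β σ V i n - fv (j n) (β i) (V n)⟫_ℂ).im
      rw [← e] at b4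
      linarith
    refine ⟨⟨?_, ?_⟩, h2, h3⟩
    · refine IsBigO.of_bound (Real.pi / q) ?_
      filter_upwards [h2] with n hn
      rw [us_eq, norm_smul, norm_fs, mul_one, Complex.norm_real, Real.norm_eq_abs, abs_div, abs_mul,
        abs_mul, abs_mul, abs_of_pos (F.L.eps_pos n), abs_of_pos Real.pi_pos, abs_two,
        Real.norm_of_nonneg (F.L.eps_pos n).le]
      have hs : |σ i| = 1 := by rcases hσ i with h | h <;> rw [h] <;> norm_num
      rw [hs, one_mul]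
      have hpos : 0 < |(⟪y n, fs j ε y β σ V i n⟫_ℂ).im| := lt_of_lt_of_le (by positivity) hn
      rw [div_le_iff₀ (by positivity), div_mul_eq_mul_div, div_mul_eq_mul_div, le_div_iff₀ hq]
      have : 0 ≤ Real.pi * ε n := mul_nonneg Real.pi_pos.le (F.L.eps_pos n).le
      nlinarith
    · have a1 := hA i hSm fun k hk => (ih k hk).2.1
      have a2 : (fun n => σ i * Real.pi * ε n / (2 * (⟪y n, fs j ε y β σ V i n⟫_ℂ).im))
          =O[atTop] ε := by
        refine IsBigO.of_bound (Real.pi / q) ?_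
        filter_upwards [h2] with n hn
        rw [Real.norm_eq_abs, abs_div, abs_mul,
          abs_mul, abs_mul, abs_of_pos (F.L.eps_pos n), abs_of_pos Real.pi_pos, abs_two,
          Real.norm_of_nonneg (F.L.eps_pos n).le]
        have hs : |σ i| = 1 := by rcases hσ i with h | h <;> rw [h] <;> norm_num
        rw [hs, one_mul]
        have hpos : 0 < |(⟪y n, fs j ε y β σ V i n⟫_ℂ).im| := lt_of_lt_of_le (by positivity) hn
        rw [div_le_iff₀ (by positivity), div_mul_eq_mul_div, div_mul_eq_mul_div, le_div_iff₀ hq]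
        have : 0 ≤ Real.pi * ε n := mul_nonneg Real.pi_pos.le (F.L.eps_pos n).le
        nlinarith
      have a3 : (fun n => (⟪w n, fs j ε y β σ V i n⟫_ℂ).im) =o[atTop] (fun _ => (1 : ℝ)) :=
        (isLittleO_one_iff ℝ).mpr a1
      have a4 := a2.mul_isLittleO a3
      simp only [mul_one] at a4
      refine a4.congr_left fun n => ?_
      rw [us_eq, inner_smul_right, Complex.im_ofReal_mul]

end puls

section puls2

variable {j : ℕ → (Sp K →ₗᵢ[ℂ] K)} {ε : ℕ → ℝ} {y : ℕ → K} {β σ : ℕ → ℝ} {V : ℕ → USp K}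
variable {w : ℕ → K} {lam : ℕ → Sp K} {lam₀ : Sp K} {c : ℕ → ℂ} {ηp ηm : ℕ → Sp K}

/-- the calibrated pulses on a heavy family -/
lemma heavy_Qs {b b' : ℝ} {h : ℕ → Sp K} (H : Heavy ε b b' y h) (hb : Bdd h)
    (hb1 : b = 1 ∨ b = -1) (hσ : ∀ i, σ i = 1 ∨ σ i = -1) {q : ℝ} (hq : 0 < q)
    {N : ℕ} (hlow : ∀ i < N, ∀ᶠ n in atTop, q ≤ |(⟪y n, fs j ε y β σ V i n⟫_ℂ).im|) :
    ∀ i ≤ N, Tendsto (fun n => ((Qs β (us j ε y β σ V) i n : USp K) : Sp K →L[ℂ] Sp K) (h n) -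
      pulM b β σ i (h n)) atTop (𝓝 0) := by
  set τ : ℕ → ℕ → K := fun i n => ((σ i * Real.pi / (2 * (⟪y n, fs j ε y β σ V i n⟫_ℂ).im) : ℝ) : ℂ) •
      fs j ε y β σ V i n with hτ
  have hτu : ∀ i n, us j ε y β σ V i n = (ε n : ℂ) • τ i n := by
    intro i n
    rw [us_eq, hτ, smul_smul, ← Complex.ofReal_mul]
    congr 2
    ring
  refine Heavy.pulses H hb hb1 hσ (τ := τ) (N := N) (g := fun i n =>
    ((Qs β (us j ε y β σ V) i n : USp K) : Sp K →L[ℂ] Sp K) (h n)) ?_ ?_ ?_ ?_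
  · intro i hi
    refine bdd_of_eventually (T := Real.pi / (2 * q)) ?_
    filter_upwards [hlow i hi] with n hn
    rw [hτ]
    simp only
    rw [norm_smul, norm_fs, mul_one, Complex.norm_real, Real.norm_eq_abs, abs_div, abs_mul,
        abs_mul, abs_of_pos Real.pi_pos, abs_two]
    have hs : |σ i| = 1 := by rcases hσ i with h | h <;> rw [h] <;> norm_num
    rw [hs, one_mul]
    exact div_le_div_of_nonneg_left Real.pi_pos.le (by positivity) (by linarith)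
  · intro i hi
    have : ∀ᶠ n in atTop, σ i * (Real.pi / 2) = (⟪y n, τ i n⟫_ℂ).im := by
      filter_upwards [hlow i hi] with n hn
      have hne : (⟪y n, fs j ε y β σ V i n⟫_ℂ).im ≠ 0 := by
        intro h0
        rw [h0, abs_zero] at hn
        linarith
      rw [hτ]
      simp only
      rw [inner_smul_right, Complex.im_ofReal_mul]
      field_simp
    exact tendsto_const_nhds.congr' this
  · intro n; rfl
  · intro i hi n
    show ((Qs β (us j ε y β σ V) (i + 1) n : USp K) : Sp K →L[ℂ] Sp K) (h n) = _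
    rw [Qs_succ_apply, hτu]


/-- Overlap data: `ζ` is asymptotically orthogonal to the heavy vectors. -/
def Ov (ζ η : ℕ → Sp K) : Prop := ∀ A A' : Sp K →L[ℂ] Sp K, IsSpin A → IsSpin A' →
  Tendsto (fun n => ⟪A (ζ n), A' (η n)⟫_ℂ) atTop (𝓝 0)

lemma tendsto_inner_of_close {x x' z z' : ℕ → Sp K} (hx : Bdd x) (hz' : Bdd z')
    (h1 : Tendsto (fun n => x n - x' n) atTop (𝓝 0)) (h2 : Tendsto (fun n => z n - z' n) atTop (𝓝 0))
    (h3 : Tendsto (fun n => ⟪x' n, z' n⟫_ℂ) atTop (𝓝 0)) :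
    Tendsto (fun n => ⟪x n, z n⟫_ℂ) atTop (𝓝 0) := by
  obtain ⟨T, hT⟩ := hx
  obtain ⟨T', hT'⟩ := hz'
  have a1 : Tendsto (fun n => ⟪x n, z n - z' n⟫_ℂ) atTop (𝓝 0) := by
    refine tendsto_zero_of_norm_le (C := T) h2 fun n => ?_
    exact (norm_inner_le_norm _ _).trans (mul_le_mul_of_nonneg_right (hT n) (norm_nonneg _))
  have a2 : Tendsto (fun n => ⟪x n - x' n, z' n⟫_ℂ) atTop (𝓝 0) := by
    refine tendsto_zero_of_norm_le (C := T') h1 fun n => ?_
    refine (norm_inner_le_norm _ _).trans ?_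
    rw [mul_comm]
    exact mul_le_mul_of_nonneg_right (hT' n) (norm_nonneg _)
  have := (a1.add a2).add h3
  rw [add_zero, add_zero] at this
  refine this.congr fun n => ?_
  rw [inner_sub_right, inner_sub_left]
  ring

/-- cross term, light on the left -/
lemma cross1 {b b' : ℝ} {h : ℕ → Sp K} (H : Heavy ε b b' y h) (hb : Bdd h)
    (hb1 : b = 1 ∨ b = -1) (L : Light ε w lam lam₀) (hov : Ov (zet w lam) h)
    (hσ : ∀ i, σ i = 1 ∨ σ i = -1) {q : ℝ} (hq : 0 < q)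
    {i : ℕ} (hSm : ∀ k < i, Sm ε w (us j ε y β σ V k))
    (hlow : ∀ k < i, ∀ᶠ n in atTop, q ≤ |(⟪y n, fs j ε y β σ V k n⟫_ℂ).im|)
    {A A' : Sp K →L[ℂ] Sp K} (hA : IsSpin A) (hA' : IsSpin A') :
    Tendsto (fun n => ⟪((Qs β (us j ε y β σ V) i n : USp K) : Sp K →L[ℂ] Sp K) (A (zet w lam n)),
      A' (((Qs β (us j ε y β σ V) i n : USp K) : Sp K →L[ℂ] Sp K) (h n))⟫_ℂ) atTop (𝓝 0) := by
  have h1 := (L.prod_O β (us j ε y β σ V) i hSm hA).trans_tendsto L.eps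
  have h2 := heavy_Qs H hb hb1 hσ hq hlow i le_rfl
  have h3 : Tendsto (fun n => A' (((Qs β (us j ε y β σ V) i n : USp K) : Sp K →L[ℂ] Sp K) (h n)) -
      A' (pulM b β σ i (h n))) atTop (𝓝 0) := by
    have := (A'.continuous.tendsto 0).comp h2
    rw [map_zero] at this
    refine this.congr fun n => ?_
    simp only [Function.comp, map_sub]
  have h4 : Tendsto (fun n => ⟪A (zet w lam n), A' (pulM b β σ i (h n))⟫_ℂ) atTop (𝓝 0) := by
    refine (hov A (A' * pulM b β σ i) hA (hA'.mul (isSpin_pulM b β σ i))).congr fun n => ?_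
    rw [mul_apply_eq_comp]
  refine tendsto_inner_of_close
    (x := fun n => ((Qs β (us j ε y β σ V) i n : USp K) : Sp K →L[ℂ] Sp K) (A (zet w lam n)))
    (x' := fun n => A (zet w lam n))
    (z := fun n => A' (((Qs β (us j ε y β σ V) i n : USp K) : Sp K →L[ℂ] Sp K) (h n)))
    (z' := fun n => A' (pulM b β σ i (h n))) ?_ ?_ h1 h3 h4
  · obtain ⟨T, hT⟩ := bdd_of_isBigO_one L.zet_bdd
    refine ⟨‖A‖ * T, fun n => ?_⟩
    rw [norm_U_apply]
    exact (A.le_opNorm _).trans (mul_le_mul_of_nonneg_left (hT n) (norm_nonneg _))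
  · obtain ⟨T, hT⟩ := hb
    set M : Sp K →L[ℂ] Sp K := pulM b β σ i with hM
    refine ⟨‖A'‖ * (‖M‖ * T), fun n => ?_⟩
    refine (A'.le_opNorm _).trans (mul_le_mul_of_nonneg_left ?_ (norm_nonneg _))
    exact (M.le_opNorm _).trans (mul_le_mul_of_nonneg_left (hT n) (norm_nonneg _))

set_option maxHeartbeats 400000 in
/-- The site scalars `a c_i` tend to zero in the scrambled frame. -/
lemma Frame.scr (F : Frame ε y V w lam lam₀ c ηp ηm) (hσ : ∀ i, σ i = 1 ∨ σ i = -1)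
    {b1 b2 : ℝ} (Hp : Heavy ε 1 b1 y ηp) (Hm : Heavy ε (-1) b2 y ηm)
    (hop : Ov (zet w lam) ηp) (hom : Ov (zet w lam) ηm)
    {h : ℕ → K} (hs : Scr ε w h) {a : ℕ → ℝ} (hw : ∀ n, w n = (a n : ℂ) • j n (eVec (V n)))
    {T : ℝ} (ha : ∀ n, |a n| * ε n ≤ T)
    {q : ℝ} (hq : 0 < q) {i : ℕ} (hSm : ∀ k < i, Sm ε w (us j ε y β σ V k))
    (hlow : ∀ k < i, ∀ᶠ n in atTop, q ≤ |(⟪y n, fs j ε y β σ V k n⟫_ℂ).im|) :
    Tendsto (fun n => (⟪w n, fs j ε y β σ V i n⟫_ℂ).im) atTop (𝓝 0) := by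
  set Q : ℕ → Sp K →L[ℂ] Sp K := fun n => ((Qs β (us j ε y β σ V) i n : USp K) : Sp K →L[ℂ] Sp K)
    with hQ
  set ζ := zet w lam with hζ
  set G : ℕ → Sp K → Sp K → ℂ := fun n x x' => ⟪Q n (Zop x), Zb (β i) (Q n x')⟫_ℂ with hG
  have hGadd1 : ∀ n x x' z, G n (x + x') z = G n x z + G n x' z := by
    intro n x x' z; simp only [hG, map_add, inner_add_left]
  have hGadd2 : ∀ n x z z', G n x (z + z') = G n x z + G n x z' := by
    intro n x x' z; simp only [hG, map_add, inner_add_right]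
  have hGs1 : ∀ n (t : ℂ) x z, G n (t • x) z = conj t * G n x z := by
    intro n t x z; simp only [hG, map_smul, inner_smul_left]
  have hGs2 : ∀ n (t : ℂ) x z, G n x (t • z) = t * G n x z := by
    intro n t x z; simp only [hG, map_smul, inner_smul_right]
  have hGn : ∀ n x z, ‖G n x z‖ ≤ ‖x‖ * ‖z‖ := by
    intro n x z
    simp only [hG]
    refine (norm_inner_le_norm _ _).trans (le_of_eq ?_)
    rw [norm_Zb_apply, hQ]
    simp only
    rw [norm_U_apply, norm_U_apply, norm_Zop_apply]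
  -- the basic identity
  have hid : ∀ n, (⟪w n, fs j ε y β σ V i n⟫_ℂ).im =
      a n * (G n (c n • (V n : Sp K →L[ℂ] Sp K) Om) (c n • (V n : Sp K →L[ℂ] Sp K) Om)).im := by
    intro n
    rw [hw, inner_smul_left, Complex.conj_ofReal, Complex.im_ofReal_mul, hGs1, hGs2, ← mul_assoc]
    have hcc : conj (c n) * c n = 1 := by
      rw [← Complex.normSq_eq_conj_mul_self, Complex.normSq_eq_norm_sq, F.hc]; simp
    rw [hcc, one_mul, fs, fv, LinearIsometry.inner_map_map, Vs_eq, inner_eVec]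
  -- pieces
  have hLL : (fun n => (G n (ζ n) (ζ n)).im) =o[atTop] ε :=
    F.L.LL hs β (us j ε y β σ V) i hSm
  have hbζ : Bdd ζ := bdd_of_isBigO_one F.L.zet_bdd
  have hZp : Heavy ε 1 b1 y (fun n => Zop (ηp n)) :=
    Hp.map (A := fun _ => Zop) (fun _ => isSpin_Zop) (fun _ _ => rfl) (C := 1)
      (fun _ v => by rw [norm_Zop_apply, one_mul])
  have hZm : Heavy ε (-1) b2 y (fun n => Zop (ηm n)) :=
    Hm.map (A := fun _ => Zop) (fun _ => isSpin_Zop) (fun _ _ => rfl) (C := 1)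
      (fun _ v => by rw [norm_Zop_apply, one_mul])
  have hbZp : Bdd (fun n => Zop (ηp n)) := F.bp.mono fun n => by rw [norm_Zop_apply]
  have hbZm : Bdd (fun n => Zop (ηm n)) := F.bm.mono fun n => by rw [norm_Zop_apply]
  have hopZ : Ov ζ (fun n => Zop (ηp n)) := fun A A' hA hA' =>
    (hop A (A' * Zop) hA (hA'.mul isSpin_Zop)).congr fun n => by rw [mul_apply_eq_comp]
  have homZ : Ov ζ (fun n => Zop (ηm n)) := fun A A' hA hA' =>
    (hom A (A' * Zop) hA (hA'.mul isSpin_Zop)).congr fun n => by rw [mul_apply_eq_comp]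
  have c1 : Tendsto (fun n => G n (ζ n) (ηp n)) atTop (𝓝 0) :=
    cross1 Hp F.bp (Or.inl rfl) F.L hop hσ hq hSm hlow isSpin_Zop (isSpin_Zb _)
  have c2 : Tendsto (fun n => G n (ζ n) (ηm n)) atTop (𝓝 0) :=
    cross1 Hm F.bm (Or.inr rfl) F.L hom hσ hq hSm hlow isSpin_Zop (isSpin_Zb _)
  have hflip : ∀ (x z : ℕ → Sp K), Tendsto (fun n => ⟪Q n (x n), Zb (β i) (Q n (z n))⟫_ℂ) atTop (𝓝 0) →
      Tendsto (fun n => ⟪Q n (z n), Zb (β i) (Q n (x n))⟫_ℂ) atTop (𝓝 0) := by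
    intro x z h0
    have h1 := (Complex.continuous_conj.tendsto 0).comp h0
    rw [map_zero] at h1
    refine h1.congr fun n => ?_
    simp only [Function.comp]
    rw [inner_conj_symm, inner_Zb_left]
  have c3 : Tendsto (fun n => G n (ηp n) (ζ n)) atTop (𝓝 0) := by
    have t := cross1 (A := 1) hZp hbZp (Or.inl rfl) F.L hopZ hσ hq hSm hlow isSpin_one
      (isSpin_Zb (β i))
    simp only [one_apply_eq_self] at t
    exact hflip (fun n => ζ n) (fun n => Zop (ηp n)) t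
  have c4 : Tendsto (fun n => G n (ηm n) (ζ n)) atTop (𝓝 0) := by
    have t := cross1 (A := 1) hZm hbZm (Or.inr rfl) F.L homZ hσ hq hSm hlow isSpin_one
      (isSpin_Zb (β i))
    simp only [one_apply_eq_self] at t
    exact hflip (fun n => ζ n) (fun n => Zop (ηm n)) t
  have hsinO : (fun n => Real.sin (ε n)) =O[atTop] ε :=
    IsBigO.of_bound 1 (Eventually.of_forall fun n => by
      rw [one_mul, Real.norm_eq_abs, Real.norm_eq_abs]; exact Real.abs_sin_le_abs)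
  -- the total
  have htot : (fun n => (G n (c n • (V n : Sp K →L[ℂ] Sp K) Om)
      (c n • (V n : Sp K →L[ℂ] Sp K) Om)).im) =o[atTop] ε := by
    set η : ℕ → Sp K := fun n => ηp n + ηm n with hη
    have hx1 : (fun n => (-(Complex.I * ((Real.cos (ε n) * Real.sin (ε n) : ℝ) : ℂ)) *
        G n (ζ n) (η n)).im) =o[atTop] ε := by
      have t1 : Tendsto (fun n => G n (ζ n) (η n)) atTop (𝓝 0) := by
        have := c1.add c2
        rw [add_zero] at this
        exact this.congr fun n => (hGadd2 _ _ _ _).symm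
      have t2 : (fun n => G n (ζ n) (η n)) =o[atTop] (fun _ => (1 : ℝ)) := (isLittleO_one_iff ℝ).mpr t1
      have t3 : (fun n => -(Complex.I * ((Real.cos (ε n) * Real.sin (ε n) : ℝ) : ℂ))) =O[atTop] ε := by
        refine IsBigO.trans (IsBigO.of_bound 1 (Eventually.of_forall fun n => ?_)) hsinO
        rw [norm_neg, norm_mul, Complex.norm_I, one_mul, Complex.norm_real, norm_mul]
        exact mul_le_mul_of_nonneg_right (by rw [Real.norm_eq_abs]; exact Real.abs_cos_le_one _)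
          (norm_nonneg _)
      have t4 := t3.mul_isLittleO t2
      simp only [mul_one] at t4
      exact isLittleO_im t4
    have hx2 : (fun n => ((Complex.I * ((Real.cos (ε n) * Real.sin (ε n) : ℝ) : ℂ)) *
        G n (η n) (ζ n)).im) =o[atTop] ε := by
      have t1 : Tendsto (fun n => G n (η n) (ζ n)) atTop (𝓝 0) := by
        have := c3.add c4
        rw [add_zero] at this
        exact this.congr fun n => (hGadd1 _ _ _ _).symm
      have t2 : (fun n => G n (η n) (ζ n)) =o[atTop] (fun _ => (1 : ℝ)) := (isLittleO_one_iff ℝ).mpr t1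
      have t3 : (fun n => (Complex.I * ((Real.cos (ε n) * Real.sin (ε n) : ℝ) : ℂ))) =O[atTop] ε := by
        refine IsBigO.trans (IsBigO.of_bound 1 (Eventually.of_forall fun n => ?_)) hsinO
        rw [norm_mul, Complex.norm_I, one_mul, Complex.norm_real, norm_mul]
        exact mul_le_mul_of_nonneg_right (by rw [Real.norm_eq_abs]; exact Real.abs_cos_le_one _)
          (norm_nonneg _)
      have t4 := t3.mul_isLittleO t2
      simp only [mul_one] at t4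
      exact isLittleO_im t4
    have hx3 : (fun n => ((((Real.sin (ε n)) ^ 2 : ℝ) : ℂ) * G n (η n) (η n)).im) =o[atTop] ε := by
      obtain ⟨Cp, hCp⟩ := F.bp
      obtain ⟨Cm, hCm⟩ := F.bm
      have t1 := mul_self_isLittleO F.L.eps hsinO hsinO
      have t2 : (fun n => (((Real.sin (ε n)) ^ 2 : ℝ) : ℂ) * G n (η n) (η n)) =o[atTop] ε := by
        refine IsBigO.trans_isLittleO (IsBigO.of_bound ((Cp + Cm) * (Cp + Cm))
          (Eventually.of_forall fun n => ?_)) t1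
        rw [norm_mul, Complex.norm_real, mul_comm, sq]
        refine mul_le_mul_of_nonneg_right ((hGn _ _ _).trans ?_) (norm_nonneg _)
        have : ‖η n‖ ≤ Cp + Cm := (norm_add_le _ _).trans (add_le_add (hCp n) (hCm n))
        exact mul_le_mul this this (norm_nonneg _) ((norm_nonneg _).trans this)
      exact isLittleO_im t2
    have hx0 : (fun n => ((((Real.cos (ε n)) ^ 2 : ℝ) : ℂ) * G n (ζ n) (ζ n)).im) =o[atTop] ε := by
      refine IsBigO.trans_isLittleO (IsBigO.of_bound 1 (Eventually.of_forall fun n => ?_)) hLL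
      rw [Complex.im_ofReal_mul, one_mul, norm_mul]
      have : ‖Real.cos (ε n) ^ 2‖ ≤ 1 := by
        rw [Real.norm_of_nonneg (sq_nonneg _)]; exact Real.cos_sq_le_one _
      calc _ ≤ 1 * ‖(G n (ζ n) (ζ n)).im‖ := mul_le_mul_of_nonneg_right this (norm_nonneg _)
        _ = _ := one_mul _
    refine ((((hx0.add hx1).add hx2).add hx3)).congr_left fun n => ?_
    have hexp : ∀ (s t : ℂ) (x z : Sp K), G n (s • x + t • z) (s • x + t • z) =
        conj s * s * G n x x + conj s * t * G n x z + conj t * s * G n z x +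
          conj t * t * G n z z := by
      intro s t x z
      rw [hGadd1, hGadd2, hGadd2, hGs1, hGs1, hGs1, hGs1, hGs2, hGs2, hGs2, hGs2]
      ring
    rw [F.dec, ← Complex.add_im, ← Complex.add_im, ← Complex.add_im]
    congr 1
    rw [sub_eq_add_neg, ← neg_smul]
    show _ = G n (((Real.cos (ε n) : ℝ) : ℂ) • ζ n +
      (-(Complex.I * ((Real.sin (ε n) : ℝ) : ℂ))) • η n) (((Real.cos (ε n) : ℝ) : ℂ) • ζ n +
      (-(Complex.I * ((Real.sin (ε n) : ℝ) : ℂ))) • η n)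
    rw [hexp]
    simp only [map_neg, map_mul, Complex.conj_I, Complex.conj_ofReal]
    rw [Complex.ofReal_pow, Complex.ofReal_pow, Complex.ofReal_mul]
    linear_combination ((((Real.sin (ε n) : ℝ) : ℂ)) ^ 2 * G n (η n) (η n)) * Complex.I_sq
  -- conclusion
  have hfin : Tendsto (fun n => a n * (G n (c n • (V n : Sp K →L[ℂ] Sp K) Om)
      (c n • (V n : Sp K →L[ℂ] Sp K) Om)).im) atTop (𝓝 0) := by
    rw [← isLittleO_one_iff ℝ]
    have a1 : (fun n => a n) =O[atTop] (fun n => (ε n)⁻¹) := by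
      refine IsBigO.of_bound T (Eventually.of_forall fun n => ?_)
      have hp := F.L.eps_pos n
      rw [Real.norm_eq_abs, norm_inv, Real.norm_of_nonneg hp.le, ← div_eq_mul_inv, le_div_iff₀ hp]
      exact ha n
    have a2 := a1.mul_isLittleO htot
    refine a2.trans_isBigO (IsBigO.of_bound 1 (Eventually.of_forall fun n => ?_))
    have hp := F.L.eps_pos n
    rw [inv_mul_cancel₀ hp.ne']
    simp
  exact hfin.congr fun n => (hid n).symm

end puls2

end Crest.Agent.R339.Lab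
end
end

-- ▼ part R339/Lab373F
section

/-!
# The scrambled rotation: all conclusions
-/

set_option autoImplicit false

noncomputable section

open scoped ComplexConjugate InnerProductSpace Topology
open Filter Asymptotics Crest.MathPhysics.SpinGlass Crest.Agent.R339.Site Crest.Agent.R339.Hv

namespace Crest.Agent.R339.Lab

variable {K : Type*} [NormedAddCommGroup K] [InnerProductSpace ℂ K]

/-! ### lower bounds for rotated site vectors -/

lemma fv_eq (j : Sp K →ₗᵢ[ℂ] K) (β : ℝ) (V : USp K) : fv j β V =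
    ((Real.cos (2 * β) : ℝ) : ℂ) • j (eVec V) + (Complex.I * ((Real.sin (2 * β) : ℝ) : ℂ)) •
      j (star (V : Sp K →L[ℂ] Sp K) (Xop (Zop ((V : Sp K →L[ℂ] Sp K) Om)))) := by
  rw [fv, eVec_mix, Zb_eq, mixU_eq, eVec_eq, Real.cos_neg, Real.sin_neg]
  simp only [map_smul, Complex.ofReal_neg, mul_neg, neg_smul, sub_neg_eq_add, map_add]

lemma fv_zero (j : Sp K →ₗᵢ[ℂ] K) (V : USp K) : fv j 0 V = j (eVec V) := by
  rw [fv, mixU_zero, one_mul]

lemma abs_im_fv_ge (j : Sp K →ₗᵢ[ℂ] K) (β : ℝ) (V : USp K) (y : K) :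
    |Real.cos (2 * β)| * |(⟪y, j (eVec V)⟫_ℂ).im| - |Real.sin (2 * β)| * ‖y‖ ≤
      |(⟪y, fv j β V⟫_ℂ).im| := by
  set x := j (star (V : Sp K →L[ℂ] Sp K) (Xop (Zop ((V : Sp K →L[ℂ] Sp K) Om)))) with hx
  have hxn : ‖x‖ = 1 := by
    rw [hx, LinearIsometry.norm_map, norm_star_U_apply, norm_Xop_apply, norm_Zop_apply,
      norm_U_apply, norm_Om]
  have e : (⟪y, fv j β V⟫_ℂ).im = Real.cos (2 * β) * (⟪y, j (eVec V)⟫_ℂ).im +
      Real.sin (2 * β) * (Complex.I * ⟪y, x⟫_ℂ).im := by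
    rw [fv_eq, inner_add_right, inner_smul_right, inner_smul_right, Complex.add_im,
      Complex.im_ofReal_mul, mul_comm Complex.I, mul_assoc, Complex.im_ofReal_mul]
  have h1 : |(Complex.I * ⟪y, x⟫_ℂ).im| ≤ ‖y‖ := by
    refine (Complex.abs_im_le_norm _).trans ?_
    rw [norm_mul, Complex.norm_I, one_mul]
    refine (norm_inner_le_norm _ _).trans ?_
    rw [hxn, mul_one]
  rw [e]
  have h2 := abs_sub_abs_le_abs_sub (Real.cos (2 * β) * (⟪y, j (eVec V)⟫_ℂ).im)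
    (-(Real.sin (2 * β) * (Complex.I * ⟪y, x⟫_ℂ).im))
  rw [abs_neg, sub_neg_eq_add, abs_mul, abs_mul] at h2
  have h3 := mul_le_mul_of_nonneg_left h1 (abs_nonneg (Real.sin (2 * β)))
  linarith

/-- normalised vectors with close directions -/
lemma tendsto_calib_sub {y f f' : ℕ → K} {q T : ℝ} (hq : 0 < q) (hy : ∀ n, ‖y n‖ ≤ T)
    (hf : ∀ n, ‖f n‖ = 1) (h1 : ∀ᶠ n in atTop, q ≤ |(⟪y n, f n⟫_ℂ).im|)
    (h2 : ∀ᶠ n in atTop, q ≤ |(⟪y n, f' n⟫_ℂ).im|)
    (h : Tendsto (fun n => f n - f' n) atTop (𝓝 0)) :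
    Tendsto (fun n => ((((⟪y n, f n⟫_ℂ).im)⁻¹ : ℝ) : ℂ) • f n -
      ((((⟪y n, f' n⟫_ℂ).im)⁻¹ : ℝ) : ℂ) • f' n) atTop (𝓝 0) := by
  rw [tendsto_zero_iff_norm_tendsto_zero] at h ⊢
  have h0 : Tendsto (fun n => (T / (q * q) + 1 / q) * ‖f n - f' n‖) atTop (𝓝 0) := by
    simpa using h.const_mul (T / (q * q) + 1 / q)
  refine squeeze_zero' (Eventually.of_forall fun n => norm_nonneg _) ?_ h0
  filter_upwards [h1, h2] with n hn1 hn2
  set I1 := (⟪y n, f n⟫_ℂ).im with hI1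
  set I2 := (⟪y n, f' n⟫_ℂ).im with hI2
  have hp1 : 0 < |I1| := lt_of_lt_of_le hq hn1
  have hp2 : 0 < |I2| := lt_of_lt_of_le hq hn2
  have hne1 : I1 ≠ 0 := abs_pos.mp hp1
  have hne2 : I2 ≠ 0 := abs_pos.mp hp2
  have e : (((I1)⁻¹ : ℝ) : ℂ) • f n - (((I2)⁻¹ : ℝ) : ℂ) • f' n =
      (((I1)⁻¹ - (I2)⁻¹ : ℝ) : ℂ) • f n + (((I2)⁻¹ : ℝ) : ℂ) • (f n - f' n) := by
    push_cast
    module
  rw [e]
  refine (norm_add_le _ _).trans ?_
  rw [norm_smul, norm_smul, hf, mul_one, Complex.norm_real, Complex.norm_real, Real.norm_eq_abs,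
    Real.norm_eq_abs, add_mul]
  refine add_le_add ?_ (mul_le_mul_of_nonneg_right ?_ (norm_nonneg _))
  · have e2 : I1⁻¹ - I2⁻¹ = (I2 - I1) / (I1 * I2) := by
      field_simp
    rw [e2, abs_div, abs_mul]
    have h3 : |I2 - I1| ≤ T * ‖f n - f' n‖ := by
      have e3 : I2 - I1 = -(⟪y n, f n - f' n⟫_ℂ).im := by
        rw [inner_sub_right, Complex.sub_im]; ring
      rw [e3, abs_neg]
      exact (Lab.abs_im_inner_le _ _).trans (mul_le_mul_of_nonneg_right (hy n) (norm_nonneg _))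
    have h4 : q * q ≤ |I1| * |I2| := mul_le_mul hn1 hn2 hq.le hp1.le
    have hT : 0 ≤ T := (norm_nonneg _).trans (hy n)
    calc |I2 - I1| / (|I1| * |I2|) ≤ (T * ‖f n - f' n‖) / (q * q) :=
          div_le_div₀ (by positivity) h3 (by positivity) h4
      _ = T / (q * q) * ‖f n - f' n‖ := by ring
  · rw [abs_inv, one_div]
    exact inv_anti₀ hq hn2

section fin

variable {j : ℕ → (Sp K →ₗᵢ[ℂ] K)} {ε : ℕ → ℝ} {y : ℕ → K} {β σ : ℕ → ℝ} {V : ℕ → USp K}
variable {w : ℕ → K} {lam : ℕ → Sp K} {lam₀ : Sp K} {c : ℕ → ℂ} {ηp ηm : ℕ → Sp K}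

/-- opposite pulses of the same axis cancel up to `o(ε)` -/
lemma us_add_o (hε : ∀ n, 0 < ε n) {T : ℝ} (hy : ∀ n, ‖y n‖ ≤ T) {q : ℝ} (hq : 0 < q) {i k : ℕ}
    (hβ : β i = β k) (hσ : σ k = -σ i) (hσ1 : σ i = 1 ∨ σ i = -1)
    (h1 : ∀ᶠ n in atTop, q ≤ |(⟪y n, fs j ε y β σ V i n⟫_ℂ).im|)
    (h2 : ∀ᶠ n in atTop, q ≤ |(⟪y n, fs j ε y β σ V k n⟫_ℂ).im|)
    (h3 : Tendsto (fun n => fs j ε y β σ V i n - fv (j n) (β i) (V n)) atTop (𝓝 0))
    (h4 : Tendsto (fun n => fs j ε y β σ V k n - fv (j n) (β k) (V n)) atTop (𝓝 0)) :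
    (fun n => us j ε y β σ V i n + us j ε y β σ V k n) =o[atTop] ε := by
  have h5 : Tendsto (fun n => fs j ε y β σ V i n - fs j ε y β σ V k n) atTop (𝓝 0) := by
    have := h3.sub h4
    rw [sub_zero] at this
    refine this.congr fun n => ?_
    rw [hβ]
    abel
  have h6 := tendsto_calib_sub hq hy (fun n => norm_fs i n) h1 h2 h5
  rw [isLittleO_iff]
  intro δ hδ
  have h7 : ∀ᶠ n in atTop, ‖((((⟪y n, fs j ε y β σ V i n⟫_ℂ).im)⁻¹ : ℝ) : ℂ) • fs j ε y β σ V i n -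
      ((((⟪y n, fs j ε y β σ V k n⟫_ℂ).im)⁻¹ : ℝ) : ℂ) • fs j ε y β σ V k n‖ ≤
        δ * (2 / Real.pi) :=
    (tendsto_zero_iff_norm_tendsto_zero.mp h6).eventually_le_const
      (mul_pos hδ (div_pos two_pos Real.pi_pos))
  filter_upwards [h7] with n hn
  have e : us j ε y β σ V i n + us j ε y β σ V k n = ((σ i * Real.pi * ε n / 2 : ℝ) : ℂ) •
      (((((⟪y n, fs j ε y β σ V i n⟫_ℂ).im)⁻¹ : ℝ) : ℂ) • fs j ε y β σ V i n -
      ((((⟪y n, fs j ε y β σ V k n⟫_ℂ).im)⁻¹ : ℝ) : ℂ) • fs j ε y β σ V k n) := by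
    rw [us_eq, us_eq, hσ, smul_sub, smul_smul, smul_smul, ← Complex.ofReal_mul,
      ← Complex.ofReal_mul, sub_eq_add_neg, ← neg_smul, ← Complex.ofReal_neg]
    congr 3
    · rw [← div_eq_mul_inv, div_div]
    · rw [← div_eq_mul_inv, div_div]
      ring
  rw [e, norm_smul, Complex.norm_real, Real.norm_eq_abs, abs_div, abs_mul, abs_mul,
    abs_of_pos (hε n), abs_of_pos Real.pi_pos, abs_two, Real.norm_of_nonneg (hε n).le]
  have hs : |σ i| = 1 := by rcases hσ1 with h | h <;> rw [h] <;> norm_num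
  rw [hs, one_mul]
  calc Real.pi * ε n / 2 * _ ≤ Real.pi * ε n / 2 * (δ * (2 / Real.pi)) :=
        mul_le_mul_of_nonneg_left hn (by have := hε n; positivity)
    _ = δ * ε n := by
        have := Real.pi_pos.ne'
        field_simp

/-- All conclusions for the scrambled rotation. -/
theorem Frame.final (F : Frame ε y V w lam lam₀ c ηp ηm) {β₀ : ℝ}
    (hβ : ∀ i, β i = if i % 2 = 0 then β₀ else 0)
    (hσ : ∀ i, σ i = if i % 4 = 0 ∨ i % 4 = 3 then 1 else -1)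
    {b1 b2 : ℝ} (Hp : Heavy ε 1 b1 y ηp) (Hm : Heavy ε (-1) b2 y ηm)
    (hop : Ov (zet w lam) ηp) (hom : Ov (zet w lam) ηm)
    {h : ℕ → K} (hs : Scr ε w h) {a : ℕ → ℝ} (hw : ∀ n, w n = (a n : ℂ) • j n (eVec (V n)))
    {T : ℝ} (ha : ∀ n, |a n| * ε n ≤ T)
    {q : ℝ} (hq : 0 < q)
    (hlow : ∀ i, ∀ᶠ n in atTop, q ≤ |(⟪y n, fv (j n) (β i) (V n)⟫_ℂ).im|) :
    (∀ i, Sm ε w (us j ε y β σ V i)) ∧
    (∀ i, ∀ᶠ n in atTop, q / 2 ≤ |(⟪y n, fs j ε y β σ V i n⟫_ℂ).im|) ∧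
    (∀ (m : ℕ) (A : Sp K →L[ℂ] Sp K), IsSpin A →
      (fun n => ((Qs β (us j ε y β σ V) (4 * m) n : USp K) : Sp K →L[ℂ] Sp K) (A (zet w lam n)) -
        A (zet w lam n)) =o[atTop] ε) ∧
    (∀ (b b' : ℝ) (g : ℕ → Sp K), (b = 1 ∨ b = -1) → Heavy ε b b' y g → Bdd g → ∀ m : ℕ,
      Tendsto (fun n => ((Qs β (us j ε y β σ V) (4 * m) n : USp K) : Sp K →L[ℂ] Sp K) (g n) -
        ((mixU (4 * m * β₀) : USp K) : Sp K →L[ℂ] Sp K) (g n)) atTop (𝓝 0)) := by
  have hσ1 : ∀ i, σ i = 1 ∨ σ i = -1 := by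
    intro i
    rw [hσ]
    split_ifs <;> simp
  have hq2 : 0 < q / 2 := by positivity
  -- the induction, with the lower bounds carried along
  have key : ∀ i, Sm ε w (us j ε y β σ V i) ∧
      (∀ᶠ n in atTop, q / 2 ≤ |(⟪y n, fs j ε y β σ V i n⟫_ℂ).im|) ∧
      Tendsto (fun n => fs j ε y β σ V i n - fv (j n) (β i) (V n)) atTop (𝓝 0) := by
    refine F.ind' hσ1 hq hlow fun i hSm hlo => ?_
    exact F.scr hσ1 Hp Hm hop hom hs hw ha hq2 hSm hlo
  refine ⟨fun i => (key i).1, fun i => (key i).2.1, fun m A hA => ?_, fun b b' g hb H hgb m => ?_⟩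
  · obtain ⟨T', hT'⟩ := F.by'
    refine F.L.fine β (us j ε y β σ V) m (fun i _ => (key i).1) (fun r _ => ?_) (fun r _ => ?_)
      (fun r _ => ?_) (fun r _ => ?_) hA
    · rw [hβ, hβ, if_pos (by omega), if_pos (by omega)]
    · rw [hβ, hβ, if_neg (by omega), if_neg (by omega)]
    · refine us_add_o F.L.eps_pos hT' hq2 ?_ ?_ (hσ1 _) (key _).2.1 (key _).2.1 (key _).2.2
        (key _).2.2
      · rw [hβ, hβ, if_pos (by omega), if_pos (by omega)]
      · rw [hσ, hσ, if_neg (by omega), if_pos (by omega)]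
    · refine us_add_o F.L.eps_pos hT' hq2 ?_ ?_ (hσ1 _) (key _).2.1 (key _).2.1 (key _).2.2
        (key _).2.2
      · rw [hβ, hβ, if_neg (by omega), if_neg (by omega)]
      · rw [hσ, hσ, if_pos (by omega), if_neg (by omega), neg_neg]
  · have h1 := heavy_Qs (j := j) (β := β) (σ := σ) (V := V) H hgb hb hσ1 hq2 (N := 4 * m)
      (fun i _ => (key i).2.1) (4 * m) le_rfl
    refine h1.congr fun n => ?_
    rw [pulM_period hb β₀ hβ hσ]

end fin

end Crest.Agent.R339.Lab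
end
end

-- ▼ part R339/Asm539D
section

/-!
# Level-one label gates: the label step (words, heavy branches)
-/

set_option autoImplicit false
set_option maxHeartbeats 400000

noncomputable section

open scoped ComplexConjugate InnerProductSpace Topology
open Filter Crest.MathPhysics.SpinGlass Crest.Agent.R339.Site Crest.Agent.R339.Lab

namespace Crest.Agent.R339.Mark

variable {K : Type*} [NormedAddCommGroup K] [InnerProductSpace ℂ K]

lemma eVec_Ez_mul (f : K) (U : USp K) : eVec (Ez f * U) = eVec U := by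
  show star (((Ez f * U : USp K)) : Sp K →L[ℂ] Sp K) (Zop (((Ez f * U : USp K) : Sp K →L[ℂ] Sp K)
    Om)) = star (U : Sp K →L[ℂ] Sp K) (Zop ((U : Sp K →L[ℂ] Sp K) Om))
  have h1 : star (((Ez f * U : USp K)) : Sp K →L[ℂ] Sp K) =
      star (U : Sp K →L[ℂ] Sp K) * ((Ez (-f) : USp K) : Sp K →L[ℂ] Sp K) := by
    rw [← star_Ez_coe, ← star_mul]
    rfl
  have h2 : ((Ez f * U : USp K) : Sp K →L[ℂ] Sp K) Om =
      ((Ez f : USp K) : Sp K →L[ℂ] Sp K) ((U : Sp K →L[ℂ] Sp K) Om) := rfl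
  rw [h1, h2, mul_apply_eq_comp, Zop_Ez, Ez_neg_Ez]

lemma mixU_neg_pi_div_two (v : Sp K) :
    ((mixU (-(Real.pi / 2)) : USp K) : Sp K →L[ℂ] Sp K) v = Complex.I • Xop v := by
  rw [mixU_eq, Real.cos_neg, Real.cos_pi_div_two, Real.sin_neg, Real.sin_pi_div_two]
  simp

lemma mixU_pi_div_two (v : Sp K) :
    ((mixU (Real.pi / 2) : USp K) : Sp K →L[ℂ] Sp K) v = (-Complex.I) • Xop v := by
  rw [mixU_eq, Real.cos_pi_div_two, Real.sin_pi_div_two]
  simp

/-- a quarter turn flips the current spin of a heavy family -/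
lemma heavy_flip {ε : ℕ → ℝ} {b b' : ℝ} {y : ℕ → K} {h : ℕ → Sp K}
    (H : Hv.Heavy ε b b' y h) {θ : ℝ} (hθ : θ = Real.pi / 2 ∨ θ = -(Real.pi / 2)) :
    Hv.Heavy ε b (-b') y (fun n => ((mixU θ : USp K) : Sp K →L[ℂ] Sp K) (h n)) := by
  refine H.flip (fun _ => isSpin_mixU θ) (fun n v => ?_) (C := 1) (fun n v => ?_)
  · rcases hθ with rfl | rfl
    · rw [mixU_pi_div_two, mixU_pi_div_two, map_smul, Zop_Xop, smul_neg]
    · rw [mixU_neg_pi_div_two, mixU_neg_pi_div_two, map_smul, Zop_Xop, smul_neg]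
  · rw [norm_U_apply, one_mul]

section Step

variable (ι : Sp K →ₗᵢ[ℂ] K) {s : K} (hs : ‖s‖ = 1) (hsi : ∀ v, ⟪s, ι v⟫_ℂ = 0)
  {α0 : ℝ} (hα : α0 ≠ 0) {ε : ℕ → ℝ} (hε : ∀ n, 0 < ε n) (hε0 : Tendsto ε atTop (𝓝 0))

/-- first rotation (heavy branches: `i X`) -/
def V1 (y : ℕ → K) (V : ℕ → USp K) (m : ℕ) (n : ℕ) : USp K :=
  pv ι hs hsi hα hε y (axs (-(Real.pi / 2) / (4 * m))) sgs V (4 * m) n

/-- the site vector before the amplified cost gate -/
def ee2 (y : ℕ → K) (V : ℕ → USp K) (m : ℕ) (n : ℕ) : K :=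
  jn ι hs hsi hα hε n (eVec (V1 ι hs hsi hα hε y V m n * Mn ι hs hsi hα hε n))

/-- after the amplified cost gate -/
def V2 (y : ℕ → K) (V : ℕ → USp K) (m : ℕ) (α : ℝ) (n : ℕ) : USp K :=
  Ez (((-(α / (2 * ε n)) : ℝ) : ℂ) • ee2 ι hs hsi hα hε y V m n) * V1 ι hs hsi hα hε y V m n

/-- the momentum of the heavy branches after the amplified cost gate -/
def y3 (y : ℕ → K) (V : ℕ → USp K) (m : ℕ) (α : ℝ) (n : ℕ) : K :=
  y n + ((α : ℝ) : ℂ) • ee2 ι hs hsi hα hε y V m n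

/-- the pulses of the second rotation -/
def V3j (y : ℕ → K) (V : ℕ → USp K) (m : ℕ) (α : ℝ) (j n : ℕ) : USp K :=
  pv ι hs hsi hα hε (y3 ι hs hsi hα hε y V m α) (axs ((Real.pi / 2) / (4 * m))) sgs
    (V2 ι hs hsi hα hε y V m α) j n

/-- after the second rotation -/
def V3 (y : ℕ → K) (V : ℕ → USp K) (m : ℕ) (α : ℝ) (n : ℕ) : USp K :=
  V3j ι hs hsi hα hε y V m α (4 * m) n

/-- the site vector before the second amplified cost gate -/
def ee4 (y : ℕ → K) (V : ℕ → USp K) (m : ℕ) (α : ℝ) (n : ℕ) : K :=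
  jn ι hs hsi hα hε n (eVec (V3 ι hs hsi hα hε y V m α n * Mn ι hs hsi hα hε n))

/-- the final unitary of the label step -/
def V4 (y : ℕ → K) (V : ℕ → USp K) (m : ℕ) (α : ℝ) (n : ℕ) : USp K :=
  Ez (((α / (2 * ε n) : ℝ) : ℂ) • ee4 ι hs hsi hα hε y V m α n) * V3 ι hs hsi hα hε y V m α n

/-- what the light side has to deliver for the label step -/
structure LamLight (yn : ℕ → K) (V : ℕ → USp K) (U : USp K) (m : ℕ) (α : ℝ) : Prop where
  /-- the read-outs of the pulses of the second rotation converge to nonzero numbers -/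
  read : ∀ j < 4 * m, ∃ r : ℝ, r ≠ 0 ∧ Tendsto (fun n => (⟪y3 ι hs hsi hα hε yn V m α n,
    rd ι hs hsi hα hε (axs ((Real.pi / 2) / (4 * m)) j)
      (V3j ι hs hsi hα hε yn V m α j) n⟫_ℂ).im) atTop (𝓝 r)
  /-- the light part realises the label gate -/
  light : Light ι hs hsi hα hε (V4 ι hs hsi hα hε yn V m α) (costU (-α) s * U)

variable {ι hs hsi hα hε}

/-- calibration from a convergent read-out -/
lemma calib_of_read {yn : ℕ → K} {β σ : ℝ} {V : ℕ → USp K} {r : ℝ} (hr : r ≠ 0)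
    (h : Tendsto (fun n => (⟪yn n, rd ι hs hsi hα hε β V n⟫_ℂ).im) atTop (𝓝 r)) :
    Hv.Bdd (ta ι hs hsi hα hε yn β σ V) ∧
    Tendsto (fun n => (⟪yn n, ta ι hs hsi hα hε yn β σ V n⟫_ℂ).im) atTop
      (𝓝 (σ * (Real.pi / 2))) := by
  have h3 : Tendsto (fun n => st ι hs hsi hα hε yn β σ V n) atTop (𝓝 (σ * Real.pi / (2 * r))) :=
    tendsto_const_nhds.div (h.const_mul 2) (mul_ne_zero two_ne_zero hr)
  refine ⟨?_, ?_⟩
  · obtain ⟨T, hT⟩ := bdd_of_tendsto h3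
    refine ⟨T, fun n => ?_⟩
    rw [ta, norm_smul, norm_rd, mul_one, Complex.norm_real]
    exact hT n
  · refine tendsto_const_nhds.congr' ?_
    filter_upwards [h.eventually_ne hr] with n hn
    rw [ta, inner_smul_right, Complex.im_ofReal_mul, st]
    field_simp

lemma bdd_heavy (V : ℕ → USp K) {b : ℝ} (hb : b = 1 ∨ b = -1) :
    Hv.Bdd (fun n => (V n : Sp K →L[ℂ] Sp K) (Pb b (Hn ι hs hsi hα hε n Om))) :=
  ⟨1, fun n => by
    rw [norm_U_apply]
    refine (norm_Pb_le hb _).trans ?_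
    rw [norm_Hn_apply, norm_Om]⟩

/-- the first rotation on the light part -/
lemma light_V1 (hε0 : Tendsto ε atTop (𝓝 0)) {V : ℕ → USp K} {U : USp K}
    (H : Light ι hs hsi hα hε V U) (hN : Nice ((U : Sp K →L[ℂ] Sp K) Om)) {yn : ℕ → K} {y : K}
    (hy : Tendsto yn atTop (𝓝 y)) {m : ℕ} (h0 : (⟪y, ι (eVec U)⟫_ℂ).im ≠ 0)
    (hm : (⟪y, ι (eVec (mixU (-(Real.pi / 2) / (4 * m)) * U))⟫_ℂ).im ≠ 0) (j : ℕ) :
    Light ι hs hsi hα hε (pv ι hs hsi hα hε yn (axs (-(Real.pi / 2) / (4 * m))) sgs V j) U := by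
  refine H.pv hε0 hN hy (fun j => ?_) j
  unfold axs
  split_ifs
  · exact hm
  · rw [mixU_zero, one_mul]
    exact h0

/-- the first rotation on the heavy branches -/
lemma heavy_V1 (hε0 : Tendsto ε atTop (𝓝 0)) {V : ℕ → USp K} {U : USp K}
    (H : Light ι hs hsi hα hε V U) (hN : Nice ((U : Sp K →L[ℂ] Sp K) Om)) {yn : ℕ → K} {y : K}
    (hy : Tendsto yn atTop (𝓝 y)) {m : ℕ} (hm0 : 0 < m) (h0 : (⟪y, ι (eVec U)⟫_ℂ).im ≠ 0)
    (hm : (⟪y, ι (eVec (mixU (-(Real.pi / 2) / (4 * m)) * U))⟫_ℂ).im ≠ 0)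
    {b : ℝ} (hb : b = 1 ∨ b = -1)
    (hHv : Hv.Heavy ε b b yn (fun n => (V n : Sp K →L[ℂ] Sp K)
      (Pb b (Hn ι hs hsi hα hε n Om)))) :
    Hv.Heavy ε b (-b) yn (fun n => (V1 ι hs hsi hα hε yn V m n : Sp K →L[ℂ] Sp K)
      (Pb b (Hn ι hs hsi hα hε n Om))) := by
  set β₀ : ℝ := -(Real.pi / 2) / (4 * m) with hβ₀
  have hcal := fun j => (light_V1 hε0 H hN hy h0 hm j).calib hε0 (β := axs β₀ j) (sgs j) hy (by
    unfold axs
    split_ifs
    · exact hm
    · rw [mixU_zero, one_mul]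
      exact h0)
  have h1 := hHv.pulses (bdd_heavy V hb) hb (β := axs β₀) (σ := sgs) sgs_or
    (τ := fun j => ta ι hs hsi hα hε yn (axs β₀ j) (sgs j)
      (pv ι hs hsi hα hε yn (axs β₀) sgs V j)) (N := 4 * m)
    (fun j _ => (hcal j).2.1) (fun j _ => (hcal j).2.2)
    (g := fun j n => (pv ι hs hsi hα hε yn (axs β₀) sgs V j n : Sp K →L[ℂ] Sp K)
      (Pb b (Hn ι hs hsi hα hε n Om))) (fun n => rfl) (fun j _ n => rfl) (4 * m) le_rfl
  have hmz : (m : ℝ) ≠ 0 := by exact_mod_cast hm0.ne'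
  have e : 4 * (m : ℝ) * β₀ = -(Real.pi / 2) := by
    rw [hβ₀]
    field_simp
  refine (heavy_flip hHv (Or.inr rfl)).congr (h1.congr fun n => ?_)
  congr 1
  rw [Hv.pulM_period (β := axs β₀) (σ := sgs) hb β₀ (fun j => rfl) (fun j => rfl), e]

/-- **The label step, given the light side.** -/
theorem Inv.lam (hε0 : Tendsto ε atTop (𝓝 0)) {V : ℕ → USp K} {U : USp K} {y : K}
    (H : Inv ι hs hsi hα hε V U y) (h0 : (⟪y, ι (eVec U)⟫_ℂ).im ≠ 0) (α : ℝ)
    (hL : ∀ (yn : ℕ → K) (m : ℕ), Tendsto yn atTop (𝓝 y) → 0 < m →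
      (⟪y, ι (eVec (mixU (-(Real.pi / 2) / (4 * m)) * U))⟫_ℂ).im ≠ 0 →
      (∀ b : ℝ, b = 1 ∨ b = -1 → Hv.Heavy ε b (-b) yn
        (fun n => (V1 ι hs hsi hα hε yn V m n : Sp K →L[ℂ] Sp K)
          (Pb b (Hn ι hs hsi hα hε n Om)))) →
      LamLight ι hs hsi hα hε yn V U m α) :
    ∃ V', Inv ι hs hsi hα hε V' (costU (-α) s * U) (y + ((2 * α : ℝ) : ℂ) • ι (eVec U)) := by
  obtain ⟨m, hm0, hm⟩ := exists_subdiv ι h0 (-(Real.pi / 2))
  obtain ⟨yn, hy, hhv⟩ := H.heavy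
  have hH1 := fun b (hb : b = 1 ∨ b = -1) =>
    heavy_V1 hε0 H.light H.nice hy hm0 h0 hm hb (hhv b hb)
  obtain ⟨hread, hlight⟩ := hL yn m hy hm0 hm hH1
  have hcE : (costU (-α) s : USp K) = Ez ((α : ℂ) • s) := by
    rw [costU_eq_Ez]
    congr 2
    push_cast
    ring
  -- convergence of the site vectors
  have he2 : Tendsto (ee2 ι hs hsi hα hε yn V m) atTop (𝓝 (ι (eVec U))) :=
    (light_V1 hε0 H.light H.nice hy h0 hm (4 * m)).tendsto_jn_eVec hε0
  have he4 : Tendsto (ee4 ι hs hsi hα hε yn V m α) atTop (𝓝 (ι (eVec U))) := by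
    have h1 := hlight.tendsto_jn_eVec hε0
    rw [hcE, eVec_Ez_mul] at h1
    refine h1.congr fun n => ?_
    rw [ee4, V4, mul_assoc, eVec_Ez_mul]
  refine ⟨V4 ι hs hsi hα hε yn V m α, fun n => ?_, hlight, ?_,
    fun n => y3 ι hs hsi hα hε yn V m α n + ((α : ℝ) : ℂ) • ee4 ι hs hsi hα hε yn V m α n,
    ?_, fun b hb => ?_⟩
  · -- the word
    have r1 := reach_pv ι hs hsi hα hε yn (axs (-(Real.pi / 2) / (4 * m))) sgs (H.reach n) (4 * m)
    have r2 := exists_word_moveC r1 (α / (2 * ε n))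
    have e2 : moveC (jn ι hs hsi hα hε n) (α / (2 * ε n))
        (pv ι hs hsi hα hε yn (axs (-(Real.pi / 2) / (4 * m))) sgs V (4 * m) n *
          Mn ι hs hsi hα hε n) = V2 ι hs hsi hα hε yn V m α n * Mn ι hs hsi hα hε n := by
      rw [moveC, costU_eq_Ez, V2, ee2, V1, mul_assoc, Complex.ofReal_neg]
    rw [e2] at r2
    have r3 := reach_pv ι hs hsi hα hε (y3 ι hs hsi hα hε yn V m α)
      (axs ((Real.pi / 2) / (4 * m))) sgs r2 (4 * m)
    have r4 := exists_word_moveC r3 (-(α / (2 * ε n)))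
    have e4 : moveC (jn ι hs hsi hα hε n) (-(α / (2 * ε n)))
        (pv ι hs hsi hα hε (y3 ι hs hsi hα hε yn V m α) (axs ((Real.pi / 2) / (4 * m))) sgs
          (V2 ι hs hsi hα hε yn V m α) (4 * m) n * Mn ι hs hsi hα hε n) =
        V4 ι hs hsi hα hε yn V m α n * Mn ι hs hsi hα hε n := by
      rw [moveC, costU_eq_Ez, V4, ee4, V3, V3j, mul_assoc, Complex.ofReal_neg, neg_neg]
    rw [e4] at r4
    exact r4
  · rw [hcE]
    exact H.nice.Ez _
  · have h1 := (hy.add (he2.const_smul ((α : ℝ) : ℂ))).add (he4.const_smul ((α : ℝ) : ℂ))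
    have e : y + ((α : ℝ) : ℂ) • ι (eVec U) + ((α : ℝ) : ℂ) • ι (eVec U) =
        y + ((2 * α : ℝ) : ℂ) • ι (eVec U) := by
      push_cast
      module
    rw [e] at h1
    exact h1
  · -- the heavy branch
    have hbb : b * b = 1 := by rcases hb with rfl | rfl <;> norm_num
    have hb' : -b = 1 ∨ -b = -1 := by rcases hb with rfl | rfl <;> simp
    have hεne : ∀ᶠ n in atTop, ε n ≠ 0 := Eventually.of_forall fun n => (hε n).ne'
    -- amplified cost gate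
    have h2 := (hH1 b hb).cost hb hb' hεne
      (fun n => ((-(α / 2) : ℝ) : ℂ) • ee2 ι hs hsi hα hε yn V m n)
    have ey : (fun n => yn n + ((2 * (b * -b) : ℝ) : ℂ) • (((-(α / 2) : ℝ) : ℂ) •
        ee2 ι hs hsi hα hε yn V m n)) = y3 ι hs hsi hα hε yn V m α := by
      funext n
      rw [y3, smul_smul, ← Complex.ofReal_mul]
      congr 3
      linear_combination α * hbb
    have eh : (fun n => ((Ez (((1 / ε n : ℝ) : ℂ) • (((-(α / 2) : ℝ) : ℂ) •
        ee2 ι hs hsi hα hε yn V m n)) : USp K) : Sp K →L[ℂ] Sp K)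
        ((V1 ι hs hsi hα hε yn V m n : Sp K →L[ℂ] Sp K) (Pb b (Hn ι hs hsi hα hε n Om)))) =
        fun n => (V2 ι hs hsi hα hε yn V m α n : Sp K →L[ℂ] Sp K)
          (Pb b (Hn ι hs hsi hα hε n Om)) := by
      funext n
      have e : ((1 / ε n : ℝ) : ℂ) • (((-(α / 2) : ℝ) : ℂ) • ee2 ι hs hsi hα hε yn V m n) =
          ((-(α / (2 * ε n)) : ℝ) : ℂ) • ee2 ι hs hsi hα hε yn V m n := by
        rw [smul_smul, ← Complex.ofReal_mul]
        congr 2
        have := (hε n).ne'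
        field_simp
      rw [e, V2]
      rfl
    rw [ey, eh] at h2
    -- second rotation
    set β₀ : ℝ := (Real.pi / 2) / (4 * m) with hβ₀
    have h3 := h2.pulses (bdd_heavy _ hb) hb (β := axs β₀) (σ := sgs) sgs_or
      (τ := fun j => ta ι hs hsi hα hε (y3 ι hs hsi hα hε yn V m α) (axs β₀ j) (sgs j)
        (V3j ι hs hsi hα hε yn V m α j)) (N := 4 * m)
      (fun j hj => by
        obtain ⟨r, hr, hr'⟩ := hread j hj
        exact (calib_of_read hr hr').1)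
      (fun j hj => by
        obtain ⟨r, hr, hr'⟩ := hread j hj
        exact (calib_of_read hr hr').2)
      (g := fun j n => (V3j ι hs hsi hα hε yn V m α j n : Sp K →L[ℂ] Sp K)
        (Pb b (Hn ι hs hsi hα hε n Om))) (fun n => rfl) (fun j _ n => rfl) (4 * m) le_rfl
    have hmz : (m : ℝ) ≠ 0 := by exact_mod_cast hm0.ne'
    have e : 4 * (m : ℝ) * β₀ = Real.pi / 2 := by
      rw [hβ₀]
      field_simp
    have h4 : Hv.Heavy ε b b (y3 ι hs hsi hα hε yn V m α)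
        (fun n => (V3 ι hs hsi hα hε yn V m α n : Sp K →L[ℂ] Sp K)
          (Pb b (Hn ι hs hsi hα hε n Om))) := by
      have h5 := heavy_flip h2 (Or.inl rfl)
      rw [neg_neg] at h5
      refine h5.congr (h3.congr fun n => ?_)
      rw [Hv.pulM_period (β := axs β₀) (σ := sgs) hb β₀ (fun j => rfl) (fun j => rfl), e]
      rfl
    -- second amplified cost gate
    have h6 := h4.cost hb hb hεne (fun n => ((α / 2 : ℝ) : ℂ) • ee4 ι hs hsi hα hε yn V m α n)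
    have ey' : (fun n => y3 ι hs hsi hα hε yn V m α n + ((2 * (b * b) : ℝ) : ℂ) •
        (((α / 2 : ℝ) : ℂ) • ee4 ι hs hsi hα hε yn V m α n)) =
        fun n => y3 ι hs hsi hα hε yn V m α n + ((α : ℝ) : ℂ) •
          ee4 ι hs hsi hα hε yn V m α n := by
      funext n
      rw [smul_smul, ← Complex.ofReal_mul]
      congr 3
      linear_combination α * hbb
    have eh' : (fun n => ((Ez (((1 / ε n : ℝ) : ℂ) • (((α / 2 : ℝ) : ℂ) •
        ee4 ι hs hsi hα hε yn V m α n)) : USp K) : Sp K →L[ℂ] Sp K)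
        ((V3 ι hs hsi hα hε yn V m α n : Sp K →L[ℂ] Sp K) (Pb b (Hn ι hs hsi hα hε n Om)))) =
        fun n => (V4 ι hs hsi hα hε yn V m α n : Sp K →L[ℂ] Sp K)
          (Pb b (Hn ι hs hsi hα hε n Om)) := by
      funext n
      have e : ((1 / ε n : ℝ) : ℂ) • (((α / 2 : ℝ) : ℂ) • ee4 ι hs hsi hα hε yn V m α n) =
          ((α / (2 * ε n) : ℝ) : ℂ) • ee4 ι hs hsi hα hε yn V m α n := by
        rw [smul_smul, ← Complex.ofReal_mul]
        congr 2
        have := (hε n).ne'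
        field_simp
      rw [e, V4]
      rfl
    rw [ey', eh'] at h6
    exact h6

end Step

end Crest.Agent.R339.Mark
end
end

-- ▼ part R339/Asm539E
section

/-!
# Level-one label gates: heavy-only rotations
-/

set_option autoImplicit false
set_option maxHeartbeats 400000

noncomputable section

open scoped ComplexConjugate InnerProductSpace Topology
open Filter Crest.MathPhysics.SpinGlass Crest.Agent.R339.Site Crest.Agent.R339.Lab

namespace Crest.Agent.R339.Mark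

variable {K : Type*} [NormedAddCommGroup K] [InnerProductSpace ℂ K]

variable {ι : Sp K →ₗᵢ[ℂ] K} {s : K} {hs : ‖s‖ = 1} {hsi : ∀ v, ⟪s, ι v⟫_ℂ = 0}
  {α0 : ℝ} {hα : α0 ≠ 0} {ε : ℕ → ℝ} {hε : ∀ n, 0 < ε n}

/-- **Heavy-only rotations**: the light part is not changed, the heavy branches are rotated. -/
theorem Inv.rot (hε0 : Tendsto ε atTop (𝓝 0)) {V : ℕ → USp K} {U : USp K} {y : K}
    (H : Inv ι hs hsi hα hε V U y) (h0 : (⟪y, ι (eVec U)⟫_ℂ).im ≠ 0) (θ : ℝ) :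
    ∃ V' : ℕ → USp K, (∀ n, ∃ w, wordU (jn ι hs hsi hα hε n) w = V' n * Mn ι hs hsi hα hε n) ∧
      Light ι hs hsi hα hε V' U ∧
      ∀ b : ℝ, b = 1 ∨ b = -1 → Tendsto (fun n =>
        (V' n : Sp K →L[ℂ] Sp K) (Pb b (Hn ι hs hsi hα hε n Om)) -
        ((mixU θ : USp K) : Sp K →L[ℂ] Sp K) ((V n : Sp K →L[ℂ] Sp K)
          (Pb b (Hn ι hs hsi hα hε n Om)))) atTop (𝓝 0) := by
  obtain ⟨m, hm0, hm⟩ := exists_subdiv ι h0 θ
  obtain ⟨yn, hy, hhv⟩ := H.heavy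
  set β₀ : ℝ := θ / (4 * m) with hβ₀
  have hne' : ∀ j, (⟪y, ι (eVec (mixU (axs β₀ j) * U))⟫_ℂ).im ≠ 0 := by
    intro j
    unfold axs
    split_ifs
    · exact hm
    · rw [mixU_zero, one_mul]
      exact h0
  refine ⟨pv ι hs hsi hα hε yn (axs β₀) sgs V (4 * m),
    fun n => reach_pv ι hs hsi hα hε yn (axs β₀) sgs (H.reach n) _,
    H.light.pv hε0 H.nice hy hne' _, fun b hb => ?_⟩
  have hcal := fun j => (H.light.pv (σ := sgs) hε0 H.nice hy hne' j).calib hε0 (sgs j) hy (hne' j)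
  have h1 := (hhv b hb).pulses (bdd_heavy V hb) hb (β := axs β₀) (σ := sgs) sgs_or
    (τ := fun j => ta ι hs hsi hα hε yn (axs β₀ j) (sgs j)
      (pv ι hs hsi hα hε yn (axs β₀) sgs V j)) (N := 4 * m)
    (fun j _ => (hcal j).2.1) (fun j _ => (hcal j).2.2)
    (g := fun j n => (pv ι hs hsi hα hε yn (axs β₀) sgs V j n : Sp K →L[ℂ] Sp K)
      (Pb b (Hn ι hs hsi hα hε n Om))) (fun n => rfl) (fun j _ n => rfl) (4 * m) le_rfl
  refine h1.congr fun n => ?_
  congr 1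
  have hmz : (m : ℝ) ≠ 0 := by exact_mod_cast hm0.ne'
  have e : 4 * (m : ℝ) * β₀ = θ := by
    rw [hβ₀]
    field_simp
  rw [Hv.pulM_period (β := axs β₀) (σ := sgs) hb β₀ (fun j => rfl) (fun j => rfl), e]

end Crest.Agent.R339.Mark
end
end

-- ▼ part R339/Asm539F
section

/-!
# Level-one label gates: the difference of the two amplified site vectors
-/

set_option autoImplicit false
set_option maxHeartbeats 400000

noncomputable section

open scoped ComplexConjugate InnerProductSpace Topology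
open Filter Crest.MathPhysics.SpinGlass Crest.Agent.R339.Site Crest.Agent.R339.Lab

namespace Crest.Agent.R339.Mark

variable {K : Type*} [NormedAddCommGroup K] [InnerProductSpace ℂ K]

variable (ι : Sp K →ₗᵢ[ℂ] K) {s : K} (hs : ‖s‖ = 1) (hsi : ∀ v, ⟪s, ι v⟫_ℂ = 0)
  {α0 : ℝ} (hα : α0 ≠ 0) {ε : ℕ → ℝ} (hε : ∀ n, 0 < ε n)

lemma star_U_U_apply (U : USp K) (v : Sp K) :
    star (U : Sp K →L[ℂ] Sp K) ((U : Sp K →L[ℂ] Sp K) v) = v := by
  rw [← mul_apply_eq_comp, star_U_mul_self]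
  rfl

/-- `ρ* Z ρ - Z` -/
def dZ (ρ : USp K) (v : Sp K) : Sp K :=
  star (ρ : Sp K →L[ℂ] Sp K) (Zop ((ρ : Sp K →L[ℂ] Sp K) v)) - Zop v

lemma dZ_add (ρ : USp K) (v w : Sp K) : dZ ρ (v + w) = dZ ρ v + dZ ρ w := by
  simp only [dZ, map_add]
  abel

lemma dZ_smul (ρ : USp K) (c : ℂ) (v : Sp K) : dZ ρ (c • v) = c • dZ ρ v := by
  simp only [dZ, map_smul, smul_sub]

lemma dZ_sub (ρ : USp K) (v w : Sp K) : dZ ρ (v - w) = dZ ρ v - dZ ρ w := by
  simp only [dZ, map_sub]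
  abel

/-- norm of `ρ* Z ρ v - Z v` through the commutator -/
lemma norm_dZ (ρ : USp K) (v : Sp K) : ‖dZ ρ v‖ =
    ‖Zop ((ρ : Sp K →L[ℂ] Sp K) v) - (ρ : Sp K →L[ℂ] Sp K) (Zop v)‖ := by
  rw [dZ, ← norm_U_apply ρ (star (ρ : Sp K →L[ℂ] Sp K) (Zop ((ρ : Sp K →L[ℂ] Sp K) v)) - Zop v),
    map_sub]
  congr 2
  rw [← mul_apply_eq_comp, U_mul_star_self]
  rfl

lemma eVec_mul_sub (ρ W : USp K) : eVec (ρ * W) - eVec W =
    star (W : Sp K →L[ℂ] Sp K) (dZ ρ ((W : Sp K →L[ℂ] Sp K) Om)) := by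
  have h1 : eVec (ρ * W) = star (W : Sp K →L[ℂ] Sp K) (star (ρ : Sp K →L[ℂ] Sp K)
      (Zop ((ρ : Sp K →L[ℂ] Sp K) ((W : Sp K →L[ℂ] Sp K) Om)))) := by
    have : star ((ρ * W : USp K) : Sp K →L[ℂ] Sp K) =
        star (W : Sp K →L[ℂ] Sp K) * star (ρ : Sp K →L[ℂ] Sp K) := by
      rw [← star_mul]
      rfl
    rw [eVec, this]
    rfl
  rw [h1, eVec, dZ, map_sub]

/-- **The (e)-step**: the difference of the site vectors before the two amplified cost gates is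
`2 ε s` up to `o(ε)`. -/
theorem tendsto_e_step (hε0 : Tendsto ε atTop (𝓝 0)) (ρ V2 : ℕ → USp K)
    (hl : Tendsto (fun n => (((ε n)⁻¹ : ℝ) : ℂ) • dZ (ρ n) ((V2 n : Sp K →L[ℂ] Sp K)
      ((Ln ι hs hsi hα hε n : Sp K →L[ℂ] Sp K) Om))) atTop (𝓝 0))
    (hh : ∀ b : ℝ, b = 1 ∨ b = -1 → Tendsto (fun n => dZ (ρ n) ((V2 n : Sp K →L[ℂ] Sp K)
      (Pb b (Hn ι hs hsi hα hε n Om))) - ((2 * b : ℝ) : ℂ) • (V2 n : Sp K →L[ℂ] Sp K)
      (Pb b (Hn ι hs hsi hα hε n Om))) atTop (𝓝 0)) :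
    Tendsto (fun n => (((ε n)⁻¹ : ℝ) : ℂ) •
      (jn ι hs hsi hα hε n (eVec (ρ n * V2 n * Mn ι hs hsi hα hε n)) -
       jn ι hs hsi hα hε n (eVec (V2 n * Mn ι hs hsi hα hε n)))) atTop (𝓝 ((2 : ℂ) • s)) := by
  -- heavy part
  have hH : Tendsto (fun n => dZ (ρ n) ((V2 n : Sp K →L[ℂ] Sp K) (Hn ι hs hsi hα hε n Om)) -
      (2 : ℂ) • (V2 n : Sp K →L[ℂ] Sp K) (Zop (Hn ι hs hsi hα hε n Om))) atTop (𝓝 0) := by
    have h := (hh 1 (Or.inl rfl)).add (hh (-1) (Or.inr rfl))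
    rw [add_zero] at h
    refine h.congr fun n => ?_
    have e1 : Hn ι hs hsi hα hε n Om = Pb 1 (Hn ι hs hsi hα hε n Om) +
        Pb (-1) (Hn ι hs hsi hα hε n Om) := (Pb_add _).symm
    have e2 : Zop (Hn ι hs hsi hα hε n Om) = Pb 1 (Hn ι hs hsi hα hε n Om) -
        Pb (-1) (Hn ι hs hsi hα hε n Om) := (Pb_sub _).symm
    rw [e2]
    conv_rhs => rw [e1]
    rw [map_add, map_sub, dZ_add]
    rw [Pb_add]
    push_cast
    module
  -- the coefficient
  have hsin : Tendsto (fun n => ((Real.sin (ε n) / ε n : ℝ) : ℂ)) atTop (𝓝 ((1 : ℝ) : ℂ)) := by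
    refine (Complex.continuous_ofReal.tendsto _).comp ?_
    have h1 : HasDerivAt Real.sin (Real.cos 0) 0 := Real.hasDerivAt_sin 0
    have h2 := h1.tendsto_slope_zero
    have h3 : Tendsto ε atTop (𝓝[≠] 0) := by
      rw [tendsto_nhdsWithin_iff]
      exact ⟨hε0, Eventually.of_forall fun n => (hε n).ne'⟩
    have h4 := h2.comp h3
    rw [Real.cos_zero] at h4
    refine h4.congr fun n => ?_
    show (ε n)⁻¹ • (Real.sin (0 + ε n) - Real.sin 0) = _
    rw [zero_add, Real.sin_zero, sub_zero, smul_eq_mul, inv_mul_eq_div]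
  have hcos : Tendsto (fun n => ((Real.cos (ε n) : ℝ) : ℂ)) atTop (𝓝 ((Real.cos 0 : ℝ) : ℂ)) :=
    (Complex.continuous_ofReal.tendsto _).comp ((Real.continuous_cos.tendsto _).comp hε0)
  -- the vector inside
  set D : ℕ → Sp K := fun n => (((ε n)⁻¹ : ℝ) : ℂ) •
    dZ (ρ n) ((V2 n : Sp K →L[ℂ] Sp K) ((Mn ι hs hsi hα hε n : Sp K →L[ℂ] Sp K) Om)) with hD
  have hD1 : Tendsto (fun n => D n + (Complex.I * ((Real.sin (ε n) / ε n : ℝ) : ℂ)) •
      ((2 : ℂ) • (V2 n : Sp K →L[ℂ] Sp K) (Zop (Hn ι hs hsi hα hε n Om)))) atTop (𝓝 0) := by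
    have h1 := hcos.smul hl
    rw [smul_zero] at h1
    have h2 := (hsin.const_mul Complex.I).smul hH
    rw [smul_zero] at h2
    have h3 := h1.sub h2
    rw [sub_zero] at h3
    refine h3.congr fun n => ?_
    have hne : ((ε n : ℝ) : ℂ) ≠ 0 := by exact_mod_cast (hε n).ne'
    rw [hD]
    simp only
    rw [Mn_eq, map_sub, map_smul, map_smul, dZ_sub, dZ_smul, dZ_smul]
    simp only [smul_sub, smul_smul]
    push_cast
    have e1 : (ε n : ℂ)⁻¹ * (Complex.I * Complex.sin (ε n)) =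
        Complex.I * (Complex.sin (ε n) / (ε n)) := by
      field_simp
    rw [e1, mul_comm (Complex.cos (ε n : ℂ))]
    abel
  -- apply the isometry
  set T : ℕ → (Sp K → K) := fun n v => jn ι hs hsi hα hε n
    (star (V2 n * Mn ι hs hsi hα hε n : USp K).1 v) with hT
  have hTn : ∀ n v, ‖T n v‖ = ‖v‖ := by
    intro n v
    rw [hT]
    simp only
    rw [LinearIsometry.norm_map]
    exact norm_star_U_apply _ v
  have h5 : Tendsto (fun n => T n (D n + (Complex.I * ((Real.sin (ε n) / ε n : ℝ) : ℂ)) •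
      ((2 : ℂ) • (V2 n : Sp K →L[ℂ] Sp K) (Zop (Hn ι hs hsi hα hε n Om))))) atTop (𝓝 0) := by
    rw [tendsto_zero_iff_norm_tendsto_zero] at hD1 ⊢
    exact hD1.congr fun n => (hTn n _).symm
  have h6 : Tendsto (fun n => (Complex.I * ((Real.sin (ε n) / ε n : ℝ) : ℂ)) • ((2 : ℂ) •
      jn ι hs hsi hα hε n (star (Mn ι hs hsi hα hε n : Sp K →L[ℂ] Sp K)
        (Zop (Hn ι hs hsi hα hε n Om))))) atTop
      (𝓝 ((Complex.I * ((1 : ℝ) : ℂ)) • ((2 : ℂ) • (Complex.I • s)))) :=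
    (hsin.const_mul Complex.I).smul ((tendsto_jn_star_Mu ι hs hsi hα hε hε0).const_smul (2 : ℂ))
  have h7 := h5.sub h6
  have e7 : (0 : K) - (Complex.I * ((1 : ℝ) : ℂ)) • ((2 : ℂ) • (Complex.I • s)) = (2 : ℂ) • s := by
    rw [Complex.ofReal_one, mul_one, smul_smul, smul_smul, zero_sub, ← neg_smul]
    congr 1
    linear_combination (-2 : ℂ) * Complex.I_mul_I
  rw [e7] at h7
  refine h7.congr fun n => ?_
  have e8 : star (V2 n * Mn ι hs hsi hα hε n : USp K).1 =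
      star (Mn ι hs hsi hα hε n : Sp K →L[ℂ] Sp K) * star (V2 n : Sp K →L[ℂ] Sp K) := by
    rw [← star_mul]
    rfl
  rw [hT]
  simp only
  have e10 : (V2 n * Mn ι hs hsi hα hε n : USp K).1 = ((V2 n * Mn ι hs hsi hα hε n : USp K) :
    Sp K →L[ℂ] Sp K) := rfl
  rw [← map_sub (jn ι hs hsi hα hε n) (eVec (ρ n * V2 n * Mn ι hs hsi hα hε n)),
    mul_assoc (ρ n), eVec_mul_sub, ← e10, e8, map_add, map_add, map_smul, map_smul]
  simp only [map_smul, mul_apply_eq_comp, star_U_U_apply]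
  rw [add_sub_cancel_right]
  rfl

end Crest.Agent.R339.Mark
end
end

-- ▼ part R339/Lab373G
section

/-!
# The label gate: the light side of the label step
-/

set_option autoImplicit false
set_option maxHeartbeats 400000

noncomputable section

open scoped ComplexConjugate InnerProductSpace Topology
open Filter Asymptotics Crest.MathPhysics.SpinGlass Crest.Agent.R339.Site Crest.Agent.R339.Lab

namespace Crest.Agent.R339.Mark

variable {K : Type*} [NormedAddCommGroup K] [InnerProductSpace ℂ K]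

section Step

variable {ι : Sp K →ₗᵢ[ℂ] K} {s : K} {hs : ‖s‖ = 1} {hsi : ∀ v, ⟪s, ι v⟫_ℂ = 0}
  {α0 : ℝ} {hα : α0 ≠ 0} {ε : ℕ → ℝ} {hε : ∀ n, 0 < ε n}

/-- the pulses of 539 in the language of `Vs` -/
lemma pv_eq_Vs (y : ℕ → K) (β σ : ℕ → ℝ) (V : ℕ → USp K) (i n : ℕ) :
    pv ι hs hsi hα hε y β σ V i n * Mn ι hs hsi hα hε n =
      Vs (jn ι hs hsi hα hε n) (ε n) (y n) β σ (V n * Mn ι hs hsi hα hε n) i := by
  induction i with
  | zero => rfl
  | succ i ih =>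
    show Pu (β i) ((ε n : ℂ) • ta ι hs hsi hα hε y (β i) (σ i) (pv ι hs hsi hα hε y β σ V i) n) *
      pv ι hs hsi hα hε y β σ V i n * Mn ι hs hsi hα hε n =
      Pu (β i) (pst (jn ι hs hsi hα hε n) (ε n) (y n) (β i) (σ i)
        (Vs (jn ι hs hsi hα hε n) (ε n) (y n) β σ (V n * Mn ι hs hsi hα hε n) i)) *
        Vs (jn ι hs hsi hα hε n) (ε n) (y n) β σ (V n * Mn ι hs hsi hα hε n) i
    rw [← ih, mul_assoc]
    congr 2
    rw [pst, ta, st, rd, fv, smul_smul, ← Complex.ofReal_mul, mul_assoc (mixU (β i))]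
    congr 2
    ring

/-- the read-out vectors -/
lemma rd_eq_fs (y : ℕ → K) (β σ : ℕ → ℝ) (V : ℕ → USp K) (i n : ℕ) :
    rd ι hs hsi hα hε (β i) (pv ι hs hsi hα hε y β σ V i) n =
      fs (jn ι hs hsi hα hε) ε y β σ (fun n => V n * Mn ι hs hsi hα hε n) i n := by
  rw [rd, fs, fv, ← pv_eq_Vs, mul_assoc]

lemma pv_eq_Qs (y : ℕ → K) (β σ : ℕ → ℝ) (V : ℕ → USp K) (i n : ℕ) :
    pv ι hs hsi hα hε y β σ V i n =
      Qs β (us (jn ι hs hsi hα hε) ε y β σ (fun n => V n * Mn ι hs hsi hα hε n)) i n * V n := by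
  have h1 := pv_eq_Vs (ι := ι) (hs := hs) (hsi := hsi) (hα := hα) (hε := hε) y β σ V i n
  have h2 := Vs_eq (j := jn ι hs hsi hα hε) (ε := ε) (y := y) (β := β) (σ := σ)
    (V := fun n => V n * Mn ι hs hsi hα hε n) i n
  rw [h2, ← mul_assoc] at h1
  have h3 := congrArg (fun X : USp K => X * star (Mn ι hs hsi hα hε n)) h1
  simp only [mul_assoc, Unitary.mul_star_self, mul_one] at h3
  exact h3

/-- The light side of the label step. -/
theorem lamLight_core (hε0 : Tendsto ε atTop (𝓝 0)) {V : ℕ → USp K} {U : USp K} {y : K}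
    (HL : Light ι hs hsi hα hε V U) (HN : Nice ((U : Sp K →L[ℂ] Sp K) Om))
    (h0 : (⟪y, ι (eVec U)⟫_ℂ).im ≠ 0) {α : ℝ} (hα1 : α ≠ 0) {yn : ℕ → K} {m : ℕ}
    (hy : Tendsto yn atTop (𝓝 y)) (hm0 : 0 < m)
    (hm : (⟪y, ι (eVec (mixU (-(Real.pi / 2) / (4 * m)) * U))⟫_ℂ).im ≠ 0)
    (hcos : Real.cos (2 * ((Real.pi / 2) / (4 * m))) ≠ 0)
    (hsm : 2 * |Real.sin (2 * ((Real.pi / 2) / (4 * m)))| * (‖y‖ + |α| + 1) ≤
      |Real.cos (2 * ((Real.pi / 2) / (4 * m)))| * |(⟪y, ι (eVec U)⟫_ℂ).im|)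
    (hHv : ∀ b : ℝ, b = 1 ∨ b = -1 → Hv.Heavy ε b (-b) yn
        (fun n => (V1 ι hs hsi hα hε yn V m n : Sp K →L[ℂ] Sp K)
          (Pb b (Hn ι hs hsi hα hε n Om)))) :
    (∀ j < 4 * m, ∃ q : ℝ, 0 < q ∧ ∀ᶠ n in atTop, q ≤ |(⟪y3 ι hs hsi hα hε yn V m α n,
      rd ι hs hsi hα hε (axs ((Real.pi / 2) / (4 * m)) j)
        (V3j ι hs hsi hα hε yn V m α j) n⟫_ℂ).im|) ∧
    Light ι hs hsi hα hε (V4 ι hs hsi hα hε yn V m α) (costU (-α) s * U) := by
  -- names
  set β₀ : ℝ := (Real.pi / 2) / (4 * m) with hβ₀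
  set J := jn ι hs hsi hα hε with hJ
  set e2 : ℕ → K := ee2 ι hs hsi hα hε yn V m with he2d
  set Y : ℕ → K := y3 ι hs hsi hα hε yn V m α with hYd
  set W1 : ℕ → USp K := V1 ι hs hsi hα hε yn V m with hW1
  set W2 : ℕ → USp K := V2 ι hs hsi hα hε yn V m α with hW2
  set F2 : ℕ → USp K := fun n => W2 n * Mn ι hs hsi hα hε n with hF2
  set a : ℕ → ℝ := fun n => α / (2 * ε n) with had
  set w : ℕ → K := fun n => (a n : ℂ) • e2 n with hwd
  obtain ⟨c, hc, hst, hcv⟩ := light_V1 (m := m) hε0 HL HN hy h0 hm (4 * m)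
  have hst : ∀ v, Tendsto (fun n => c n • (W1 n : Sp K →L[ℂ] Sp K)
    ((Ln ι hs hsi hα hε n : Sp K →L[ℂ] Sp K) v)) atTop (𝓝 ((U : Sp K →L[ℂ] Sp K) v)) := hst
  have hLV1 : Light ι hs hsi hα hε W1 U := ⟨c, hc, hst, hcv⟩
  set lam : ℕ → Sp K := fun n => c n • (W1 n : Sp K →L[ℂ] Sp K)
    ((Ln ι hs hsi hα hε n : Sp K →L[ℂ] Sp K) Om) with hlam
  have hcv : CvH lam ((U : Sp K →L[ℂ] Sp K) Om) := hcv
  have hW2eq : ∀ n (v : Sp K), (W2 n : Sp K →L[ℂ] Sp K) v =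
      ((Ez (-w n) : USp K) : Sp K →L[ℂ] Sp K) ((W1 n : Sp K →L[ℂ] Sp K) v) := by
    intro n v
    have : -w n = (((-(α / (2 * ε n)) : ℝ) : ℂ) • e2 n) := by
      rw [hwd]
      simp only
      rw [← neg_smul, ← Complex.ofReal_neg]
    rw [this]
    rfl
  have he2n : ∀ n, ‖e2 n‖ = 1 := by
    intro n
    show ‖J n (eVec (W1 n * Mn ι hs hsi hα hε n))‖ = 1
    rw [LinearIsometry.norm_map, norm_eVec]
  have he2V : ∀ n, e2 n = J n (eVec (F2 n)) := by
    intro n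
    have : F2 n = Ez (((-(α / (2 * ε n)) : ℝ) : ℂ) • e2 n) * (W1 n * Mn ι hs hsi hα hε n) := by
      rw [← mul_assoc]; rfl
    rw [this, eVec_Ez_mul]
    rfl
  have he2t : Tendsto e2 atTop (𝓝 (ι (eVec U))) := hLV1.tendsto_jn_eVec hε0
  have hYn : ∀ n, Y n = yn n + ((α : ℝ) : ℂ) • e2 n := fun n => rfl
  have hYt : Tendsto Y atTop (𝓝 (y + ((α : ℝ) : ℂ) • ι (eVec U))) := hy.add (he2t.const_smul _)
  have hYb : Hv.Bdd Y := bdd_of_tendsto hYt
  have hee : ∀ n, (⟪e2 n, e2 n⟫_ℂ) = 1 := by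
    intro n
    rw [inner_self_eq_norm_sq_to_K, he2n]; simp
  have hYe : ∀ n, (⟪Y n, e2 n⟫_ℂ).im = (⟪yn n, e2 n⟫_ℂ).im := by
    intro n
    rw [hYn, inner_add_left, inner_smul_left, hee, Complex.add_im, Complex.conj_ofReal, mul_one,
      Complex.ofReal_im, add_zero]
  have hYet : Tendsto (fun n => (⟪Y n, e2 n⟫_ℂ).im) atTop (𝓝 (⟪y, ι (eVec U)⟫_ℂ).im) := by
    simp only [hYe]
    exact (Complex.continuous_im.tendsto _).comp (hy.inner he2t)
  set Y0 : ℝ := (⟪y, ι (eVec U)⟫_ℂ).im with hY0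
  -- light data
  have L : Lab.Light ε w lam ((U : Sp K →L[ℂ] Sp K) Om) := ⟨hε, hε0, hcv, HN⟩
  have hzet : ∀ n, zet w lam n = c n • (W2 n : Sp K →L[ℂ] Sp K)
      ((Ln ι hs hsi hα hε n : Sp K →L[ℂ] Sp K) Om) := by
    intro n
    rw [hW2eq, zet, hlam]
    simp only
    rw [map_smul]
  -- heavy data
  set η : ℝ → ℕ → Sp K := fun b n => c n • (W2 n : Sp K →L[ℂ] Sp K)
    (Pb b (Hn ι hs hsi hα hε n Om)) with hη
  have hcb : Hv.Bdd c := ⟨1, fun n => (hc n).le⟩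
  have hηb : ∀ b, (b = 1 ∨ b = -1) → Hv.Bdd (η b) := fun b hb => hcb.smul (bdd_heavy W2 hb)
  have hεne : ∀ᶠ n in atTop, ε n ≠ 0 := Eventually.of_forall fun n => (hε n).ne'
  have hH2 : ∀ b, (b = 1 ∨ b = -1) → Hv.Heavy ε b (-b) Y
      (fun n => (W2 n : Sp K →L[ℂ] Sp K) (Pb b (Hn ι hs hsi hα hε n Om))) := by
    intro b hb
    have hbb : b * b = 1 := by rcases hb with rfl | rfl <;> norm_num
    have hb' : -b = 1 ∨ -b = -1 := by rcases hb with rfl | rfl <;> simp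
    have h2 := (hHv b hb).cost hb hb' hεne (fun n => ((-(α / 2) : ℝ) : ℂ) • e2 n)
    have ey : (fun n => yn n + ((2 * (b * -b) : ℝ) : ℂ) • (((-(α / 2) : ℝ) : ℂ) • e2 n)) = Y := by
      funext n
      rw [hYn, smul_smul, ← Complex.ofReal_mul]
      congr 3
      linear_combination α * hbb
    have eh : (fun n => ((Ez (((1 / ε n : ℝ) : ℂ) • (((-(α / 2) : ℝ) : ℂ) • e2 n)) : USp K) :
        Sp K →L[ℂ] Sp K) ((W1 n : Sp K →L[ℂ] Sp K) (Pb b (Hn ι hs hsi hα hε n Om)))) =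
        fun n => (W2 n : Sp K →L[ℂ] Sp K) (Pb b (Hn ι hs hsi hα hε n Om)) := by
      funext n
      rw [hW2eq]
      have e : ((1 / ε n : ℝ) : ℂ) • (((-(α / 2) : ℝ) : ℂ) • e2 n) = -w n := by
        rw [hwd]
        simp only
        rw [smul_smul, ← Complex.ofReal_mul, ← neg_smul, ← Complex.ofReal_neg]
        congr 2
        have := (hε n).ne'
        rw [had]
        simp only
        field_simp
      rw [e]
    rw [ey, eh] at h2
    exact h2
  have hHη : ∀ b, (b = 1 ∨ b = -1) → Hv.Heavy ε b (-b) Y (η b) := fun b hb => (hH2 b hb).smul hcb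
  have hdec : ∀ n, c n • (F2 n : Sp K →L[ℂ] Sp K) Om =
      ((Real.cos (ε n) : ℝ) : ℂ) • zet w lam n -
        (Complex.I * ((Real.sin (ε n) : ℝ) : ℂ)) • (η 1 n + η (-1) n) := by
    intro n
    have e1 : (F2 n : Sp K →L[ℂ] Sp K) Om = (W2 n : Sp K →L[ℂ] Sp K)
        ((Mn ι hs hsi hα hε n : Sp K →L[ℂ] Sp K) Om) := rfl
    rw [e1, Mn_eq, hzet, hη]
    simp only
    rw [← smul_add, ← map_add, Pb_add, map_sub, map_smul, map_smul, smul_sub, smul_comm (c n),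
      smul_comm (c n)]
  have F : Frame ε Y F2 w lam ((U : Sp K →L[ℂ] Sp K) Om) c (η 1) (η (-1)) :=
    ⟨L, hc, hdec, hηb 1 (Or.inl rfl), hηb (-1) (Or.inr rfl), hYb⟩
  -- scrambling
  have hwj : ∀ n, w n = (a n : ℂ) • J n (eVec (F2 n)) := fun n => by rw [← he2V]
  have haε : ∀ n, |a n| * ε n ≤ |α| / 2 := by
    intro n
    have := hε n
    rw [had]
    simp only
    rw [abs_div, abs_mul, abs_two, abs_of_pos this]
    apply le_of_eq
    field_simp
  set hh : ℕ → K := fun n => (Complex.I * ((Real.pi / (4 * a n) : ℝ) : ℂ)) • e2 n with hhd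
  have hScr : Scr ε w hh := by
    constructor
    · refine IsBigO.of_bound (Real.pi / (2 * |α|)) (Eventually.of_forall fun n => ?_)
      have hp := hε n
      rw [hhd]
      simp only
      rw [norm_smul, norm_mul, Complex.norm_I, one_mul, he2n, mul_one, Complex.norm_real,
        Real.norm_eq_abs, Real.norm_of_nonneg hp.le, abs_div, abs_of_pos Real.pi_pos, had]
      simp only
      rw [abs_mul, abs_div, abs_mul, abs_two, abs_of_pos hp,
        show |(4 : ℝ)| = 4 from abs_of_pos (by norm_num)]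
      apply le_of_eq
      have := abs_pos.mpr hα1
      field_simp
      ring
    · refine Eventually.of_forall fun n => ?_
      have hp := hε n
      have ha0 : a n ≠ 0 := by
        rw [had]; simp only; exact div_ne_zero hα1 (by positivity)
      rw [hwd, hhd]
      simp only
      rw [inner_smul_left, inner_smul_right, hee, Complex.conj_ofReal]
      have : ((a n : ℝ) : ℂ) * (Complex.I * ((Real.pi / (4 * a n) : ℝ) : ℂ) * 1) =
          ((Real.pi / 4 : ℝ) : ℂ) * Complex.I := by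
        have ha0' : ((a n : ℝ) : ℂ) ≠ 0 := by exact_mod_cast ha0
        push_cast
        field_simp
      rw [this, Complex.im_ofReal_mul, Complex.I_im, mul_one]
      ring
  -- overlaps
  have hOv : ∀ b, (b = 1 ∨ b = -1) → Ov (zet w lam) (η b) := by
    intro b hb A A' hA hA'
    set τ : ℝ := Real.pi / Y0 with hτ
    set f : ℕ → K := fun n => ((τ : ℝ) : ℂ) • e2 n with hf
    have hfb : Hv.Bdd f := ⟨|τ|, fun n => by
      rw [hf]; simp only
      rw [norm_smul, he2n, mul_one, Complex.norm_real, Real.norm_eq_abs]⟩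
    have hSm : Sm ε w (fun n => (ε n : ℂ) • f n) := by
      constructor
      · refine IsBigO.of_bound |τ| (Eventually.of_forall fun n => ?_)
        rw [norm_smul, Complex.norm_real, hf]
        simp only
        rw [norm_smul, he2n, mul_one, Complex.norm_real, Real.norm_eq_abs τ, mul_comm]
      · refine (isLittleO_zero _ _).congr_left fun n => ?_
        rw [hwd, hf]
        simp only
        rw [inner_smul_left, inner_smul_right, inner_smul_right, hee, Complex.conj_ofReal, mul_one,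
          ← Complex.ofReal_mul, ← Complex.ofReal_mul, Complex.ofReal_im]
    have h1 : Tendsto (fun n => Wl ((ε n : ℂ) • f n) (zet w lam n) - zet w lam n) atTop (𝓝 0) :=
      (L.Dl_zet hSm).trans_tendsto hε0
    have h2 := (hHη b hb).seq hfb
    have h3 : Tendsto (fun n => Complex.exp (Complex.I * (b * (⟪Y n, f n⟫_ℂ).im))) atTop
        (𝓝 (Complex.exp (Complex.I * (b * (τ * Y0 : ℝ))))) := by
      have h4 : Tendsto (fun n => ((⟪Y n, f n⟫_ℂ).im : ℂ)) atTop (𝓝 ((τ * Y0 : ℝ) : ℂ)) := by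
        refine (Complex.continuous_ofReal.tendsto _).comp ?_
        refine (hYet.const_mul τ).congr fun n => ?_
        rw [hf]; simp only
        rw [inner_smul_right, Complex.im_ofReal_mul]
      exact (Complex.continuous_exp.tendsto _).comp ((h4.const_mul _).const_mul _)
    refine Hv.overlap_site' (bdd_of_isBigO_one L.zet_bdd) (hηb b hb) h1 h2 h3 ?_ hA hA'
    have h5 : τ * Y0 = Real.pi := by rw [hτ]; field_simp
    rw [h5]
    have h6 : Complex.exp (Complex.I * (b * (Real.pi : ℝ))) = -1 := by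
      rcases hb with rfl | rfl
      · rw [Complex.ofReal_one, one_mul, mul_comm, Complex.exp_pi_mul_I]
      · rw [Complex.ofReal_neg, Complex.ofReal_one, neg_one_mul, mul_neg, Complex.exp_neg, mul_comm,
          Complex.exp_pi_mul_I]
        norm_num
    rw [h6]
    norm_num
  -- lower bounds
  set q : ℝ := |Real.cos (2 * β₀)| * |Y0| / 4 with hqd
  have hY0p : 0 < |Y0| := abs_pos.mpr h0
  have hcp : 0 < |Real.cos (2 * β₀)| := abs_pos.mpr hcos
  have hq : 0 < q := by positivity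
  have hc1 : |Real.cos (2 * β₀)| ≤ 1 := Real.abs_cos_le_one _
  have hYa : Tendsto (fun n => |(⟪Y n, e2 n⟫_ℂ).im|) atTop (𝓝 |Y0|) := hYet.abs
  have hev1 : ∀ᶠ n in atTop, 3 / 4 * |Y0| ≤ |(⟪Y n, e2 n⟫_ℂ).im| :=
    hYa.eventually_const_le (by linarith)
  have hev2 : ∀ᶠ n in atTop, ‖Y n‖ ≤ ‖y‖ + |α| + 1 := by
    have h1 : Tendsto (fun n => ‖yn n‖) atTop (𝓝 ‖y‖) := hy.norm
    filter_upwards [h1.eventually_le_const (show ‖y‖ < ‖y‖ + 1 by linarith)] with n hn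
    rw [hYn]
    refine (norm_add_le _ _).trans ?_
    rw [norm_smul, he2n, mul_one, Complex.norm_real, Real.norm_eq_abs]
    linarith
  have hlow : ∀ i, ∀ᶠ n in atTop, q ≤ |(⟪Y n, fv (J n) (axs β₀ i) (F2 n)⟫_ℂ).im| := by
    intro i
    filter_upwards [hev1, hev2] with n hn1 hn2
    unfold axs
    split_ifs
    · have h1 := abs_im_fv_ge (J n) β₀ (F2 n) (Y n)
      rw [← he2V] at h1
      have h2 := mul_le_mul_of_nonneg_left hn1 hcp.le
      have h3 := mul_le_mul_of_nonneg_left hn2 (abs_nonneg (Real.sin (2 * β₀)))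
      rw [hqd]
      nlinarith
    · rw [fv_zero, ← he2V, hqd]
      have : |Real.cos (2 * β₀)| * |Y0| ≤ 1 * |Y0| := mul_le_mul_of_nonneg_right hc1 hY0p.le
      linarith
  obtain ⟨hSm, hlo, hfine, hheavy⟩ := F.final (j := J) (β := axs β₀) (σ := sgs) (β₀ := β₀)
    (fun i => rfl) (fun i => rfl) (hHη 1 (Or.inl rfl)) (hHη (-1) (Or.inr rfl)) (hOv 1 (Or.inl rfl))
    (hOv (-1) (Or.inr rfl)) hScr hwj haε hq hlow
  set u := us J ε Y (axs β₀) sgs F2 with hu
  set Q : ℕ → USp K := fun n => Qs (axs β₀) u (4 * m) n with hQ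
  have hV3 : ∀ n, V3 ι hs hsi hα hε yn V m α n = Q n * W2 n := fun n =>
    pv_eq_Qs Y (axs β₀) sgs W2 (4 * m) n
  refine ⟨fun i _ => ⟨q / 2, by positivity, ?_⟩, ?_⟩
  · have := hlo i
    filter_upwards [this] with n hn
    have e := rd_eq_fs (ι := ι) (hs := hs) (hsi := hsi) (hα := hα) (hε := hε) Y (axs β₀) sgs W2 i n
    show q / 2 ≤ |(⟪Y n, rd ι hs hsi hα hε (axs β₀ i) (pv ι hs hsi hα hε Y (axs β₀) sgs W2 i) n⟫_ℂ).im|
    rw [e]
    exact hn
  -- fine estimates on `W2 (Ln Om)`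
  have hf1 : (fun n => (Q n : Sp K →L[ℂ] Sp K) (zet w lam n) - zet w lam n) =o[atTop] ε :=
    hfine m 1 isSpin_one
  have hf2 : (fun n => (Q n : Sp K →L[ℂ] Sp K) (Zop (zet w lam n)) - Zop (zet w lam n))
      =o[atTop] ε := hfine m Zop isSpin_Zop
  -- (e)-step
  have hl : Tendsto (fun n => (((ε n)⁻¹ : ℝ) : ℂ) • dZ (Q n) ((W2 n : Sp K →L[ℂ] Sp K)
      ((Ln ι hs hsi hα hε n : Sp K →L[ℂ] Sp K) Om))) atTop (𝓝 0) := by
    have h1 : (fun n => (Q n : Sp K →L[ℂ] Sp K) (zet w lam n) - zet w lam n) =o[atTop] ε := hf1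
    have h2 : Tendsto (fun n => (ε n)⁻¹ * (‖(Q n : Sp K →L[ℂ] Sp K) (zet w lam n) - zet w lam n‖ +
        ‖(Q n : Sp K →L[ℂ] Sp K) (Zop (zet w lam n)) - Zop (zet w lam n)‖)) atTop (𝓝 0) := by
      have h3 := hf1.norm_left.add hf2.norm_left
      have h4 := (isLittleO_iff_tendsto' (Eventually.of_forall fun n hn => absurd hn (hε n).ne')).mp h3
      refine h4.congr fun n => ?_
      rw [div_eq_inv_mul]
    rw [tendsto_zero_iff_norm_tendsto_zero]
    refine squeeze_zero (fun n => norm_nonneg _) (fun n => ?_) h2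
    rw [norm_smul, Complex.norm_real, norm_inv, Real.norm_of_nonneg (hε n).le]
    refine mul_le_mul_of_nonneg_left ?_ (inv_nonneg.mpr (hε n).le)
    have e1 : ‖dZ (Q n) ((W2 n : Sp K →L[ℂ] Sp K) ((Ln ι hs hsi hα hε n : Sp K →L[ℂ] Sp K) Om))‖ =
        ‖dZ (Q n) (zet w lam n)‖ := by
      rw [hzet, dZ_smul, norm_smul, hc, one_mul]
    rw [e1, norm_dZ]
    have e2' : Zop ((Q n : Sp K →L[ℂ] Sp K) (zet w lam n)) -
        (Q n : Sp K →L[ℂ] Sp K) (Zop (zet w lam n)) =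
        Zop ((Q n : Sp K →L[ℂ] Sp K) (zet w lam n) - zet w lam n) -
        ((Q n : Sp K →L[ℂ] Sp K) (Zop (zet w lam n)) - Zop (zet w lam n)) := by
      rw [map_sub]; abel
    rw [e2']
    refine (norm_sub_le _ _).trans ?_
    rw [norm_Zop_apply]
  have hmz : (m : ℝ) ≠ 0 := by exact_mod_cast hm0.ne'
  have hang : 4 * (m : ℝ) * β₀ = Real.pi / 2 := by
    rw [hβ₀]
    field_simp
  have hhd' : ∀ b : ℝ, b = 1 ∨ b = -1 → Tendsto (fun n => dZ (Q n) ((W2 n : Sp K →L[ℂ] Sp K)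
      (Pb b (Hn ι hs hsi hα hε n Om))) - ((2 * b : ℝ) : ℂ) • (W2 n : Sp K →L[ℂ] Sp K)
      (Pb b (Hn ι hs hsi hα hε n Om))) atTop (𝓝 0) := by
    intro b hb
    set g : ℕ → Sp K := fun n => (W2 n : Sp K →L[ℂ] Sp K) (Pb b (Hn ι hs hsi hα hε n Om)) with hg
    have h1 : Tendsto (fun n => (Q n : Sp K →L[ℂ] Sp K) (g n) -
        ((mixU (Real.pi / 2) : USp K) : Sp K →L[ℂ] Sp K) (g n)) atTop (𝓝 0) := by
      have := hheavy b (-b) g hb (hH2 b hb) (bdd_heavy W2 hb) m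
      rw [hang] at this
      exact this
    have h2 : Tendsto (fun n => Zop (g n) - ((-b : ℝ) : ℂ) • g n) atTop (𝓝 0) := (hH2 b hb).1
    have h3 : Tendsto (fun n => 2 * ‖(Q n : Sp K →L[ℂ] Sp K) (g n) -
        ((mixU (Real.pi / 2) : USp K) : Sp K →L[ℂ] Sp K) (g n)‖ +
        2 * ‖Zop (g n) - ((-b : ℝ) : ℂ) • g n‖) atTop (𝓝 0) := by
      simpa using (h1.norm.const_mul 2).add (h2.norm.const_mul 2)
    rw [tendsto_zero_iff_norm_tendsto_zero]
    refine squeeze_zero (fun n => norm_nonneg _) (fun n => ?_) h3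
    set x := g n with hx
    set Bx := ((mixU (Real.pi / 2) : USp K) : Sp K →L[ℂ] Sp K) x with hBx
    set q' := (Q n : Sp K →L[ℂ] Sp K) x with hq'
    have hb1 : ‖((b : ℝ) : ℂ)‖ = 1 := by
      rw [Complex.norm_real, Real.norm_eq_abs]
      rcases hb with rfl | rfl <;> norm_num
    -- Z B = - B Z
    have hZB : ∀ v : Sp K, Zop (((mixU (Real.pi / 2) : USp K) : Sp K →L[ℂ] Sp K) v) =
        -((mixU (Real.pi / 2) : USp K) : Sp K →L[ℂ] Sp K) (Zop v) := by
      intro v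
      rw [mixU_pi_div_two, mixU_pi_div_two, map_smul, Zop_Xop, smul_neg]
    have e1 : dZ (Q n) x - ((2 * b : ℝ) : ℂ) • x = star (Q n : Sp K →L[ℂ] Sp K)
        (Zop (q' - Bx) - ((mixU (Real.pi / 2) : USp K) : Sp K →L[ℂ] Sp K)
          (Zop x - ((-b : ℝ) : ℂ) • x) - ((b : ℝ) : ℂ) • (q' - Bx)) -
        (Zop x - ((-b : ℝ) : ℂ) • x) := by
      have s1 : star (Q n : Sp K →L[ℂ] Sp K) q' = x := star_U_U_apply (Q n) x
      rw [dZ, ← hq', map_sub Zop, hBx, hZB]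
      simp only [map_sub, map_smul, map_neg]
      rw [s1]
      push_cast
      module
    rw [e1]
    refine (norm_sub_le _ _).trans ?_
    rw [norm_star_U_apply]
    have n1 : ‖Zop (q' - Bx) - ((mixU (Real.pi / 2) : USp K) : Sp K →L[ℂ] Sp K)
          (Zop x - ((-b : ℝ) : ℂ) • x) - ((b : ℝ) : ℂ) • (q' - Bx)‖ ≤
        ‖q' - Bx‖ + ‖Zop x - ((-b : ℝ) : ℂ) • x‖ + ‖q' - Bx‖ := by
      refine (norm_sub_le _ _).trans (add_le_add ((norm_sub_le _ _).trans (add_le_add ?_ ?_)) ?_)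
      · rw [norm_Zop_apply]
      · rw [norm_U_apply]
      · rw [norm_smul, hb1, one_mul]
    linarith
  have hE := tendsto_e_step ι hs hsi hα hε hε0 Q W2 hl hhd'
  -- the second amplified vector
  set e4 : ℕ → K := ee4 ι hs hsi hα hε yn V m α with he4d
  set w' : ℕ → K := fun n => (a n : ℂ) • e4 n with hw'd
  have he4V : ∀ n, e4 n = J n (eVec (Q n * W2 n * Mn ι hs hsi hα hε n)) := by
    intro n
    show J n (eVec (V3 ι hs hsi hα hε yn V m α n * Mn ι hs hsi hα hε n)) = _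
    rw [hV3]
  have hww : Tendsto (fun n => w' n - w n) atTop (𝓝 ((α : ℂ) • s)) := by
    have h1 := hE.const_smul ((α / 2 : ℝ) : ℂ)
    have h2 : ((α / 2 : ℝ) : ℂ) • (2 : ℂ) • s = (α : ℂ) • s := by
      rw [smul_smul]
      congr 1
      push_cast
      ring
    rw [h2] at h1
    refine h1.congr fun n => ?_
    rw [hw'd, hwd]
    simp only
    rw [← smul_sub, he4V, he2V, smul_smul, ← Complex.ofReal_mul]
    congr 2
    rw [had]
    have := (hε n).ne'
    simp only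
    field_simp
  have hw'n : ∀ n, ‖w' n‖ = |α| / (2 * ε n) := by
    intro n
    rw [hw'd]
    simp only
    rw [norm_smul, he4V, LinearIsometry.norm_map, norm_eVec, mul_one, Complex.norm_real,
      Real.norm_eq_abs, had]
    simp only
    rw [abs_div, abs_mul, abs_two, abs_of_pos (hε n)]
  have hwn : ∀ n, ‖w n‖ = |α| / (2 * ε n) := by
    intro n
    rw [hwd]
    simp only
    rw [norm_smul, he2n, mul_one, Complex.norm_real, Real.norm_eq_abs, had]
    simp only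
    rw [abs_div, abs_mul, abs_two, abs_of_pos (hε n)]
  -- amplified smallness
  have hamp : ∀ r : ℕ → Sp K, r =o[atTop] ε →
      Tendsto (fun n => (1 + ‖w n‖ + ‖w' n‖) * ‖r n‖) atTop (𝓝 0) := by
    intro r hr
    have h1 : Tendsto (fun n => ‖r n‖) atTop (𝓝 0) :=
      tendsto_zero_iff_norm_tendsto_zero.mp (hr.trans_tendsto hε0)
    have h2 : Tendsto (fun n => ‖r n‖ / ε n) atTop (𝓝 0) :=
      (isLittleO_iff_tendsto' (Eventually.of_forall fun n hn => absurd hn (hε n).ne')).mp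
        hr.norm_left
    have h3 := h1.add (h2.const_mul |α|)
    rw [mul_zero, add_zero] at h3
    refine h3.congr fun n => ?_
    rw [hwn, hw'n]
    have := (hε n).ne'
    field_simp
    ring
  have hu0 : ∀ i < 4 * m, Tendsto (u i) atTop (𝓝 0) := fun i _ => (hSm i).bd.trans_tendsto hε0
  have hui : ∀ i < 4 * m, Tendsto (fun n => (⟪w n, u i n⟫_ℂ).im) atTop (𝓝 0) := fun i _ =>
    (hSm i).im.trans_tendsto hε0
  -- the final unitary on the light part
  have hV4 : ∀ n (v : Sp K), (phs (w n) (w' n) * c n) •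
      (V4 ι hs hsi hα hε yn V m α n : Sp K →L[ℂ] Sp K) v =
      phs (w n) (w' n) • ((Ez (w' n) : USp K) : Sp K →L[ℂ] Sp K) ((Q n : Sp K →L[ℂ] Sp K)
        (((Ez (-w n) : USp K) : Sp K →L[ℂ] Sp K) (c n • (W1 n : Sp K →L[ℂ] Sp K) v))) := by
    intro n v
    have e1 : (V4 ι hs hsi hα hε yn V m α n : Sp K →L[ℂ] Sp K) v =
        ((Ez (w' n) : USp K) : Sp K →L[ℂ] Sp K)
          ((V3 ι hs hsi hα hε yn V m α n : Sp K →L[ℂ] Sp K) v) := rfl
    rw [e1, hV3]
    show _ • ((Ez (w' n) : USp K) : Sp K →L[ℂ] Sp K) ((Q n : Sp K →L[ℂ] Sp K)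
      ((W2 n : Sp K →L[ℂ] Sp K) v)) = _
    rw [hW2eq, map_smul, map_smul, map_smul, smul_smul]
  have hcE : (costU (-α) s : USp K) = Ez ((α : ℂ) • s) := by
    rw [costU_eq_Ez]
    congr 2
    push_cast
    ring
  refine ⟨fun n => phs (w n) (w' n) * c n, fun n => ?_, fun v => ?_, ?_⟩
  · rw [norm_mul, norm_phs, hc, one_mul]
  · simp only [hV4, hcE]
    exact strong_prop (hst v) (axs β₀) u (4 * m) hu0 hui hww
  · simp only [hV4, hcE]
    exact cvh_prop hcv HN (axs β₀) u (4 * m) hu0 hui hww (hamp _ hf1) (hamp _ hf2)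

end Step

end Crest.Agent.R339.Mark
end
end

-- ▼ part R339/Lab373H

/-!
# The label step
-/

set_option autoImplicit false
set_option maxHeartbeats 400000

noncomputable section

open scoped ComplexConjugate InnerProductSpace Topology
open Filter Crest.MathPhysics.SpinGlass Crest.Agent.R339.Site Crest.Agent.R339.Lab

namespace Crest.Agent.R339.Mark

variable {K : Type*} [NormedAddCommGroup K] [InnerProductSpace ℂ K]

/-- fine subdivision for the label step -/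
lemma exists_subdiv' (ι : Sp K →ₗᵢ[ℂ] K) {y : K} {U : USp K}
    (hne : (⟪y, ι (eVec U)⟫_ℂ).im ≠ 0) (α : ℝ) :
    ∃ m : ℕ, 0 < m ∧ (⟪y, ι (eVec (mixU (-(Real.pi / 2) / (4 * m)) * U))⟫_ℂ).im ≠ 0 ∧
      Real.cos (2 * ((Real.pi / 2) / (4 * m))) ≠ 0 ∧
      2 * |Real.sin (2 * ((Real.pi / 2) / (4 * m)))| * (‖y‖ + |α| + 1) ≤
        |Real.cos (2 * ((Real.pi / 2) / (4 * m)))| * |(⟪y, ι (eVec U)⟫_ℂ).im| := by
  have h0 : Tendsto (fun m : ℕ => -(Real.pi / 2) / (4 * (m : ℝ))) atTop (𝓝 0) := by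
    refine Tendsto.const_div_atTop ?_ _
    exact tendsto_natCast_atTop_atTop.const_mul_atTop (by norm_num)
  have h0' : Tendsto (fun m : ℕ => 2 * ((Real.pi / 2) / (4 * (m : ℝ)))) atTop (𝓝 0) := by
    have : Tendsto (fun m : ℕ => (Real.pi / 2) / (4 * (m : ℝ))) atTop (𝓝 0) := by
      refine Tendsto.const_div_atTop ?_ _
      exact tendsto_natCast_atTop_atTop.const_mul_atTop (by norm_num)
    simpa using this.const_mul 2
  have h1 : STends (fun m : ℕ => (mixU (-(Real.pi / 2) / (4 * (m : ℝ))) * U : USp K)) atTop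
      (mixU 0 * U) := (STends_mixU h0).mul (STends.const U)
  rw [mixU_zero, one_mul] at h1
  have h2 : Tendsto (fun m : ℕ => (⟪y, ι (eVec (mixU (-(Real.pi / 2) / (4 * (m : ℝ))) * U))⟫_ℂ).im)
      atTop (𝓝 (⟪y, ι (eVec U)⟫_ℂ).im) :=
    (Complex.continuous_im.tendsto _).comp
      (tendsto_const_nhds.inner ((ι.continuous.tendsto _).comp h1.tendsto_eVec))
  have hc : Tendsto (fun m : ℕ => Real.cos (2 * ((Real.pi / 2) / (4 * (m : ℝ))))) atTop (𝓝 1) := by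
    have := (Real.continuous_cos.tendsto 0).comp h0'
    rwa [Real.cos_zero] at this
  have hsn : Tendsto (fun m : ℕ => Real.sin (2 * ((Real.pi / 2) / (4 * (m : ℝ))))) atTop (𝓝 0) := by
    have := (Real.continuous_sin.tendsto 0).comp h0'
    rwa [Real.sin_zero] at this
  have hpos : 0 < |(⟪y, ι (eVec U)⟫_ℂ).im| := abs_pos.mpr hne
  have h3 : Tendsto (fun m : ℕ => |Real.cos (2 * ((Real.pi / 2) / (4 * (m : ℝ))))| *
      |(⟪y, ι (eVec U)⟫_ℂ).im| - 2 * |Real.sin (2 * ((Real.pi / 2) / (4 * (m : ℝ))))| *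
        (‖y‖ + |α| + 1)) atTop (𝓝 |(⟪y, ι (eVec U)⟫_ℂ).im|) := by
    have := (hc.abs.mul_const |(⟪y, ι (eVec U)⟫_ℂ).im|).sub
      ((hsn.abs.const_mul 2).mul_const (‖y‖ + |α| + 1))
    simpa using this
  obtain ⟨m, ⟨⟨hm, hm0⟩, hcm⟩, hsm⟩ := (((h2.eventually_ne hne).and (eventually_gt_atTop 0)).and
    (hc.eventually_ne one_ne_zero)).and (h3.eventually_const_le hpos) |>.exists
  exact ⟨m, hm0, hm, hcm, by linarith⟩

section Step

variable {ι : Sp K →ₗᵢ[ℂ] K} {s : K} {hs : ‖s‖ = 1} {hsi : ∀ v, ⟪s, ι v⟫_ℂ = 0}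
  {α0 : ℝ} {hα : α0 ≠ 0} {ε : ℕ → ℝ} {hε : ∀ n, 0 < ε n}

/-- calibration from a lower bound on the read-out -/
lemma calib_of_low {yn : ℕ → K} {β σ : ℝ} {V : ℕ → USp K} {q : ℝ} (hq : 0 < q)
    (h : ∀ᶠ n in atTop, q ≤ |(⟪yn n, rd ι hs hsi hα hε β V n⟫_ℂ).im|) :
    Hv.Bdd (ta ι hs hsi hα hε yn β σ V) ∧
    Tendsto (fun n => (⟪yn n, ta ι hs hsi hα hε yn β σ V n⟫_ℂ).im) atTop
      (𝓝 (σ * (Real.pi / 2))) := by
  refine ⟨?_, ?_⟩
  · refine bdd_of_eventually (T := |σ| * Real.pi / (2 * q)) ?_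
    filter_upwards [h] with n hn
    rw [ta, norm_smul, norm_rd, mul_one, Complex.norm_real, st, Real.norm_eq_abs, abs_div, abs_mul,
      abs_mul, abs_two, abs_of_pos Real.pi_pos]
    exact div_le_div_of_nonneg_left (by have := Real.pi_pos; positivity) (by positivity)
      (by linarith)
  · refine tendsto_const_nhds.congr' ?_
    filter_upwards [h] with n hn
    have hne : (⟪yn n, rd ι hs hsi hα hε β V n⟫_ℂ).im ≠ 0 := by
      intro h0
      rw [h0, abs_zero] at hn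
      linarith
    rw [ta, inner_smul_right, Complex.im_ofReal_mul, st]
    field_simp

/-- **The label step, given the light side.** -/
theorem Inv.lam' (hε0 : Tendsto ε atTop (𝓝 0)) {V : ℕ → USp K} {U : USp K} {y : K}
    (H : Inv ι hs hsi hα hε V U y) (h0 : (⟪y, ι (eVec U)⟫_ℂ).im ≠ 0) {α : ℝ} (hα1 : α ≠ 0) :
    ∃ V', Inv ι hs hsi hα hε V' (costU (-α) s * U) (y + ((2 * α : ℝ) : ℂ) • ι (eVec U)) := by
  obtain ⟨m, hm0, hm, hcos, hsm⟩ := exists_subdiv' ι h0 α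
  obtain ⟨yn, hy, hhv⟩ := H.heavy
  have hH1 := fun b (hb : b = 1 ∨ b = -1) =>
    heavy_V1 hε0 H.light H.nice hy hm0 h0 hm hb (hhv b hb)
  obtain ⟨hread, hlight⟩ := lamLight_core hε0 H.light H.nice h0 hα1 hy hm0 hm hcos hsm hH1
  have hcE : (costU (-α) s : USp K) = Ez ((α : ℂ) • s) := by
    rw [costU_eq_Ez]
    congr 2
    push_cast
    ring
  -- convergence of the site vectors
  have he2 : Tendsto (ee2 ι hs hsi hα hε yn V m) atTop (𝓝 (ι (eVec U))) :=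
    (light_V1 hε0 H.light H.nice hy h0 hm (4 * m)).tendsto_jn_eVec hε0
  have he4 : Tendsto (ee4 ι hs hsi hα hε yn V m α) atTop (𝓝 (ι (eVec U))) := by
    have h1 := hlight.tendsto_jn_eVec hε0
    rw [hcE, eVec_Ez_mul] at h1
    refine h1.congr fun n => ?_
    rw [ee4, V4, mul_assoc, eVec_Ez_mul]
  refine ⟨V4 ι hs hsi hα hε yn V m α, fun n => ?_, hlight, ?_,
    fun n => y3 ι hs hsi hα hε yn V m α n + ((α : ℝ) : ℂ) • ee4 ι hs hsi hα hε yn V m α n,
    ?_, fun b hb => ?_⟩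
  · -- the word
    have r1 := reach_pv ι hs hsi hα hε yn (axs (-(Real.pi / 2) / (4 * m))) sgs (H.reach n) (4 * m)
    have r2 := exists_word_moveC r1 (α / (2 * ε n))
    have e2 : moveC (jn ι hs hsi hα hε n) (α / (2 * ε n))
        (pv ι hs hsi hα hε yn (axs (-(Real.pi / 2) / (4 * m))) sgs V (4 * m) n *
          Mn ι hs hsi hα hε n) = V2 ι hs hsi hα hε yn V m α n * Mn ι hs hsi hα hε n := by
      rw [moveC, costU_eq_Ez, V2, ee2, V1, mul_assoc, Complex.ofReal_neg]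
    rw [e2] at r2
    have r3 := reach_pv ι hs hsi hα hε (y3 ι hs hsi hα hε yn V m α)
      (axs ((Real.pi / 2) / (4 * m))) sgs r2 (4 * m)
    have r4 := exists_word_moveC r3 (-(α / (2 * ε n)))
    have e4 : moveC (jn ι hs hsi hα hε n) (-(α / (2 * ε n)))
        (pv ι hs hsi hα hε (y3 ι hs hsi hα hε yn V m α) (axs ((Real.pi / 2) / (4 * m))) sgs
          (V2 ι hs hsi hα hε yn V m α) (4 * m) n * Mn ι hs hsi hα hε n) =
        V4 ι hs hsi hα hε yn V m α n * Mn ι hs hsi hα hε n := by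
      rw [moveC, costU_eq_Ez, V4, ee4, V3, V3j, mul_assoc, Complex.ofReal_neg, neg_neg]
    rw [e4] at r4
    exact r4
  · rw [hcE]
    exact H.nice.Ez _
  · have h1 := (hy.add (he2.const_smul ((α : ℝ) : ℂ))).add (he4.const_smul ((α : ℝ) : ℂ))
    have e : y + ((α : ℝ) : ℂ) • ι (eVec U) + ((α : ℝ) : ℂ) • ι (eVec U) =
        y + ((2 * α : ℝ) : ℂ) • ι (eVec U) := by
      push_cast
      module
    rw [e] at h1
    exact h1
  · -- the heavy branch
    have hbb : b * b = 1 := by rcases hb with rfl | rfl <;> norm_num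
    have hb' : -b = 1 ∨ -b = -1 := by rcases hb with rfl | rfl <;> simp
    have hεne : ∀ᶠ n in atTop, ε n ≠ 0 := Eventually.of_forall fun n => (hε n).ne'
    -- amplified cost gate
    have h2 := (hH1 b hb).cost hb hb' hεne
      (fun n => ((-(α / 2) : ℝ) : ℂ) • ee2 ι hs hsi hα hε yn V m n)
    have ey : (fun n => yn n + ((2 * (b * -b) : ℝ) : ℂ) • (((-(α / 2) : ℝ) : ℂ) •
        ee2 ι hs hsi hα hε yn V m n)) = y3 ι hs hsi hα hε yn V m α := by
      funext n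
      rw [y3, smul_smul, ← Complex.ofReal_mul]
      congr 3
      linear_combination α * hbb
    have eh : (fun n => ((Ez (((1 / ε n : ℝ) : ℂ) • (((-(α / 2) : ℝ) : ℂ) •
        ee2 ι hs hsi hα hε yn V m n)) : USp K) : Sp K →L[ℂ] Sp K)
        ((V1 ι hs hsi hα hε yn V m n : Sp K →L[ℂ] Sp K) (Pb b (Hn ι hs hsi hα hε n Om)))) =
        fun n => (V2 ι hs hsi hα hε yn V m α n : Sp K →L[ℂ] Sp K)
          (Pb b (Hn ι hs hsi hα hε n Om)) := by
      funext n
      have e : ((1 / ε n : ℝ) : ℂ) • (((-(α / 2) : ℝ) : ℂ) • ee2 ι hs hsi hα hε yn V m n) =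
          ((-(α / (2 * ε n)) : ℝ) : ℂ) • ee2 ι hs hsi hα hε yn V m n := by
        rw [smul_smul, ← Complex.ofReal_mul]
        congr 2
        have := (hε n).ne'
        field_simp
      rw [e, V2]
      rfl
    rw [ey, eh] at h2
    -- second rotation
    set β₀ : ℝ := (Real.pi / 2) / (4 * m) with hβ₀
    have h3 := h2.pulses (bdd_heavy _ hb) hb (β := axs β₀) (σ := sgs) sgs_or
      (τ := fun j => ta ι hs hsi hα hε (y3 ι hs hsi hα hε yn V m α) (axs β₀ j) (sgs j)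
        (V3j ι hs hsi hα hε yn V m α j)) (N := 4 * m)
      (fun j hj => by
        obtain ⟨r, hr, hr'⟩ := hread j hj
        exact (calib_of_low hr hr').1)
      (fun j hj => by
        obtain ⟨r, hr, hr'⟩ := hread j hj
        exact (calib_of_low hr hr').2)
      (g := fun j n => (V3j ι hs hsi hα hε yn V m α j n : Sp K →L[ℂ] Sp K)
        (Pb b (Hn ι hs hsi hα hε n Om))) (fun n => rfl) (fun j _ n => rfl) (4 * m) le_rfl
    have hmz : (m : ℝ) ≠ 0 := by exact_mod_cast hm0.ne'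
    have e : 4 * (m : ℝ) * β₀ = Real.pi / 2 := by
      rw [hβ₀]
      field_simp
    have h4 : Hv.Heavy ε b b (y3 ι hs hsi hα hε yn V m α)
        (fun n => (V3 ι hs hsi hα hε yn V m α n : Sp K →L[ℂ] Sp K)
          (Pb b (Hn ι hs hsi hα hε n Om))) := by
      have h5 := heavy_flip h2 (Or.inl rfl)
      rw [neg_neg] at h5
      refine h5.congr (h3.congr fun n => ?_)
      rw [Hv.pulM_period (β := axs β₀) (σ := sgs) hb β₀ (fun j => rfl) (fun j => rfl), e]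
      rfl
    -- second amplified cost gate
    have h6 := h4.cost hb hb hεne (fun n => ((α / 2 : ℝ) : ℂ) • ee4 ι hs hsi hα hε yn V m α n)
    have ey' : (fun n => y3 ι hs hsi hα hε yn V m α n + ((2 * (b * b) : ℝ) : ℂ) •
        (((α / 2 : ℝ) : ℂ) • ee4 ι hs hsi hα hε yn V m α n)) =
        fun n => y3 ι hs hsi hα hε yn V m α n + ((α : ℝ) : ℂ) •
          ee4 ι hs hsi hα hε yn V m α n := by
      funext n
      rw [smul_smul, ← Complex.ofReal_mul]
      congr 3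
      linear_combination α * hbb
    have eh' : (fun n => ((Ez (((1 / ε n : ℝ) : ℂ) • (((α / 2 : ℝ) : ℂ) •
        ee4 ι hs hsi hα hε yn V m α n)) : USp K) : Sp K →L[ℂ] Sp K)
        ((V3 ι hs hsi hα hε yn V m α n : Sp K →L[ℂ] Sp K) (Pb b (Hn ι hs hsi hα hε n Om)))) =
        fun n => (V4 ι hs hsi hα hε yn V m α n : Sp K →L[ℂ] Sp K)
          (Pb b (Hn ι hs hsi hα hε n Om)) := by
      funext n
      have e : ((1 / ε n : ℝ) : ℂ) • (((α / 2 : ℝ) : ℂ) • ee4 ι hs hsi hα hε yn V m α n) =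
          ((α / (2 * ε n) : ℝ) : ℂ) • ee4 ι hs hsi hα hε yn V m α n := by
        rw [smul_smul, ← Complex.ofReal_mul]
        congr 2
        have := (hε n).ne'
        field_simp
      rw [e, V4]
      rfl
    rw [ey', eh'] at h6
    exact h6


/-- **The label step of L1'.** -/
theorem lamStmt (hε0 : Tendsto ε atTop (𝓝 0)) : LamStmt ι hs hsi hα hε := by
  intro V U y H h0 α
  by_cases hα1 : α = 0
  · refine ⟨V, ?_⟩
    have e1 : (costU (-α) s * U : USp K) = U := by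
      rw [hα1, costU_eq_Ez]
      simp
    have e2 : y + ((2 * α : ℝ) : ℂ) • ι (eVec U) = y := by
      rw [hα1]
      simp
    rw [e1, e2]
    exact H
  · exact H.lam' hε0 h0 hα1

end Step

end Crest.Agent.R339.Mark
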