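import Crest.Agent.R339.LabFun286A
import Crest.Agent.R339.SiteModel
import Crest.Agent.R339.Lab373A

-- ▼ part R339/LabFun286B
section

/-!
R339: `L²(γ; Fock K₀)` embeds isometrically into `Fock K`, `K ∋ s ⟂ j(K₀)`, intertwining
multiplication by `e^{itx}` with `Wy (t s)` and `Wy f` (fibrewise) with `Wy (j f)`.
-/

set_option autoImplicit false
set_option linter.unusedSectionVars false

noncomputable section

namespace Crest.Agent.R339.LF

open MeasureTheory ProbabilityTheory Filter Topology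
open scoped InnerProductSpace ENNReal
open Crest.Agent.R339.Site

section mult
variable {E : Type*} [NormedAddCommGroup E] [InnerProductSpace ℂ E] [CompleteSpace E]

/-- multiplication by an essentially bounded function of the label. -/
def mulL (c : Lp ℂ ∞ gam1) : Lp E 2 gam1 →L[ℂ] Lp E 2 gam1 :=
  (ContinuousLinearMap.lsmul ℂ ℂ : ℂ →L[ℂ] E →L[ℂ] E).holderL gam1 ∞ 2 2 c

lemma coeFn_mulL (c : Lp ℂ ∞ gam1) (f : Lp E 2 gam1) :
    mulL c f =ᵐ[gam1] fun x => c x • f x :=
  ContinuousLinearMap.coeFn_holder (ContinuousLinearMap.lsmul ℂ ℂ : ℂ →L[ℂ] E →L[ℂ] E) c f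

/-- fibrewise action of a constant operator. -/
def lift (A : E →L[ℂ] E) : Lp E 2 gam1 →L[ℂ] Lp E 2 gam1 := A.compLpL 2 gam1

lemma coeFn_lift (A : E →L[ℂ] E) (f : Lp E 2 gam1) :
    lift A f =ᵐ[gam1] fun x => A (f x) :=
  A.coeFn_compLpL f

lemma lift_wave (A : E →L[ℂ] E) (t : ℝ) (v : E) : lift A (wave t v) = wave t (A v) := by
  apply Lp.ext
  filter_upwards [coeFn_lift A (wave t v), coeFn_wave t v, coeFn_wave t (A v)] with x h1 h2 h3
  rw [h1, h2, h3, map_smul]

/-- a bounded measurable function as an element of `L^∞`. -/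
def bmf (c : ℝ → ℂ) (hc : Measurable c) (C : ℝ) (hb : ∀ x, ‖c x‖ ≤ C) : Lp ℂ ∞ gam1 :=
  (memLp_top_of_bound hc.aestronglyMeasurable C (Eventually.of_forall hb)).toLp c

lemma coeFn_bmf (c : ℝ → ℂ) (hc : Measurable c) (C : ℝ) (hb : ∀ x, ‖c x‖ ≤ C) :
    bmf c hc C hb =ᵐ[gam1] c := MemLp.coeFn_toLp _

/-- the character as an element of `L^∞`. -/
def chiL (t : ℝ) : Lp ℂ ∞ gam1 :=
  bmf (chi t) (continuous_chi t).measurable 1 (fun x => (norm_chi t x).le)

lemma coeFn_chiL (t : ℝ) : chiL t =ᵐ[gam1] chi t := coeFn_bmf _ _ _ _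

lemma mulL_chiL_wave (s t : ℝ) (v : E) : mulL (chiL s) (wave t v) = wave (s + t) v := by
  apply Lp.ext
  filter_upwards [coeFn_mulL (chiL s) (wave t v), coeFn_wave t v, coeFn_wave (s + t) v,
    coeFn_chiL s] with x h1 h2 h3 h4
  rw [h1, h2, h3, h4, chi_add, smul_smul]

end mult

section embed
variable {K0 K : Type*} [NormedAddCommGroup K0] [InnerProductSpace ℂ K0]
  [NormedAddCommGroup K] [InnerProductSpace ℂ K]
variable (j : K0 →ₗᵢ[ℂ] K) (s : K)

lemma gram_embed (hs : ‖s‖ = 1) (hsj : ∀ f, ⟪s, j f⟫_ℂ = 0) (p q : ℝ × K0) :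
    ⟪wave p.1 (coh p.2 : Fock K0), wave q.1 (coh q.2 : Fock K0)⟫_ℂ
      = ⟪(coh (j p.2 + (p.1 : ℂ) • s) : Fock K), coh (j q.2 + (q.1 : ℂ) • s)⟫_ℂ := by
  have hjs : ∀ f, ⟪j f, s⟫_ℂ = 0 := fun f => by
    rw [← inner_conj_symm, hsj, map_zero]
  have hss : ⟪s, s⟫_ℂ = 1 := by
    rw [inner_self_eq_norm_sq_to_K, hs]; simp
  have hn : ∀ (f : K0) (t : ℝ), ‖j f + (t : ℂ) • s‖ ^ 2 = ‖f‖ ^ 2 + t ^ 2 := by
    intro f t
    rw [@norm_add_sq ℂ, inner_smul_right, hjs, norm_smul, hs, j.norm_map]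
    simp
  rw [inner_wave, inner_coh, inner_coh, hn, hn, ← Complex.exp_add]
  congr 1
  rw [inner_add_left, inner_add_right, inner_add_right, inner_smul_left, inner_smul_left,
    inner_smul_right, inner_smul_right, hjs, hsj, hss, j.inner_map_map]
  simp only [Complex.conj_ofReal]
  push_cast
  ring

/-- the embedding of `L²(γ; Fock K₀)` into `Fock K`. -/
def emb : Lp (Fock K0) 2 gam1 →L[ℂ] Fock K :=
  isoOfGram (fun p : ℝ × K0 => wave p.1 (coh p.2 : Fock K0))
    (fun p : ℝ × K0 => (coh (j p.2 + (p.1 : ℂ) • s) : Fock K))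

lemma waves_coh_total :
    (Submodule.span ℂ (Set.range
      (fun p : ℝ × K0 => wave p.1 (coh p.2 : Fock K0)))).topologicalClosure = ⊤ :=
  wave_total coh_total

lemma emb_wave (hs : ‖s‖ = 1) (hsj : ∀ f, ⟪s, j f⟫_ℂ = 0) (t : ℝ) (f : K0) :
    emb j s (wave t (coh f)) = coh (j f + (t : ℂ) • s) :=
  isoOfGram_apply waves_coh_total (gram_embed j s hs hsj) (t, f)

lemma norm_emb (hs : ‖s‖ = 1) (hsj : ∀ f, ⟪s, j f⟫_ℂ = 0) (v : Lp (Fock K0) 2 gam1) :
    ‖emb j s v‖ = ‖v‖ :=
  norm_isoOfGram waves_coh_total (gram_embed j s hs hsj) v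

lemma emb_vac (hs : ‖s‖ = 1) (hsj : ∀ f, ⟪s, j f⟫_ℂ = 0) :
    emb j s (wave 0 vac) = vac := by
  rw [vac, emb_wave j s hs hsj]
  simp [vac]

lemma emb_Wy (hs : ‖s‖ = 1) (hsj : ∀ f, ⟪s, j f⟫_ℂ = 0) (g : K0)
    (v : Lp (Fock K0) 2 gam1) :
    emb j s (lift (Wy g) v) = Wy (j g) (emb j s v) := by
  have h : (emb j s).comp (lift (Wy g)) = (Wy (j g)).comp (emb j s) := by
    refine ext_total waves_coh_total fun p => ?_
    rw [ContinuousLinearMap.comp_apply, ContinuousLinearMap.comp_apply, lift_wave, Wy_coh,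
      wave_smul, map_smul, emb_wave j s hs hsj, emb_wave j s hs hsj, Wy_coh, map_add,
      inner_add_right, inner_smul_right, j.inner_map_map]
    have : ⟪j g, s⟫_ℂ = 0 := by rw [← inner_conj_symm, hsj, map_zero]
    rw [this, mul_zero, add_zero, add_assoc]
  exact congrArg (fun T : Lp (Fock K0) 2 gam1 →L[ℂ] Fock K => T v) h

lemma emb_chi (hs : ‖s‖ = 1) (hsj : ∀ f, ⟪s, j f⟫_ℂ = 0) (t : ℝ)
    (v : Lp (Fock K0) 2 gam1) :
    emb j s (mulL (chiL t) v) = Wy ((t : ℂ) • s) (emb j s v) := by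
  have hss : ⟪s, s⟫_ℂ = 1 := by
    rw [inner_self_eq_norm_sq_to_K, hs]; simp
  have h : (emb j s).comp (mulL (chiL t)) = (Wy ((t : ℂ) • s)).comp (emb j s) := by
    refine ext_total waves_coh_total fun p => ?_
    rw [ContinuousLinearMap.comp_apply, ContinuousLinearMap.comp_apply, mulL_chiL_wave,
      emb_wave j s hs hsj, emb_wave j s hs hsj, Wy_coh, inner_add_right, inner_smul_left,
      inner_smul_left, inner_smul_right, hsj, hss, Complex.conj_ofReal]
    have : (((t : ℂ) * 0 + (t : ℂ) * ((p.1 : ℂ) * 1)).im : ℝ) = 0 := by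
      rw [mul_zero, zero_add, mul_one, ← Complex.ofReal_mul, Complex.ofReal_im]
    rw [this]
    simp only [Complex.ofReal_zero, mul_zero, neg_zero, Complex.exp_zero, one_smul]
    congr 1
    push_cast
    rw [add_smul]
    abel
  exact congrArg (fun T : Lp (Fock K0) 2 gam1 →L[ℂ] Fock K => T v) h

end embed

end Crest.Agent.R339.LF
end
end

-- ▼ part R339/LabSp286A
section

/-!
R339: the algebra of label multiplications and fibrewise operators on `Lp E 2 gam1`,
and `2 × 2` operator matrices over a general Hilbert space.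
-/

set_option autoImplicit false
set_option linter.unusedSectionVars false

noncomputable section

namespace Crest.Agent.R339.LF

open MeasureTheory ProbabilityTheory Filter Topology
open scoped InnerProductSpace ENNReal

section mult
variable {E : Type*} [NormedAddCommGroup E] [InnerProductSpace ℂ E] [CompleteSpace E]

/-- bounded measurable functions of the label -/
def BM (c : ℝ → ℂ) : Prop := Measurable c ∧ ∃ C : ℝ, ∀ x, ‖c x‖ ≤ C

lemma BM.const (z : ℂ) : BM (fun _ => z) := ⟨measurable_const, ‖z‖, fun _ => le_rfl⟩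

lemma BM.chi (t : ℝ) : BM (chi t) := ⟨(continuous_chi t).measurable, 1, fun x => (norm_chi t x).le⟩

lemma BM.mul {c c' : ℝ → ℂ} (h : BM c) (h' : BM c') : BM (fun x => c x * c' x) := by
  obtain ⟨hm, C, hC⟩ := h
  obtain ⟨hm', C', hC'⟩ := h'
  refine ⟨hm.mul hm', C * C', fun x => ?_⟩
  rw [norm_mul]
  exact mul_le_mul (hC x) (hC' x) (norm_nonneg _) ((norm_nonneg _).trans (hC x))

lemma BM.add {c c' : ℝ → ℂ} (h : BM c) (h' : BM c') : BM (fun x => c x + c' x) := by
  obtain ⟨hm, C, hC⟩ := h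
  obtain ⟨hm', C', hC'⟩ := h'
  exact ⟨hm.add hm', C + C', fun x => (norm_add_le _ _).trans (add_le_add (hC x) (hC' x))⟩

lemma BM.sub {c c' : ℝ → ℂ} (h : BM c) (h' : BM c') : BM (fun x => c x - c' x) := by
  obtain ⟨hm, C, hC⟩ := h
  obtain ⟨hm', C', hC'⟩ := h'
  exact ⟨hm.sub hm', C + C', fun x => (norm_sub_le _ _).trans (add_le_add (hC x) (hC' x))⟩

lemma BM.conj {c : ℝ → ℂ} (h : BM c) : BM (fun x => (starRingEnd ℂ) (c x)) := by
  obtain ⟨hm, C, hC⟩ := h
  exact ⟨Complex.continuous_conj.measurable.comp hm, C, fun x => by rw [RCLike.norm_conj]; exact hC x⟩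

lemma BM.sum {ι : Type*} (s : Finset ι) {c : ι → ℝ → ℂ} (h : ∀ i, BM (c i)) :
    BM (fun x => ∑ i ∈ s, c i x) := by
  classical
  induction s using Finset.induction_on with
  | empty => simpa using BM.const 0
  | insert i s hi ih =>
    simp_rw [Finset.sum_insert hi]
    exact (h i).add ih

lemma BM.indicator {A : Set ℝ} (hA : MeasurableSet A) : BM (A.indicator (fun _ => (1 : ℂ))) := by
  refine ⟨measurable_const.indicator hA, 1, fun x => ?_⟩
  by_cases hx : x ∈ A <;> simp [hx]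

open Classical in
/-- multiplication by a bounded measurable function of the label (zero for other functions). -/
def mF (c : ℝ → ℂ) : Lp E 2 gam1 →L[ℂ] Lp E 2 gam1 :=
  if h : BM c then mulL (bmf c h.1 h.2.choose h.2.choose_spec) else 0

lemma coeFn_mF {c : ℝ → ℂ} (h : BM c) (f : Lp E 2 gam1) :
    mF c f =ᵐ[gam1] fun x => c x • f x := by
  rw [mF, dif_pos h]
  filter_upwards [coeFn_mulL (bmf c h.1 h.2.choose h.2.choose_spec) f,
    coeFn_bmf c h.1 h.2.choose h.2.choose_spec] with x h1 h2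
  rw [h1, h2]

lemma mF_mul {c c' : ℝ → ℂ} (h : BM c) (h' : BM c') :
    (mF (fun x => c x * c' x) : Lp E 2 gam1 →L[ℂ] Lp E 2 gam1) = mF c * mF c' := by
  refine ContinuousLinearMap.ext fun f => Lp.ext ?_
  show _ =ᵐ[gam1] mF c (mF c' f)
  filter_upwards [coeFn_mF (h.mul h') f, coeFn_mF h (mF c' f), coeFn_mF h' f] with x h1 h2 h3
  rw [h1, h2, h3, smul_smul]

lemma mF_add {c c' : ℝ → ℂ} (h : BM c) (h' : BM c') :
    (mF (fun x => c x + c' x) : Lp E 2 gam1 →L[ℂ] Lp E 2 gam1) = mF c + mF c' := by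
  refine ContinuousLinearMap.ext fun f => Lp.ext ?_
  show _ =ᵐ[gam1] ((mF c f + mF c' f : Lp E 2 gam1) : ℝ → E)
  filter_upwards [coeFn_mF (h.add h') f, coeFn_mF h f, coeFn_mF h' f,
    Lp.coeFn_add (mF c f) (mF c' f)] with x h1 h2 h3 h4
  rw [h1, h4, Pi.add_apply, h2, h3, add_smul]

lemma mF_sub {c c' : ℝ → ℂ} (h : BM c) (h' : BM c') :
    (mF (fun x => c x - c' x) : Lp E 2 gam1 →L[ℂ] Lp E 2 gam1) = mF c - mF c' := by
  refine ContinuousLinearMap.ext fun f => Lp.ext ?_
  show _ =ᵐ[gam1] ((mF c f - mF c' f : Lp E 2 gam1) : ℝ → E)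
  filter_upwards [coeFn_mF (h.sub h') f, coeFn_mF h f, coeFn_mF h' f,
    Lp.coeFn_sub (mF c f) (mF c' f)] with x h1 h2 h3 h4
  rw [h1, h4, Pi.sub_apply, h2, h3, sub_smul]

lemma mF_const (z : ℂ) : (mF (fun _ => z) : Lp E 2 gam1 →L[ℂ] Lp E 2 gam1) = z • 1 := by
  refine ContinuousLinearMap.ext fun f => Lp.ext ?_
  show _ =ᵐ[gam1] ((z • f : Lp E 2 gam1) : ℝ → E)
  filter_upwards [coeFn_mF (BM.const z) f, Lp.coeFn_smul z f] with x h1 h2
  rw [h1, h2, Pi.smul_apply]

lemma mF_one : (mF (fun _ => 1) : Lp E 2 gam1 →L[ℂ] Lp E 2 gam1) = 1 := by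
  rw [mF_const, one_smul]

lemma mF_zero : (mF (fun _ => 0) : Lp E 2 gam1 →L[ℂ] Lp E 2 gam1) = 0 := by
  rw [mF_const, zero_smul]

lemma mF_const_mul (z : ℂ) {c : ℝ → ℂ} (h : BM c) :
    (mF (fun x => z * c x) : Lp E 2 gam1 →L[ℂ] Lp E 2 gam1) = z • mF c := by
  rw [mF_mul (BM.const z) h, mF_const, smul_mul_assoc, one_mul]


lemma star_mF {c : ℝ → ℂ} (h : BM c) :
    star (mF c : Lp E 2 gam1 →L[ℂ] Lp E 2 gam1) = mF (fun x => (starRingEnd ℂ) (c x)) := by
  rw [ContinuousLinearMap.star_eq_adjoint, eq_comm, ContinuousLinearMap.eq_adjoint_iff]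
  intro f g
  rw [L2.inner_def, L2.inner_def]
  refine integral_congr_ae ?_
  filter_upwards [coeFn_mF h.conj f, coeFn_mF h g] with x h1 h2
  rw [h1, h2, inner_smul_left, inner_smul_right, Complex.conj_conj]

/-- dominated convergence for label multiplications -/
lemma tendsto_mF {ι : Type*} {l : Filter ι} [l.IsCountablyGenerated] {c : ι → ℝ → ℂ}
    {c0 : ℝ → ℂ} (h : ∀ i, BM (c i)) (h0 : BM c0) (C : ℝ) (hC : ∀ i x, ‖c i x‖ ≤ C)
    (hlim : ∀ᵐ x ∂gam1, Tendsto (fun i => c i x) l (𝓝 (c0 x))) (f : Lp E 2 gam1) :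
    Tendsto (fun i => mF (c i) f) l (𝓝 (mF c0 f)) := by
  rw [tendsto_iff_norm_sub_tendsto_zero]
  have h1 : ∀ i, ‖mF (c i) f - mF c0 f‖ ^ 2 = ∫ x, ‖c i x - c0 x‖ ^ 2 * ‖f x‖ ^ 2 ∂gam1 := by
    intro i
    have h2 : mF (c i) f - mF c0 f = mF (fun x => c i x - c0 x) f := by
      rw [mF_sub (h i) h0]; rfl
    rw [h2, @norm_sq_eq_re_inner ℂ, L2.inner_def]
    have h3 : (∫ a, ⟪(mF (fun x => c i x - c0 x) f : Lp E 2 gam1) a,
        (mF (fun x => c i x - c0 x) f : Lp E 2 gam1) a⟫_ℂ ∂gam1)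
        = ((∫ x, ‖c i x - c0 x‖ ^ 2 * ‖f x‖ ^ 2 ∂gam1 : ℝ) : ℂ) := by
      rw [← integral_complex_ofReal]
      refine integral_congr_ae ?_
      filter_upwards [coeFn_mF ((h i).sub h0) f] with x hx
      rw [hx, inner_self_eq_norm_sq_to_K, norm_smul, ← mul_pow]
      push_cast
      rfl
    rw [h3]
    simp
  have hf2 : Integrable (fun x => ‖f x‖ ^ 2) gam1 := by
    have := (Lp.memLp f).integrable_norm_pow (by norm_num)
    simpa using this
  obtain ⟨hm0, C0, hC0⟩ := h0
  have h4 : Tendsto (fun i => ∫ x, ‖c i x - c0 x‖ ^ 2 * ‖f x‖ ^ 2 ∂gam1) l (𝓝 (∫ _x, (0 : ℝ) ∂gam1)) := by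
    refine tendsto_integral_filter_of_dominated_convergence
      (fun x => (C + C0) ^ 2 * ‖f x‖ ^ 2) ?_ ?_ (hf2.const_mul _) ?_
    · refine Eventually.of_forall fun i => ?_
      exact ((((h i).1.sub hm0).norm.pow_const 2).aestronglyMeasurable).mul
        hf2.aestronglyMeasurable
    · refine Eventually.of_forall fun i => Eventually.of_forall fun x => ?_
      rw [Real.norm_of_nonneg (by positivity)]
      refine mul_le_mul_of_nonneg_right ?_ (by positivity)
      refine pow_le_pow_left₀ (norm_nonneg _) ?_ 2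
      exact (norm_sub_le _ _).trans (add_le_add (hC i x) (hC0 x))
    · filter_upwards [hlim] with x hx
      have h5 : Tendsto (fun i => ‖c i x - c0 x‖ ^ 2 * ‖f x‖ ^ 2) l
          (𝓝 (‖c0 x - c0 x‖ ^ 2 * ‖f x‖ ^ 2)) :=
        (((hx.sub_const _).norm).pow 2).mul_const _
      simpa using h5
  rw [integral_zero] at h4
  have h6 : Tendsto (fun i => ‖mF (c i) f - mF c0 f‖ ^ 2) l (𝓝 0) := by
    simp_rw [h1]
    exact h4
  have h7 := h6.sqrt
  rw [Real.sqrt_zero] at h7
  exact h7.congr fun i => Real.sqrt_sq (norm_nonneg _)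

/-! ### fibrewise operators -/

lemma lift_mul (A B : E →L[ℂ] E) : lift (A * B) = lift A * lift B := by
  refine ContinuousLinearMap.ext fun f => Lp.ext ?_
  show _ =ᵐ[gam1] lift A (lift B f)
  filter_upwards [coeFn_lift (A * B) f, coeFn_lift A (lift B f), coeFn_lift B f] with x h1 h2 h3
  rw [h1, h2, h3]
  rfl

lemma lift_one : lift (1 : E →L[ℂ] E) = 1 := by
  refine ContinuousLinearMap.ext fun f => Lp.ext ?_
  filter_upwards [coeFn_lift (1 : E →L[ℂ] E) f] with x h1
  rw [h1]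
  rfl

lemma lift_smul (z : ℂ) (A : E →L[ℂ] E) : lift (z • A) = z • lift A := by
  refine ContinuousLinearMap.ext fun f => Lp.ext ?_
  show _ =ᵐ[gam1] ((z • lift A f : Lp E 2 gam1) : ℝ → E)
  filter_upwards [coeFn_lift (z • A) f, coeFn_lift A f, Lp.coeFn_smul z (lift A f)] with x h1 h2 h3
  rw [h1, h3, Pi.smul_apply, h2]
  rfl


lemma star_lift (A : E →L[ℂ] E) : star (lift A) = lift (star A) := by
  rw [ContinuousLinearMap.star_eq_adjoint, eq_comm, ContinuousLinearMap.eq_adjoint_iff]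
  intro f g
  rw [L2.inner_def, L2.inner_def]
  refine integral_congr_ae ?_
  filter_upwards [coeFn_lift (star A) f, coeFn_lift A g] with x h1 h2
  rw [h1, h2, ContinuousLinearMap.star_eq_adjoint, ContinuousLinearMap.adjoint_inner_left]

lemma lift_mF_comm (A : E →L[ℂ] E) {c : ℝ → ℂ} (h : BM c) :
    lift A * (mF c : Lp E 2 gam1 →L[ℂ] Lp E 2 gam1) = mF c * lift A := by
  refine ContinuousLinearMap.ext fun f => Lp.ext ?_
  show (lift A (mF c f) : Lp E 2 gam1) =ᵐ[gam1] mF c (lift A f)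
  filter_upwards [coeFn_lift A (mF c f), coeFn_mF h f, coeFn_mF h (lift A f),
    coeFn_lift A f] with x h1 h2 h3 h4
  rw [h1, h2, h3, h4, map_smul]


lemma mF_chi_eq (t : ℝ) : (mF (chi t) : Lp E 2 gam1 →L[ℂ] Lp E 2 gam1) = mulL (chiL t) := by
  refine ContinuousLinearMap.ext fun f => Lp.ext ?_
  filter_upwards [coeFn_mF (BM.chi t) f, coeFn_mulL (chiL t) f, coeFn_chiL t] with x h1 h2 h3
  rw [h1, h2, h3]

/-- indicator multiples of constants over a total family are total. -/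
theorem indicator_total {X : Type*} {c : X → E}
    (hc : (Submodule.span ℂ (Set.range c)).topologicalClosure = ⊤) :
    (Submodule.span ℂ {v : Lp E 2 gam1 | ∃ (A : Set ℝ) (x : X), MeasurableSet A ∧
      v = mF (A.indicator fun _ => 1) (wave 0 (c x))}).topologicalClosure = ⊤ := by
  rw [Submodule.topologicalClosure_eq_top_iff, Submodule.eq_bot_iff]
  intro f hf
  -- all bounded measurable multiples are orthogonal to `f`
  have h1 : ∀ (x : X) (A : Set ℝ), MeasurableSet A →
      ∫ y in A, ⟪c x, f y⟫_ℂ ∂gam1 = 0 := by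
    intro x A hA
    have h2 := (Submodule.mem_orthogonal _ _).mp hf _ (Submodule.subset_span ⟨A, x, hA, rfl⟩)
    rw [L2.inner_def] at h2
    rw [← integral_indicator hA, ← h2]
    refine integral_congr_ae ?_
    filter_upwards [coeFn_mF (BM.indicator hA) (wave 0 (c x)), coeFn_wave 0 (c x)] with y h3 h4
    rw [h3, h4]
    by_cases hy : y ∈ A
    · simp [hy, chi]
    · simp [hy]
  have h2 : ∀ x : X, (fun y => ⟪c x, f y⟫_ℂ) =ᵐ[gam1] 0 := by
    intro x
    have hint : Integrable (fun y => ⟪c x, f y⟫_ℂ) gam1 :=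
      ((Lp.memLp f).integrable (by norm_num)).const_inner (c x)
    exact Integrable.ae_eq_zero_of_forall_setIntegral_eq_zero hint fun A hA _ => h1 x A hA
  refine wave_sep fun t v => ?_
  let W : Submodule ℂ E :=
    { carrier := {v | ⟪wave t v, f⟫_ℂ = 0}
      add_mem' := by
        intro a b ha hb
        show ⟪wave t (a + b), f⟫_ℂ = 0
        rw [wave_add, inner_add_left, ha, hb, add_zero]
      zero_mem' := by
        show ⟪wave t (0 : E), f⟫_ℂ = 0
        have : wave t (0 : E) = 0 := by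
          have := wave_smul t 0 (0 : E)
          simpa using this
        rw [this, inner_zero_left]
      smul_mem' := by
        intro a b hb
        show ⟪wave t (a • b), f⟫_ℂ = 0
        rw [wave_smul, inner_smul_left, hb, mul_zero] }
  have hW : IsClosed (W : Set E) := by
    have hcont : Continuous (fun v : E => wave t v) := by
      let L : E →ₗᵢ[ℂ] Lp E 2 gam1 :=
        { toFun := wave t
          map_add' := wave_add t
          map_smul' := wave_smul t
          norm_map' := norm_wave t }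
      exact L.continuous
    exact isClosed_eq (hcont.inner continuous_const) continuous_const
  have h3 : Submodule.span ℂ (Set.range c) ≤ W := by
    rw [Submodule.span_le]
    rintro _ ⟨x, rfl⟩
    show ⟪wave t (c x), f⟫_ℂ = 0
    rw [L2.inner_def]
    rw [integral_eq_zero_of_ae]
    filter_upwards [coeFn_wave t (c x), h2 x] with y h4 h5
    rw [h4, inner_smul_left]
    simp only [Pi.zero_apply] at h5
    simp [h5]
  have h4 : (⊤ : Submodule ℂ E) ≤ W := by
    rw [← hc]
    exact Submodule.topologicalClosure_minimal _ h3 hW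
  exact h4 (Submodule.mem_top : v ∈ ⊤)

end mult

end Crest.Agent.R339.LF
end
end

-- ▼ part R339/LabSp286B
section

/-!
R339: the labelled site space `SL K₀ = ℂ² ⊗ L²(γ; Fock K₀)` and its elementary operators.
-/

set_option autoImplicit false
set_option linter.unusedSectionVars false

noncomputable section

namespace Crest.Agent.R339.LF

open MeasureTheory ProbabilityTheory Filter Topology
open scoped InnerProductSpace ENNReal
open Crest.Agent.R339.Site Crest.MathPhysics.SpinGlass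

/-! ### `2 × 2` operator matrices -/
section matrices

variable {F : Type*} [NormedAddCommGroup F] [InnerProductSpace ℂ F] [CompleteSpace F]

/-- `ℂ² ⊗ F` -/
abbrev C2 (F : Type*) [NormedAddCommGroup F] : Type _ := PiLp 2 (fun _ : Bool => F)

/-- A `2 × 2` matrix of operators on `F` acting on `C2 F`. -/
def opG (M : Matrix Bool Bool (F →L[ℂ] F)) : C2 F →L[ℂ] C2 F :=
  ((PiLp.continuousLinearEquiv 2 ℂ (fun _ : Bool => F)).symm :
    (Bool → F) →L[ℂ] C2 F) ∘L
    (ContinuousLinearMap.pi fun b => ∑ b', M b b' ∘L (ContinuousLinearMap.proj b')) ∘L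
    ((PiLp.continuousLinearEquiv 2 ℂ (fun _ : Bool => F)) : C2 F →L[ℂ] (Bool → F))

@[simp] lemma opG_apply (M : Matrix Bool Bool (F →L[ℂ] F)) (v : C2 F) (b : Bool) :
    opG M v b = ∑ b', M b b' (v b') := by
  simp [opG]

lemma opG_mul (M N : Matrix Bool Bool (F →L[ℂ] F)) : opG (M * N) = opG M * opG N := by
  refine ContinuousLinearMap.ext fun v => ?_
  ext b
  rw [mul_apply_eq_comp, opG_apply, opG_apply]
  simp only [opG_apply, Matrix.mul_apply, map_sum, sum_apply, mul_apply_eq_comp]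
  rw [Finset.sum_comm]





lemma opG_star (M : Matrix Bool Bool (F →L[ℂ] F)) : star (opG M) = opG (star M) := by
  rw [ContinuousLinearMap.star_eq_adjoint, eq_comm, ContinuousLinearMap.eq_adjoint_iff]
  intro v w
  rw [PiLp.inner_apply, PiLp.inner_apply]
  simp only [opG_apply, sum_inner, inner_sum]
  rw [Finset.sum_comm]
  refine Finset.sum_congr rfl fun b _ => Finset.sum_congr rfl fun b' _ => ?_
  rw [Matrix.star_apply, ContinuousLinearMap.star_eq_adjoint, ContinuousLinearMap.adjoint_inner_left]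

/-- an operator of `F` acting on both components -/
def dg (A : F →L[ℂ] F) : C2 F →L[ℂ] C2 F := opG (Matrix.diagonal fun _ => A)

@[simp] lemma dg_apply (A : F →L[ℂ] F) (v : C2 F) (b : Bool) : dg A v b = A (v b) := by
  rw [dg, opG_apply, Finset.sum_eq_single b]
  · simp
  · intro b' _ hb
    simp [Matrix.diagonal_apply_ne _ hb.symm]
  · simp

lemma dg_mul (A B : F →L[ℂ] F) : dg (A * B) = dg A * dg B := by
  refine ContinuousLinearMap.ext fun v => ?_
  ext b
  rw [mul_apply_eq_comp, dg_apply, dg_apply, dg_apply]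
  rfl

lemma dg_one : dg (1 : F →L[ℂ] F) = 1 := by
  refine ContinuousLinearMap.ext fun v => ?_
  ext b
  rw [dg_apply]
  rfl


lemma dg_add (A B : F →L[ℂ] F) : dg (A + B) = dg A + dg B := by
  refine ContinuousLinearMap.ext fun v => ?_
  ext b
  simp

lemma dg_smul (c : ℂ) (A : F →L[ℂ] F) : dg (c • A) = c • dg A := by
  refine ContinuousLinearMap.ext fun v => ?_
  ext b
  simp

lemma dg_star (A : F →L[ℂ] F) : star (dg A) = dg (star A) := by
  rw [dg, opG_star, dg]
  congr 1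
  rw [Matrix.star_eq_conjTranspose, Matrix.diagonal_conjTranspose]
  rfl

/-- a scalar `2 × 2` matrix acting on the spin -/
def spG (m : Matrix Bool Bool ℂ) : C2 F →L[ℂ] C2 F := opG (m.map (fun z => z • (1 : F →L[ℂ] F)))

@[simp] lemma spG_apply (m : Matrix Bool Bool ℂ) (v : C2 F) (b : Bool) :
    spG m v b = ∑ b', m b b' • v b' := by
  rw [spG, opG_apply]
  simp

lemma spG_mul (m n : Matrix Bool Bool ℂ) : (spG (m * n) : C2 F →L[ℂ] C2 F) = spG m * spG n := by
  refine ContinuousLinearMap.ext fun v => ?_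
  ext b
  rw [mul_apply_eq_comp, spG_apply, spG_apply]
  simp only [spG_apply, Matrix.mul_apply, Finset.smul_sum, Finset.sum_smul, smul_smul]
  rw [Finset.sum_comm]

lemma spG_one : (spG 1 : C2 F →L[ℂ] C2 F) = 1 := by
  refine ContinuousLinearMap.ext fun v => ?_
  ext b
  rw [spG_apply, Finset.sum_eq_single b]
  · simp
  · intro b' _ hb
    simp [Matrix.one_apply_ne hb.symm]
  · simp

lemma spG_add (m n : Matrix Bool Bool ℂ) : (spG (m + n) : C2 F →L[ℂ] C2 F) = spG m + spG n := by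
  refine ContinuousLinearMap.ext fun v => ?_
  ext b
  simp [Finset.sum_add_distrib, add_smul]

lemma spG_smul (c : ℂ) (m : Matrix Bool Bool ℂ) :
    (spG (c • m) : C2 F →L[ℂ] C2 F) = c • spG m := by
  refine ContinuousLinearMap.ext fun v => ?_
  ext b
  simp [smul_smul, mul_assoc]

lemma spG_star (m : Matrix Bool Bool ℂ) : star (spG m : C2 F →L[ℂ] C2 F) = spG (star m) := by
  rw [spG, opG_star, spG]
  congr 1
  ext b b' : 1
  simp [Matrix.star_apply]

/-- spin matrices commute with everything acting on both components -/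
lemma spG_dg_comm (m : Matrix Bool Bool ℂ) (A : F →L[ℂ] F) : spG m * dg A = dg A * spG m := by
  refine ContinuousLinearMap.ext fun v => ?_
  ext b
  rw [mul_apply_eq_comp, mul_apply_eq_comp, spG_apply, dg_apply, spG_apply, map_sum]
  simp

/-- inner product with a vector of the form `(a_b • w)_b`. -/
lemma C2_inner (v w : C2 F) : ⟪v, w⟫_ℂ = ∑ b, ⟪v b, w b⟫_ℂ := PiLp.inner_apply v w

end matrices

/-! ### the labelled site space -/
section site

variable (K0 : Type*) [NormedAddCommGroup K0] [InnerProductSpace ℂ K0]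

/-- label-valued Fock space -/
abbrev LFo : Type _ := Lp (Fock K0) 2 gam1

/-- the labelled site space -/
abbrev SL : Type _ := C2 (LFo K0)

variable {K0}

/-- Pauli matrices -/
def zm : Matrix Bool Bool ℂ := Matrix.diagonal fun b => ((spinSign b : ℝ) : ℂ)
def xm : Matrix Bool Bool ℂ := Matrix.of fun b b' => if b = b' then 0 else 1
def mixm (β : ℝ) : Matrix Bool Bool ℂ := Matrix.of fun b b' =>
  if b = b' then ((Real.cos β : ℝ) : ℂ) else -(Complex.I * ((Real.sin β : ℝ) : ℂ))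




lemma star_zm : star zm = zm := by
  rw [zm, Matrix.star_eq_conjTranspose, Matrix.diagonal_conjTranspose]
  congr 1
  funext b
  simp


/-- `Z` -/
def ZS : SL K0 →L[ℂ] SL K0 := spG zm
/-- `X` -/
def XS : SL K0 →L[ℂ] SL K0 := spG xm
/-- fibrewise Weyl operator -/
def WS (f : K0) : SL K0 →L[ℂ] SL K0 := dg (lift (Wy f))
/-- multiplication by the indicator of a set of labels -/
def PS (A : Set ℝ) : SL K0 →L[ℂ] SL K0 := dg (mF (A.indicator fun _ => 1))
/-- the base vector `|+⟩ ⊗ 1 ⊗ vac` -/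
def OmS : SL K0 := WithLp.toLp 2 fun _ => (((1 : ℝ) / Real.sqrt 2 : ℝ) : ℂ) • wave 0 vac

lemma star_ZS : star (ZS : SL K0 →L[ℂ] SL K0) = ZS := by rw [ZS, spG_star, star_zm]

lemma XS_OmS : XS (OmS : SL K0) = OmS := by
  ext b : 1
  rw [XS, spG_apply]
  cases b <;> simp [xm, OmS]

lemma norm_OmS : ‖(OmS : SL K0)‖ = 1 := by
  have h := PiLp.norm_sq_eq_of_L2 (fun _ : Bool => LFo K0) OmS
  have h2 : ∀ b : Bool, ‖(OmS : SL K0) b‖ ^ 2 = 1 / 2 := by
    intro b
    show ‖(((1 : ℝ) / Real.sqrt 2 : ℝ) : ℂ) • (wave 0 vac : LFo K0)‖ ^ 2 = 1 / 2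
    rw [norm_smul, norm_wave, norm_vac, mul_one, Complex.norm_real, Real.norm_eq_abs, sq_abs,
      div_pow, Real.sq_sqrt (by norm_num)]
    norm_num
  simp only [h2, Fintype.sum_bool] at h
  have h3 : ‖(OmS : SL K0)‖ ^ 2 = 1 := by rw [h]; norm_num
  exact (pow_eq_one_iff_of_nonneg (norm_nonneg _) two_ne_zero).mp h3

lemma indicator_mul_indicator (A B : Set ℝ) :
    (fun x => A.indicator (fun _ => (1 : ℂ)) x * B.indicator (fun _ => (1 : ℂ)) x)
      = (A ∩ B).indicator (fun _ => 1) := by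
  funext x
  by_cases hA : x ∈ A <;> by_cases hB : x ∈ B <;> simp [hA, hB]

lemma PS_mul_PS {A B : Set ℝ} (hA : MeasurableSet A) (hB : MeasurableSet B) :
    (PS A : SL K0 →L[ℂ] SL K0) * PS B = PS (A ∩ B) := by
  rw [PS, PS, PS, ← dg_mul, ← mF_mul (BM.indicator hA) (BM.indicator hB),
    indicator_mul_indicator]

lemma PS_univ : (PS Set.univ : SL K0 →L[ℂ] SL K0) = 1 := by
  rw [PS, Set.indicator_univ, mF_one, dg_one]


lemma PS_union {A B : Set ℝ} (hA : MeasurableSet A) (hB : MeasurableSet B) (h : Disjoint A B) :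
    (PS (A ∪ B) : SL K0 →L[ℂ] SL K0) = PS A + PS B := by
  rw [PS, PS, PS, ← dg_add, ← mF_add (BM.indicator hA) (BM.indicator hB)]
  congr 2
  rw [Set.indicator_union_of_disjoint h]

lemma star_PS {A : Set ℝ} (hA : MeasurableSet A) : star (PS A : SL K0 →L[ℂ] SL K0) = PS A := by
  rw [PS, dg_star, star_mF (BM.indicator hA)]
  congr 2
  funext x
  by_cases hx : x ∈ A <;> simp [hx]

lemma WS_mul (f g : K0) : (WS f : SL K0 →L[ℂ] SL K0) * WS g =
    Complex.exp (-(Complex.I * ((⟪f, g⟫_ℂ).im : ℂ))) • WS (f + g) := by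
  rw [WS, WS, WS, ← dg_mul, ← lift_mul, Wy_mul, lift_smul, dg_smul]

lemma WS_zero : (WS (0 : K0) : SL K0 →L[ℂ] SL K0) = 1 := by
  rw [WS, Wy_zero, lift_one, dg_one]

lemma star_WS (f : K0) : star (WS f : SL K0 →L[ℂ] SL K0) = WS (-f) := by
  rw [WS, dg_star, star_lift, star_Wy, WS]

lemma WS_PS_comm (f : K0) {A : Set ℝ} (hA : MeasurableSet A) :
    (WS f : SL K0 →L[ℂ] SL K0) * PS A = PS A * WS f := by
  rw [WS, PS, ← dg_mul, ← dg_mul, lift_mF_comm _ (BM.indicator hA)]

lemma ZS_PS_comm (A : Set ℝ) : (ZS : SL K0 →L[ℂ] SL K0) * PS A = PS A * ZS := spG_dg_comm _ _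

lemma norm_lift_apply_of_isometry {E : Type*} [NormedAddCommGroup E] [InnerProductSpace ℂ E]
    [CompleteSpace E] (A : E →L[ℂ] E) (hA : ∀ v, ‖A v‖ = ‖v‖) (f : Lp E 2 gam1) :
    ‖lift A f‖ = ‖f‖ := by
  rw [Lp.norm_def, Lp.norm_def]
  congr 1
  refine eLpNorm_congr_norm_ae ?_
  filter_upwards [coeFn_lift A f] with x hx
  rw [hx, hA]


/-- strong continuity of `f ↦ WS f v`. -/
lemma continuous_WS_apply (v : SL K0) : Continuous fun f : K0 => WS f v := by
  have hcomp : ∀ w : LFo K0, Continuous fun f : K0 => lift (Wy f) w := by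
    intro w
    rw [continuous_iff_continuousAt]
    intro f0
    -- closed subspace argument on the total family of waves
    have hd := denseRange_lc (waves_coh_total (K0 := K0))
    rw [ContinuousAt, Metric.tendsto_nhds]
    intro ε hε
    obtain ⟨x, hx⟩ := hd.exists_dist_lt w (show (0 : ℝ) < ε / 3 by positivity)
    have hc : Continuous fun f : K0 => lift (Wy f)
        (Finsupp.linearCombination ℂ (fun p : ℝ × K0 => wave p.1 (coh p.2 : Fock K0)) x) := by
      simp_rw [Finsupp.linearCombination_apply, Finsupp.sum, map_sum, map_smul, lift_wave]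
      refine continuous_finsetSum _ fun p _ => ?_
      let L : Fock K0 →ₗᵢ[ℂ] LFo K0 :=
        { toFun := wave p.1
          map_add' := wave_add p.1
          map_smul' := wave_smul p.1
          norm_map' := norm_wave p.1 }
      have h5 : Continuous fun f : K0 => L (Wy f (coh p.2)) :=
        L.continuous.comp (continuous_Wy_apply (coh p.2))
      exact h5.const_smul (x p)
    have h2 := Metric.tendsto_nhds.1 (hc.tendsto f0) (ε / 3) (by positivity)
    filter_upwards [h2] with g hg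
    have hn : ∀ (g : K0) (u : LFo K0), ‖lift (Wy g) u‖ = ‖u‖ := fun g u =>
      norm_lift_apply_of_isometry _ (norm_Wy_apply g) u
    have h3 : dist (lift (Wy g) w) (lift (Wy g)
        (Finsupp.linearCombination ℂ (fun p : ℝ × K0 => wave p.1 (coh p.2 : Fock K0)) x)) < ε / 3 := by
      rw [dist_eq_norm, ← map_sub, hn, ← dist_eq_norm]
      exact hx
    have h4 : dist (lift (Wy f0)
        (Finsupp.linearCombination ℂ (fun p : ℝ × K0 => wave p.1 (coh p.2 : Fock K0)) x))
        (lift (Wy f0) w) < ε / 3 := by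
      rw [dist_eq_norm, ← map_sub, hn, ← dist_eq_norm, dist_comm]
      exact hx
    calc dist (lift (Wy g) w) (lift (Wy f0) w) ≤ _ := dist_triangle4 _ _ _ _
      _ < ε / 3 + ε / 3 + ε / 3 := add_lt_add (add_lt_add h3 hg) h4
      _ = ε := by ring
  have h : (fun f : K0 => WS f v) = fun f => WithLp.toLp 2 (fun b => lift (Wy f) (v b)) := by
    funext f
    ext b : 1
    rw [WS, dg_apply]
  rw [h]
  refine (PiLp.continuous_toLp 2 (fun _ : Bool => LFo K0)).comp ?_
  exact continuous_pi fun b => hcomp (v b)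

lemma mF_indicator_wave_inner {A : Set ℝ} (hA : MeasurableSet A) (v w : Fock K0) :
    ⟪wave 0 v, mF (A.indicator fun _ => 1) (wave 0 w)⟫_ℂ
      = ((gam1.real A : ℝ) : ℂ) * ⟪v, w⟫_ℂ := by
  rw [L2.inner_def]
  have h : (fun x => ⟪(wave 0 v : LFo K0) x, (mF (A.indicator fun _ => 1) (wave 0 w) : LFo K0) x⟫_ℂ)
      =ᵐ[gam1] A.indicator (fun _ => ⟪v, w⟫_ℂ) := by
    filter_upwards [coeFn_mF (BM.indicator hA) (wave 0 w), coeFn_wave 0 w, coeFn_wave 0 v]
      with x h1 h2 h3
    rw [h1, h2, h3]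
    by_cases hx : x ∈ A
    · simp [hx, chi]
    · simp [hx]
  rw [integral_congr_ae h, integral_indicator hA, setIntegral_const]
  simp

lemma inner_OmS_PS_WS {A : Set ℝ} (hA : MeasurableSet A) (f : K0) :
    ⟪(OmS : SL K0), PS A (WS f OmS)⟫_ℂ
      = ((gam1.real A : ℝ) : ℂ) * Complex.exp (-((‖f‖ ^ 2 / 2 : ℝ) : ℂ)) := by
  rw [C2_inner]
  have hc : (starRingEnd ℂ) (((1 : ℝ) / Real.sqrt 2 : ℝ) : ℂ) * ((((1 : ℝ) / Real.sqrt 2 : ℝ)) : ℂ)
      = 1 / 2 := by
    rw [Complex.conj_ofReal, ← Complex.ofReal_mul]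
    have : (1 : ℝ) / Real.sqrt 2 * (1 / Real.sqrt 2) = 1 / 2 := by
      rw [div_mul_div_comm, one_mul, Real.mul_self_sqrt (by norm_num)]
    rw [this]
    push_cast
    ring
  have h : ∀ b : Bool, ⟪(OmS : SL K0) b, (PS A (WS f OmS) : SL K0) b⟫_ℂ
      = (1 / 2) * (((gam1.real A : ℝ) : ℂ) * Complex.exp (-((‖f‖ ^ 2 / 2 : ℝ) : ℂ))) := by
    intro b
    have h1 : (OmS : SL K0) b = ((((1 : ℝ) / Real.sqrt 2 : ℝ)) : ℂ) • wave 0 vac := rfl
    rw [PS, dg_apply, WS, dg_apply, h1, map_smul, map_smul, lift_wave, inner_smul_left,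
      inner_smul_right, mF_indicator_wave_inner hA, inner_vac_Wy, ← mul_assoc, hc]
  rw [Fintype.sum_bool, h, h]
  ring

end site

end Crest.Agent.R339.LF
end
end

-- ▼ part R339/LabSp286C

/-!
R339: totality in the labelled site space, its isometric embedding into `Sp K`,
and label-controlled spin matrices.
-/

set_option autoImplicit false
set_option linter.unusedSectionVars false

noncomputable section

namespace Crest.Agent.R339.LF

open MeasureTheory ProbabilityTheory Filter Topology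
open scoped InnerProductSpace ENNReal
open Crest.Agent.R339.Site Crest.Agent.R339.Lab Crest.MathPhysics.SpinGlass

section total
variable {K0 : Type*} [NormedAddCommGroup K0] [InnerProductSpace ℂ K0]

lemma rt2_ne : ((((1 : ℝ) / Real.sqrt 2 : ℝ)) : ℂ) ≠ 0 := by
  rw [Complex.ofReal_ne_zero]
  positivity

lemma WS_OmS_apply (g : K0) (b : Bool) :
    (WS g (OmS : SL K0)) b = ((((1 : ℝ) / Real.sqrt 2 : ℝ)) : ℂ) • wave 0 (coh g) := by
  have h1 : (OmS : SL K0) b = ((((1 : ℝ) / Real.sqrt 2 : ℝ)) : ℂ) • wave 0 vac := rfl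
  rw [WS, dg_apply, h1, map_smul, lift_wave, Wy_vac]

/-- **Totality**: a vector orthogonal to all `P_A W(g) Ω` and `P_A Z W(g) Ω` vanishes. -/
theorem SL_sep {v : SL K0}
    (h1 : ∀ (A : Set ℝ) (g : K0), MeasurableSet A → ⟪PS A (WS g (OmS : SL K0)), v⟫_ℂ = 0)
    (h2 : ∀ (A : Set ℝ) (g : K0), MeasurableSet A → ⟪PS A (ZS (WS g (OmS : SL K0))), v⟫_ℂ = 0) :
    v = 0 := by
  have key : ∀ (b : Bool) (A : Set ℝ) (g : K0), MeasurableSet A →
      ⟪(mF (A.indicator fun _ => 1) (wave 0 (coh g)) : LFo K0), v b⟫_ℂ = 0 := by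
    intro b A g hA
    have e1 := h1 A g hA
    have e2 := h2 A g hA
    rw [C2_inner, Fintype.sum_bool, PS, dg_apply, dg_apply, WS_OmS_apply, WS_OmS_apply,
      map_smul, inner_smul_left, inner_smul_left, ← mul_add] at e1
    have hz : ∀ b, (ZS (WS g (OmS : SL K0)) : SL K0) b = ((spinSign b : ℝ) : ℂ) •
        (((((1 : ℝ) / Real.sqrt 2 : ℝ)) : ℂ) • wave 0 (coh g)) := by
      intro b
      rw [ZS, spG_apply, Finset.sum_eq_single b, WS_OmS_apply]
      · simp [zm]
      · intro b' _ hb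
        rw [zm, Matrix.diagonal_apply_ne _ hb.symm, zero_smul]
      · simp
    rw [C2_inner, Fintype.sum_bool, PS, dg_apply, dg_apply, hz, hz] at e2
    simp only [map_smul, inner_smul_left, Complex.conj_ofReal, spinSign] at e2
    have hc : (starRingEnd ℂ) ((((1 : ℝ) / Real.sqrt 2 : ℝ)) : ℂ) ≠ 0 := by
      rw [Complex.conj_ofReal]; exact rt2_ne
    have e3 := (mul_eq_zero.1 e1).resolve_left hc
    have e4 : ⟪(mF (A.indicator fun _ => 1) (wave 0 (coh g)) : LFo K0), v false⟫_ℂ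
        - ⟪(mF (A.indicator fun _ => 1) (wave 0 (coh g)) : LFo K0), v true⟫_ℂ = 0 := by
      have h5 : ((((1 : ℝ) / Real.sqrt 2 : ℝ)) : ℂ)
          * (⟪(mF (A.indicator fun _ => 1) (wave 0 (coh g)) : LFo K0), v false⟫_ℂ
            - ⟪(mF (A.indicator fun _ => 1) (wave 0 (coh g)) : LFo K0), v true⟫_ℂ) = 0 := by
        rw [← e2]
        simp only [if_true, if_false, Bool.false_eq_true]
        push_cast
        ring
      exact (mul_eq_zero.1 h5).resolve_left rt2_ne
    cases b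
    · linear_combination (1 / 2) * e3 + (1 / 2) * e4
    · linear_combination (1 / 2) * e3 - (1 / 2) * e4
  have hb : ∀ b, v b = 0 := by
    intro b
    have htot := indicator_total (coh_total (K := K0))
    have hmem : v b ∈ (Submodule.span ℂ {v : LFo K0 | ∃ (A : Set ℝ) (x : K0), MeasurableSet A ∧
      v = mF (A.indicator fun _ => 1) (wave 0 (coh x))})ᗮ := by
      rw [Submodule.mem_orthogonal]
      intro u hu
      induction hu using Submodule.span_induction with
      | mem u hu =>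
        obtain ⟨A, x, hA, rfl⟩ := hu
        exact key b A x hA
      | zero => exact inner_zero_left _
      | add u w _ _ hu hw => rw [inner_add_left, hu, hw, add_zero]
      | smul c u _ hu => rw [inner_smul_left, hu, mul_zero]
    rw [Submodule.topologicalClosure_eq_top_iff] at htot
    rw [htot] at hmem
    exact (Submodule.mem_bot ℂ).1 hmem
  ext b : 1
  rw [hb b]
  rfl

end total

/-! ### label-controlled spin matrices -/
section ctrl
variable {E : Type*} [NormedAddCommGroup E] [InnerProductSpace ℂ E] [CompleteSpace E]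

/-- entrywise bounded measurable matrix function -/
def BMM (g : ℝ → Matrix Bool Bool ℂ) : Prop := ∀ b b', BM (fun x => g x b b')

lemma BMM.mul {g h : ℝ → Matrix Bool Bool ℂ} (hg : BMM g) (hh : BMM h) :
    BMM (fun x => g x * h x) := by
  intro b b'
  simp_rw [Matrix.mul_apply]
  exact BM.sum _ fun i => (hg b i).mul (hh i b')

lemma BMM.star {g : ℝ → Matrix Bool Bool ℂ} (hg : BMM g) : BMM (fun x => star (g x)) := by
  intro b b'
  simp_rw [Matrix.star_apply]
  exact (hg b' b).conj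

lemma BMM.const (m : Matrix Bool Bool ℂ) : BMM (fun _ => m) := fun b b' => BM.const (m b b')

/-- the operator of a label-controlled spin matrix -/
def gS (g : ℝ → Matrix Bool Bool ℂ) : C2 (Lp E 2 gam1) →L[ℂ] C2 (Lp E 2 gam1) :=
  opG (Matrix.of fun b b' => mF (fun x => g x b b'))

lemma gS_apply (g : ℝ → Matrix Bool Bool ℂ) (v : C2 (Lp E 2 gam1)) (b : Bool) :
    gS g v b = ∑ b', mF (fun x => g x b b') (v b') := by
  rw [gS, opG_apply]
  rfl

lemma gS_mul {g h : ℝ → Matrix Bool Bool ℂ} (hg : BMM g) (hh : BMM h) :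
    (gS (fun x => g x * h x) : C2 (Lp E 2 gam1) →L[ℂ] C2 (Lp E 2 gam1)) = gS g * gS h := by
  rw [gS, gS, gS, ← opG_mul]
  congr 1
  ext b b' : 1
  rw [Matrix.mul_apply]
  simp only [Matrix.of_apply, Matrix.mul_apply, Fintype.sum_bool]
  rw [mF_add ((hg b true).mul (hh true b')) ((hg b false).mul (hh false b')),
    mF_mul (hg b true) (hh true b'), mF_mul (hg b false) (hh false b')]

lemma gS_star {g : ℝ → Matrix Bool Bool ℂ} (hg : BMM g) :
    star (gS g : C2 (Lp E 2 gam1) →L[ℂ] C2 (Lp E 2 gam1)) = gS (fun x => star (g x)) := by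
  rw [gS, opG_star, gS]
  congr 1
  ext b b' : 1
  rw [Matrix.star_apply]
  simp only [Matrix.of_apply]
  rw [star_mF (hg b' b)]
  rfl

lemma gS_const (m : Matrix Bool Bool ℂ) :
    (gS (fun _ => m) : C2 (Lp E 2 gam1) →L[ℂ] C2 (Lp E 2 gam1)) = spG m := by
  rw [gS, spG]
  congr 1
  ext b b' : 1
  simp only [Matrix.of_apply, Matrix.map_apply]
  rw [mF_const]

lemma gS_one : (gS (fun _ => 1) : C2 (Lp E 2 gam1) →L[ℂ] C2 (Lp E 2 gam1)) = 1 := by
  rw [gS_const, spG_one]

/-- label-controlled unitary spin matrices are unitary operators. -/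
def gU (g : ℝ → Matrix Bool Bool ℂ) (hg : BMM g) (h1 : ∀ x, star (g x) * g x = 1)
    (h2 : ∀ x, g x * star (g x) = 1) :
    unitary (C2 (Lp E 2 gam1) →L[ℂ] C2 (Lp E 2 gam1)) :=
  ⟨gS g, by
    rw [Unitary.mem_iff, gS_star hg, ← gS_mul hg.star hg, ← gS_mul hg hg.star]
    simp_rw [h1, h2]
    exact ⟨gS_one, gS_one⟩⟩



/-- dominated convergence for label-controlled spin matrices -/
lemma tendsto_gS {ι : Type*} {l : Filter ι} [l.IsCountablyGenerated]
    {g : ι → ℝ → Matrix Bool Bool ℂ} {g0 : ℝ → Matrix Bool Bool ℂ}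
    (h : ∀ i, BMM (g i)) (h0 : BMM g0) (C : ℝ) (hC : ∀ i x b b', ‖g i x b b'‖ ≤ C)
    (hlim : ∀ᵐ x ∂gam1, ∀ b b', Tendsto (fun i => g i x b b') l (𝓝 (g0 x b b')))
    (v : C2 (Lp E 2 gam1)) :
    Tendsto (fun i => gS (g i) v) l (𝓝 (gS g0 v)) := by
  have e : ∀ g : ℝ → Matrix Bool Bool ℂ, gS g v
      = WithLp.toLp 2 (fun b => ∑ b', mF (fun x => g x b b') (v b')) := by
    intro g
    ext b : 1
    exact gS_apply g v b
  simp_rw [e]
  refine ((PiLp.continuous_toLp 2 (fun _ : Bool => Lp E 2 gam1)).tendsto _).comp ?_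
  rw [tendsto_pi_nhds]
  intro b
  refine tendsto_finsetSum _ fun b' _ => ?_
  refine tendsto_mF (fun i => h i b b') (h0 b b') C (fun i x => hC i x b b') ?_ (v b')
  filter_upwards [hlim] with x hx
  exact hx b b'

end ctrl

/-! ### embedding -/
section embed
variable {K0 K : Type*} [NormedAddCommGroup K0] [InnerProductSpace ℂ K0]
  [NormedAddCommGroup K] [InnerProductSpace ℂ K]
variable (j : K0 →ₗᵢ[ℂ] K) (s : K)

/-- the embedding of the labelled site space into `Sp K`. -/
def embS : SL K0 →L[ℂ] Sp K :=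
  ((PiLp.continuousLinearEquiv 2 ℂ (fun _ : Bool => Fock K)).symm :
    (Bool → Fock K) →L[ℂ] Sp K) ∘L
    (ContinuousLinearMap.pi fun b => (emb j s) ∘L (ContinuousLinearMap.proj b)) ∘L
    ((PiLp.continuousLinearEquiv 2 ℂ (fun _ : Bool => LFo K0)) : SL K0 →L[ℂ] (Bool → LFo K0))

@[simp] lemma embS_apply (v : SL K0) (b : Bool) : embS j s v b = emb j s (v b) := by
  simp [embS]

lemma norm_embS (hs : ‖s‖ = 1) (hsj : ∀ f, ⟪s, j f⟫_ℂ = 0) (v : SL K0) :
    ‖embS j s v‖ = ‖v‖ := by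
  rw [PiLp.norm_eq_of_L2, PiLp.norm_eq_of_L2]
  simp only [embS_apply, norm_emb j s hs hsj]

lemma embS_OmS (hs : ‖s‖ = 1) (hsj : ∀ f, ⟪s, j f⟫_ℂ = 0) :
    embS j s (OmS : SL K0) = Om := by
  ext b : 1
  rw [embS_apply]
  show emb j s (((((1 : ℝ) / Real.sqrt 2 : ℝ)) : ℂ) • wave 0 vac) = _
  rw [map_smul, emb_vac j s hs hsj]
  rfl

lemma embS_spG (m : Matrix Bool Bool ℂ) (v : SL K0) :
    embS j s (spG m v) = spM m (embS j s v) := by
  ext b : 1
  rw [embS_apply, spG_apply, spM_apply, map_sum]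
  simp

lemma embS_ZS (v : SL K0) : embS j s (ZS v) = Zop (embS j s v) := by
  ext b : 1
  rw [embS_apply, ZS, spG_apply, Zop_apply, Finset.sum_eq_single b]
  · simp [zm]
  · intro b' _ hb
    rw [zm, Matrix.diagonal_apply_ne _ hb.symm, zero_smul]
  · simp



end embed

end Crest.Agent.R339.LF
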