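import Mathlib
import Crest.Agent.R339.LabSp286C
import Crest.Agent.R339.Li728A

-- ▼ part R339/LabQuant286
section

/-!
R339: partition of `ℝ` into `R` even Borel cells of Gaussian mass exactly `1/R`.
-/

set_option autoImplicit false

namespace Crest.Agent.R339.LF

open MeasureTheory ProbabilityTheory Filter Topology Set

/-- For an atomless probability measure the cumulative distribution function is continuous. -/
theorem continuous_cdf (ν : Measure ℝ) [IsProbabilityMeasure ν] (hν : ∀ x, ν {x} = 0) :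
    Continuous (cdf ν) := by
  rw [continuous_iff_continuousAt]
  intro x
  rw [(monotone_cdf ν).continuousAt_iff_leftLim_eq_rightLim, StieltjesFunction.rightLim_eq]
  have h1 := (cdf ν).measure_singleton x
  rw [measure_cdf, hν] at h1
  have h2 := ENNReal.ofReal_eq_zero.1 h1.symm
  have h3 := (monotone_cdf ν).leftLim_le (le_refl x)
  linarith

/-- For an atomless probability measure the cumulative distribution function is uniformly
distributed. -/
theorem measure_cdf_le (ν : Measure ℝ) [IsProbabilityMeasure ν] (hν : ∀ x, ν {x} = 0)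
    {t : ℝ} (h0 : 0 ≤ t) (h1 : t ≤ 1) :
    ν.real {y | cdf ν y ≤ t} = t := by
  have hcont := continuous_cdf ν hν
  rcases eq_or_lt_of_le h1 with rfl | h1
  · have : {y | cdf ν y ≤ 1} = univ := eq_univ_of_forall fun y => cdf_le_one ν y
    rw [this]
    simp
  by_cases hS : {y | cdf ν y ≤ t}.Nonempty
  · have hbdd : BddAbove {y | cdf ν y ≤ t} := by
      obtain ⟨M, hM⟩ := ((tendsto_cdf_atTop ν).eventually (lt_mem_nhds h1)).exists
      refine ⟨M, fun y hy => ?_⟩
      by_contra hlt
      have := monotone_cdf ν (le_of_not_ge hlt)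
      exact absurd hy (not_le.2 (lt_of_lt_of_le hM this))
    have hcl : IsClosed {y | cdf ν y ≤ t} := isClosed_le hcont continuous_const
    set r := sSup {y | cdf ν y ≤ t} with hr
    have hrS : cdf ν r ≤ t := hcl.csSup_mem hS hbdd
    have hSe : {y | cdf ν y ≤ t} = Iic r := by
      ext y
      constructor
      · intro hy
        exact le_csSup hbdd hy
      · intro hy
        exact (monotone_cdf ν hy).trans hrS
    rw [hSe, ← cdf_eq_real]
    refine le_antisymm hrS ?_
    have h3 : Tendsto (cdf ν) (𝓝[>] r) (𝓝 (cdf ν r)) := hcont.continuousWithinAt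
    refine ge_of_tendsto h3 ?_
    filter_upwards [self_mem_nhdsWithin] with y hy
    have : y ∉ {y | cdf ν y ≤ t} := by
      rw [hSe]
      exact not_le.2 (mem_Ioi.1 hy)
    exact (not_le.1 this).le
  · rw [not_nonempty_iff_eq_empty] at hS
    have h2 : t ≤ 0 := by
      refine ge_of_tendsto (tendsto_cdf_atBot ν) (Eventually.of_forall fun y => ?_)
      by_contra hlt
      have : y ∈ {y | cdf ν y ≤ t} := (not_le.1 hlt).le
      rw [hS] at this
      exact this
    rw [hS]
    simp
    linarith

/-- `R` even Borel cells of Gaussian mass `1/R`. -/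
theorem exists_even_cells (R : ℕ) (hR : 0 < R) :
    ∃ c : Fin R → Set ℝ, (∀ i, MeasurableSet (c i)) ∧ (∀ i x, -x ∈ c i ↔ x ∈ c i) ∧
      (∀ i k, i ≠ k → Disjoint (c i) (c k)) ∧ (⋃ i, c i) = univ ∧
      ∀ i, (gaussianReal 0 1).real (c i) = 1 / R := by
  set γ : Measure ℝ := gaussianReal 0 1 with hγ
  set ν : Measure ℝ := γ.map (fun x => |x|) with hνdef
  have hmeas : Measurable (fun x : ℝ => |x|) := measurable_abs
  have : IsProbabilityMeasure ν := Measure.isProbabilityMeasure_map hmeas.aemeasurable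
  have hatom : ∀ x, ν {x} = 0 := by
    intro x
    rw [hνdef, Measure.map_apply hmeas (measurableSet_singleton x)]
    have : NullSingletonClass γ := nullSingletonClass_gaussianReal (by norm_num)
    have hsub : (fun y : ℝ => |y|) ⁻¹' {x} ⊆ {x, -x} := by
      intro y hy
      simp only [mem_preimage, mem_singleton_iff] at hy
      rcases abs_choice y with h | h
      · left; rw [← hy, h]
      · right; rw [mem_singleton_iff, ← hy, h, neg_neg]
    exact measure_mono_null hsub (((Set.finite_singleton (-x)).insert x).measure_zero γ)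
  have hRpos : (0 : ℝ) < R := by exact_mod_cast hR
  set F : ℝ → ℝ := fun x => cdf ν |x| with hF
  have hFm : Measurable F := (monotone_cdf ν).measurable.comp hmeas
  have hF0 : ∀ x, 0 ≤ F x := fun x => cdf_nonneg ν _
  have hF1 : ∀ x, F x ≤ 1 := fun x => cdf_le_one ν _
  have hN : ∀ t : ℝ, 0 ≤ t → t ≤ 1 → γ.real {x | F x ≤ t} = t := by
    intro t h0 h1
    have h2 := measure_cdf_le ν hatom h0 h1
    rw [measureReal_def, hνdef, Measure.map_apply hmeas
      (measurableSet_le (monotone_cdf _).measurable measurable_const)] at h2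
    rw [measureReal_def]
    exact h2
  -- the cells
  refine ⟨fun i => {x | ⌈(R : ℝ) * F x⌉₊ - 1 = (i : ℕ)}, ?_, ?_, ?_, ?_, ?_⟩
  · intro i
    have : Measurable (fun x => ⌈(R : ℝ) * F x⌉₊ - 1) :=
      (Nat.measurable_ceil.comp (hFm.const_mul _)).sub_const 1
    exact this (measurableSet_singleton (i : ℕ))
  · intro i x
    simp only [mem_setOf_eq, hF, abs_neg]
  · intro i k hik
    rw [Set.disjoint_left]
    intro x hx hx'
    simp only [mem_setOf_eq] at hx hx'
    exact hik (Fin.ext (hx.symm.trans hx'))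
  · refine eq_univ_of_forall fun x => ?_
    rw [mem_iUnion]
    have h2 : ⌈(R : ℝ) * F x⌉₊ ≤ R := by
      rw [Nat.ceil_le]
      nlinarith [hF1 x]
    exact ⟨⟨⌈(R : ℝ) * F x⌉₊ - 1, by omega⟩, rfl⟩
  · intro i
    have hi : (i : ℕ) < R := i.2
    have hi1 : ((i : ℕ) : ℝ) + 1 ≤ R := by exact_mod_cast hi
    have hU := hN (((i : ℕ) + 1 : ℝ) / R) (by positivity) (by rw [div_le_one hRpos]; exact hi1)
    by_cases h0 : (i : ℕ) = 0
    · have hset : {x | ⌈(R : ℝ) * F x⌉₊ - 1 = (i : ℕ)} = {x | F x ≤ ((i : ℕ) + 1 : ℝ) / R} := by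
        ext x
        simp only [mem_setOf_eq]
        rw [le_div_iff₀ hRpos, h0]
        constructor
        · intro h
          have h3 : ⌈(R : ℝ) * F x⌉₊ ≤ 1 := by omega
          have := Nat.ceil_le.1 h3
          push_cast at this ⊢
          linarith
        · intro h
          have h3 : ⌈(R : ℝ) * F x⌉₊ ≤ 1 := by
            rw [Nat.ceil_le]
            push_cast at h ⊢
            linarith
          omega
      show γ.real {x | ⌈(R : ℝ) * F x⌉₊ - 1 = (i : ℕ)} = 1 / R
      rw [hset, hU, h0]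
      simp
    · have hL := hN (((i : ℕ) : ℝ) / R) (by positivity) (by
        rw [div_le_one hRpos]; linarith)
      have hset : {x | ⌈(R : ℝ) * F x⌉₊ - 1 = (i : ℕ)}
          = {x | F x ≤ ((i : ℕ) + 1 : ℝ) / R} \ {x | F x ≤ ((i : ℕ) : ℝ) / R} := by
        ext x
        simp only [mem_setOf_eq, mem_diff, not_le]
        rw [le_div_iff₀ hRpos, div_lt_iff₀ hRpos]
        constructor
        · intro h
          have h3 : ⌈(R : ℝ) * F x⌉₊ = (i : ℕ) + 1 := by omega
          rw [Nat.ceil_eq_iff (by omega)] at h3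
          push_cast at h3
          constructor
          · linarith [h3.2]
          · have := h3.1
            push_cast at this
            linarith
        · rintro ⟨h3, h4⟩
          have h5 : ⌈(R : ℝ) * F x⌉₊ = (i : ℕ) + 1 := by
            rw [Nat.ceil_eq_iff (by omega)]
            push_cast
            constructor
            · have h6 : (((i : ℕ) + 1 - 1 : ℕ) : ℝ) = (i : ℕ) := by simp
              linarith
            · linarith
          omega
      show γ.real {x | ⌈(R : ℝ) * F x⌉₊ - 1 = (i : ℕ)} = 1 / R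
      rw [hset, measureReal_diff, hU, hL]
      · field_simp
        ring
      · intro x hx
        simp only [mem_setOf_eq] at hx ⊢
        refine hx.trans ?_
        gcongr
        linarith
      · exact measurableSet_le hFm measurable_const

end Crest.Agent.R339.LF
end

-- ▼ part R339/LabInst286

/-!
R339: the labelled site space as an instance of helper728's `ILSys`, and its relation to the
plain site model of helper90.
-/

set_option autoImplicit false
set_option linter.unusedSectionVars false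

noncomputable section

namespace Crest.Agent.R339.LF

open MeasureTheory ProbabilityTheory Filter Topology
open scoped InnerProductSpace ENNReal
open Crest.Agent.R339.Site Crest.Agent.R339.Lab Crest.MathPhysics.SpinGlass

section inst
variable {K0 : Type*} [NormedAddCommGroup K0] [InnerProductSpace ℂ K0]

/-- spin matrices as a star algebra homomorphism -/
def spHom (F : Type*) [NormedAddCommGroup F] [InnerProductSpace ℂ F] [CompleteSpace F] :
    Matrix Bool Bool ℂ →⋆ₐ[ℂ] (C2 F →L[ℂ] C2 F) where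
  toFun := spG
  map_one' := spG_one
  map_mul' := spG_mul
  map_zero' := by
    refine ContinuousLinearMap.ext fun v => ?_
    ext b
    rw [spG_apply]
    simp
  map_add' := spG_add
  commutes' c := by
    rw [Algebra.algebraMap_eq_smul_one, Algebra.algebraMap_eq_smul_one, spG_smul, spG_one]
  map_star' m := (spG_star m).symm

@[simp] lemma spHom_apply (F : Type*) [NormedAddCommGroup F] [InnerProductSpace ℂ F]
    [CompleteSpace F] (m : Matrix Bool Bool ℂ) : spHom F m = spG m := rfl

/-- `v ↦ |+⟩ ⊗ 1 ⊗ v` as isometry. -/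
def plusL : Fock K0 →ₗᵢ[ℂ] SL K0 where
  toFun v := WithLp.toLp 2 fun _ => (((1 : ℝ) / Real.sqrt 2 : ℝ) : ℂ) • wave 0 v
  map_add' v w := by
    ext b : 1
    show (((1 : ℝ) / Real.sqrt 2 : ℝ) : ℂ) • wave 0 (v + w) = _
    rw [wave_add, smul_add]
    rfl
  map_smul' c v := by
    ext b : 1
    show (((1 : ℝ) / Real.sqrt 2 : ℝ) : ℂ) • wave 0 (c • v) = _
    rw [wave_smul, smul_comm]
    rfl
  norm_map' v := by
    show ‖(WithLp.toLp 2 fun _ => (((1 : ℝ) / Real.sqrt 2 : ℝ) : ℂ) • wave 0 v : SL K0)‖ = ‖v‖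
    have h := PiLp.norm_sq_eq_of_L2 (fun _ : Bool => LFo K0)
      (WithLp.toLp 2 fun _ => (((1 : ℝ) / Real.sqrt 2 : ℝ) : ℂ) • wave 0 v)
    have h2 : ‖(((1 : ℝ) / Real.sqrt 2 : ℝ) : ℂ) • (wave 0 v : LFo K0)‖ ^ 2 = ‖v‖ ^ 2 / 2 := by
      rw [norm_smul, norm_wave, Complex.norm_real, Real.norm_eq_abs, mul_pow, sq_abs, div_pow,
        Real.sq_sqrt (by norm_num)]
      ring
    simp only [Fintype.sum_bool, h2] at h
    rw [add_halves] at h
    exact (sq_eq_sq₀ (norm_nonneg _) (norm_nonneg _)).mp h

lemma plusL_apply (v : Fock K0) (b : Bool) :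
    (plusL v : SL K0) b = (((1 : ℝ) / Real.sqrt 2 : ℝ) : ℂ) • wave 0 v := rfl

lemma plusL_vac : (plusL vac : SL K0) = OmS := rfl

lemma WS_plusL (f : K0) (v : Fock K0) : WS f (plusL v : SL K0) = plusL (Wy f v) := by
  ext b : 1
  rw [WS, dg_apply, plusL_apply, plusL_apply, map_smul, lift_wave]

variable (ι : SL K0 →ₗᵢ[ℂ] K0)

/-- one-particle vectors in the labelled site space -/
def oneS : SL K0 →L[ℂ] SL K0 :=
  ((plusL.comp one).comp ι).toContinuousLinearMap

lemma oneS_apply (v : SL K0) : oneS ι v = plusL (one (ι v)) := rfl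

lemma oneS_deriv (f : SL K0) :
    HasDerivAt (fun t : ℝ => WS (ι ((t : ℂ) • f)) (OmS : SL K0)) (Complex.I • oneS ι f) 0 := by
  have h1 : HasDerivAt (fun t : ℝ => (plusL (coh ((t : ℂ) • ι f)) : SL K0))
      (plusL (Complex.I • one (ι f))) 0 :=
    (((plusL (K0 := K0)).toContinuousLinearMap.restrictScalars ℝ).hasFDerivAt.comp_hasDerivAt
      (0 : ℝ) (hasDerivAt_coh (ι f)))
  have h2 : ∀ t : ℝ, WS (ι ((t : ℂ) • f)) (OmS : SL K0) = plusL (coh ((t : ℂ) • ι f)) := by
    intro t
    rw [← plusL_vac, WS_plusL, Wy_vac, map_smul]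
  rw [show (Complex.I • oneS ι f : SL K0) = plusL (Complex.I • one (ι f)) by
    rw [oneS_apply, map_smul]]
  exact h1.congr_of_eventuallyEq (Eventually.of_forall h2)

end inst

section inst2
variable {K0 : Type*} [NormedAddCommGroup K0] [InnerProductSpace ℂ K0]
variable (ι : SL K0 ≃ₗᵢ[ℂ] K0)

lemma SL_total :
    (Submodule.span ℂ {v : SL K0 | ∃ (A : Set ℝ) (M : Matrix Bool Bool ℂ) (f : SL K0),
      MeasurableSet A ∧ v = PS A (spHom (LFo K0) M (WS (ι f) OmS))}).topologicalClosure = ⊤ := by
  rw [Submodule.topologicalClosure_eq_top_iff, Submodule.eq_bot_iff]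
  intro v hv
  have h : ∀ (A : Set ℝ) (M : Matrix Bool Bool ℂ) (g : K0), MeasurableSet A →
      ⟪PS A (spG M (WS g (OmS : SL K0))), v⟫_ℂ = 0 := by
    intro A M g hA
    refine (Submodule.mem_orthogonal _ _).mp hv _ (Submodule.subset_span ⟨A, M, ι.symm g, hA, ?_⟩)
    rw [ι.apply_symm_apply]
    rfl
  refine SL_sep (fun A g hA => ?_) (fun A g hA => h A zm g hA)
  have := h A 1 g hA
  rwa [spG_one] at this

/-- even Borel sets of the label -/
def ClE (A : Set ℝ) : Prop := MeasurableSet A ∧ ∀ x, -x ∈ A ↔ x ∈ A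

lemma ClE.univ : ClE Set.univ := ⟨MeasurableSet.univ, fun _ => by simp⟩

lemma ClE.compl {A : Set ℝ} (h : ClE A) : ClE Aᶜ :=
  ⟨h.1.compl, fun x => not_congr (h.2 x)⟩

lemma ClE.inter {A B : Set ℝ} (h : ClE A) (h' : ClE B) : ClE (A ∩ B) :=
  ⟨h.1.inter h'.1, fun x => and_congr (h.2 x) (h'.2 x)⟩


/-- every even Borel set is cut in `R` even Borel cells of mass at most `1/R`. -/
theorem exists_cells_of_ClE (R : ℕ) (hR : 0 < R) :
    ∃ c : Fin R → Set ℝ, (∀ i, ClE (c i)) ∧ (Pairwise fun i k => Disjoint (c i) (c k)) ∧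
      (⋃ i, c i) = Set.univ ∧ ∀ i, gam1.real (c i) = 1 / R := by
  obtain ⟨c, h1, h2, h3, h4, h5⟩ := exists_even_cells R hR
  exact ⟨c, fun i => ⟨h1 i, h2 i⟩, fun i k hik => h3 i k hik, h4, h5⟩


end inst2

end Crest.Agent.R339.LF
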