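import Crest.Agent.R339.LabBridge286_Mg
import Crest.Agent.R339.Asm539C
import Crest.Agent.R339.LabFun286A
import Crest.Agent.R339.Ant575A
import Crest.Agent.R339.LabSp286C
import Crest.Agent.R339.Li728A
import Crest.Agent.R339.LabInst286

-- ▼ part R339/LabRel286
section

/-!
R339: the labelled site space versus the plain site space: intertwining relations.
-/

set_option autoImplicit false
set_option linter.unusedSectionVars false

noncomputable section

namespace Crest.Agent.R339.LF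

open MeasureTheory ProbabilityTheory Filter Topology
open scoped InnerProductSpace ENNReal
open Crest.Agent.R339.Site Crest.Agent.R339.Lab Crest.MathPhysics.SpinGlass

/-! ### the moves on the labelled space -/
section moves
variable {K0 : Type*} [NormedAddCommGroup K0] [InnerProductSpace ℂ K0]

/-- the unitary group of the labelled site space -/
abbrev USL (K0 : Type*) [NormedAddCommGroup K0] [InnerProductSpace ℂ K0] : Type _ :=
  Li.UH (SL K0)

lemma star_mixm (β : ℝ) : star (mixm β) = mixm (-β) := by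
  ext b b'
  rw [Matrix.star_apply]
  simp only [mixm, Matrix.of_apply, Real.cos_neg, Real.sin_neg]
  cases b <;> cases b' <;> simp [-Complex.ofReal_cos, -Complex.ofReal_sin]

lemma mixm_mul (β β' : ℝ) : mixm β * mixm β' = mixm (β + β') := by
  have h1 : ((Real.cos (β + β') : ℝ) : ℂ) = (Real.cos β : ℂ) * (Real.cos β' : ℂ) -
    (Real.sin β : ℂ) * (Real.sin β' : ℂ) := by rw [Real.cos_add]; push_cast; ring
  have h2 : ((Real.sin (β + β') : ℝ) : ℂ) = (Real.sin β : ℂ) * (Real.cos β' : ℂ) +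
    (Real.cos β : ℂ) * (Real.sin β' : ℂ) := by rw [Real.sin_add]; push_cast; ring
  ext b b'
  rw [Matrix.mul_apply]
  simp only [mixm, Matrix.of_apply, Fintype.sum_bool]
  rw [h1, h2]
  cases b <;> cases b' <;> simp [-Complex.ofReal_cos, -Complex.ofReal_sin]
  · linear_combination ((Real.sin β : ℂ) * (Real.sin β' : ℂ)) * Complex.I_sq
  · ring
  · ring
  · linear_combination ((Real.sin β : ℂ) * (Real.sin β' : ℂ)) * Complex.I_sq

lemma mixm_zero : mixm 0 = 1 := by
  ext b b'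
  cases b <;> cases b' <;> simp [mixm]

/-- the label gate `exp (i a x Z)` as a label-controlled matrix -/
def labg (a : ℝ) : ℝ → Matrix Bool Bool ℂ := fun x => Matrix.diagonal fun b => chi (a * spinSign b) x

lemma BMM_labg (a : ℝ) : BMM (labg a) := by
  intro b b'
  simp only [labg, Matrix.diagonal_apply]
  by_cases h : b = b'
  · simp only [h, if_true]
    exact BM.chi _
  · simp only [h, if_false]
    exact BM.const 0

lemma chi_zero (x : ℝ) : chi 0 x = 1 := by simp [chi]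

lemma labg_mul (a a' x : ℝ) : labg a x * labg a' x = labg (a + a') x := by
  rw [labg, labg, labg, Matrix.diagonal_mul_diagonal]
  congr 1
  funext b
  rw [← chi_add, add_mul]

lemma labg_zero (x : ℝ) : labg 0 x = 1 := by
  rw [labg, ← Matrix.diagonal_one]
  congr 1
  funext b
  rw [zero_mul, chi_zero]

lemma star_labg (a x : ℝ) : star (labg a x) = labg (-a) x := by
  rw [labg, Matrix.star_eq_conjTranspose, Matrix.diagonal_conjTranspose, labg]
  congr 1
  funext b
  rw [Pi.star_apply, Complex.star_def, conj_chi, neg_mul]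

/-- `exp (-i β X)` on the labelled space -/
def mixL (β : ℝ) : USL K0 := gU (fun _ => mixm β) (BMM.const _)
  (fun _ => by rw [star_mixm, mixm_mul, neg_add_cancel, mixm_zero])
  (fun _ => by rw [star_mixm, mixm_mul, add_neg_cancel, mixm_zero])

/-- `exp (i a x Z)` on the labelled space -/
def labL (a : ℝ) : USL K0 := gU (labg a) (BMM_labg a)
  (fun x => by rw [star_labg, labg_mul, neg_add_cancel, labg_zero])
  (fun x => by rw [star_labg, labg_mul, add_neg_cancel, labg_zero])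

lemma mixL_coe (β : ℝ) : ((mixL β : USL K0) : SL K0 →L[ℂ] SL K0) = spG (mixm β) := gS_const _

lemma labL_coe (a : ℝ) : ((labL a : USL K0) : SL K0 →L[ℂ] SL K0) = gS (labg a) := rfl

lemma labL_apply (a : ℝ) (v : SL K0) (b : Bool) :
    ((labL a : USL K0) : SL K0 →L[ℂ] SL K0) v b = mF (chi (a * spinSign b)) (v b) := by
  rw [labL_coe, gS_apply, Finset.sum_eq_single b]
  · simp only [labg, Matrix.diagonal_apply_eq]
  · intro b' _ hb
    have : (fun x => labg a x b b') = fun _ => (0 : ℂ) := by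
      funext x
      rw [labg, Matrix.diagonal_apply_ne _ hb.symm]
    rw [this]
    have h0 : (mF (fun _ => (0 : ℂ)) : LFo K0 →L[ℂ] LFo K0) = 0 := mF_zero
    rw [h0]
    rfl
  · simp

variable (io : SL K0 ≃ₗᵢ[ℂ] K0)

/-- `exp (-i γ Z φ(f))`, `f` an element of the labelled space -/
def costL (γ : ℝ) (f : SL K0) : USL K0 := (IL io).cst MeasurableSet.univ (((-γ : ℝ) : ℂ) • f)

lemma IL_Z : (IL io).Z = ZS := by
  show spG Li.zM = spG zm
  congr 1
  ext b b'
  cases b <;> cases b' <;> simp [Li.zM, Li.dM, zm, spinSign]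


lemma Ep_apply (v : SL K0) (b : Bool) : (IL io).Ep v b = if b then 0 else v b := by
  show (spG (Li.dM 1 0) : SL K0 →L[ℂ] SL K0) v b = _
  rw [spG_apply]
  cases b <;> simp [Li.dM]

lemma Em_apply (v : SL K0) (b : Bool) : (IL io).Em v b = if b then v b else 0 := by
  show (spG (Li.dM 0 1) : SL K0 →L[ℂ] SL K0) v b = _
  rw [spG_apply]
  cases b <;> simp [Li.dM]

lemma zW_apply (f : SL K0) (v : SL K0) (b : Bool) :
    (IL io).zW f v b = lift (Wy (((spinSign b : ℝ) : ℂ) • io f)) (v b) := by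
  have h : (IL io).zW f v = (IL io).Ep ((IL io).W f v) + (IL io).Em ((IL io).W (-f) v) := rfl
  rw [h, PiLp.add_apply, Ep_apply, Em_apply]
  have hW : ∀ g : SL K0, ((IL io).W g v) b = lift (Wy (io g)) (v b) := fun g => by
    show (WS (io g) v) b = _
    rw [WS, dg_apply]
  rw [hW, hW, map_neg]
  cases b <;> simp [spinSign]

lemma costL_coe (γ : ℝ) (f : SL K0) : ((costL io γ f : USL K0) : SL K0 →L[ℂ] SL K0)
    = (IL io).zW (((-γ : ℝ) : ℂ) • f) := by
  show (IL io).P Set.univᶜ + (IL io).P Set.univ * (IL io).zW (((-γ : ℝ) : ℂ) • f) = _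
  rw [(IL io).P_univ, one_mul, Set.compl_univ, Li.ILSys.P_empty, zero_add]

lemma costL_apply (γ : ℝ) (f v : SL K0) (b : Bool) :
    ((costL io γ f : USL K0) : SL K0 →L[ℂ] SL K0) v b
      = lift (Wy (((-(γ * spinSign b) : ℝ) : ℂ) • io f)) (v b) := by
  rw [costL_coe, zW_apply, map_smul, smul_smul]
  congr 3
  push_cast
  ring_nf

/-- the cost move -/
def mvC (γ : ℝ) (U : USL K0) : USL K0 := costL io γ ((IL io).eV U) * U
/-- the mixer move -/
def mvB (β : ℝ) (U : USL K0) : USL K0 := mixL β * U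
/-- the label move -/
def mvL (a : ℝ) (U : USL K0) : USL K0 := labL a * U

end moves

/-! ### relation -/
section rel
variable {K0 K : Type*} [NormedAddCommGroup K0] [InnerProductSpace ℂ K0]
  [NormedAddCommGroup K] [InnerProductSpace ℂ K]

/-- `U'` extends `U`. -/
def Rel (D : BridgeData K0 K) (U : USL K0) (U' : USp K) : Prop :=
  ∀ v, (U' : Sp K →L[ℂ] Sp K) (embS D.j D.s v) = embS D.j D.s ((U : SL K0 →L[ℂ] SL K0) v)

variable {D : BridgeData K0 K}

lemma Rel.one : Rel D 1 1 := fun _ => rfl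

lemma Rel.mul {U V : USL K0} {U' V' : USp K} (h : Rel D U U') (h' : Rel D V V') :
    Rel D (U * V) (U' * V') := by
  intro v
  show (U' : Sp K →L[ℂ] Sp K) ((V' : Sp K →L[ℂ] Sp K) (embS D.j D.s v)) = _
  rw [h' v, h]
  rfl

lemma Rel.star_apply {U : USL K0} {U' : USp K} (h : Rel D U U') (v : SL K0) :
    star (U' : Sp K →L[ℂ] Sp K) (embS D.j D.s v)
      = embS D.j D.s (star (U : SL K0 →L[ℂ] SL K0) v) := by
  have h1 := h (star (U : SL K0 →L[ℂ] SL K0) v)
  have h2 : (U : SL K0 →L[ℂ] SL K0) (star (U : SL K0 →L[ℂ] SL K0) v) = v := by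
    rw [← mul_apply_eq_comp, (Unitary.mem_iff.mp U.2).2]
    rfl
  rw [h2] at h1
  rw [← h1, ← mul_apply_eq_comp, star_U_mul_self]
  rfl

lemma Rel.eVec {U : USL K0} {U' : USp K} (h : Rel D U U') :
    Site.eVec U' = embS D.j D.s ((IL D.io).eV U) := by
  show star (U' : Sp K →L[ℂ] Sp K) (Zop ((U' : Sp K →L[ℂ] Sp K) Om)) = _
  rw [← embS_OmS D.j D.s D.hs D.hsj, h, ← embS_ZS, h.star_apply, Li.ILSys.eV, IL_Z]
  rfl

lemma Rel.ip_eVec {U : USL K0} {U' : USp K} (h : Rel D U U') :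
    D.ip (Site.eVec U') = D.j (D.io ((IL D.io).eV U)) := by
  rw [h.eVec, D.comm]

lemma Rel.mix (D : BridgeData K0 K) (β : ℝ) : Rel D (mixL β) (mixU β) := by
  intro v
  rw [mixL_coe, embS_spG]
  ext b : 1
  rw [mixU_apply, spM_apply, Fintype.sum_bool]
  cases b <;> simp [mixm, -Complex.ofReal_cos, -Complex.ofReal_sin, sub_eq_add_neg, add_comm]

lemma Rel.lab (D : BridgeData K0 K) (a : ℝ) : Rel D (labL a) (costU (-a) D.s) := by
  intro v
  ext b : 1
  rw [costU_apply, embS_apply, embS_apply, labL_apply, mF_chi_eq, emb_chi D.j D.s D.hs D.hsj]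
  congr 3
  push_cast
  ring

lemma Rel.cost (D : BridgeData K0 K) (γ : ℝ) (f : SL K0) :
    Rel D (costL D.io γ f) (costU γ (D.j (D.io f))) := by
  intro v
  ext b : 1
  rw [costU_apply, embS_apply, embS_apply, costL_apply, emb_Wy D.j D.s D.hs D.hsj, map_smul]

lemma Rel.mvB {U : USL K0} {U' : USp K} (h : Rel D U U') (β : ℝ) :
    Rel D (mvB β U) (moveB β U') := (Rel.mix D β).mul h

lemma Rel.mvL {U : USL K0} {U' : USp K} (h : Rel D U U') (a : ℝ) :
    Rel D (mvL a U) (costU (-a) D.s * U') := (Rel.lab D a).mul h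

lemma Rel.mvC {U : USL K0} {U' : USp K} (h : Rel D U U') (γ : ℝ) :
    Rel D (mvC D.io γ U) (moveC D.ip γ U') := by
  have h1 := (Rel.cost D γ ((IL D.io).eV U)).mul h
  rw [← h.ip_eVec] at h1
  exact h1

/-- one-particle vectors under the embedding -/
lemma emb_one (j : K0 →ₗᵢ[ℂ] K) (s : K) (hs : ‖s‖ = 1) (hsj : ∀ f, ⟪s, j f⟫_ℂ = 0) (f : K0) :
    emb j s (wave 0 (one f)) = one (j f) := by
  let L : Fock K0 →ₗᵢ[ℂ] LFo K0 :=
    { toFun := wave 0
      map_add' := wave_add 0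
      map_smul' := wave_smul 0
      norm_map' := norm_wave 0 }
  have h1 : HasDerivAt (fun t : ℝ => ((emb j s).comp L.toContinuousLinearMap)
      (coh ((t : ℂ) • f))) (((emb j s).comp L.toContinuousLinearMap) (Complex.I • one f)) 0 :=
    ((((emb j s).comp L.toContinuousLinearMap).restrictScalars ℝ).hasFDerivAt.comp_hasDerivAt
      (0 : ℝ) (hasDerivAt_coh f))
  have h2 : ∀ t : ℝ, ((emb j s).comp L.toContinuousLinearMap) (coh ((t : ℂ) • f))
      = coh ((t : ℂ) • j f) := by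
    intro t
    show emb j s (wave 0 (coh ((t : ℂ) • f))) = _
    rw [emb_wave j s hs hsj, map_smul]
    simp
  simp_rw [h2] at h1
  have h3 := h1.unique (hasDerivAt_coh (j f))
  rw [map_smul] at h3
  have h4 := smul_right_injective (Fock K) Complex.I_ne_zero h3
  exact h4

lemma Sop_embS (D : BridgeData K0 K) (v : SL K0) :
    Sop D.ip (embS D.j D.s v) = embS D.j D.s (oneS D.io.toLinearIsometry v) := by
  ext b : 1
  rw [embS_apply, oneS_apply, plusL_apply, map_smul]
  show (((1 : ℝ) / Real.sqrt 2 : ℝ) : ℂ) • one (D.ip (embS D.j D.s v)) = _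
  rw [D.comm]
  congr 1
  exact (emb_one D.j D.s D.hs D.hsj _).symm

lemma Rel.energy {U : USL K0} {U' : USp K} (h : Rel D U U') :
    Site.energy D.ip U' = (IL D.io).energy U := by
  rw [Site.energy, h.eVec, Sop_embS, Li.ILSys.energy]
  have h1 := (embI D.j D.s D.hs D.hsj).inner_map_map ((IL D.io).eV U)
    (oneS D.io.toLinearIsometry ((IL D.io).eV U))
  rw [embI_apply, embI_apply] at h1
  rw [h1]
  rfl

end rel

end Crest.Agent.R339.LF
end
end

-- ▼ part R339/LabId286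
section

/-!
R339: the read-out `Im ⟪y, ι (eVec U)⟫` of a labelled word equals the label moment
`Re ⟪|+⟩ ⊗ one s, eVec U⟫`.
-/

set_option autoImplicit false
set_option linter.unusedSectionVars false

noncomputable section

namespace Crest.Agent.R339.LF

open MeasureTheory ProbabilityTheory Filter Topology
open scoped InnerProductSpace ENNReal
open Crest.Agent.R339.Site Crest.Agent.R339.Lab Crest.MathPhysics.SpinGlass

variable {K : Type*} [NormedAddCommGroup K] [InnerProductSpace ℂ K]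

/-- `v ↦ |+⟩ ⊗ v` on the plain space -/
def plusP : Fock K →ₗᵢ[ℂ] Sp K where
  toFun v := WithLp.toLp 2 fun _ => (((1 : ℝ) / Real.sqrt 2 : ℝ) : ℂ) • v
  map_add' v w := by
    ext b : 1
    show (((1 : ℝ) / Real.sqrt 2 : ℝ) : ℂ) • (v + w) = _
    rw [smul_add]
    rfl
  map_smul' c v := by
    ext b : 1
    show (((1 : ℝ) / Real.sqrt 2 : ℝ) : ℂ) • (c • v) = _
    rw [smul_comm]
    rfl
  norm_map' v := by
    show ‖(WithLp.toLp 2 fun _ => (((1 : ℝ) / Real.sqrt 2 : ℝ) : ℂ) • v : Sp K)‖ = ‖v‖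
    have h := PiLp.norm_sq_eq_of_L2 (fun _ : Bool => Fock K)
      (WithLp.toLp 2 fun _ => (((1 : ℝ) / Real.sqrt 2 : ℝ) : ℂ) • v)
    have h2 : ‖(((1 : ℝ) / Real.sqrt 2 : ℝ) : ℂ) • v‖ ^ 2 = ‖v‖ ^ 2 / 2 := by
      rw [norm_smul, Complex.norm_real, Real.norm_eq_abs, mul_pow, sq_abs, div_pow,
        Real.sq_sqrt (by norm_num)]
      ring
    simp only [Fintype.sum_bool, h2] at h
    rw [add_halves] at h
    exact (sq_eq_sq₀ (norm_nonneg _) (norm_nonneg _)).mp h

lemma plusP_apply (v : Fock K) (b : Bool) :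
    (plusP v : Sp K) b = (((1 : ℝ) / Real.sqrt 2 : ℝ) : ℂ) • v := rfl

lemma plusP_vac : (plusP vac : Sp K) = Om := rfl

lemma Wl_plusP (g : K) (v : Fock K) : Wl g (plusP v : Sp K) = plusP (Wy g v) := by
  ext b : 1
  rw [Wl_apply, plusP_apply, plusP_apply, map_smul]


/-- the label translation vectors -/
def gt (s : K) (τ : ℝ) : K := (τ : ℂ) • (Complex.I • s)

lemma gt_neg (s : K) (τ : ℝ) : -gt s τ = gt s (-τ) := by
  rw [gt, gt, ← neg_smul]
  push_cast
  rfl

/-- `w` is the derivative datum of `U` under label translation. -/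
def RD (s : K) (U : USp K) (w : Sp K) : Prop :=
  ∃ R : ℝ → (Sp K →L[ℂ] Sp K), R 0 = 1 ∧
    (∀ (τ : ℝ) (v : Sp K), (U : Sp K →L[ℂ] Sp K) (R τ v)
      = Wl (-gt s τ) ((U : Sp K →L[ℂ] Sp K) (Wl (gt s τ) v))) ∧
    HasDerivAt (fun τ => R τ Om) ((-(2 * Complex.I)) • w) 0

lemma RD.start (s : K) : RD s 1 0 := by
  refine ⟨fun _ => 1, rfl, fun τ v => ?_, ?_⟩
  · show v = Wl (-gt s τ) (Wl (gt s τ) v)
    rw [Wl_neg_Wl]
  · rw [smul_zero]
    exact hasDerivAt_const _ _

lemma RD.comm {s : K} {U : USp K} {w : Sp K} (h : RD s U w) (G : USp K)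
    (hG : ∀ (τ : ℝ) (v : Sp K), (G : Sp K →L[ℂ] Sp K) (Wl (gt s τ) v)
      = Wl (gt s τ) ((G : Sp K →L[ℂ] Sp K) v)) : RD s (G * U) w := by
  obtain ⟨R, h0, h1, h2⟩ := h
  refine ⟨R, h0, fun τ v => ?_, h2⟩
  show (G : Sp K →L[ℂ] Sp K) ((U : Sp K →L[ℂ] Sp K) (R τ v)) = _
  rw [h1, gt_neg, hG]
  rfl

lemma costU_comm_gt {s f : K} (hf : ⟪s, f⟫_ℂ = 0) (γ τ : ℝ) (v : Sp K) :
    ((costU γ f : USp K) : Sp K →L[ℂ] Sp K) (Wl (gt s τ) v)
      = Wl (gt s τ) (((costU γ f : USp K) : Sp K →L[ℂ] Sp K) v) := by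
  ext b : 1
  rw [costU_apply, Wl_apply, Wl_apply, costU_apply, ← mul_apply_eq_comp, Wy_comm, smul_apply,
    mul_apply_eq_comp]
  have h : ⟪(((-(γ * spinSign b) : ℝ)) : ℂ) • f, gt s τ⟫_ℂ = 0 := by
    have h' : ⟪f, s⟫_ℂ = 0 := by rw [← inner_conj_symm, hf, map_zero]
    rw [gt, inner_smul_left, inner_smul_right, inner_smul_right, h']
    simp
  rw [h]
  simp

/-- the phase operator picked up by a label gate under translation -/
def Eph (α τ : ℝ) : Sp K →L[ℂ] Sp K :=
  ((Real.cos (2 * α * τ) : ℝ) : ℂ) • 1 - (Complex.I * ((Real.sin (2 * α * τ) : ℝ) : ℂ)) • Zop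

lemma Eph_apply (α τ : ℝ) (v : Sp K) (b : Bool) :
    Eph α τ v b = Complex.exp (-(Complex.I * ((2 * (α * spinSign b * τ) : ℝ) : ℂ))) • v b := by
  have h : Eph α τ v = ((Real.cos (2 * α * τ) : ℝ) : ℂ) • v
      - (Complex.I * ((Real.sin (2 * α * τ) : ℝ) : ℂ)) • Zop v := rfl
  rw [h, PiLp.sub_apply, PiLp.smul_apply, PiLp.smul_apply, Zop_apply, smul_smul, ← sub_smul]
  congr 1
  have e : -(Complex.I * ((2 * (α * spinSign b * τ) : ℝ) : ℂ))
      = ((-(2 * (α * spinSign b * τ)) : ℝ) : ℂ) * Complex.I := by push_cast; ring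
  rw [e, Complex.exp_mul_I, ← Complex.ofReal_cos, ← Complex.ofReal_sin, Real.cos_neg,
    Real.sin_neg]
  cases b
  · simp only [spinSign, Bool.false_eq_true, if_false]
    rw [show 2 * (α * 1 * τ) = 2 * α * τ by ring]
    push_cast
    ring
  · simp only [spinSign, if_true]
    rw [show 2 * (α * -1 * τ) = -(2 * α * τ) by ring, Real.cos_neg, Real.sin_neg]
    push_cast
    ring

lemma Eph_zero (α : ℝ) : (Eph α 0 : Sp K →L[ℂ] Sp K) = 1 := by
  refine ContinuousLinearMap.ext fun v => ?_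
  ext b : 1
  rw [Eph_apply]
  simp

lemma costU_Eph {s : K} (hs : ‖s‖ = 1) (α τ : ℝ) (v : Sp K) :
    ((costU (-α) s : USp K) : Sp K →L[ℂ] Sp K) (Eph α τ v)
      = Wl (-gt s τ) (((costU (-α) s : USp K) : Sp K →L[ℂ] Sp K) (Wl (gt s τ) v)) := by
  ext b : 1
  rw [costU_apply, Wl_apply, costU_apply, Wl_apply, Eph_apply, map_smul, ← mul_apply_eq_comp
    (Wy ((((-(-α * spinSign b) : ℝ)) : ℂ) • s)), Wy_comm, smul_apply, mul_apply_eq_comp, map_smul,
    ← mul_apply_eq_comp (Wy (-gt s τ)), Wy_neg_mul]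
  have h : ⟪(((-(-α * spinSign b) : ℝ)) : ℂ) • s, gt s τ⟫_ℂ
      = ((α * spinSign b * τ : ℝ) : ℂ) * Complex.I := by
    rw [gt, inner_smul_left, inner_smul_right, inner_smul_right, inner_self_eq_norm_sq_to_K, hs,
      Complex.conj_ofReal]
    push_cast
    ring
  rw [h]
  congr 2
  rw [Complex.im_ofReal_mul, Complex.I_im, mul_one]
  push_cast
  ring

lemma hasDerivAt_cosC (α : ℝ) : HasDerivAt (fun τ : ℝ => ((Real.cos (2 * α * τ) : ℝ) : ℂ)) 0 0 := by
  have h1 : HasDerivAt (fun τ : ℝ => Real.cos (2 * α * τ)) (-Real.sin (2 * α * 0) * (2 * α)) 0 := by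
    have := (hasDerivAt_id (0 : ℝ)).const_mul (2 * α)
    rw [mul_one] at this
    exact this.cos
  have h2 := h1.ofReal_comp
  simpa using h2

lemma hasDerivAt_sinC (α : ℝ) : HasDerivAt
    (fun τ : ℝ => Complex.I * ((Real.sin (2 * α * τ) : ℝ) : ℂ)) (Complex.I * ((2 * α : ℝ) : ℂ)) 0 := by
  have h1 : HasDerivAt (fun τ : ℝ => Real.sin (2 * α * τ)) (Real.cos (2 * α * 0) * (2 * α)) 0 := by
    have := (hasDerivAt_id (0 : ℝ)).const_mul (2 * α)
    rw [mul_one] at this
    exact this.sin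
  have h2 := h1.ofReal_comp.const_mul Complex.I
  simpa using h2

lemma RD.lab {s : K} (hs : ‖s‖ = 1) {U : USp K} {w : Sp K} (h : RD s U w) (α : ℝ) :
    RD s (costU (-α) s * U) (w + (α : ℂ) • eVec U) := by
  obtain ⟨R, h0, h1, h2⟩ := h
  refine ⟨fun τ => (star (U : Sp K →L[ℂ] Sp K) * Eph α τ * (U : Sp K →L[ℂ] Sp K)) * R τ,
    ?_, fun τ v => ?_, ?_⟩
  · show (star (U : Sp K →L[ℂ] Sp K) * Eph α 0 * (U : Sp K →L[ℂ] Sp K)) * R 0 = 1
    rw [Eph_zero, h0, mul_one, mul_one, star_U_mul_self]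
  · show ((costU (-α) s : USp K) : Sp K →L[ℂ] Sp K) ((U : Sp K →L[ℂ] Sp K)
      (star (U : Sp K →L[ℂ] Sp K) (Eph α τ ((U : Sp K →L[ℂ] Sp K) (R τ v)))))
      = Wl (-gt s τ) (((costU (-α) s : USp K) : Sp K →L[ℂ] Sp K) ((U : Sp K →L[ℂ] Sp K)
        (Wl (gt s τ) v)))
    rw [← mul_apply_eq_comp (U : Sp K →L[ℂ] Sp K), U_mul_star_self, one_apply_eq_self, h1,
      costU_Eph hs, Wl_Wl_neg]
  · set e : Sp K →L[ℂ] Sp K := star (U : Sp K →L[ℂ] Sp K) * Zop * (U : Sp K →L[ℂ] Sp K) with he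
    have heq : ∀ τ : ℝ, ((star (U : Sp K →L[ℂ] Sp K) * Eph α τ * (U : Sp K →L[ℂ] Sp K)) * R τ
        : Sp K →L[ℂ] Sp K) Om
        = ((Real.cos (2 * α * τ) : ℝ) : ℂ) • R τ Om
          - (Complex.I * ((Real.sin (2 * α * τ) : ℝ) : ℂ)) • e (R τ Om) := by
      intro τ
      show star (U : Sp K →L[ℂ] Sp K) (((Real.cos (2 * α * τ) : ℝ) : ℂ) •
        ((U : Sp K →L[ℂ] Sp K) (R τ Om)) - (Complex.I * ((Real.sin (2 * α * τ) : ℝ) : ℂ)) •
          Zop ((U : Sp K →L[ℂ] Sp K) (R τ Om))) = _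
      rw [map_sub, map_smul, map_smul, ← mul_apply_eq_comp (star (U : Sp K →L[ℂ] Sp K)),
        star_U_mul_self, one_apply_eq_self]
      rfl
    show HasDerivAt (fun τ : ℝ => ((star (U : Sp K →L[ℂ] Sp K) * Eph α τ
      * (U : Sp K →L[ℂ] Sp K)) * R τ : Sp K →L[ℂ] Sp K) Om) _ 0
    simp_rw [heq]
    have h3 : HasDerivAt (fun τ : ℝ => e (R τ (Om : Sp K))) (e ((-(2 * Complex.I)) • w)) 0 :=
      ((e.restrictScalars ℝ).hasFDerivAt.comp_hasDerivAt (0 : ℝ) h2)
    have h4 := ((hasDerivAt_cosC α).smul h2).sub ((hasDerivAt_sinC α).smul h3)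
    convert! h4 using 1
    rw [h0]
    show (-(2 * Complex.I)) • (w + (α : ℂ) • eVec U)
      = (((Real.cos (2 * α * 0) : ℝ) : ℂ) • (-(2 * Complex.I)) • w + (0 : ℂ) • Om)
        - ((Complex.I * ((Real.sin (2 * α * 0) : ℝ) : ℂ)) • e ((-(2 * Complex.I)) • w)
          + (Complex.I * ((2 * α : ℝ) : ℂ)) • eVec U)
    rw [mul_zero, Real.cos_zero, Real.sin_zero, Complex.ofReal_one, Complex.ofReal_zero, mul_zero,
      zero_smul, zero_smul, one_smul, add_zero, zero_add, smul_add, smul_smul, sub_eq_add_neg,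
      ← neg_smul]
    congr 2
    push_cast
    ring

/-- **The label moment.** -/
theorem RD.moment {s : K} {U : USp K} {w : Sp K} (h : RD s U w) :
    (⟪plusP (one s), eVec U⟫_ℂ).re = 2 * (⟪w, eVec U⟫_ℂ).im := by
  obtain ⟨R, h0, h1, h2⟩ := h
  set e : Sp K →L[ℂ] Sp K := star (U : Sp K →L[ℂ] Sp K) * Zop * (U : Sp K →L[ℂ] Sp K) with he
  have heO : e Om = eVec U := rfl
  have hsym : ∀ v v' : Sp K, ⟪v, e v'⟫_ℂ = ⟪(U : Sp K →L[ℂ] Sp K) v,
      Zop ((U : Sp K →L[ℂ] Sp K) v')⟫_ℂ := by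
    intro v v'
    show ⟪v, star (U : Sp K →L[ℂ] Sp K) (Zop ((U : Sp K →L[ℂ] Sp K) v'))⟫_ℂ = _
    rw [ContinuousLinearMap.star_eq_adjoint, ContinuousLinearMap.adjoint_inner_right]
  have hsym2 : ∀ v v' : Sp K, ⟪v, e v'⟫_ℂ = ⟪e v, v'⟫_ℂ := by
    intro v v'
    rw [hsym, ← inner_conj_symm (e v), hsym, inner_conj_symm, inner_Zop_left]
  -- the two vectors
  have hx : HasDerivAt (fun τ : ℝ => Wl (gt s τ) (Om : Sp K)) (-plusP (one s)) 0 := by
    have e1 : ∀ τ : ℝ, Wl (gt s τ) (Om : Sp K) = plusP (coh ((τ : ℂ) • (Complex.I • s))) := by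
      intro τ
      rw [← plusP_vac, Wl_plusP, Wy_vac, gt]
    simp_rw [e1]
    have h3 : HasDerivAt (fun t : ℝ => (plusP (coh ((t : ℂ) • (Complex.I • s))) : Sp K))
        (plusP (Complex.I • one (Complex.I • s))) 0 :=
      (((plusP (K := K)).toContinuousLinearMap.restrictScalars ℝ).hasFDerivAt.comp_hasDerivAt
        (0 : ℝ) (hasDerivAt_coh (Complex.I • s)))
    convert! h3 using 1
    rw [map_smul, map_smul, map_smul, smul_smul, Complex.I_mul_I, neg_smul, one_smul]
  have hf : ∀ τ : ℝ, ⟪Wl (gt s τ) (Om : Sp K), e (Wl (gt s τ) Om)⟫_ℂ = ⟪R τ Om, e (R τ Om)⟫_ℂ := by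
    intro τ
    rw [hsym, hsym, h1]
    rw [isSpin_Zop, inner_Wl_Wl]
  have hd1 : HasDerivAt (fun τ : ℝ => ⟪Wl (gt s τ) (Om : Sp K), e (Wl (gt s τ) Om)⟫_ℂ)
      (⟪(Om : Sp K), e (-plusP (one s))⟫_ℂ + ⟪-plusP (one s), e Om⟫_ℂ) 0 := by
    have h3 : HasDerivAt (fun τ : ℝ => e (Wl (gt s τ) (Om : Sp K))) (e (-plusP (one s))) 0 :=
      ((e.restrictScalars ℝ).hasFDerivAt.comp_hasDerivAt (0 : ℝ) hx)
    have h4 := hx.inner ℂ h3
    have e0 : Wl (gt s 0) (Om : Sp K) = Om := by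
      rw [gt, Complex.ofReal_zero, zero_smul, Wl_zero, one_apply_eq_self]
    rw [e0] at h4
    exact h4
  have hd2 : HasDerivAt (fun τ : ℝ => ⟪R τ (Om : Sp K), e (R τ Om)⟫_ℂ)
      (⟪(Om : Sp K), e ((-(2 * Complex.I)) • w)⟫_ℂ + ⟪(-(2 * Complex.I)) • w, e Om⟫_ℂ) 0 := by
    have h3 : HasDerivAt (fun τ : ℝ => e (R τ (Om : Sp K))) (e ((-(2 * Complex.I)) • w)) 0 :=
      ((e.restrictScalars ℝ).hasFDerivAt.comp_hasDerivAt (0 : ℝ) h2)
    have h4 := h2.inner ℂ h3
    rw [h0, one_apply_eq_self] at h4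
    exact h4
  simp_rw [hf] at hd1
  have key := hd1.unique hd2
  rw [hsym2, hsym2 Om, heO] at key
  have key2 := congrArg Complex.re key
  rw [Complex.add_re, Complex.add_re] at key2
  have c1 : (⟪eVec U, -plusP (one s)⟫_ℂ).re = (⟪-plusP (one s), eVec U⟫_ℂ).re := by
    rw [← inner_conj_symm, Complex.conj_re]
  have c2 : (⟪eVec U, (-(2 * Complex.I)) • w⟫_ℂ).re = (⟪(-(2 * Complex.I)) • w, eVec U⟫_ℂ).re := by
    rw [← inner_conj_symm, Complex.conj_re]
  rw [c1, c2, inner_neg_left, inner_smul_left] at key2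
  simp at key2
  linarith

/-! ### labelled words -/

theorem RD.runL {ι : Sp K →ₗᵢ[ℂ] K} {s : K} (hs : ‖s‖ = 1) (hsi : ∀ v, ⟪s, ι v⟫_ℂ = 0)
    (w : List Mark.Lg) : ∀ (p : USp K × K) (u : Sp K), RD s p.1 u → p.2 = ι ((2 : ℂ) • u) →
      ∃ u', RD s (Mark.runL ι s w p).1 u' ∧ (Mark.runL ι s w p).2 = ι ((2 : ℂ) • u') := by
  induction w with
  | nil => intro p u h h'; exact ⟨u, h, h'⟩
  | cons g w ih =>
    intro p u h h'
    cases g with
    | C γ => exact ih _ u (h.comm _ fun τ v => costU_comm_gt (hsi _) γ τ v) h'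
    | B β => exact ih _ u (h.comm _ fun τ v => isSpin_mixU β _ _) h'
    | L α =>
      refine ih _ (u + (α : ℂ) • eVec p.1) (h.lab hs α) ?_
      show p.2 + ((2 * α : ℝ) : ℂ) • ι (eVec p.1) = _
      rw [h', smul_add, map_add, smul_smul, map_smul ι ((2 : ℂ) * α)]
      congr 2
      push_cast
      ring


end Crest.Agent.R339.LF
end
end

-- ▼ part R339/LabXi286
section

/-!
R339: the vector `ξ = x Ω` of the labelled site space, its image under the embedding, overlaps with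
label-controlled spin matrices, and the parity of the label.
-/

set_option autoImplicit false
set_option linter.unusedSectionVars false

noncomputable section

namespace Crest.Agent.R339.LF

open MeasureTheory ProbabilityTheory Filter Topology
open scoped InnerProductSpace ENNReal
open Crest.Agent.R339.Site Crest.Agent.R339.Lab Crest.MathPhysics.SpinGlass

section xw
variable {E : Type*} [NormedAddCommGroup E] [InnerProductSpace ℂ E] [CompleteSpace E]

lemma memLp_id_gam1 (n : ℕ) : MemLp (id : ℝ → ℝ) n gam1 :=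
  memLp_id_gaussianReal' _ (by simp)

lemma memLp_xw (v : E) : MemLp (fun x : ℝ => (x : ℂ) • v) 2 gam1 := by
  refine MemLp.of_le_mul (c := ‖v‖) (g := (id : ℝ → ℝ)) (by exact_mod_cast memLp_id_gam1 2) ?_ ?_
  · exact (Complex.continuous_ofReal.smul continuous_const).aestronglyMeasurable
  · refine Eventually.of_forall fun x => ?_
    rw [norm_smul, Complex.norm_real, mul_comm]
    rfl

/-- `x ↦ x • v` -/
def xw (v : E) : Lp E 2 gam1 := (memLp_xw v).toLp _

lemma coeFn_xw (v : E) : xw v =ᵐ[gam1] fun x => (x : ℂ) • v := MemLp.coeFn_toLp _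

lemma memLp_sq : MemLp (fun x : ℝ => x ^ 2) 2 gam1 := by
  rw [memLp_two_iff_integrable_sq (by fun_prop)]
  have h := (memLp_id_gam1 4).integrable_norm_pow (by norm_num)
  refine h.congr (Eventually.of_forall fun x => ?_)
  simp only [id, Real.norm_eq_abs]
  rw [← pow_mul]
  have : |x| ^ 4 = (|x| ^ 2) ^ 2 := by ring
  rw [this, sq_abs]
  ring

lemma norm_chi_sub_le (t x : ℝ) :
    ‖chi t x - 1 - ((t * x : ℝ) : ℂ) * Complex.I‖ ≤ 3 * (t ^ 2 * x ^ 2) := by
  have hn : ‖((t * x : ℝ) : ℂ) * Complex.I‖ = |t * x| := by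
    rw [norm_mul, Complex.norm_I, mul_one, Complex.norm_real, Real.norm_eq_abs]
  have hsq : t ^ 2 * x ^ 2 = |t * x| ^ 2 := by rw [sq_abs]; ring
  rw [hsq]
  by_cases h : |t * x| ≤ 1
  · have h1 := Complex.norm_exp_sub_one_sub_id_le (x := ((t * x : ℝ) : ℂ) * Complex.I)
      (by rw [hn]; exact h)
    rw [hn] at h1
    refine h1.trans ?_
    nlinarith [sq_nonneg |t * x|]
  · push Not at h
    calc ‖chi t x - 1 - ((t * x : ℝ) : ℂ) * Complex.I‖
        ≤ ‖chi t x - 1‖ + ‖((t * x : ℝ) : ℂ) * Complex.I‖ := norm_sub_le _ _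
      _ ≤ (‖chi t x‖ + ‖(1 : ℂ)‖) + |t * x| := by
          rw [hn]
          exact add_le_add (norm_sub_le _ _) le_rfl
      _ = 2 + |t * x| := by rw [norm_chi, norm_one]; norm_num
      _ ≤ 3 * |t * x| ^ 2 := by nlinarith

lemma norm_wave_sub_le (v : E) (t : ℝ) :
    ‖wave t v - wave 0 v - (t : ℂ) • (Complex.I • xw v)‖
      ≤ (3 * t ^ 2 * ‖v‖) * ‖memLp_sq.toLp _‖ := by
  refine Lp.norm_le_mul_norm_of_ae_le_mul ?_
  filter_upwards [Lp.coeFn_sub (wave t v - wave 0 v) ((t : ℂ) • (Complex.I • xw v)),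
    Lp.coeFn_sub (wave t v) (wave 0 v), Lp.coeFn_smul (t : ℂ) (Complex.I • xw v),
    Lp.coeFn_smul Complex.I (xw v), coeFn_wave t v, coeFn_wave 0 v, coeFn_xw v,
    MemLp.coeFn_toLp memLp_sq] with x h1 h2 h3 h4 h5 h6 h7 h8
  rw [h1, Pi.sub_apply, h2, Pi.sub_apply, h3, Pi.smul_apply, h4, Pi.smul_apply, h5, h6, h7, h8,
    smul_smul, smul_smul, ← sub_smul, ← sub_smul, norm_smul, chi_zero]
  have h9 : chi t x - 1 - (t : ℂ) * Complex.I * (x : ℂ)
      = chi t x - 1 - ((t * x : ℝ) : ℂ) * Complex.I := by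
    push_cast
    ring
  rw [h9]
  have h10 := norm_chi_sub_le t x
  rw [Real.norm_eq_abs, abs_of_nonneg (sq_nonneg x)]
  nlinarith [norm_nonneg v, mul_le_mul_of_nonneg_right h10 (norm_nonneg v)]

lemma hasDerivAt_wave (v : E) :
    HasDerivAt (fun t : ℝ => wave t v) (Complex.I • xw v) 0 := by
  rw [hasDerivAt_iff_isLittleO_nhds_zero]
  have h1 : (fun h : ℝ => wave (0 + h) v - wave 0 v - h • (Complex.I • xw v))
      =O[𝓝 0] fun h : ℝ => h ^ 2 := by
    refine Asymptotics.IsBigO.of_bound (3 * ‖v‖ * ‖memLp_sq.toLp _‖) (Eventually.of_forall fun h => ?_)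
    have h2 := norm_wave_sub_le v h
    rw [zero_add, Real.norm_eq_abs, abs_of_nonneg (sq_nonneg h)]
    have h3 : (h : ℝ) • (Complex.I • xw v : Lp E 2 gam1) = (h : ℂ) • (Complex.I • xw v) :=
      (Complex.coe_smul h _).symm
    rw [h3]
    refine h2.trans (le_of_eq ?_)
    ring
  exact h1.trans_isLittleO (Asymptotics.isLittleO_pow_id one_lt_two)

end xw

section xi
variable {K0 K : Type*} [NormedAddCommGroup K0] [InnerProductSpace ℂ K0]
  [NormedAddCommGroup K] [InnerProductSpace ℂ K]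

/-- `ξ = x Ω` -/
def xiS : SL K0 := WithLp.toLp 2 fun _ => (((1 : ℝ) / Real.sqrt 2 : ℝ) : ℂ) • xw vac

lemma xiS_apply (b : Bool) :
    (xiS : SL K0) b = (((1 : ℝ) / Real.sqrt 2 : ℝ) : ℂ) • xw vac := rfl

lemma emb_xw (j : K0 →ₗᵢ[ℂ] K) (s : K) (hs : ‖s‖ = 1) (hsj : ∀ f, ⟪s, j f⟫_ℂ = 0) :
    emb j s (xw vac) = one s := by
  have h1 : HasDerivAt (fun t : ℝ => emb j s (wave t vac)) (emb j s (Complex.I • xw vac)) 0 :=
    (((emb j s).restrictScalars ℝ).hasFDerivAt.comp_hasDerivAt (0 : ℝ) (hasDerivAt_wave vac))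
  have h2 : ∀ t : ℝ, emb j s (wave t vac) = coh ((t : ℂ) • s) := by
    intro t
    rw [vac, emb_wave j s hs hsj, map_zero, zero_add]
  simp_rw [h2] at h1
  have h3 := h1.unique (hasDerivAt_coh s)
  rw [map_smul] at h3
  exact smul_right_injective (Fock K) Complex.I_ne_zero h3

lemma embS_xiS (j : K0 →ₗᵢ[ℂ] K) (s : K) (hs : ‖s‖ = 1) (hsj : ∀ f, ⟪s, j f⟫_ℂ = 0) :
    embS j s (xiS : SL K0) = plusP (one s) := by
  ext b : 1
  rw [embS_apply, xiS_apply, map_smul, emb_xw j s hs hsj, plusP_apply]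

/-- the label moment on the labelled space -/
def mS (io : SL K0 ≃ₗᵢ[ℂ] K0) (U : USL K0) : ℝ := (⟪(xiS : SL K0), (IL io).eV U⟫_ℂ).re

lemma Rel.mS {D : BridgeData K0 K} {U : USL K0} {U' : USp K} (h : Rel D U U') :
    (⟪plusP (Site.one D.s), Site.eVec U'⟫_ℂ).re = LF.mS D.io U := by
  rw [h.eVec, ← embS_xiS D.j D.s D.hs D.hsj]
  have h1 := (embI D.j D.s D.hs D.hsj).inner_map_map (xiS : SL K0) ((IL D.io).eV U)
  rw [embI_apply, embI_apply] at h1
  rw [h1, LF.mS]

/-! ### labelled words on the labelled space -/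

/-- action of a letter on the labelled space -/
def appS (io : SL K0 ≃ₗᵢ[ℂ] K0) : Mark.Lg → USL K0 → USL K0
  | .C γ, U => mvC io γ U
  | .B β, U => mvB β U
  | .L a, U => mvL a U

/-- action of a word on the labelled space (first letter first) -/
def runS (io : SL K0 ≃ₗᵢ[ℂ] K0) : List Mark.Lg → USL K0 → USL K0
  | [], U => U
  | g :: w, U => runS io w (appS io g U)

/-- admissible words: the label moment does not vanish after a mixer and at a label gate -/
def admS (io : SL K0 ≃ₗᵢ[ℂ] K0) : List Mark.Lg → USL K0 → Prop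
  | [], _ => True
  | .C γ :: w, U => admS io w (mvC io γ U)
  | .B β :: w, U => mS io (mvB β U) ≠ 0 ∧ admS io w (mvB β U)
  | .L a :: w, U => mS io U ≠ 0 ∧ admS io w (mvL a U)

lemma rel_adm {D : BridgeData K0 K} (w : List Mark.Lg) : ∀ (U : USL K0) (p : USp K × K) (u : Sp K),
    Rel D U p.1 → RD D.s p.1 u → p.2 = D.ip ((2 : ℂ) • u) → admS D.io w U →
      Mark.admL D.ip D.s w p ∧ Rel D (runS D.io w U) (Mark.runL D.ip D.s w p).1 := by
  induction w with
  | nil => intro U p u h _ _ _; exact ⟨trivial, h⟩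
  | cons g w ih =>
    intro U p u h hR hp hadm
    have hread : ∀ (U1 : USL K0) (V : USp K) (u' : Sp K), Rel D U1 V → RD D.s V u' →
        (⟪D.ip ((2 : ℂ) • u'), D.ip (eVec V)⟫_ℂ).im = mS D.io U1 := by
      intro U1 V u' h1 h2
      rw [← h1.mS, h2.moment, D.ip.inner_map_map, inner_smul_left]
      simp
    cases g with
    | C γ =>
      have hR' : RD D.s (moveC D.ip γ p.1) u :=
        hR.comm _ fun τ v => costU_comm_gt (D.hsi _) γ τ v
      obtain ⟨h1, h2⟩ := ih (mvC D.io γ U) (moveC D.ip γ p.1, p.2) u (h.mvC γ) hR' hp hadm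
      exact ⟨⟨trivial, h1⟩, h2⟩
    | B β =>
      have hR' : RD D.s (moveB β p.1) u := hR.comm _ fun τ v => isSpin_mixU β _ _
      obtain ⟨h1, h2⟩ := ih (mvB β U) (moveB β p.1, p.2) u (h.mvB β) hR' hp hadm.2
      refine ⟨⟨?_, h1⟩, h2⟩
      show (⟪p.2, D.ip (eVec (moveB β p.1))⟫_ℂ).im ≠ 0
      rw [hp, hread _ _ _ (h.mvB β) hR']
      exact hadm.1
    | L α =>
      have hR' : RD D.s (costU (-α) D.s * p.1) (u + (α : ℂ) • eVec p.1) := hR.lab D.hs α
      have hp' : p.2 + ((2 * α : ℝ) : ℂ) • D.ip (eVec p.1)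
          = D.ip ((2 : ℂ) • (u + (α : ℂ) • eVec p.1)) := by
        rw [hp, smul_add, map_add, smul_smul, map_smul D.ip ((2 : ℂ) * α)]
        congr 2
        push_cast
        ring
      obtain ⟨h1, h2⟩ := ih (mvL α U) (costU (-α) D.s * p.1,
        p.2 + ((2 * α : ℝ) : ℂ) • D.ip (eVec p.1)) _ (h.mvL α) hR' hp' hadm.2
      refine ⟨⟨?_, h1⟩, h2⟩
      show (⟪p.2, D.ip (eVec p.1)⟫_ℂ).im ≠ 0
      rw [hp, hread _ _ _ h hR]
      exact hadm.1

/-- **The bound for labelled words on the labelled space.** -/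
theorem SL_le (D : BridgeData K0 K) {α0 : ℝ} {hα : α0 ≠ 0} {ε : ℕ → ℝ} {hε : ∀ n, 0 < ε n}
    (hε0 : Tendsto ε atTop (𝓝 0)) (hLam : Mark.LamStmt D.ip D.hs D.hsi hα hε) {c : ℝ}
    (hc : ∀ (j : Sp K →ₗᵢ[ℂ] K) (angles : List (ℝ × ℝ)), energy j (wordU j angles) ≤ c)
    (w : List Mark.Lg) (hw : admS D.io w (labL α0)) :
    (IL D.io).energy (runS D.io w (labL α0)) ≤ c := by
  have h0 : RD D.s (costU (-α0) D.s) ((α0 : ℂ) • (Zop Om : Sp K)) := by
    have h1 := (RD.start D.s).lab D.hs α0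
    have e1 : eVec (1 : USp K) = Zop Om := by
      show star (1 : Sp K →L[ℂ] Sp K) (Zop Om) = _
      rw [star_one]
      rfl
    rw [mul_one, zero_add, e1] at h1
    exact h1
  have hp : ((2 * α0 : ℝ) : ℂ) • D.ip (Zop Om) = D.ip ((2 : ℂ) • ((α0 : ℂ) • (Zop Om : Sp K))) := by
    rw [smul_smul, map_smul]
    congr 1
    push_cast
    ring
  obtain ⟨h1, h2⟩ := rel_adm w (labL α0) (costU (-α0) D.s, ((2 * α0 : ℝ) : ℂ) • D.ip (Zop Om)) _
    (Rel.lab D α0) h0 hp hw
  rw [← h2.energy]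
  exact Mark.labelled_le hε0 hLam hc w h1

end xi

end Crest.Agent.R339.LF
end
private theorem rz_12d4461cc0 : type_of% @_root_.Crest.Agent.R339.LF.admS.eq_def := @_root_.Crest.Agent.R339.LF.admS.eq_def -- L155
private theorem rz_ebc7f28717 : type_of% @_root_.Crest.Agent.R339.LF.admS.eq_1 := @_root_.Crest.Agent.R339.LF.admS.eq_1 -- L155
private theorem rz_1855318422 : type_of% @_root_.Crest.Agent.R339.LF.runS.eq_def := @_root_.Crest.Agent.R339.LF.runS.eq_def -- L150
private theorem rz_51a699c10f : type_of% @_root_.Crest.Agent.R339.LF.runS.eq_1 := @_root_.Crest.Agent.R339.LF.runS.eq_1 -- L150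
end

-- ▼ part R339/Ant575B
section

/-!
R339, block ANT (helper575), part B: even bounded measurable functions of the label are a.e. limits
of real trigonometric polynomials `∑ β_k cos (t_k x)`.
-/

set_option autoImplicit false

noncomputable section

namespace Crest.Agent.R339.Ant

open MeasureTheory ProbabilityTheory Filter Topology
open scoped ENNReal InnerProductSpace
open Crest.Agent.R339.LF

/-- the trigonometric polynomial of a list of pairs `(t, β)` -/
def trig (l : List (ℝ × ℝ)) (x : ℝ) : ℝ := (l.map fun p => p.2 * Real.cos (p.1 * x)).sum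

@[simp] lemma trig_nil (x : ℝ) : trig [] x = 0 := rfl

@[simp] lemma trig_cons (p : ℝ × ℝ) (l : List (ℝ × ℝ)) (x : ℝ) :
    trig (p :: l) x = p.2 * Real.cos (p.1 * x) + trig l x := rfl

lemma continuous_trig (l : List (ℝ × ℝ)) : Continuous (trig l) := by
  induction l with
  | nil => exact continuous_const
  | cons p l ih =>
    have : trig (p :: l) = fun x => p.2 * Real.cos (p.1 * x) + trig l x := rfl
    rw [this]
    fun_prop

lemma map_neg_gam1 : gam1.map (fun x : ℝ => -x) = gam1 := by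
  rw [gam1, gaussianReal_map_neg, neg_zero]

/-- every element of the span of the waves is a.e. a finite character sum -/
lemma span_wave_form (p : Lp ℂ 2 gam1)
    (hp : p ∈ Submodule.span ℂ (Set.range (fun q : ℝ × Unit => wave q.1 (1 : ℂ)))) :
    ∃ l : List (ℝ × ℂ), p =ᵐ[gam1] fun x => (l.map fun q => q.2 * chi q.1 x).sum := by
  induction hp using Submodule.span_induction with
  | mem v hv =>
    obtain ⟨⟨t, _⟩, rfl⟩ := hv
    refine ⟨[(t, 1)], ?_⟩
    filter_upwards [coeFn_wave t (1 : ℂ)] with x hx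
    simp [hx]
  | zero =>
    refine ⟨[], ?_⟩
    filter_upwards [Lp.coeFn_zero ℂ 2 gam1] with x hx
    rw [hx]
    simp
  | add v w _ _ hv hw =>
    obtain ⟨l1, h1⟩ := hv
    obtain ⟨l2, h2⟩ := hw
    refine ⟨l1 ++ l2, ?_⟩
    filter_upwards [h1, h2, Lp.coeFn_add v w] with x e1 e2 e3
    rw [e3, Pi.add_apply, e1, e2, List.map_append, List.sum_append]
  | smul a v _ hv =>
    obtain ⟨l1, h1⟩ := hv
    refine ⟨l1.map fun q => (q.1, a * q.2), ?_⟩
    filter_upwards [h1, Lp.coeFn_smul a v] with x e1 e2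
    rw [e2, Pi.smul_apply, e1, smul_eq_mul, List.map_map]
    simp only [Function.comp_def]
    rw [← List.sum_map_mul_left]
    simp [mul_assoc]

/-- the real, even part of a character sum -/
lemma re_even (l : List (ℝ × ℂ)) (x : ℝ) :
    trig (l.map fun q => (q.1, q.2.re)) x
      = (((l.map fun q => q.2 * chi q.1 x).sum + (l.map fun q => q.2 * chi q.1 (-x)).sum) / 2).re := by
  induction l with
  | nil => simp
  | cons q l ih =>
    simp only [List.map_cons, trig_cons, List.sum_cons]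
    rw [ih]
    have h1 : chi q.1 x + chi q.1 (-x) = 2 * (Real.cos (q.1 * x) : ℂ) := by
      unfold chi
      rw [mul_neg]
      push_cast
      rw [Complex.cos]
      rw [neg_mul]
      ring
    have h2 : (q.2 * chi q.1 x + (l.map fun q => q.2 * chi q.1 x).sum
        + (q.2 * chi q.1 (-x) + (l.map fun q => q.2 * chi q.1 (-x)).sum)) / 2
        = q.2 * (Real.cos (q.1 * x) : ℂ)
          + ((l.map fun q => q.2 * chi q.1 x).sum + (l.map fun q => q.2 * chi q.1 (-x)).sum) / 2 := by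
      linear_combination (q.2 / 2) * h1
    rw [h2, Complex.add_re, Complex.mul_re, Complex.ofReal_re, Complex.ofReal_im, mul_zero,
      sub_zero]

lemma span_one_total :
    (Submodule.span ℂ (Set.range (fun _ : Unit => (1 : ℂ)))).topologicalClosure = ⊤ := by
  have : Submodule.span ℂ (Set.range (fun _ : Unit => (1 : ℂ))) = ⊤ := by
    rw [Set.range_const]
    exact Ideal.span_singleton_one
  rw [this]
  exact eq_top_iff.2 (Submodule.le_topologicalClosure ⊤)

/-- every `L²` function is an `L²` limit of character sums -/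
lemma exists_char_seq (F : Lp ℂ 2 gam1) :
    ∃ L : ℕ → List (ℝ × ℂ), Tendsto (fun n => eLpNorm
      (fun x => ((L n).map fun q => q.2 * chi q.1 x).sum - (F : ℝ → ℂ) x) 2 gam1) atTop (𝓝 0) := by
  have htot := wave_total span_one_total
  have hmem : F ∈ closure ((Submodule.span ℂ
      (Set.range (fun p : ℝ × Unit => wave p.1 (1 : ℂ))) : Submodule ℂ (Lp ℂ 2 gam1)) :
        Set (Lp ℂ 2 gam1)) := by
    rw [← Submodule.topologicalClosure_coe, htot]
    trivial
  obtain ⟨p, hpmem, hplim⟩ := mem_closure_iff_seq_limit.1 hmem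
  choose L hL using fun n => span_wave_form (p n) (hpmem n)
  refine ⟨L, ?_⟩
  have h1 := (Lp.tendsto_Lp_iff_tendsto_eLpNorm' p F).1 hplim
  refine h1.congr fun n => ?_
  refine eLpNorm_congr_ae ?_
  filter_upwards [hL n] with x hx
  rw [Pi.sub_apply, hx]

/-- the error of the real even part -/
lemma trig_error (f : ℝ → ℝ) (heven : ∀ x, f (-x) = f x) (l : List (ℝ × ℂ)) (x : ℝ) :
    |trig (l.map fun q => (q.1, q.2.re)) x - f x| ≤
      (1 / 2 : ℝ) * ‖(l.map fun q => q.2 * chi q.1 x).sum - (f x : ℂ)‖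
        + (1 / 2) * ‖(l.map fun q => q.2 * chi q.1 (-x)).sum - (f (-x) : ℂ)‖ := by
  have a5 : trig (l.map fun q => (q.1, q.2.re)) x - f x
      = ((((l.map fun q => q.2 * chi q.1 x).sum - (f x : ℂ))
        + ((l.map fun q => q.2 * chi q.1 (-x)).sum - (f (-x) : ℂ))) / 2).re := by
    rw [re_even, heven]
    simp only [Complex.add_re, Complex.sub_re, Complex.ofReal_re, Complex.div_ofNat_re]
    ring
  rw [a5]
  refine (Complex.abs_re_le_norm _).trans ?_
  rw [norm_div]
  have : ‖(2 : ℂ)‖ = 2 := by norm_num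
  rw [this]
  have := norm_add_le ((l.map fun q => q.2 * chi q.1 x).sum - (f x : ℂ))
    ((l.map fun q => q.2 * chi q.1 (-x)).sum - (f (-x) : ℂ))
  linarith

lemma measurable_charsum (l : List (ℝ × ℂ)) :
    Measurable fun x : ℝ => (l.map fun q => q.2 * chi q.1 x).sum := by
  induction l with
  | nil => simp
  | cons q l ih =>
    simp only [List.map_cons, List.sum_cons]
    exact ((continuous_chi q.1).measurable.const_mul q.2).add ih

lemma eLpNorm_half (g : ℝ → ℂ) :
    eLpNorm (fun x => (1 / 2 : ℝ) * ‖g x‖) 2 gam1 = ENNReal.ofReal (1 / 2) * eLpNorm g 2 gam1 := by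
  have h := eLpNorm_const_smul (1 / 2 : ℝ) (fun x => ‖g x‖) 2 gam1
  rw [eLpNorm_norm] at h
  have h5 : ‖(1 / 2 : ℝ)‖ₑ = ENNReal.ofReal (1 / 2) := by
    rw [← ofReal_norm, Real.norm_of_nonneg (by norm_num)]
  rw [← h5, ← h]
  rfl

lemma trig_error_eLpNorm (f : ℝ → ℝ) (hf : Measurable f) (heven : ∀ x, f (-x) = f x)
    (l : List (ℝ × ℂ)) :
    eLpNorm (fun x => trig (l.map fun q => (q.1, q.2.re)) x - f x) 2 gam1 ≤
      eLpNorm (fun x => (l.map fun q => q.2 * chi q.1 x).sum - (f x : ℂ)) 2 gam1 := by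
  have hmp : MeasurePreserving (fun x : ℝ => -x) gam1 gam1 := ⟨measurable_neg, map_neg_gam1⟩
  let d : ℝ → ℂ := fun x => (l.map fun q => q.2 * chi q.1 x).sum - (f x : ℂ)
  have hdm : Measurable d := (measurable_charsum l).sub (Complex.measurable_ofReal.comp hf)
  have hdn : Measurable fun x => (1 / 2 : ℝ) * ‖d x‖ := hdm.norm.const_mul _
  have e1 : ∀ᵐ x ∂gam1, ‖trig (l.map fun q => (q.1, q.2.re)) x - f x‖
      ≤ (1 / 2 : ℝ) * ‖d x‖ + (1 / 2) * ‖d (-x)‖ :=
    Eventually.of_forall fun x => trig_error f heven l x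
  refine (eLpNorm_mono_ae_real e1).trans ?_
  have e2 : eLpNorm (fun x => (1 / 2 : ℝ) * ‖d x‖ + (1 / 2) * ‖d (-x)‖) 2 gam1
      ≤ eLpNorm (fun x => (1 / 2 : ℝ) * ‖d x‖) 2 gam1
        + eLpNorm (fun x => (1 / 2 : ℝ) * ‖d (-x)‖) 2 gam1 :=
    eLpNorm_add_le hdn.aestronglyMeasurable (hdn.comp measurable_neg).aestronglyMeasurable
      (by norm_num)
  refine e2.trans ?_
  have e4 : eLpNorm (fun x => (1 / 2 : ℝ) * ‖d (-x)‖) 2 gam1
      = eLpNorm (fun x => (1 / 2 : ℝ) * ‖d x‖) 2 gam1 :=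
    eLpNorm_comp_measurePreserving (g := fun x => (1 / 2 : ℝ) * ‖d x‖)
      hdn.aestronglyMeasurable hmp
  rw [e4, eLpNorm_half, ← add_mul, ← ENNReal.ofReal_add (by norm_num) (by norm_num)]
  norm_num
  exact le_rfl

lemma trig_tendstoInMeasure (f : ℝ → ℝ) (hf : Measurable f) (heven : ∀ x, f (-x) = f x)
    (hfm : MemLp (fun x => (f x : ℂ)) 2 gam1) :
    ∃ L : ℕ → List (ℝ × ℝ), TendstoInMeasure gam1 (fun n => trig (L n)) atTop f := by
  obtain ⟨L, hL⟩ := exists_char_seq (hfm.toLp _)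
  have hL' : Tendsto (fun n => eLpNorm
      (fun x => ((L n).map fun q => q.2 * chi q.1 x).sum - (f x : ℂ)) 2 gam1) atTop (𝓝 0) := by
    refine hL.congr fun n => eLpNorm_congr_ae ?_
    filter_upwards [MemLp.coeFn_toLp hfm] with x hx
    rw [hx]
  have hqlim : Tendsto (fun n => eLpNorm
      (trig ((L n).map fun q => (q.1, q.2.re)) - f) 2 gam1) atTop (𝓝 0) :=
    tendsto_of_tendsto_of_tendsto_of_le_of_le tendsto_const_nhds hL' (fun _ => bot_le)
      fun n => trig_error_eLpNorm f hf heven (L n)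
  refine ⟨fun n => (L n).map fun q => (q.1, q.2.re), ?_⟩
  exact tendstoInMeasure_of_tendsto_eLpNorm (by norm_num : (2 : ℝ≥0∞) ≠ 0)
    (fun n => (continuous_trig ((L n).map fun q => (q.1, q.2.re))).aestronglyMeasurable)
    hf.aestronglyMeasurable hqlim

/-- even bounded measurable functions are a.e. limits of cosine polynomials -/
theorem exists_trig_tendsto (f : ℝ → ℝ) (hf : Measurable f) (C : ℝ) (hC : ∀ x, |f x| ≤ C)
    (heven : ∀ x, f (-x) = f x) :
    ∃ l : ℕ → List (ℝ × ℝ), ∀ᵐ x ∂gam1, Tendsto (fun n => trig (l n) x) atTop (𝓝 (f x)) := by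
  have hfm : MemLp (fun x => (f x : ℂ)) 2 gam1 := by
    refine MemLp.of_bound (C := C) (Complex.measurable_ofReal.comp hf).aestronglyMeasurable
      (Eventually.of_forall fun x => ?_)
    rw [Complex.norm_real, Real.norm_eq_abs]
    exact hC x
  obtain ⟨L, hL⟩ := trig_tendstoInMeasure f hf heven hfm
  obtain ⟨ns, _, hns⟩ := hL.exists_seq_tendsto_ae
  exact ⟨fun n => L (ns n), hns⟩

end Crest.Agent.R339.Ant
end
end

-- ▼ part R339/Ant575C
section

/-!
R339, block ANT (helper575), part C: the labelled model on `SL K₀`, and the path-gate property of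
`exp (-i τ β X 1_A)` for even Borel sets `A`.
-/

set_option autoImplicit false
set_option linter.unusedSectionVars false

noncomputable section

open scoped ComplexConjugate InnerProductSpace Topology
open Filter Set MeasureTheory ProbabilityTheory

namespace Crest.Agent.R339.Ant

open Crest.Agent.R339.LF Crest.Agent.R339.Site Crest.MathPhysics.SpinGlass

/-! ### scalar matrices -/

lemma mixm_mul (β β' : ℝ) : mixm β * mixm β' = mixm (β + β') := by
  have h1 : ((Real.cos (β + β') : ℝ) : ℂ) = (Real.cos β : ℂ) * (Real.cos β' : ℂ) -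
    (Real.sin β : ℂ) * (Real.sin β' : ℂ) := by rw [Real.cos_add]; push_cast; ring
  have h2 : ((Real.sin (β + β') : ℝ) : ℂ) = (Real.sin β : ℂ) * (Real.cos β' : ℂ) +
    (Real.cos β : ℂ) * (Real.sin β' : ℂ) := by rw [Real.sin_add]; push_cast; ring
  ext b b'
  rw [Matrix.mul_apply, Fintype.sum_bool]
  cases b <;> cases b' <;>
    simp [mixm, -Complex.ofReal_cos, -Complex.ofReal_sin, h1, h2]
  · linear_combination ((Real.sin β : ℂ) * (Real.sin β' : ℂ)) * Complex.I_sq
  · ring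
  · ring
  · linear_combination ((Real.sin β : ℂ) * (Real.sin β' : ℂ)) * Complex.I_sq

lemma mixm_zero : mixm 0 = 1 := by
  ext b b'
  cases b <;> cases b' <;> simp [mixm]

lemma star_mixm (β : ℝ) : star (mixm β) = mixm (-β) := by
  ext b b'
  rw [Matrix.star_apply]
  cases b <;> cases b' <;> simp [mixm, -Complex.ofReal_cos, -Complex.ofReal_sin]

/-- the matrix of `exp (i a x Z)` -/
def lamm (a x : ℝ) : Matrix Bool Bool ℂ := Matrix.diagonal fun b => chi (a * spinSign b) x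

lemma lamm_mul_neg (a x : ℝ) : lamm a x * lamm (-a) x = 1 := by
  rw [lamm, lamm, Matrix.diagonal_mul_diagonal, ← Matrix.diagonal_one]
  congr 1
  funext b
  rw [← chi_add]
  have : a * spinSign b + -a * spinSign b = 0 := by ring
  rw [this]
  simp [chi]

lemma star_lamm (a x : ℝ) : star (lamm a x) = lamm (-a) x := by
  rw [lamm, Matrix.star_eq_conjTranspose, Matrix.diagonal_conjTranspose, lamm]
  congr 1
  funext b
  show (starRingEnd ℂ) (chi (a * spinSign b) x) = _
  rw [conj_chi]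
  congr 1
  ring

lemma BMM_mixm {f : ℝ → ℝ} (hf : Measurable f) : BMM fun x => mixm (f x) := by
  intro b b'
  have h : (fun x => mixm (f x) b b') = fun x => if b = b' then ((Real.cos (f x) : ℝ) : ℂ)
      else -(Complex.I * ((Real.sin (f x) : ℝ) : ℂ)) := rfl
  rw [h]
  split_ifs with hb
  · refine ⟨Complex.measurable_ofReal.comp (Real.measurable_cos.comp hf), 1, fun x => ?_⟩
    rw [Complex.norm_real]
    exact Real.abs_cos_le_one _
  · refine ⟨((Complex.measurable_ofReal.comp (Real.measurable_sin.comp hf)).const_mul _).neg, 1,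
      fun x => ?_⟩
    rw [norm_neg, norm_mul, Complex.norm_I, one_mul, Complex.norm_real]
    exact Real.abs_sin_le_one _

lemma BMM_lamm (a : ℝ) : BMM (lamm a) := by
  intro b b'
  by_cases h : b = b'
  · subst h
    have : (fun x => lamm a x b b) = chi (a * spinSign b) := by
      funext x
      simp [lamm]
    rw [this]
    exact BM.chi _
  · have : (fun x => lamm a x b b') = fun _ => 0 := by
      funext x
      simp [lamm, Matrix.diagonal_apply_ne _ h]
    rw [this]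
    exact BM.const 0

section model

variable {E : Type*} [NormedAddCommGroup E] [InnerProductSpace ℂ E] [CompleteSpace E]

/-- `exp (-i f(x) X)` -/
def rxU (f : ℝ → ℝ) (hf : Measurable f) : US (C2 (Lp E 2 gam1)) :=
  gU (fun x => mixm (f x)) (BMM_mixm hf)
    (fun x => by rw [star_mixm, mixm_mul, neg_add_cancel, mixm_zero])
    (fun x => by rw [star_mixm, mixm_mul, add_neg_cancel, mixm_zero])

/-- `exp (i a x Z)` -/
def lamU (a : ℝ) : US (C2 (Lp E 2 gam1)) :=
  gU (lamm a) (BMM_lamm a)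
    (fun x => by rw [star_lamm]; have := lamm_mul_neg (-a) x; rwa [neg_neg] at this)
    (fun x => by rw [star_lamm, lamm_mul_neg])

lemma coe_rxU (f : ℝ → ℝ) (hf : Measurable f) :
    ((rxU f hf : US (C2 (Lp E 2 gam1))) : C2 (Lp E 2 gam1) →L[ℂ] C2 (Lp E 2 gam1))
      = gS (fun x => mixm (f x)) := rfl


lemma rxU_mul (f g : ℝ → ℝ) (hf : Measurable f) (hg : Measurable g) :
    (rxU f hf : US (C2 (Lp E 2 gam1))) * rxU g hg = rxU (fun x => f x + g x) (hf.add hg) := by
  apply Subtype.ext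
  show gS _ * gS _ = gS _
  rw [← gS_mul (BMM_mixm hf) (BMM_mixm hg)]
  simp_rw [mixm_mul]

lemma lamU_neg (a : ℝ) : (lamU (-a) : US (C2 (Lp E 2 gam1))) * lamU a = 1 := by
  apply Subtype.ext
  show gS _ * gS _ = 1
  rw [← gS_mul (BMM_lamm _) (BMM_lamm _)]
  have : ∀ x, lamm (-a) x * lamm a x = 1 := fun x => by
    have := lamm_mul_neg (-a) x
    rwa [neg_neg] at this
  simp_rw [this]
  exact gS_one

/-! ### norm bounds -/

lemma norm_mF_apply_le {c k : ℝ → ℂ} (hc : BM c) (hk : BM k) (h : ∀ x, ‖c x‖ ≤ ‖k x‖)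
    (f : Lp E 2 gam1) : ‖mF c f‖ ≤ ‖mF k f‖ := by
  refine Lp.norm_le_norm_of_ae_le ?_
  filter_upwards [coeFn_mF hc f, coeFn_mF hk f] with x h1 h2
  rw [h1, h2, norm_smul, norm_smul]
  exact mul_le_mul_of_nonneg_right (h x) (norm_nonneg _)

lemma norm_mF_apply_le_const {c : ℝ → ℂ} (hc : BM c) {C : ℝ} (h0 : 0 ≤ C) (h : ∀ x, ‖c x‖ ≤ C)
    (f : Lp E 2 gam1) : ‖mF c f‖ ≤ C * ‖f‖ := by
  have h1 := norm_mF_apply_le hc (BM.const (C : ℂ)) (fun x => by
    rw [Complex.norm_real, Real.norm_of_nonneg h0]; exact h x) f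
  rw [mF_const] at h1
  refine h1.trans ?_
  rw [smul_apply, one_apply_eq_self, norm_smul, Complex.norm_real, Real.norm_of_nonneg h0]

lemma norm_C2_le (v : C2 (Lp E 2 gam1)) : ‖v‖ ≤ ‖v true‖ + ‖v false‖ := by
  rw [PiLp.norm_eq_of_L2, Fintype.sum_bool]
  rw [Real.sqrt_le_left (by positivity)]
  nlinarith [norm_nonneg (v true), norm_nonneg (v false)]

lemma norm_apply_le_C2 (v : C2 (Lp E 2 gam1)) (b : Bool) : ‖v b‖ ≤ ‖v‖ := PiLp.norm_apply_le v b

/-- entrywise bound -/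
lemma norm_gS_apply_le {g : ℝ → Matrix Bool Bool ℂ} (hg : BMM g) {C : ℝ} (h0 : 0 ≤ C)
    (h : ∀ x b b', ‖g x b b'‖ ≤ C) (v : C2 (Lp E 2 gam1)) : ‖gS g v‖ ≤ 4 * C * ‖v‖ := by
  refine (norm_C2_le _).trans ?_
  have h1 : ∀ b, ‖(gS g v) b‖ ≤ 2 * C * ‖v‖ := by
    intro b
    rw [gS_apply, Fintype.sum_bool]
    refine (norm_add_le _ _).trans ?_
    have h2 := norm_mF_apply_le_const (hg b true) h0 (fun x => h x b true) (v true)
    have h3 := norm_mF_apply_le_const (hg b false) h0 (fun x => h x b false) (v false)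
    have h4 := mul_le_mul_of_nonneg_left (norm_apply_le_C2 v true) h0
    have h5 := mul_le_mul_of_nonneg_left (norm_apply_le_C2 v false) h0
    linarith
  have := h1 true
  have := h1 false
  linarith

lemma norm_gS_le {g : ℝ → Matrix Bool Bool ℂ} (hg : BMM g) {C : ℝ} (h0 : 0 ≤ C)
    (h : ∀ x b b', ‖g x b b'‖ ≤ C) :
    ‖(gS g : C2 (Lp E 2 gam1) →L[ℂ] C2 (Lp E 2 gam1))‖ ≤ 4 * C :=
  ContinuousLinearMap.opNorm_le_bound _ (by positivity) fun v => norm_gS_apply_le hg h0 h v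

lemma bmm_sub {g h : ℝ → Matrix Bool Bool ℂ} (hg : BMM g) (hh : BMM h) :
    BMM (fun x => g x - h x) := by
  intro b b'
  exact (hg b b').sub (hh b b')

lemma bmm_add {g h : ℝ → Matrix Bool Bool ℂ} (hg : BMM g) (hh : BMM h) :
    BMM (fun x => g x + h x) := by
  intro b b'
  exact (hg b b').add (hh b b')

lemma bmm_smul {g : ℝ → Matrix Bool Bool ℂ} (hg : BMM g) {c : ℝ → ℂ} (hc : BM c) :
    BMM (fun x => c x • g x) := by
  intro b b'
  exact hc.mul (hg b b')

lemma gS_sub {g h : ℝ → Matrix Bool Bool ℂ} (hg : BMM g) (hh : BMM h) :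
    (gS (fun x => g x - h x) : C2 (Lp E 2 gam1) →L[ℂ] C2 (Lp E 2 gam1)) = gS g - gS h := by
  refine ContinuousLinearMap.ext fun v => ?_
  ext b : 1
  rw [sub_apply, PiLp.sub_apply, gS_apply, gS_apply, gS_apply, ← Finset.sum_sub_distrib]
  refine Finset.sum_congr rfl fun b' _ => ?_
  have : (mF (fun x => (g x - h x) b b') : Lp E 2 gam1 →L[ℂ] Lp E 2 gam1)
      = mF (fun x => g x b b') - mF (fun x => h x b b') := mF_sub (hg b b') (hh b b')
  rw [this]
  rfl

lemma gS_add {g h : ℝ → Matrix Bool Bool ℂ} (hg : BMM g) (hh : BMM h) :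
    (gS (fun x => g x + h x) : C2 (Lp E 2 gam1) →L[ℂ] C2 (Lp E 2 gam1)) = gS g + gS h := by
  refine ContinuousLinearMap.ext fun v => ?_
  ext b : 1
  rw [add_apply, PiLp.add_apply, gS_apply, gS_apply, gS_apply, ← Finset.sum_add_distrib]
  refine Finset.sum_congr rfl fun b' _ => ?_
  have : (mF (fun x => (g x + h x) b b') : Lp E 2 gam1 →L[ℂ] Lp E 2 gam1)
      = mF (fun x => g x b b') + mF (fun x => h x b b') := mF_add (hg b b') (hh b b')
  rw [this]
  rfl

lemma gS_const_smul (z : ℂ) {g : ℝ → Matrix Bool Bool ℂ} (hg : BMM g) :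
    (gS (fun x => z • g x) : C2 (Lp E 2 gam1) →L[ℂ] C2 (Lp E 2 gam1)) = z • gS g := by
  refine ContinuousLinearMap.ext fun v => ?_
  ext b : 1
  rw [smul_apply, PiLp.smul_apply, gS_apply, gS_apply, Finset.smul_sum]
  refine Finset.sum_congr rfl fun b' _ => ?_
  have : (mF (fun x => (z • g x) b b') : Lp E 2 gam1 →L[ℂ] Lp E 2 gam1)
      = z • mF (fun x => g x b b') := mF_const_mul z (hg b b')
  rw [this]
  rfl

/-! ### the generator of `τ ↦ exp (-i τ f(x) X)` -/

lemma BMM_fX {f : ℝ → ℝ} (hf : Measurable f) {C : ℝ} (hC : ∀ x, |f x| ≤ C) :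
    BMM fun x => (f x : ℂ) • xm := by
  refine bmm_smul (BMM.const xm) ⟨Complex.measurable_ofReal.comp hf, C, fun x => ?_⟩
  rw [Complex.norm_real]
  exact hC x

lemma abs_cos_sub_one_le (t : ℝ) : |Real.cos t - 1| ≤ t ^ 2 := by
  have h1 := Real.one_sub_sq_div_two_le_cos (x := t)
  have h2 := Real.cos_le_one t
  rw [abs_le]
  constructor <;> nlinarith [sq_nonneg t]

lemma abs_sin_sub_le (t : ℝ) (ht : |t| ≤ 1) : |Real.sin t - t| ≤ t ^ 2 := by
  have h := Real.sin_bound ht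
  have h2 : |Real.sin t - t| ≤ |Real.sin t - (t - t ^ 3 / 6)| + |t ^ 3 / 6| := by
    have : Real.sin t - t = (Real.sin t - (t - t ^ 3 / 6)) + (-(t ^ 3 / 6)) := by ring
    rw [this]
    refine (abs_add_le _ _).trans ?_
    rw [abs_neg]
  have h3 : |t ^ 3 / 6| = |t| ^ 3 / 6 := by
    rw [abs_div, abs_pow]; norm_num
  have h4 : |t| ^ 3 ≤ |t| ^ 2 := pow_le_pow_of_le_one (abs_nonneg _) ht (by norm_num)
  have h5 : |t| ^ 4 ≤ |t| ^ 2 := pow_le_pow_of_le_one (abs_nonneg _) ht (by norm_num)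
  have h6 : |t| ^ 2 = t ^ 2 := sq_abs t
  have h7 : 0 ≤ t ^ 2 := sq_nonneg t
  rw [h3] at h2
  nlinarith

/-- quadratic bound for `τ ↦ exp (-i τ f(x) X)` at `0` -/
lemma rx_quad {f : ℝ → ℝ} (hf : Measurable f) {C : ℝ} (hC : ∀ x, |f x| ≤ C) (h : ℝ)
    (hh : |h| * C ≤ 1) :
    ‖(gS (fun x => mixm (h * f x)) : C2 (Lp E 2 gam1) →L[ℂ] C2 (Lp E 2 gam1)) - 1
      + (Complex.I * (h : ℂ)) • gS (fun x => (f x : ℂ) • xm)‖ ≤ 4 * C ^ 2 * h ^ 2 := by
  have hfm : Measurable fun x => h * f x := hf.const_mul h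
  have hC0 : 0 ≤ C := (abs_nonneg _).trans (hC 0)
  have hbm : BMM (fun x => mixm (h * f x) - 1 + (Complex.I * (h : ℂ)) • ((f x : ℂ) • xm)) :=
    bmm_add (bmm_sub (BMM_mixm hfm) (BMM.const 1))
        (bmm_smul (BMM_fX hf hC) (BM.const (Complex.I * (h : ℂ))))
  have e1 : (gS (fun x => mixm (h * f x)) : C2 (Lp E 2 gam1) →L[ℂ] C2 (Lp E 2 gam1)) - 1
      + (Complex.I * (h : ℂ)) • gS (fun x => (f x : ℂ) • xm)
      = gS (fun x => mixm (h * f x) - 1 + (Complex.I * (h : ℂ)) • ((f x : ℂ) • xm)) := by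
    have e2 : (gS (fun x => mixm (h * f x) - 1 + (Complex.I * (h : ℂ)) • ((f x : ℂ) • xm)) :
        C2 (Lp E 2 gam1) →L[ℂ] C2 (Lp E 2 gam1))
        = gS (fun x => mixm (h * f x) - 1)
          + gS (fun x => (Complex.I * (h : ℂ)) • ((f x : ℂ) • xm)) :=
      gS_add (bmm_sub (BMM_mixm hfm) (BMM.const 1))
        (bmm_smul (BMM_fX hf hC) (BM.const (Complex.I * (h : ℂ))))
    have e3 : (gS (fun x => mixm (h * f x) - 1) : C2 (Lp E 2 gam1) →L[ℂ] C2 (Lp E 2 gam1))
        = gS (fun x => mixm (h * f x)) - gS (fun _ => 1) :=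
      gS_sub (BMM_mixm hfm) (BMM.const 1)
    rw [e2, e3, gS_const_smul _ (BMM_fX hf hC), gS_one]
  rw [e1]
  refine (norm_gS_le hbm (C := C ^ 2 * h ^ 2) (by positivity) (fun x b b' => ?_)).trans ?_
  · have hsq : (h * f x) ^ 2 ≤ C ^ 2 * h ^ 2 := by
      have h1 : f x ^ 2 ≤ C ^ 2 := sq_le_sq' (by linarith [(abs_le.1 (hC x)).1]) (abs_le.1 (hC x)).2
      nlinarith [sq_nonneg h]
    have hle : |h * f x| ≤ 1 := by
      rw [abs_mul]
      have := mul_le_mul_of_nonneg_left (hC x) (abs_nonneg h)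
      linarith
    have hcos := (abs_cos_sub_one_le (h * f x)).trans hsq
    have hsin := (abs_sin_sub_le (h * f x) hle).trans hsq
    by_cases hb : b = b'
    · subst hb
      have : (mixm (h * f x) - 1 + (Complex.I * (h : ℂ)) • ((f x : ℂ) • xm)) b b
          = (((Real.cos (h * f x) - 1 : ℝ)) : ℂ) := by
        simp [mixm, xm]
      rw [this, Complex.norm_real]
      exact hcos
    · have : (mixm (h * f x) - 1 + (Complex.I * (h : ℂ)) • ((f x : ℂ) • xm)) b b'
          = -(Complex.I * ((Real.sin (h * f x) - h * f x : ℝ) : ℂ)) := by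
        simp [mixm, xm, hb, Matrix.one_apply_ne hb]
        ring
      rw [this, norm_neg, norm_mul, Complex.norm_I, one_mul, Complex.norm_real]
      exact hsin
  · exact le_of_eq (by ring)

/-! ### the Trotter generator of a cosine polynomial -/

/-- the list of conjugated mixers generating `trig l (x) X` -/
def sym (l : List (ℝ × ℝ)) : List (ℝ × ℝ) :=
  l.flatMap fun p => [(p.1 / 2, p.2 / 2), (-(p.1 / 2), p.2 / 2)]

lemma conj_xm (a x : ℝ) : lamm (-a) x * xm * lamm a x + lamm (-(-a)) x * xm * lamm (-a) x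
    = ((2 * Real.cos (2 * a * x) : ℝ) : ℂ) • xm := by
  have h1 : ∀ t : ℝ, chi t x = Complex.exp ((t * x : ℝ) * Complex.I) := fun t => rfl
  ext b b'
  cases b <;> cases b' <;>
    simp [lamm, xm, Matrix.mul_apply, Matrix.diagonal, spinSign]
  all_goals
    simp only [h1, ← Complex.exp_add]
    rw [Complex.cos]
  all_goals
    push_cast
    ring_nf

lemma norm_XS_apply (v : C2 (Lp E 2 gam1)) : ‖(spG xm : C2 (Lp E 2 gam1) →L[ℂ] _) v‖ ≤ ‖v‖ := by
  have h1 := PiLp.norm_sq_eq_of_L2 (fun _ : Bool => Lp E 2 gam1)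
    ((spG xm : C2 (Lp E 2 gam1) →L[ℂ] _) v)
  have h2 := PiLp.norm_sq_eq_of_L2 (fun _ : Bool => Lp E 2 gam1) v
  have h3 : ∀ b : Bool, ((spG xm : C2 (Lp E 2 gam1) →L[ℂ] _) v) b = v (!b) := by
    intro b
    rw [spG_apply, Fintype.sum_bool]
    cases b <;> simp [xm]
  rw [Fintype.sum_bool, h3, h3] at h1
  rw [Fintype.sum_bool] at h2
  have h4 : ‖(spG xm : C2 (Lp E 2 gam1) →L[ℂ] _) v‖ ^ 2 = ‖v‖ ^ 2 := by
    rw [h1, h2]; simp [add_comm]
  exact ((sq_eq_sq₀ (norm_nonneg _) (norm_nonneg _)).mp h4).le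

/-! ### decomposition of label-controlled matrices -/

lemma gS_smul_const {c : ℝ → ℂ} (hc : BM c) (m : Matrix Bool Bool ℂ) :
    (gS (fun x => c x • m) : C2 (Lp E 2 gam1) →L[ℂ] C2 (Lp E 2 gam1)) = dg (mF c) * spG m := by
  refine ContinuousLinearMap.ext fun v => ?_
  ext b : 1
  rw [gS_apply, mul_apply_eq_comp, dg_apply, spG_apply, map_sum]
  refine Finset.sum_congr rfl fun b' _ => ?_
  have : (mF (fun x => (c x • m) b b') : Lp E 2 gam1 →L[ℂ] Lp E 2 gam1) = m b b' • mF c := by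
    rw [← mF_const_mul (m b b') hc]
    congr 1
    funext x
    simp [mul_comm]
  rw [this, map_smul]
  rfl

lemma gS_scalar {c : ℝ → ℂ} (hc : BM c) :
    (gS (fun x => c x • (1 : Matrix Bool Bool ℂ)) : C2 (Lp E 2 gam1) →L[ℂ] C2 (Lp E 2 gam1))
      = dg (mF c) := by
  rw [gS_smul_const hc, spG_one, mul_one]

lemma mixm_eq (β : ℝ) : mixm β = ((Real.cos β : ℝ) : ℂ) • (1 : Matrix Bool Bool ℂ)
    - (Complex.I * ((Real.sin β : ℝ) : ℂ)) • xm := by
  ext b b'
  cases b <;> cases b' <;> simp [mixm, xm, -Complex.ofReal_cos, -Complex.ofReal_sin]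

lemma spG_sub (m n : Matrix Bool Bool ℂ) :
    (spG (m - n) : C2 (Lp E 2 gam1) →L[ℂ] C2 (Lp E 2 gam1)) = spG m - spG n := by
  refine ContinuousLinearMap.ext fun v => ?_
  ext b : 1
  rw [sub_apply, PiLp.sub_apply, spG_apply, spG_apply, spG_apply, ← Finset.sum_sub_distrib]
  refine Finset.sum_congr rfl fun b' _ => ?_
  rw [Matrix.sub_apply, sub_smul]

lemma spG_mixm (β : ℝ) :
    (spG (mixm β) : C2 (Lp E 2 gam1) →L[ℂ] C2 (Lp E 2 gam1))
      = ((Real.cos β : ℝ) : ℂ) • 1 - (Complex.I * ((Real.sin β : ℝ) : ℂ)) • spG xm := by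
  rw [mixm_eq, spG_sub, spG_smul, spG_smul, spG_one]

/-- uniform-in-`τ` domination -/
lemma norm_rx_sub_le {f q : ℝ → ℝ} (hf : Measurable f) (hq : Measurable q) {τ : ℝ}
    (hτ : |τ| ≤ 1) (v : C2 (Lp E 2 gam1)) :
    ‖(gS (fun x => mixm (τ * q x)) : C2 (Lp E 2 gam1) →L[ℂ] C2 (Lp E 2 gam1)) v
      - (gS (fun x => mixm (τ * f x)) : C2 (Lp E 2 gam1) →L[ℂ] C2 (Lp E 2 gam1)) v‖
    ≤ 2 * (‖mF (fun x => ((min 2 |q x - f x| : ℝ) : ℂ)) (v true)‖
      + ‖mF (fun x => ((min 2 |q x - f x| : ℝ) : ℂ)) (v false)‖) := by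
  have hk : BM (fun x => ((min 2 |q x - f x| : ℝ) : ℂ)) := by
    refine ⟨Complex.measurable_ofReal.comp (measurable_const.min (hq.sub hf).abs), 2, fun x => ?_⟩
    rw [Complex.norm_real, Real.norm_of_nonneg (le_min (by norm_num) (abs_nonneg _))]
    exact min_le_left _ _
  have hb1 := BMM_mixm (hq.const_mul τ)
  have hb2 := BMM_mixm (hf.const_mul τ)
  have hlip : ∀ x, |τ * q x - τ * f x| ≤ |q x - f x| := fun x => by
    rw [← mul_sub, abs_mul]
    exact mul_le_of_le_one_left (abs_nonneg _) hτ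
  have hent : ∀ b b' x, ‖(mixm (τ * q x) - mixm (τ * f x)) b b'‖
      ≤ ‖((min 2 |q x - f x| : ℝ) : ℂ)‖ := by
    intro b b' x
    rw [Complex.norm_real, Real.norm_of_nonneg (le_min (by norm_num) (abs_nonneg _))]
    by_cases hb : b = b'
    · subst hb
      have : (mixm (τ * q x) - mixm (τ * f x)) b b
          = ((Real.cos (τ * q x) - Real.cos (τ * f x) : ℝ) : ℂ) := by simp [mixm]
      rw [this, Complex.norm_real, Real.norm_eq_abs]
      refine le_min ?_ ((Real.abs_cos_sub_cos_le _ _).trans (hlip x))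
      have h1 := abs_sub (Real.cos (τ * q x)) (Real.cos (τ * f x))
      have h2 := Real.abs_cos_le_one (τ * q x)
      have h3 := Real.abs_cos_le_one (τ * f x)
      linarith
    · have : (mixm (τ * q x) - mixm (τ * f x)) b b'
          = -(Complex.I * ((Real.sin (τ * q x) - Real.sin (τ * f x) : ℝ) : ℂ)) := by
        simp [mixm, hb]
        ring
      rw [this, norm_neg, norm_mul, Complex.norm_I, one_mul, Complex.norm_real, Real.norm_eq_abs]
      refine le_min ?_ ((Real.abs_sin_sub_sin_le _ _).trans (hlip x))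
      have h1 := abs_sub (Real.sin (τ * q x)) (Real.sin (τ * f x))
      have h2 := Real.abs_sin_le_one (τ * q x)
      have h3 := Real.abs_sin_le_one (τ * f x)
      linarith
  rw [← sub_apply, ← gS_sub hb1 hb2]
  refine (norm_C2_le _).trans ?_
  have h1 : ∀ b, ‖((gS fun x => mixm (τ * q x) - mixm (τ * f x) :
      C2 (Lp E 2 gam1) →L[ℂ] C2 (Lp E 2 gam1)) v) b‖
      ≤ ‖mF (fun x => ((min 2 |q x - f x| : ℝ) : ℂ)) (v true)‖
        + ‖mF (fun x => ((min 2 |q x - f x| : ℝ) : ℂ)) (v false)‖ := by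
    intro b
    rw [gS_apply, Fintype.sum_bool]
    refine (norm_add_le _ _).trans (add_le_add ?_ ?_)
    · exact norm_mF_apply_le ((bmm_sub hb1 hb2) b true) hk (fun x => hent b true x) _
    · exact norm_mF_apply_le ((bmm_sub hb1 hb2) b false) hk (fun x => hent b false x) _
  have := h1 true
  have := h1 false
  linarith

lemma tendstoUniformlyOn_rx {f : ℝ → ℝ} (hf : Measurable f) {q : ℕ → ℝ → ℝ}
    (hq : ∀ n, Measurable (q n)) (hlim : ∀ᵐ x ∂gam1, Tendsto (fun n => q n x) atTop (𝓝 (f x)))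
    (v : C2 (Lp E 2 gam1)) :
    TendstoUniformlyOn
      (fun n τ => (gS (fun x => mixm (τ * q n x)) : C2 (Lp E 2 gam1) →L[ℂ] C2 (Lp E 2 gam1)) v)
      (fun τ => (gS (fun x => mixm (τ * f x)) : C2 (Lp E 2 gam1) →L[ℂ] C2 (Lp E 2 gam1)) v)
      atTop (Icc (0 : ℝ) 1) := by
  have hk : ∀ n, BM (fun x => ((min 2 |q n x - f x| : ℝ) : ℂ)) := by
    intro n
    refine ⟨Complex.measurable_ofReal.comp (measurable_const.min ((hq n).sub hf).abs), 2,
      fun x => ?_⟩
    rw [Complex.norm_real, Real.norm_of_nonneg (le_min (by norm_num) (abs_nonneg _))]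
    exact min_le_left _ _
  have hz : ∀ w : Lp E 2 gam1,
      Tendsto (fun n => ‖mF (fun x => ((min 2 |q n x - f x| : ℝ) : ℂ)) w‖) atTop (𝓝 0) := by
    intro w
    have h1 : Tendsto (fun n => mF (fun x => ((min 2 |q n x - f x| : ℝ) : ℂ)) w) atTop
        (𝓝 (mF (fun _ => (0 : ℂ)) w)) := by
      refine tendsto_mF hk (BM.const 0) 2 (fun n x => ?_) ?_ w
      · rw [Complex.norm_real, Real.norm_of_nonneg (le_min (by norm_num) (abs_nonneg _))]
        exact min_le_left _ _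
      · filter_upwards [hlim] with x hx
        have h2 : Tendsto (fun n => |q n x - f x|) atTop (𝓝 0) := by
          have := (hx.sub_const (f x)).abs
          simpa using this
        have h3 : Tendsto (fun n => min 2 |q n x - f x|) atTop (𝓝 (min 2 0)) :=
          (tendsto_const_nhds).min h2
        have h4 : min (2 : ℝ) 0 = 0 := min_eq_right (by norm_num)
        rw [h4] at h3
        exact (Complex.continuous_ofReal.tendsto 0).comp h3
    rw [mF_zero] at h1
    have := h1.norm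
    simpa using this
  have hb : Tendsto (fun n => 2 * (‖mF (fun x => ((min 2 |q n x - f x| : ℝ) : ℂ)) (v true)‖
      + ‖mF (fun x => ((min 2 |q n x - f x| : ℝ) : ℂ)) (v false)‖)) atTop (𝓝 0) := by
    have := ((hz (v true)).add (hz (v false))).const_mul 2
    simpa using this
  rw [Metric.tendstoUniformlyOn_iff]
  intro ε hε
  filter_upwards [hb.eventually (gt_mem_nhds hε)] with n hn τ hτ
  rw [dist_comm, dist_eq_norm]
  refine lt_of_le_of_lt (norm_rx_sub_le hf (hq n) ?_ v) hn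
  rw [abs_of_nonneg hτ.1]
  exact hτ.2

lemma continuous_rx {f : ℝ → ℝ} (hf : Measurable f) (v : C2 (Lp E 2 gam1)) :
    Continuous fun τ : ℝ =>
      (gS (fun x => mixm (τ * f x)) : C2 (Lp E 2 gam1) →L[ℂ] C2 (Lp E 2 gam1)) v := by
  rw [continuous_iff_continuousAt]
  intro τ₀
  refine tendsto_gS (l := 𝓝 τ₀) (fun τ => BMM_mixm (hf.const_mul τ)) (BMM_mixm (hf.const_mul τ₀)) 1
    (fun τ x b b' => ?_) (Eventually.of_forall fun x b b' => ?_) v
  · have h : mixm (τ * f x) b b' = if b = b' then ((Real.cos (τ * f x) : ℝ) : ℂ)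
        else -(Complex.I * ((Real.sin (τ * f x) : ℝ) : ℂ)) := rfl
    rw [h]
    split_ifs
    · rw [Complex.norm_real]
      exact Real.abs_cos_le_one _
    · rw [norm_neg, norm_mul, Complex.norm_I, one_mul, Complex.norm_real]
      exact Real.abs_sin_le_one _
  · have hc : Continuous fun τ : ℝ => mixm (τ * f x) b b' := by
      have h : (fun τ : ℝ => mixm (τ * f x) b b') = fun τ => if b = b' then
          ((Real.cos (τ * f x) : ℝ) : ℂ) else -(Complex.I * ((Real.sin (τ * f x) : ℝ) : ℂ)) := rfl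
      rw [h]
      split_ifs <;> fun_prop
    exact hc.tendsto τ₀

end model

end Crest.Agent.R339.Ant
end
end

-- ▼ part R339/Ant575D
section

/-!
R339, block ANT (helper575), part D: the labelled model `lsI` on `SL K₀` (compatible with an
instance `I` of helper728's `ILSys`), and the path gates `exp (-i τ f(x) X)`, `f` even.
-/

set_option autoImplicit false
set_option linter.unusedSectionVars false

noncomputable section

open scoped ComplexConjugate InnerProductSpace Topology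
open Filter Set MeasureTheory ProbabilityTheory

namespace Crest.Agent.R339.Ant

open Crest.Agent.R339.LF Crest.Agent.R339.Site Crest.MathPhysics.SpinGlass

variable {K0 : Type*} [NormedAddCommGroup K0] [InnerProductSpace ℂ K0]

/-- `I` is an instance of `ILSys` on the labelled site space -/
structure Cp (I : Li.ILSys ℝ (SL K0)) : Prop where
  sg : ∀ m, I.sg m = spG m
  P : ∀ A, I.P A = PS A
  Om : I.Om = OmS
  Cl : ∀ A, I.Cl A ↔ ClE A
  mu : I.μ = gam1

lemma li_zM : Li.zM = zm := by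
  ext b b'
  cases b <;> cases b' <;> simp [Li.zM, Li.dM, zm, spinSign]

lemma li_xM : Li.xM = xm := by
  ext b b'
  cases b <;> cases b' <;> simp [Li.xM, xm]

variable {I : Li.ILSys ℝ (SL K0)}

lemma Cp.Z (h : Cp I) : I.Z = ZS := by
  rw [Li.ILSys.Z, h.sg, li_zM]
  rfl

lemma Cp.X (h : Cp I) : I.X = XS := by
  rw [Li.ILSys.X, h.sg, li_xM]
  rfl

lemma norm_ZS_apply (v : SL K0) : ‖ZS v‖ ≤ ‖v‖ := by
  have h1 := PiLp.norm_sq_eq_of_L2 (fun _ : Bool => LFo K0) (ZS v)
  have h2 := PiLp.norm_sq_eq_of_L2 (fun _ : Bool => LFo K0) v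
  have h3 : ∀ b : Bool, ‖(ZS v) b‖ = ‖v b‖ := by
    intro b
    rw [ZS, spG_apply, Fintype.sum_bool]
    cases b <;> simp [zm, spinSign]
  rw [Fintype.sum_bool, h3, h3, ← Fintype.sum_bool (fun b => ‖v b‖ ^ 2), ← h2] at h1
  exact ((sq_eq_sq₀ (norm_nonneg _) (norm_nonneg _)).mp h1).le

lemma cst_univ_coe (I : Li.ILSys ℝ (SL K0)) (f : SL K0) :
    ((I.cst MeasurableSet.univ f : US (SL K0)) : SL K0 →L[ℂ] SL K0) = I.zW f := by
  show I.cstO Set.univ f = _
  rw [Li.ILSys.cstO, Set.compl_univ, Li.ILSys.P_empty, I.P_univ, zero_add, one_mul]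

lemma zW_Z (I : Li.ILSys ℝ (SL K0)) (f : SL K0) : I.zW f * I.Z = I.Z * I.zW f := by
  have h1 : I.Z * I.Ep = I.Ep * I.Z := by
    rw [Li.ILSys.Z, Li.ILSys.Ep, ← map_mul, ← map_mul, Li.zM, Li.ILSys.dM_mul, Li.ILSys.dM_mul]
    simp
  have h2 : I.Z * I.Em = I.Em * I.Z := by
    rw [Li.ILSys.Z, Li.ILSys.Em, ← map_mul, ← map_mul, Li.zM, Li.ILSys.dM_mul, Li.ILSys.dM_mul]
    simp
  have h3 : ∀ g, I.Z * I.W g = I.W g * I.Z := fun g => (I.sg_W _ _).eq
  rw [Li.ILSys.zW, add_mul, mul_add, mul_assoc, mul_assoc, ← h3, ← h3, ← mul_assoc, ← mul_assoc,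
    ← mul_assoc, ← mul_assoc, h1, h2]

lemma gS_diag_ZS (a : ℝ) : (gS (lamm a) : SL K0 →L[ℂ] SL K0) * ZS = ZS * gS (lamm a) := by
  have h : ∀ x, lamm a x * zm = zm * lamm a x := by
    intro x
    rw [lamm, zm, Matrix.diagonal_mul_diagonal, Matrix.diagonal_mul_diagonal]
    congr 1
    funext b
    ring
  rw [ZS, ← gS_const, ← gS_mul (BMM_lamm a) (BMM.const _), ← gS_mul (BMM.const _) (BMM_lamm a)]
  simp_rw [h]

/-- the labelled model attached to `I` and the vector `ξ` -/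
def lsI (hc : Cp I) (xi : SL K0) : LS (SL K0) where
  X := XS
  Z := ZS
  Om := OmS
  xi := xi
  mix b := rxU (fun _ => b) measurable_const
  lam a := lamU a
  cost g e := I.cst MeasurableSet.univ ((-(g : ℂ)) • e)
  En e := (⟪e, I.one e⟫_ℂ).re
  norm_Om := norm_OmS.le
  norm_Z := norm_ZS_apply
  norm_X := norm_XS_apply
  mix_coe b := by
    show gS (fun _ => mixm b) = _
    rw [gS_const, spG_mixm]
    rfl
  lam_Z a := gS_diag_ZS a
  lam_neg a := lamU_neg a
  cost_Z g e := by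
    rw [cst_univ_coe, ← hc.Z]
    exact zW_Z I _
  cost_cont g v := by
    have h : (fun e => ((I.cst MeasurableSet.univ ((-(g : ℂ)) • e) : US (SL K0)) :
        SL K0 →L[ℂ] SL K0) v)
        = fun e => I.Ep (I.W ((-(g : ℂ)) • e) v) + I.Em (I.W (-((-(g : ℂ)) • e)) v) := by
      funext e
      rw [cst_univ_coe]
      rfl
    rw [h]
    have h1 : Continuous fun e : SL K0 => I.W ((-(g : ℂ)) • e) v :=
      (I.W_cont v).comp (continuous_const_smul _)
    have h2 : Continuous fun e : SL K0 => I.W (-((-(g : ℂ)) • e)) v :=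
      (I.W_cont v).comp (continuous_const_smul _).neg
    exact (I.Ep.continuous.comp h1).add (I.Em.continuous.comp h2)
  En_cont := by
    have h : Continuous fun e : SL K0 => ⟪e, I.one e⟫_ℂ := continuous_id.inner I.one.continuous
    exact Complex.continuous_re.comp h

section pg

variable (hc : Cp I) (xi : SL K0)


lemma conj_gS (a : ℝ) :
    (gS (lamm (-a)) : SL K0 →L[ℂ] SL K0) * XS * gS (lamm a)
      = gS (fun x => lamm (-a) x * xm * lamm a x) := by
  rw [gS_mul (BMM.mul (BMM_lamm (-a)) (BMM.const xm)) (BMM_lamm a),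
    gS_mul (BMM_lamm (-a)) (BMM.const xm), gS_const]
  rfl

lemma BMM_conj (a : ℝ) : BMM (fun x => lamm (-a) x * xm * lamm a x) :=
  BMM.mul (BMM.mul (BMM_lamm (-a)) (BMM.const xm)) (BMM_lamm a)

lemma abs_trig_le (l : List (ℝ × ℝ)) (x : ℝ) : |trig l x| ≤ LS.sz l := by
  induction l with
  | nil => simp [LS.sz]
  | cons p l ih =>
    have h : LS.sz (p :: l) = |p.2| + LS.sz l := by simp [LS.sz]
    rw [trig_cons, h]
    refine (abs_add_le _ _).trans (add_le_add ?_ ih)
    rw [abs_mul]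
    exact mul_le_of_le_one_right (abs_nonneg _) (Real.abs_cos_le_one _)

lemma genL_sym (l : List (ℝ × ℝ)) :
    (lsI hc xi).genL (sym l) = gS (fun x => (trig l x : ℂ) • xm) := by
  induction l with
  | nil =>
    have h : (gS (fun x => (trig [] x : ℂ) • xm) : SL K0 →L[ℂ] SL K0) = 0 := by
      have : (fun x : ℝ => (trig [] x : ℂ) • xm) = fun _ => (0 : Matrix Bool Bool ℂ) := by
        funext x
        simp
      rw [this, gS_const]
      refine ContinuousLinearMap.ext fun v => ?_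
      ext b : 1
      rw [spG_apply]
      simp
    rw [h]
    simp [LS.genL, sym]
  | cons p l ih =>
    have h0 : (lsI hc xi).genL (sym (p :: l))
        = ((p.2 / 2 : ℝ) : ℂ) • ((gS (lamm (-(p.1 / 2))) : SL K0 →L[ℂ] SL K0) * XS
            * gS (lamm (p.1 / 2)))
          + (((p.2 / 2 : ℝ) : ℂ) • ((gS (lamm (-(-(p.1 / 2)))) : SL K0 →L[ℂ] SL K0) * XS
            * gS (lamm (-(p.1 / 2))))
          + (lsI hc xi).genL (sym l)) := rfl
    rw [h0, ih, conj_gS, conj_gS, ← gS_const_smul _ (BMM_conj _), ← gS_const_smul _ (BMM_conj _),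
      ← add_assoc, ← gS_add (bmm_smul (BMM_conj _) (BM.const _)) (bmm_smul (BMM_conj _) (BM.const _)),
      ← gS_add (bmm_add (bmm_smul (BMM_conj _) (BM.const _)) (bmm_smul (BMM_conj _) (BM.const _)))
        (BMM_fX (continuous_trig l).measurable (abs_trig_le l))]
    congr 1
    funext x
    rw [← smul_add, conj_xm, trig_cons, smul_smul, ← Complex.ofReal_mul, ← add_smul,
      ← Complex.ofReal_add]
    congr 3
    have : 2 * (p.1 / 2) * x = p.1 * x := by ring
    rw [this]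
    ring

/-- path gates of cosine polynomials -/
lemma pg_trig (l : List (ℝ × ℝ)) :
    (lsI hc xi).PG (fun τ => rxU (fun x => τ * trig l x)
      ((continuous_trig l).measurable.const_mul τ)) := by
  have hS := LS.sz_nonneg l
  refine (lsI hc xi).pg_of_list' _ (fun s t => ?_) (sym l) (4 * (LS.sz l + 1) ^ 2)
    (1 / (LS.sz l + 1)) (by positivity) (fun τ hτ => ?_)
  · rw [rxU_mul]
    congr 1
    funext x
    ring
  · rw [genL_sym, coe_rxU]
    refine rx_quad (continuous_trig l).measurable (C := LS.sz l + 1)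
      (fun x => (abs_trig_le l x).trans (by linarith)) τ ?_
    rw [le_div_iff₀ (by positivity)] at hτ
    exact hτ

/-- **path gates `exp (-i τ f(x) X)`, `f` even, bounded, measurable** -/
theorem pg_rx (f : ℝ → ℝ) (hf : Measurable f) (C : ℝ) (hC : ∀ x, |f x| ≤ C)
    (heven : ∀ x, f (-x) = f x) :
    (lsI hc xi).PG (fun τ => rxU (fun x => τ * f x) (hf.const_mul τ)) := by
  obtain ⟨l, hl⟩ := exists_trig_tendsto f hf C hC heven
  refine (lsI hc xi).pg_limit (fun n τ => rxU (fun x => τ * trig (l n) x)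
      ((continuous_trig (l n)).measurable.const_mul τ)) _ (fun n => pg_trig hc xi (l n)) ?_ ?_
  · intro v
    exact tendstoUniformlyOn_rx hf (fun n => (continuous_trig (l n)).measurable) hl v
  · intro v
    exact continuous_rx hf v

include hc in
/-- the class rotations of `I` in terms of `rxU` -/
lemma rot_eq {A : Set ℝ} (hA : MeasurableSet A) (β : ℝ) :
    I.rot hA β = rxU (A.indicator fun _ => β) (measurable_const.indicator hA) := by
  apply Subtype.ext
  show I.rotO A β = gS _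
  have h1 : (fun x => mixm (A.indicator (fun _ => β) x))
      = fun x => (Aᶜ.indicator (fun _ => (1 : ℂ)) x) • (1 : Matrix Bool Bool ℂ)
        + (A.indicator (fun _ => (1 : ℂ)) x) • mixm β := by
    funext x
    by_cases hx : x ∈ A
    · simp [hx]
    · simp [hx, mixm_zero]
  have b1 : BMM (fun x => (Aᶜ.indicator (fun _ => (1 : ℂ)) x) • (1 : Matrix Bool Bool ℂ)) :=
    bmm_smul (BMM.const 1) (BM.indicator hA.compl)
  have b2 : BMM (fun x => (A.indicator (fun _ => (1 : ℂ)) x) • mixm β) :=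
    bmm_smul (BMM.const _) (BM.indicator hA)
  rw [h1, gS_add b1 b2, gS_smul_const (BM.indicator hA.compl), gS_smul_const (BM.indicator hA),
    spG_one, mul_one, spG_mixm, Li.ILSys.rotO, hc.P, hc.P, hc.X]
  rfl

/-- **path gates `exp (-i τ β X P_A)`, `A` an even Borel set** -/
theorem pg_rot {A : Set ℝ} (hA : I.Cl A) (β : ℝ) :
    (lsI hc xi).PG (fun τ => I.rot (I.Cl_meas A hA) (τ * β)) := by
  have hE : ClE A := (hc.Cl A).1 hA
  have h := pg_rx hc xi (A.indicator fun _ => β) (measurable_const.indicator hE.1) |β|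
    (fun x => by
      by_cases hx : x ∈ A
      · simp [hx]
      · simp [hx])
    (fun x => by
      by_cases hx : x ∈ A
      · have : -x ∈ A := (hE.2 x).2 hx
        simp [hx, this]
      · have : -x ∉ A := fun h => hx ((hE.2 x).1 h)
        simp [hx, this])
  have h2 : (fun τ : ℝ => I.rot (I.Cl_meas A hA) (τ * β))
      = fun τ : ℝ => rxU (fun x => τ * A.indicator (fun _ => β) x)
        ((measurable_const.indicator hE.1).const_mul τ) := by
    funext τ
    rw [rot_eq hc]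
    congr 1
    funext x
    by_cases hx : x ∈ A
    · simp [hx]
    · simp [hx]
  rw [h2]
  exact h

end pg

end Crest.Agent.R339.Ant
end
end

-- ▼ part R339/LabAnt286
section

/-!
R339: helper575's labelled model on `IL io`, overlaps with label-controlled spin matrices, parity.
-/

set_option autoImplicit false
set_option linter.unusedSectionVars false

noncomputable section

namespace Crest.Agent.R339.LF

open MeasureTheory ProbabilityTheory Filter Topology
open scoped InnerProductSpace ENNReal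
open Crest.Agent.R339.Site Crest.Agent.R339.Lab Crest.MathPhysics.SpinGlass

section ant
variable {K0 K : Type*} [NormedAddCommGroup K0] [InnerProductSpace ℂ K0]
  [NormedAddCommGroup K] [InnerProductSpace ℂ K]

lemma cp_IL (io : SL K0 ≃ₗᵢ[ℂ] K0) : Ant.Cp (IL io) where
  sg _ := rfl
  P _ := rfl
  Om := rfl
  Cl _ := Iff.rfl
  mu := rfl

/-- helper575's model on `IL io` -/
abbrev LM (io : SL K0 ≃ₗᵢ[ℂ] K0) : Ant.LS (SL K0) := Ant.lsI (cp_IL io) xiS

variable (io : SL K0 ≃ₗᵢ[ℂ] K0)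



lemma LM_cost (g : ℝ) (e : SL K0) : (LM io).cost g e = costL io g e := by
  show (IL io).cst MeasurableSet.univ ((-(g : ℂ)) • e) = _
  rw [costL]
  congr 2
  push_cast
  rfl

lemma LM_eV (U : USL K0) : (LM io).eV U = (IL io).eV U := by
  show star (U : SL K0 →L[ℂ] SL K0) (ZS ((U : SL K0 →L[ℂ] SL K0) OmS)) = _
  rw [Li.ILSys.eV, IL_Z]
  rfl

lemma LM_m (U : USL K0) : (LM io).m U = mS io U := by
  rw [Ant.LS.m, LM_eV]
  rfl

lemma LM_En (U : USL K0) : (LM io).En ((LM io).eV U) = (IL io).energy U := by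
  rw [LM_eV]
  rfl

/-- translation of letters -/
def cvt : Ant.LS.Mv → Mark.Lg
  | .B b => .B b
  | .C g => .C g
  | .L a => .L a

lemma LM_act (x : Ant.LS.Mv) (U : USL K0) : (LM io).act x U = appS io (cvt x) U := by
  cases x with
  | B b => rfl
  | C g =>
    show (LM io).cost g ((LM io).eV U) * U = mvC io g U
    rw [LM_cost, LM_eV]
    rfl
  | L a => rfl

lemma LM_run (w : List Ant.LS.Mv) : ∀ U : USL K0, (LM io).run w U = runS io (w.map cvt) U := by
  induction w with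
  | nil => intro U; rfl
  | cons x w ih =>
    intro U
    rw [Ant.LS.run_cons, ih, LM_act]
    rfl

lemma admS_append (w w' : List Mark.Lg) : ∀ U : USL K0,
    admS io (w ++ w') U ↔ admS io w U ∧ admS io w' (runS io w U) := by
  induction w with
  | nil => intro U; simp [admS, runS]
  | cons g w ih =>
    intro U
    cases g with
    | C γ => exact ih _
    | B β =>
      show mS io (mvB β U) ≠ 0 ∧ admS io (w ++ w') (mvB β U) ↔
        (mS io (mvB β U) ≠ 0 ∧ admS io w (mvB β U)) ∧ admS io w' (runS io w (mvB β U))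
      rw [ih, and_assoc]
    | L a =>
      show mS io U ≠ 0 ∧ admS io (w ++ w') (mvL a U) ↔
        (mS io U ≠ 0 ∧ admS io w (mvL a U)) ∧ admS io w' (runS io w (mvL a U))
      rw [ih, and_assoc]

lemma runS_append (w w' : List Mark.Lg) : ∀ U : USL K0,
    runS io (w ++ w') U = runS io w' (runS io w U) := by
  induction w with
  | nil => intro U; rfl
  | cons g w ih => intro U; exact ih _

lemma admS_of_Pos (w : List Ant.LS.Mv) : ∀ U : USL K0, (LM io).Pos w U →
    admS io (w.map cvt) U := by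
  induction w with
  | nil => intro U _; trivial
  | cons x w ih =>
    intro U h
    obtain ⟨h1, h2⟩ := h
    have h3 := ih _ h2
    have h4 := Ant.LS.Pos.head (LM io) h2
    rw [LM_m] at h1 h4
    rw [LM_act] at h3 h4
    cases x with
    | B b => exact ⟨ne_of_gt h4, h3⟩
    | C g => exact h3
    | L a => exact ⟨ne_of_gt h1, h3⟩

/-- **Output of L1' for helper575's model**: every admissible labelled prefix leads to a good
state. -/
theorem good_of_adm (D : BridgeData K0 K) {α0 : ℝ} {hα : α0 ≠ 0} {ε : ℕ → ℝ} {hε : ∀ n, 0 < ε n}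
    (hε0 : Tendsto ε atTop (𝓝 0)) (hLam : Mark.LamStmt D.ip D.hs D.hsi hα hε) {c : ℝ}
    (hc : ∀ (j : Sp K →ₗᵢ[ℂ] K) (angles : List (ℝ × ℝ)), energy j (wordU j angles) ≤ c)
    (w0 : List Mark.Lg) (hw : admS D.io w0 (labL α0)) :
    (LM D.io).Good c (runS D.io w0 (labL α0)) := by
  intro w hpos
  rw [LM_En, LM_run, ← runS_append]
  exact SL_le D hε0 hLam hc _ ((admS_append D.io _ _ _).2 ⟨hw, admS_of_Pos D.io w _ hpos⟩)

end ant

/-! ### overlaps -/
section overlap
variable {K0 : Type*} [NormedAddCommGroup K0] [InnerProductSpace ℂ K0]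

lemma conj_rt2_mul : (starRingEnd ℂ) (((1 : ℝ) / Real.sqrt 2 : ℝ) : ℂ)
    * ((((1 : ℝ) / Real.sqrt 2 : ℝ)) : ℂ) = 1 / 2 := by
  rw [Complex.conj_ofReal, ← Complex.ofReal_mul]
  have : (1 : ℝ) / Real.sqrt 2 * (1 / Real.sqrt 2) = 1 / 2 := by
    rw [div_mul_div_comm, one_mul, Real.mul_self_sqrt (by norm_num)]
  rw [this]
  push_cast
  ring

lemma OmS_apply (b : Bool) :
    (OmS : SL K0) b = (((1 : ℝ) / Real.sqrt 2 : ℝ) : ℂ) • wave 0 vac := rfl

lemma BM.integrable {c : ℝ → ℂ} (hc : BM c) : Integrable c gam1 := by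
  obtain ⟨h1, C, hC⟩ := hc
  exact Integrable.of_bound h1.aestronglyMeasurable C (Eventually.of_forall hC)

lemma BM.integrable_mul_id {c : ℝ → ℂ} (hc : BM c) : Integrable (fun x : ℝ => (x : ℂ) * c x) gam1 := by
  obtain ⟨h1, C, hC⟩ := hc
  have hx : Integrable (fun x : ℝ => (x : ℂ)) gam1 :=
    ((memLp_id_gam1 1).integrable (by norm_num)).ofReal
  refine (hx.norm.mul_const C).mono
    ((Complex.measurable_ofReal.mul h1).aestronglyMeasurable) (Eventually.of_forall fun x => ?_)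
  rw [norm_mul, norm_mul, norm_norm]
  refine mul_le_mul_of_nonneg_left ?_ (norm_nonneg _)
  exact (hC x).trans (le_abs_self _)

lemma inner_wave0_mF {c : ℝ → ℂ} (hc : BM c) (v w : Fock K0) :
    ⟪wave 0 v, mF c (wave 0 w)⟫_ℂ = (∫ x, c x ∂gam1) * ⟪v, w⟫_ℂ := by
  rw [L2.inner_def, ← integral_mul_const]
  refine integral_congr_ae ?_
  filter_upwards [coeFn_mF hc (wave 0 w), coeFn_wave 0 w, coeFn_wave 0 v] with x h1 h2 h3
  rw [h1, h2, h3, chi_zero, one_smul, one_smul, inner_smul_right]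

lemma inner_xw_mF {c : ℝ → ℂ} (hc : BM c) (v w : Fock K0) :
    ⟪xw v, mF c (wave 0 w)⟫_ℂ = (∫ x, (x : ℂ) * c x ∂gam1) * ⟪v, w⟫_ℂ := by
  rw [L2.inner_def, ← integral_mul_const]
  refine integral_congr_ae ?_
  filter_upwards [coeFn_mF hc (wave 0 w), coeFn_wave 0 w, coeFn_xw v] with x h1 h2 h3
  rw [h1, h2, h3, chi_zero, one_smul, inner_smul_left, inner_smul_right, Complex.conj_ofReal]
  ring

/-- `⟨+| g |+⟩` -/
def pp (m : Matrix Bool Bool ℂ) : ℂ := (1 / 2) * ∑ b, ∑ b', m b b'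

lemma inner_OmS_gS {g : ℝ → Matrix Bool Bool ℂ} (hg : BMM g) :
    ⟪(OmS : SL K0), gS g OmS⟫_ℂ = ∫ x, pp (g x) ∂gam1 := by
  have h1 : ∀ b b', ⟪(OmS : SL K0) b, mF (fun x => g x b b') ((OmS : SL K0) b')⟫_ℂ
      = (1 / 2) * ∫ x, g x b b' ∂gam1 := by
    intro b b'
    rw [OmS_apply, OmS_apply, map_smul, inner_smul_left, inner_smul_right,
      inner_wave0_mF (hg b b'), inner_self_eq_norm_sq_to_K, norm_vac, ← mul_assoc, conj_rt2_mul]
    simp
  rw [C2_inner]
  simp_rw [gS_apply, inner_sum, h1, pp, Finset.mul_sum]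
  rw [integral_finsetSum _ fun b _ => integrable_finsetSum _ fun b' _ =>
    ((hg b b').integrable).const_mul _]
  refine Finset.sum_congr rfl fun b _ => ?_
  rw [integral_finsetSum _ fun b' _ => ((hg b b').integrable).const_mul _]
  refine Finset.sum_congr rfl fun b' _ => ?_
  rw [integral_const_mul]

lemma inner_xiS_gS {g : ℝ → Matrix Bool Bool ℂ} (hg : BMM g) :
    ⟪(xiS : SL K0), gS g OmS⟫_ℂ = ∫ x, (x : ℂ) * pp (g x) ∂gam1 := by
  have h1 : ∀ b b', ⟪(xiS : SL K0) b, mF (fun x => g x b b') ((OmS : SL K0) b')⟫_ℂ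
      = (1 / 2) * ∫ x, (x : ℂ) * g x b b' ∂gam1 := by
    intro b b'
    rw [OmS_apply, xiS_apply, map_smul, inner_smul_left, inner_smul_right,
      inner_xw_mF (hg b b'), inner_self_eq_norm_sq_to_K, norm_vac, ← mul_assoc, conj_rt2_mul]
    simp
  have h2 : ∀ x : ℝ, (x : ℂ) * pp (g x) = ∑ b, ∑ b', (1 / 2) * ((x : ℂ) * g x b b') := by
    intro x
    rw [pp, Finset.mul_sum, Finset.mul_sum]
    refine Finset.sum_congr rfl fun b _ => ?_
    rw [Finset.mul_sum, Finset.mul_sum]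
    refine Finset.sum_congr rfl fun b' _ => ?_
    ring
  rw [C2_inner]
  simp_rw [gS_apply, inner_sum, h1, h2]
  rw [integral_finsetSum _ fun b _ => integrable_finsetSum _ fun b' _ =>
    ((hg b b').integrable_mul_id).const_mul _]
  refine Finset.sum_congr rfl fun b _ => ?_
  rw [integral_finsetSum _ fun b' _ => ((hg b b').integrable_mul_id).const_mul _]
  refine Finset.sum_congr rfl fun b' _ => ?_
  rw [integral_const_mul]


end overlap

/-! ### parity of the label -/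
section parity
variable {E : Type*} [NormedAddCommGroup E] [InnerProductSpace ℂ E] [CompleteSpace E]

lemma mp_neg : MeasurePreserving (fun x : ℝ => -x) gam1 gam1 :=
  ⟨measurable_neg, Ant.map_neg_gam1⟩

/-- `ψ(x) ↦ ψ(-x)` -/
def parF : Lp E 2 gam1 →L[ℂ] Lp E 2 gam1 :=
  (Lp.compMeasurePreservingₗᵢ ℂ (fun x : ℝ => -x) mp_neg).toContinuousLinearMap

lemma coeFn_parF (f : Lp E 2 gam1) : parF f =ᵐ[gam1] fun x => f (-x) :=
  Lp.coeFn_compMeasurePreserving f mp_neg


lemma ae_neg {p : ℝ → Prop} (h : ∀ᵐ x ∂gam1, p x) : ∀ᵐ x ∂gam1, p (-x) :=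
  mp_neg.quasiMeasurePreserving.ae h

lemma parF_parF (f : Lp E 2 gam1) : parF (parF f) = f := by
  refine Lp.ext ?_
  filter_upwards [coeFn_parF (parF f), ae_neg (coeFn_parF f)] with x h1 h2
  rw [h1, h2, neg_neg]

lemma parF_wave (t : ℝ) (v : E) : parF (wave t v) = wave (-t) v := by
  refine Lp.ext ?_
  filter_upwards [coeFn_parF (wave t v), ae_neg (coeFn_wave t v), coeFn_wave (-t) v]
    with x h1 h2 h3
  rw [h1, h2, h3, chi, chi]
  congr 3
  push_cast
  ring

lemma parF_xw (v : E) : parF (xw v) = -xw v := by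
  refine Lp.ext ?_
  filter_upwards [coeFn_parF (xw v), ae_neg (coeFn_xw v), coeFn_xw v, Lp.coeFn_neg (xw v)]
    with x h1 h2 h3 h4
  rw [h1, h2, h4, Pi.neg_apply, h3]
  push_cast
  rw [neg_smul]

lemma parF_lift (A : E →L[ℂ] E) (f : Lp E 2 gam1) : parF (lift A f) = lift A (parF f) := by
  refine Lp.ext ?_
  filter_upwards [coeFn_parF (lift A f), ae_neg (coeFn_lift A f), coeFn_lift A (parF f),
    coeFn_parF f] with x h1 h2 h3 h4
  rw [h1, h2, h3, h4]

lemma BM.comp_neg {c : ℝ → ℂ} (hc : BM c) : BM (fun x => c (-x)) :=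
  ⟨hc.1.comp measurable_neg, hc.2.choose, fun x => hc.2.choose_spec (-x)⟩

lemma parF_mF {c : ℝ → ℂ} (hc : BM c) (f : Lp E 2 gam1) :
    parF (mF c f) = mF (fun x => c (-x)) (parF f) := by
  refine Lp.ext ?_
  filter_upwards [coeFn_parF (mF c f), ae_neg (coeFn_mF hc f), coeFn_mF hc.comp_neg (parF f),
    coeFn_parF f] with x h1 h2 h3 h4
  rw [h1, h2, h3, h4]

lemma star_parF : star (parF : Lp E 2 gam1 →L[ℂ] Lp E 2 gam1) = parF := by
  rw [ContinuousLinearMap.star_eq_adjoint, eq_comm, ContinuousLinearMap.eq_adjoint_iff]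
  intro f g
  have h := (Lp.compMeasurePreservingₗᵢ (E := E) (p := 2) ℂ (fun x : ℝ => -x) mp_neg).inner_map_map
    (parF f) g
  rw [← h]
  show ⟪parF (parF f), parF g⟫_ℂ = ⟪f, parF g⟫_ℂ
  rw [parF_parF]

end parity

section parityS
variable {K0 : Type*} [NormedAddCommGroup K0] [InnerProductSpace ℂ K0]

/-- the parity of the label on the labelled space -/
def parS : SL K0 →L[ℂ] SL K0 := dg parF

lemma parS_apply (v : SL K0) (b : Bool) : parS v b = parF (v b) := dg_apply _ _ _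

lemma parS_parS (v : SL K0) : parS (parS v) = v := by
  ext b : 1
  rw [parS_apply, parS_apply, parF_parF]


lemma star_parS : star (parS : SL K0 →L[ℂ] SL K0) = parS := by
  rw [parS, dg_star, star_parF]

lemma parS_OmS : parS (OmS : SL K0) = OmS := by
  ext b : 1
  rw [parS_apply, OmS_apply, map_smul, parF_wave, neg_zero]

lemma parS_xiS : parS (xiS : SL K0) = -xiS := by
  ext b : 1
  rw [parS_apply, PiLp.neg_apply, xiS_apply, map_smul, parF_xw, smul_neg]

lemma parS_spG (m : Matrix Bool Bool ℂ) :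
    (parS : SL K0 →L[ℂ] SL K0) * spG m = spG m * parS := (spG_dg_comm m _).symm


lemma parS_WS (f : K0) : (parS : SL K0 →L[ℂ] SL K0) * WS f = WS f * parS := by
  refine ContinuousLinearMap.ext fun v => ?_
  ext b : 1
  rw [mul_apply_eq_comp, mul_apply_eq_comp, parS_apply, WS, dg_apply, dg_apply, parS_apply,
    parF_lift]

lemma BMM.comp_neg {g : ℝ → Matrix Bool Bool ℂ} (hg : BMM g) : BMM (fun x => g (-x)) :=
  fun b b' => (hg b b').comp_neg


lemma parS_PS {A : Set ℝ} (hA : ClE A) :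
    (parS : SL K0 →L[ℂ] SL K0) * PS A = PS A * parS := by
  refine ContinuousLinearMap.ext fun v => ?_
  ext b : 1
  rw [mul_apply_eq_comp, mul_apply_eq_comp, parS_apply, PS, dg_apply, dg_apply, parS_apply,
    parF_mF (BM.indicator hA.1)]
  congr 2
  funext x
  by_cases hx : x ∈ A
  · have : -x ∈ A := (hA.2 x).2 hx
    simp [hx, this]
  · have : -x ∉ A := fun h => hx ((hA.2 x).1 h)
    simp [hx, this]


end parityS

end Crest.Agent.R339.LF
end
end

-- ▼ part R339/LabStart286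

/-!
R339: label moment of the first admissible state.
-/

set_option autoImplicit false
set_option linter.unusedSectionVars false

noncomputable section

namespace Crest.Agent.R339.LF

open MeasureTheory ProbabilityTheory Filter Topology
open scoped InnerProductSpace ENNReal
open Crest.Agent.R339.Site Crest.Agent.R339.Lab Crest.MathPhysics.SpinGlass

/-! ### a state with positive label moment -/
section start

lemma integral_x_chi (s : ℝ) :
    ∫ x : ℝ, (x : ℂ) * chi (-s) x ∂gam1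
      = -Complex.I * ((s * Real.exp (-(s ^ 2 / 2)) : ℝ) : ℂ) := by
  have h1 : HasDerivAt (fun t : ℝ => ⟪wave s (1 : ℂ), wave t (1 : ℂ)⟫_ℂ)
      (⟪wave s (1 : ℂ), Complex.I • xw (1 : ℂ)⟫_ℂ) 0 :=
    ((((innerSL ℂ (wave s (1 : ℂ))).restrictScalars ℝ).hasFDerivAt.comp_hasDerivAt (0 : ℝ)
      (hasDerivAt_wave (1 : ℂ))))
  have h2 : ∀ t : ℝ, ⟪wave s (1 : ℂ), wave t (1 : ℂ)⟫_ℂ = ((Real.exp (-((t - s) ^ 2 / 2)) : ℝ) : ℂ) := by
    intro t
    rw [inner_wave]
    simp
  have h3 : HasDerivAt (fun t : ℝ => Real.exp (-((t - s) ^ 2 / 2)))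
      (s * Real.exp (-(s ^ 2 / 2))) 0 := by
    have e1 : HasDerivAt (fun t : ℝ => -((t - s) ^ 2 / 2)) s 0 := by
      have := (((hasDerivAt_id (0 : ℝ)).sub_const s).pow 2).div_const 2 |>.neg
      convert! this using 1
      simp
      ring
    have e2 := e1.exp
    convert! e2 using 1
    simp
    ring
  have h4 := h3.ofReal_comp
  simp_rw [h2] at h1
  have h5 := h1.unique h4
  rw [inner_smul_right] at h5
  have h6 : ⟪wave s (1 : ℂ), xw (1 : ℂ)⟫_ℂ = ∫ x : ℝ, (x : ℂ) * chi (-s) x ∂gam1 := by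
    rw [L2.inner_def]
    refine integral_congr_ae ?_
    filter_upwards [coeFn_wave s (1 : ℂ), coeFn_xw (1 : ℂ)] with x a1 a2
    rw [a1, a2, inner_smul_left, inner_smul_right, conj_chi]
    simp
    ring
  rw [h6] at h5
  have h7 : -Complex.I * (Complex.I * ∫ x : ℝ, (x : ℂ) * chi (-s) x ∂gam1)
      = ∫ x : ℝ, (x : ℂ) * chi (-s) x ∂gam1 := by
    rw [← mul_assoc]
    simp
  rw [← h7, h5]

variable {K0 : Type*} [NormedAddCommGroup K0] [InnerProductSpace ℂ K0]

/-- the site vector of a label-controlled spin unitary -/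
lemma eV_gU (io : SL K0 ≃ₗᵢ[ℂ] K0) {g : ℝ → Matrix Bool Bool ℂ} (hg : BMM g)
    (U : USL K0) (hU : (U : SL K0 →L[ℂ] SL K0) = gS g) :
    (IL io).eV U = gS (fun x => star (g x) * zm * g x) OmS := by
  have e1 : (gS (fun x => star (g x) * zm * g x) : SL K0 →L[ℂ] SL K0)
      = gS (fun x => star (g x)) * ZS * gS g := by
    rw [gS_mul (hg.star.mul (BMM.const zm)) hg, gS_mul hg.star (BMM.const zm), gS_const, ZS]
  rw [e1, mul_apply_eq_comp, mul_apply_eq_comp, Li.ILSys.eV, IL_Z, hU, gS_star hg]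
  rfl

lemma coe_mvB_labL (a β : ℝ) : ((mvB β (labL a) : USL K0) : SL K0 →L[ℂ] SL K0)
    = gS (fun x => mixm β * labg a x) := by
  rw [gS_mul (BMM.const _) (BMM_labg a)]
  rfl

lemma pp_start (a β x : ℝ) :
    pp (star (mixm β * labg a x) * zm * (mixm β * labg a x))
      = -(Complex.I * ((Real.sin (2 * β) : ℝ) : ℂ)) * ((1 / 2) * (chi (-(2 * a)) x - chi (2 * a) x)) := by
  have hm : mixm (-β) * zm * mixm β = zm * mixm (2 * β) := by
    have hc : mixm (-β) * zm = zm * mixm β := by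
      ext b b'
      simp only [Matrix.mul_apply, Fintype.sum_bool, mixm, zm, Matrix.of_apply, Real.cos_neg,
        Real.sin_neg]
      cases b <;> cases b' <;> simp [spinSign, -Complex.ofReal_cos, -Complex.ofReal_sin]
    rw [hc, mul_assoc, mixm_mul, two_mul]
  have e0 : star (mixm β * labg a x) * zm * (mixm β * labg a x)
      = labg (-a) x * (zm * mixm (2 * β)) * labg a x := by
    rw [star_mul, star_mixm, star_labg, ← hm]
    simp only [mul_assoc]
  rw [e0]
  have c1 : chi (-a) x * chi a x = 1 := by rw [← chi_add, neg_add_cancel, chi_zero]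
  have c2 : chi (-(2 * a)) x = chi (-a) x * chi (-a) x := by
    rw [← chi_add]; congr 1; ring
  have c3 : chi (2 * a) x = chi a x * chi a x := by
    rw [← chi_add]; congr 1; ring
  have hent : ∀ b b' : Bool, (labg (-a) x * (zm * mixm (2 * β)) * labg a x) b b'
      = chi (-a * spinSign b) x * (((spinSign b : ℝ) : ℂ) * mixm (2 * β) b b')
        * chi (a * spinSign b') x := by
    intro b b'
    rw [labg, labg, zm, Matrix.mul_diagonal, Matrix.diagonal_mul, Matrix.diagonal_mul]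
  rw [pp]
  simp only [Fintype.sum_bool, hent]
  have s1 : spinSign true = -1 := by simp [spinSign]
  have s2 : spinSign false = 1 := by simp [spinSign]
  have m1 : mixm (2 * β) true true = ((Real.cos (2 * β) : ℝ) : ℂ) := by simp [mixm]
  have m2 : mixm (2 * β) false false = ((Real.cos (2 * β) : ℝ) : ℂ) := by simp [mixm]
  have m3 : mixm (2 * β) true false = -(Complex.I * ((Real.sin (2 * β) : ℝ) : ℂ)) := by simp [mixm]
  have m4 : mixm (2 * β) false true = -(Complex.I * ((Real.sin (2 * β) : ℝ) : ℂ)) := by simp [mixm]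
  rw [s1, s2, m1, m2, m3, m4, c2, c3]
  simp only [mul_neg, mul_one, neg_neg, neg_mul]
  push_cast
  ring_nf

lemma integrable_x_chi (s : ℝ) : Integrable (fun x : ℝ => (x : ℂ) * chi s x) gam1 :=
  (BM.chi s).integrable_mul_id

/-- the label moment of `exp (-i β X) exp (i a x Z)` -/
theorem mS_start (io : SL K0 ≃ₗᵢ[ℂ] K0) (a β : ℝ) :
    mS io (mvB β (labL a)) = -Real.sin (2 * β) * (2 * a * Real.exp (-(2 * a ^ 2))) := by
  have hg : BMM (fun x => mixm β * labg a x) := (BMM.const _).mul (BMM_labg a)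
  rw [mS, eV_gU io hg _ (coe_mvB_labL a β), inner_xiS_gS ((hg.star.mul (BMM.const zm)).mul hg)]
  simp_rw [pp_start]
  have e1 : ∀ x : ℝ, (x : ℂ) * (-(Complex.I * ((Real.sin (2 * β) : ℝ) : ℂ)) *
      ((1 / 2) * (chi (-(2 * a)) x - chi (2 * a) x)))
      = (-(Complex.I * ((Real.sin (2 * β) : ℝ) : ℂ)) * (1 / 2)) * ((x : ℂ) * chi (-(2 * a)) x)
        - (-(Complex.I * ((Real.sin (2 * β) : ℝ) : ℂ)) * (1 / 2)) * ((x : ℂ) * chi (-(-(2 * a))) x) := by
    intro x
    rw [neg_neg]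
    ring
  simp_rw [e1]
  rw [integral_sub ((integrable_x_chi _).const_mul _) ((integrable_x_chi _).const_mul _),
    integral_const_mul, integral_const_mul, integral_x_chi, integral_x_chi]
  have e2 : (-(2 * a)) ^ 2 / 2 = 2 * a ^ 2 := by ring
  have e3 : (2 * a) ^ 2 / 2 = 2 * a ^ 2 := by ring
  rw [e2, e3]
  have e4 : -(Complex.I * ((Real.sin (2 * β) : ℝ) : ℂ)) * (1 / 2) *
        (-Complex.I * ((2 * a * Real.exp (-(2 * a ^ 2)) : ℝ) : ℂ)) -
      -(Complex.I * ((Real.sin (2 * β) : ℝ) : ℂ)) * (1 / 2) *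
        (-Complex.I * ((-(2 * a) * Real.exp (-(2 * a ^ 2)) : ℝ) : ℂ))
      = ((-Real.sin (2 * β) * (2 * a * Real.exp (-(2 * a ^ 2))) : ℝ) : ℂ) := by
    push_cast
    linear_combination (Complex.sin (2 * β) * (2 * a) * Complex.exp (-(2 * (a : ℂ) ^ 2)))
      * Complex.I_sq
  rw [e4, Complex.ofReal_re]

end start

/-! ### further items of helper575's list -/
section more
variable {K0 K : Type*} [NormedAddCommGroup K0] [InnerProductSpace ℂ K0]
  [NormedAddCommGroup K] [InnerProductSpace ℂ K]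

lemma inner_parS (v w : SL K0) : ⟪parS v, parS w⟫_ℂ = ⟪v, w⟫_ℂ := by
  have h3 : ⟪parS v, parS w⟫_ℂ = ⟪v, parS (parS w)⟫_ℂ := by
    conv_lhs => rw [← star_parS]
    rw [ContinuousLinearMap.star_eq_adjoint, ContinuousLinearMap.adjoint_inner_left,
      ← ContinuousLinearMap.star_eq_adjoint, star_parS]
  rw [h3, parS_parS]

lemma BMM.indicator_smul {A : Set ℝ} (hA : MeasurableSet A) {g : ℝ → Matrix Bool Bool ℂ}
    (hg : BMM g) : BMM (fun x => A.indicator (fun _ => (1 : ℂ)) x • g x) := by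
  intro b b'
  simp only [Matrix.smul_apply, smul_eq_mul]
  exact (BM.indicator hA).mul (hg b b')

lemma PS_mul_gS {A : Set ℝ} (hA : MeasurableSet A) {g : ℝ → Matrix Bool Bool ℂ} (hg : BMM g) :
    (PS A : SL K0 →L[ℂ] SL K0) * gS g
      = gS (fun x => A.indicator (fun _ => (1 : ℂ)) x • g x) := by
  refine ContinuousLinearMap.ext fun v => ?_
  ext b : 1
  rw [mul_apply_eq_comp, PS, dg_apply, gS_apply, gS_apply, map_sum]
  refine Finset.sum_congr rfl fun b' _ => ?_
  simp only [Matrix.smul_apply, smul_eq_mul]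
  rw [mF_mul (BM.indicator hA) (hg b b')]
  rfl

lemma inner_OmS_PS_gS {A : Set ℝ} (hA : MeasurableSet A) {g : ℝ → Matrix Bool Bool ℂ}
    (hg : BMM g) : ⟪(OmS : SL K0), PS A (gS g OmS)⟫_ℂ
      = ∫ x, A.indicator (fun _ => (1 : ℂ)) x * pp (g x) ∂gam1 := by
  rw [← mul_apply_eq_comp, PS_mul_gS hA hg, inner_OmS_gS (hg.indicator_smul hA)]
  congr 1
  funext x
  rw [pp, pp]
  simp only [Matrix.smul_apply, smul_eq_mul, ← Finset.mul_sum]
  ring

lemma inner_ZS_PS_gS {A : Set ℝ} (hA : MeasurableSet A) {g : ℝ → Matrix Bool Bool ℂ}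
    (hg : BMM g) : ⟪ZS (OmS : SL K0), PS A (gS g OmS)⟫_ℂ
      = ∫ x, A.indicator (fun _ => (1 : ℂ)) x * pp (zm * g x) ∂gam1 := by
  have h1 : ⟪ZS (OmS : SL K0), PS A (gS g OmS)⟫_ℂ
      = ⟪(OmS : SL K0), PS A (gS (fun x => zm * g x) OmS)⟫_ℂ := by
    have e1 : (gS (fun x => zm * g x) : SL K0 →L[ℂ] SL K0) = ZS * gS g := by
      rw [gS_mul (BMM.const zm) hg, gS_const, ZS]
    have e2 : PS A (ZS (gS g (OmS : SL K0))) = ZS (PS A (gS g OmS)) :=
      (DFunLike.congr_fun (ZS_PS_comm A) (gS g (OmS : SL K0))).symm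
    rw [e1, mul_apply_eq_comp, e2]
    conv_rhs => rw [← star_ZS]
    rw [ContinuousLinearMap.star_eq_adjoint, ContinuousLinearMap.adjoint_inner_right]
  rw [h1, inner_OmS_PS_gS hA ((BMM.const zm).mul hg)]

/-- the first state `exp (-i b X) exp (i a x Z)` is good -/
theorem good_start (D : BridgeData K0 K) {a : ℝ} {ha : a ≠ 0} {ε : ℕ → ℝ} {hε : ∀ n, 0 < ε n}
    (hε0 : Tendsto ε atTop (𝓝 0)) (hLam : Mark.LamStmt D.ip D.hs D.hsi ha hε) {c : ℝ}
    (hc : ∀ (j : Sp K →ₗᵢ[ℂ] K) (angles : List (ℝ × ℝ)), energy j (wordU j angles) ≤ c)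
    (b : ℝ) (hb : Real.sin (2 * b) ≠ 0) :
    (LM D.io).Good c ((LM D.io).run [.L a, .B b] 1) := by
  have h1 : (LM D.io).run [.L a, .B b] 1 = runS D.io [.B b] (labL a) := by
    rw [LM_run]
    show mvB b (mvL a 1) = mvB b (labL a)
    rw [mvL, mul_one]
  rw [h1]
  refine good_of_adm D hε0 hLam hc [.B b] ⟨?_, trivial⟩
  rw [mS_start]
  have : Real.exp (-(2 * a ^ 2)) ≠ 0 := (Real.exp_pos _).ne'
  exact mul_ne_zero (neg_ne_zero.mpr hb) (mul_ne_zero (mul_ne_zero two_ne_zero ha) this)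

theorem m_start (io : SL K0 ≃ₗᵢ[ℂ] K0) (a b : ℝ) :
    (LM io).m ((LM io).run [.L a, .B b] 1)
      = -Real.sin (2 * b) * (2 * a * Real.exp (-(2 * a ^ 2))) := by
  have h1 : (LM io).run [.L a, .B b] 1 = mvB b (labL a) := by
    rw [LM_run]
    show mvB b (mvL a 1) = mvB b (labL a)
    rw [mvL, mul_one]
  rw [LM_m, h1, mS_start]

end more

end Crest.Agent.R339.LF
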