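import Crest.Agent.R339.Li728A

/-!
# R339, block LI: strong convergence, `Good` is closed (helper728)
-/

set_option autoImplicit false

noncomputable section

open scoped ComplexConjugate InnerProductSpace Topology
open Filter MeasureTheory

namespace Crest.Agent.R339.Li

section General

variable {H : Type*} [NormedAddCommGroup H] [InnerProductSpace ℂ H] [CompleteSpace H]

/-- strong convergence of unitaries -/
def STends {α : Type*} (U : α → UH H) (l : Filter α) (U₀ : UH H) : Prop :=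
  ∀ v : H, Tendsto (fun i => (U i : H →L[ℂ] H) v) l (𝓝 ((U₀ : H →L[ℂ] H) v))

lemma norm_U_apply (U : UH H) (v : H) : ‖(U : H →L[ℂ] H) v‖ = ‖v‖ := by
  have h1 := (Unitary.mem_iff.mp U.2).1
  have h2 : ⟪(U : H →L[ℂ] H) v, (U : H →L[ℂ] H) v⟫_ℂ = ⟪v, v⟫_ℂ := by
    rw [← ContinuousLinearMap.adjoint_inner_left, ← ContinuousLinearMap.star_eq_adjoint,
      ← mul_apply_eq_comp, h1]
    rfl
  rw [@norm_eq_sqrt_re_inner ℂ, h2, ← @norm_eq_sqrt_re_inner ℂ]

lemma star_U_mul_self (U : UH H) : star (U : H →L[ℂ] H) * (U : H →L[ℂ] H) = 1 :=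
  (Unitary.mem_iff.mp U.2).1

lemma U_mul_star_self (U : UH H) : (U : H →L[ℂ] H) * star (U : H →L[ℂ] H) = 1 :=
  (Unitary.mem_iff.mp U.2).2

lemma star_U_apply_U (U : UH H) (v : H) : star (U : H →L[ℂ] H) ((U : H →L[ℂ] H) v) = v := by
  rw [← mul_apply_eq_comp, star_U_mul_self]; rfl

lemma U_apply_star_U (U : UH H) (v : H) : (U : H →L[ℂ] H) (star (U : H →L[ℂ] H) v) = v := by
  rw [← mul_apply_eq_comp, U_mul_star_self]; rfl

lemma norm_star_U_apply (U : UH H) (v : H) : ‖(star (U : H →L[ℂ] H)) v‖ = ‖v‖ :=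
  norm_U_apply (star U) v

variable {α : Type*} {l : Filter α} {U V : α → UH H} {U₀ V₀ : UH H}

lemma tendsto_U_apply (hU : STends U l U₀) {v : α → H} {v₀ : H} (hv : Tendsto v l (𝓝 v₀)) :
    Tendsto (fun i => (U i : H →L[ℂ] H) (v i)) l (𝓝 ((U₀ : H →L[ℂ] H) v₀)) := by
  have h1 := hU v₀
  have h2 : Tendsto (fun i => (U i : H →L[ℂ] H) (v i) - (U i : H →L[ℂ] H) v₀) l (𝓝 0) := by
    rw [tendsto_zero_iff_norm_tendsto_zero]
    refine (tendsto_iff_norm_sub_tendsto_zero.mp hv).congr fun i => ?_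
    rw [← map_sub, norm_U_apply]
  simpa using h2.add h1

lemma STends.adj (hU : STends U l U₀) : STends (fun i => star (U i)) l (star U₀) := by
  intro v
  rw [tendsto_iff_norm_sub_tendsto_zero]
  have h1 := tendsto_iff_norm_sub_tendsto_zero.mp (hU ((star (U₀ : H →L[ℂ] H)) v))
  refine h1.congr fun i => ?_
  rw [U_apply_star_U, ← norm_star_U_apply (U i), map_sub, star_U_apply_U, ← norm_neg, neg_sub]
  rfl

lemma STends.mul (hU : STends U l U₀) (hV : STends V l V₀) :
    STends (fun i => U i * V i) l (U₀ * V₀) := by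
  intro v
  exact tendsto_U_apply hU (hV v)

lemma STends.const (U₀ : UH H) : STends (fun _ : α => U₀) l U₀ := fun _ => tendsto_const_nhds

lemma STends.congr' (h : STends U l U₀) (e : ∀ᶠ i in l, U i = V i) : STends V l U₀ := fun v =>
  (h v).congr' (by filter_upwards [e] with i hi; rw [hi])

/-- norm convergence implies strong convergence -/
lemma STends.of_norm (h : Tendsto (fun i => (U i : H →L[ℂ] H)) l (𝓝 (U₀ : H →L[ℂ] H))) :
    STends U l U₀ := fun v =>
  ((ContinuousLinearMap.apply ℂ H v).continuous.tendsto _).comp h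


end General

variable {Λ H : Type*} [MeasurableSpace Λ] [NormedAddCommGroup H] [InnerProductSpace ℂ H]
  [CompleteSpace H]

namespace ILSys

variable {I : ILSys Λ H}

/-- Weyl operators as unitaries -/
def WU (I : ILSys Λ H) (f : H) : UH H :=
  ⟨I.W f, by rw [Unitary.mem_iff, I.W_star]; exact ⟨W_neg_mul f, W_mul_neg f⟩⟩

@[simp] lemma norm_W_apply (f v : H) : ‖I.W f v‖ = ‖v‖ := norm_U_apply (I.WU f) v

lemma tendsto_W {α : Type*} {l : Filter α} {f : α → H} {f₀ : H} {v : α → H} {v₀ : H}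
    (hf : Tendsto f l (𝓝 f₀)) (hv : Tendsto v l (𝓝 v₀)) :
    Tendsto (fun i => I.W (f i) (v i)) l (𝓝 (I.W f₀ v₀)) := by
  have h1 : Tendsto (fun i => I.W (f i) v₀) l (𝓝 (I.W f₀ v₀)) := ((I.W_cont v₀).tendsto f₀).comp hf
  have h2 : Tendsto (fun i => I.W (f i) (v i) - I.W (f i) v₀) l (𝓝 0) := by
    rw [tendsto_zero_iff_norm_tendsto_zero]
    have h3 := tendsto_iff_norm_sub_tendsto_zero.mp hv
    refine h3.congr fun i => ?_
    rw [← map_sub, norm_W_apply]
  have := h2.add h1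
  simpa using this

lemma zW_apply (f v : H) : I.zW f v = I.Ep (I.W f v) + I.Em (I.W (-f) v) := rfl

lemma tendsto_zW {α : Type*} {l : Filter α} {f : α → H} {f₀ : H} {v : α → H} {v₀ : H}
    (hf : Tendsto f l (𝓝 f₀)) (hv : Tendsto v l (𝓝 v₀)) :
    Tendsto (fun i => I.zW (f i) (v i)) l (𝓝 (I.zW f₀ v₀)) := by
  simp only [zW_apply]
  exact ((I.Ep.continuous.tendsto _).comp (tendsto_W hf hv)).add
    ((I.Em.continuous.tendsto _).comp (tendsto_W hf.neg hv))

lemma cst_apply {A : Set Λ} (hA : MeasurableSet A) (f v : H) :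
    (I.cst hA f : H →L[ℂ] H) v = I.P Aᶜ v + I.P A (I.zW f v) := rfl

lemma STends_cst {α : Type*} {l : Filter α} {A : Set Λ} (hA : MeasurableSet A) {f : α → H}
    {f₀ : H} (hf : Tendsto f l (𝓝 f₀)) : STends (fun i => I.cst hA (f i)) l (I.cst hA f₀) := by
  intro v
  simp only [cst_apply]
  exact tendsto_const_nhds.add ((I.P A).continuous.tendsto _ |>.comp
    (tendsto_zW hf tendsto_const_nhds))

lemma tendsto_eV {α : Type*} {l : Filter α} {U : α → UH H} {U₀ : UH H} (hU : STends U l U₀) :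
    Tendsto (fun i => I.eV (U i)) l (𝓝 (I.eV U₀)) :=
  tendsto_U_apply hU.adj ((I.Z.continuous.tendsto _).comp (hU I.Om))

lemma tendsto_eA {α : Type*} {l : Filter α} {U : α → UH H} {U₀ : UH H} (hU : STends U l U₀)
    (A : Set Λ) : Tendsto (fun i => I.eA A (U i)) l (𝓝 (I.eA A U₀)) :=
  ((I.P A).continuous.tendsto _).comp (tendsto_eV hU)

lemma tendsto_energy {α : Type*} {l : Filter α} {U : α → UH H} {U₀ : UH H} (hU : STends U l U₀) :
    Tendsto (fun i => I.energy (U i)) l (𝓝 (I.energy U₀)) := by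
  have h1 := tendsto_eV (I := I) hU
  exact (Complex.continuous_re.tendsto _).comp (h1.inner ((I.one.continuous.tendsto _).comp h1))

lemma STends_cpl {α : Type*} {l : Filter α} {U : α → UH H} {U₀ : UH H} (hU : STends U l U₀)
    {A B : Set Λ} (hA : MeasurableSet A) (hB : MeasurableSet B) (g : ℝ) :
    STends (fun i => I.cpl hA hB g (U i)) l (I.cpl hA hB g U₀) :=
  (STends_cst hA ((tendsto_eA hU B).const_smul _)).mul
    ((STends_cst hB ((tendsto_eA hU A).const_smul _)).mul hU)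

variable {S : Set Λ} {L : Set H} {c : ℝ}

lemma Step.lift {U₀ U₀' : UH H} (h : I.Step S L U₀ U₀') {α : Type*} {l : Filter α}
    {U : α → UH H} (hU : STends U l U₀) :
    ∃ U' : α → UH H, (∀ i, I.Step S L (U i) (U' i)) ∧ STends U' l U₀' := by
  cases h with
  | rot hA hS β U => exact ⟨_, fun i => Step.rot hA hS β _, (STends.const _).mul hU⟩
  | cpl hA hB hAS hBS hd g U =>
    exact ⟨_, fun i => Step.cpl hA hB hAS hBS hd g _, STends_cpl hU _ _ g⟩
  | lab hA hS hl a U => exact ⟨_, fun i => Step.lab hA hS hl a _, (STends.const _).mul hU⟩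

lemma lift_path {U₀ U₀' : UH H} (h : Relation.ReflTransGen (I.Step S L) U₀ U₀') {α : Type*}
    {l : Filter α} {U : α → UH H} (hU : STends U l U₀) :
    ∃ U' : α → UH H, (∀ i, Relation.ReflTransGen (I.Step S L) (U i) (U' i)) ∧ STends U' l U₀' := by
  induction h with
  | refl => exact ⟨U, fun i => Relation.ReflTransGen.refl, hU⟩
  | tail _ hst ih =>
    obtain ⟨U', h1, h2⟩ := ih
    obtain ⟨U'', h3, h4⟩ := hst.lift h2
    exact ⟨U'', fun i => (h1 i).tail (h3 i), h4⟩

/-- `Good` is closed under strong limits. -/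
theorem Good.of_tendsto {α : Type*} {l : Filter α} [l.NeBot] {U : α → UH H} {U₀ : UH H}
    (h : ∀ᶠ i in l, I.Good S L c (U i)) (hU : STends U l U₀) : I.Good S L c U₀ := by
  intro U' hU'
  obtain ⟨V, h1, h2⟩ := lift_path hU' hU
  refine le_of_tendsto (tendsto_energy h2) ?_
  filter_upwards [h] with i hi
  exact hi _ (h1 i)

lemma Good.step {U U' : UH H} (h : I.Good S L c U) (hs : I.Step S L U U') : I.Good S L c U' :=
  fun V hV => h V (hV.head hs)


lemma Good.energy_le {U : UH H} (h : I.Good S L c U) : I.energy U ≤ c :=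
  h U Relation.ReflTransGen.refl

lemma Good.rot {U : UH H} (h : I.Good S L c U) {A : Set Λ} (hA : I.Cl A) (hS : A ⊆ S) (β : ℝ) :
    I.Good S L c (I.rot (I.Cl_meas A hA) β * U) := h.step (Step.rot hA hS β U)

lemma Good.cpl {U : UH H} (h : I.Good S L c U) {A B : Set Λ} (hA : I.Cl A) (hB : I.Cl B)
    (hAS : A ⊆ S) (hBS : B ⊆ S) (hd : Disjoint A B) (g : ℝ) :
    I.Good S L c (I.cpl (I.Cl_meas A hA) (I.Cl_meas B hB) g U) :=
  h.step (Step.cpl hA hB hAS hBS hd g U)

lemma Good.lab {U : UH H} (h : I.Good S L c U) {A : Set Λ} (hA : I.Cl A) (hS : A ⊆ S)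
    {l : H} (hl : l ∈ L) (a : ℝ) :
    I.Good S L c (I.cst (I.Cl_meas A hA) ((a : ℂ) • l) * U) := h.step (Step.lab hA hS hl a U)

/-- monotonicity in the region and the labels -/
lemma Step.mono {S' : Set Λ} {L' : Set H} (hS : S' ⊆ S) (hL : L' ⊆ L) {U U' : UH H}
    (h : I.Step S' L' U U') : I.Step S L U U' := by
  cases h with
  | rot hA h β U => exact Step.rot hA (h.trans hS) β _
  | cpl hA hB hAS hBS hd g U => exact Step.cpl hA hB (hAS.trans hS) (hBS.trans hS) hd g _
  | lab hA h hl a U => exact Step.lab hA (h.trans hS) (hL hl) a _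

lemma Good.mono {S' : Set Λ} {L' : Set H} (hS : S' ⊆ S) (hL : L' ⊆ L) {U : UH H}
    (h : I.Good S L c U) : I.Good S' L' c U :=
  fun V hV => h V (Relation.ReflTransGen.mono (fun _ _ => Step.mono hS hL) _ _ hV)

end ILSys

end Crest.Agent.R339.Li
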