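import Crest.Agent.R339.Trig716d
import Crest.Agent.R339.SiteModel
import Crest.Agent.R339.Li728A
import Crest.Agent.R339.Li728C
import Crest.Agent.R339.Li728D

-- ▼ part R339/FE716a
section

/-!
# Row 339, part (C): label calculus on the Fock space

`l : J → K` is a finite family of vectors with real Gram matrix `Q`; `Wl l a = exp(i φ(∑ a_j l_j))`
are commuting unitaries; `fld l T = T(φ(l))` for an odd trigonometric polynomial `T`.
-/

set_option autoImplicit false
set_option linter.unusedSectionVars false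

noncomputable section

open scoped ComplexConjugate InnerProductSpace Topology
open Filter MeasureTheory
open Crest.Agent.R339.Site

namespace Crest.Agent.R339.FE

open Crest.Agent.R339.Trig (gl TP TrigScheme)

variable {K : Type*} [NormedAddCommGroup K] [InnerProductSpace ℂ K]
variable {J : Type*} [Fintype J] [DecidableEq J]

/-- real linear combinations of the labels -/
def lc (l : J → K) (a : J → ℝ) : K := ∑ j, ((a j : ℝ) : ℂ) • l j

theorem lc_add (l : J → K) (a b : J → ℝ) : lc l (a + b) = lc l a + lc l b := by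
  simp only [lc, Pi.add_apply, Complex.ofReal_add, add_smul, Finset.sum_add_distrib]

theorem lc_neg (l : J → K) (a : J → ℝ) : lc l (-a) = - lc l a := by
  simp only [lc, Pi.neg_apply, Complex.ofReal_neg, neg_smul, Finset.sum_neg_distrib]

@[simp] theorem lc_zero (l : J → K) : lc l (0 : J → ℝ) = 0 := by
  simp [lc]

/-- the labels have the real Gram matrix `Q` -/
def RealGram (l : J → K) (Q : Matrix J J ℝ) : Prop := ∀ i j, ⟪l i, l j⟫_ℂ = ((Q i j : ℝ) : ℂ)

variable {l : J → K} {Q : Matrix J J ℝ}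

theorem RealGram.inner_lc (h : RealGram l Q) (a b : J → ℝ) :
    ⟪lc l a, lc l b⟫_ℂ = ((∑ i, ∑ j, a i * Q i j * b j : ℝ) : ℂ) := by
  rw [lc, lc, sum_inner]
  push_cast
  refine Finset.sum_congr rfl fun i _ => ?_
  rw [inner_sum]
  refine Finset.sum_congr rfl fun j _ => ?_
  rw [inner_smul_left, inner_smul_right, h i j, Complex.conj_ofReal]
  ring

theorem RealGram.norm_lc (h : RealGram l Q) (a : J → ℝ) :
    ‖lc l a‖ ^ 2 = ∑ i, ∑ j, a i * Q i j * a j := by
  have h1 := h.inner_lc a a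
  rw [inner_self_eq_norm_sq_to_K] at h1
  have h2 : ((‖lc l a‖ ^ 2 : ℝ) : ℂ) = ((∑ i, ∑ j, a i * Q i j * a j : ℝ) : ℂ) := by
    rw [← h1]; push_cast; rfl
  exact Complex.ofReal_injective h2

theorem RealGram.posSemidef (h : RealGram l Q) : Q.PosSemidef := by
  refine Matrix.PosSemidef.of_dotProduct_mulVec_nonneg ?_ fun v => ?_
  · ext i j
    rw [Matrix.conjTranspose_apply, star_trivial]
    have h1 := h i j
    have h2 := h j i
    rw [← inner_conj_symm, h2, Complex.conj_ofReal] at h1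
    exact_mod_cast h1
  · have h1 := h.norm_lc v
    have h2 : star v ⬝ᵥ Matrix.mulVec Q v = ∑ i, ∑ j, v i * Q i j * v j := by
      simp only [dotProduct, Matrix.mulVec, star_trivial, Finset.mul_sum]
      refine Finset.sum_congr rfl fun i _ => Finset.sum_congr rfl fun j _ => by ring
    rw [h2, ← h1]
    positivity

/-- Weyl operators of the labels -/
def Wl (l : J → K) (a : J → ℝ) : BF K := Wy (lc l a)

theorem RealGram.Wl_mul (h : RealGram l Q) (a b : J → ℝ) : Wl l a * Wl l b = Wl l (a + b) := by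
  rw [Wl, Wl, Wy_mul, h.inner_lc, Complex.ofReal_im, Wl, lc_add]
  simp

theorem RealGram.Wl_coh (h : RealGram l Q) (a b : J → ℝ) :
    Wl l a (coh (lc l b)) = coh (lc l (a + b)) := by
  rw [← Wy_vac, ← Wy_vac]
  exact congrArg (fun A : BF K => A vac) (h.Wl_mul a b)

theorem star_Wl (a : J → ℝ) : star (Wl l a) = Wl l (-a) := by
  rw [Wl, Wl, star_Wy, lc_neg]

/-- `T(φ(l))` -/
def fld (l : J → K) (T : TP J) : BF K :=
  ∑ k, ((T.c k : ℂ) * (-(Complex.I) / 2)) • (Wl l (T.a k) - Wl l (-T.a k))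

theorem star_fld (T : TP J) : star (fld l T) = fld l T := by
  unfold fld
  rw [star_sum]
  refine Finset.sum_congr rfl fun k _ => ?_
  rw [star_smul, star_sub, star_Wl, star_Wl, neg_neg, ← neg_sub (Wl l (T.a k)), smul_neg,
    ← neg_smul]
  congr 1
  have h2 : star (2 : ℂ) = 2 := by simp
  simp only [star_mul', star_div₀, star_neg, h2, RCLike.star_def, Complex.conj_ofReal,
    Complex.conj_I]
  ring

theorem RealGram.fld_coh (h : RealGram l Q) (T : TP J) (b : J → ℝ) :
    fld l T (coh (lc l b)) = ∑ k, ((T.c k : ℂ) * (-(Complex.I) / 2)) •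
      (coh (lc l (b + T.a k)) - coh (lc l (b - T.a k))) := by
  unfold fld
  rw [sum_apply]
  refine Finset.sum_congr rfl fun k _ => ?_
  rw [smul_apply, sub_apply, h.Wl_coh, h.Wl_coh, add_comm (T.a k) b,
    show -T.a k + b = b - T.a k by abel]

/-- the character -/
theorem ev_eq_sum (T : TP J) (x : J → ℝ) : ((T.ev x : ℝ) : ℂ) =
    ∑ k, ((T.c k : ℂ) * (-(Complex.I) / 2)) *
      (Trig.ex (T.a k) x - Trig.ex (-T.a k) x) := by
  unfold TP.ev Trig.ex
  push_cast
  refine Finset.sum_congr rfl fun k _ => ?_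
  have e1 : ∑ i, (((-T.a k) i : ℝ) : ℂ) * (x i : ℂ) = - ∑ i, ((T.a k i : ℝ) : ℂ) * (x i : ℂ) := by
    rw [← Finset.sum_neg_distrib]
    refine Finset.sum_congr rfl fun i _ => ?_
    rw [Pi.neg_apply]; push_cast; ring
  rw [e1, Complex.sin]
  ring

theorem ex_neg_mul (a b : J → ℝ) (x : J → ℝ) : Trig.ex a x * Trig.ex b x = Trig.ex (a + b) x :=
  congrFun (Trig.ex_mul a b) x

theorem norm_ex (a : J → ℝ) (x : J → ℝ) : ‖Trig.ex a x‖ = 1 := by
  unfold Trig.ex
  exact Complex.norm_exp_ofReal_mul_I _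

theorem continuous_ex (a : J → ℝ) : Continuous (Trig.ex a) := by
  unfold Trig.ex; fun_prop

theorem RealGram.inner_coh_coh (h : RealGram l Q) (a b : J → ℝ) :
    ⟪coh (lc l a), coh (lc l b)⟫_ℂ = ∫ x, Trig.ex (b - a) x ∂gl Q := by
  unfold Trig.ex
  rw [Trig.charFun_gl h.posSemidef, inner_coh, normSq_sub_div, h.inner_lc, Complex.ofReal_im]
  have e : lc l a - lc l b = lc l (a - b) := by
    rw [sub_eq_add_neg, sub_eq_add_neg, lc_add, lc_neg]
  rw [e, h.norm_lc]
  congr 1
  push_cast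
  have e2 : ∑ i, ∑ j, (((a - b) i : ℝ) : ℂ) * (Q i j : ℂ) * (((a - b) j : ℝ) : ℂ) =
      ∑ i, ∑ j, (((b - a) i : ℝ) : ℂ) * (Q i j : ℂ) * (((b - a) j : ℝ) : ℂ) := by
    refine Finset.sum_congr rfl fun i _ => Finset.sum_congr rfl fun j _ => ?_
    simp only [Pi.sub_apply]; push_cast; ring
  rw [e2]
  ring

theorem integrable_ex_mul (Q : Matrix J J ℝ) (b : J → ℝ) {f : (J → ℝ) → ℂ} (hf : Continuous f)
    {C : ℝ} (hC : ∀ x, ‖f x‖ ≤ C) : Integrable (fun x => Trig.ex b x * f x) (gl Q) := by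
  refine (integrable_const C).mono' ((continuous_ex b).mul hf).aestronglyMeasurable
    (Eventually.of_forall fun x => ?_)
  rw [norm_mul, norm_ex, one_mul]
  exact hC x

/-- `⟨coh b, T(φ)ⁿ vac⟩ = E[e^{-ib·x} T(x)ⁿ]` -/
theorem RealGram.inner_coh_fld_pow (h : RealGram l Q) (T : TP J) (n : ℕ) : ∀ b : J → ℝ,
    ⟪coh (lc l b), (fld l T ^ n) vac⟫_ℂ = ∫ x, Trig.ex (-b) x * ((T.ev x : ℝ) : ℂ) ^ n ∂gl Q := by
  induction n with
  | zero =>
    intro b
    have h1 := h.inner_coh_coh b 0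
    rw [lc_zero, zero_sub] at h1
    simp only [pow_zero, mul_one]
    exact h1
  | succ n ih =>
    intro b
    have h1 : (fld l T ^ (n + 1)) vac = fld l T ((fld l T ^ n) vac) := by
      rw [pow_succ']; rfl
    have h2 : ∀ v : Fock K, ⟪coh (lc l b), fld l T v⟫_ℂ = ⟪fld l T (coh (lc l b)), v⟫_ℂ := by
      intro v
      rw [← ContinuousLinearMap.adjoint_inner_left, ← ContinuousLinearMap.star_eq_adjoint, star_fld]
    rw [h1, h2, h.fld_coh, sum_inner]
    have h3 : ∀ x, Trig.ex (-b) x * ((T.ev x : ℝ) : ℂ) ^ (n + 1) =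
        ∑ k, (starRingEnd ℂ) ((T.c k : ℂ) * (-(Complex.I) / 2)) *
          (Trig.ex (-(b + T.a k)) x * ((T.ev x : ℝ) : ℂ) ^ n -
            Trig.ex (-(b - T.a k)) x * ((T.ev x : ℝ) : ℂ) ^ n) := by
      intro x
      rw [pow_succ, mul_comm (((T.ev x : ℝ) : ℂ) ^ n), ← mul_assoc]
      conv_lhs => rw [ev_eq_sum T x]
      rw [Finset.mul_sum, Finset.sum_mul]
      refine Finset.sum_congr rfl fun k _ => ?_
      have e1 : Trig.ex (-(b + T.a k)) x = Trig.ex (-b) x * Trig.ex (-T.a k) x := by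
        rw [ex_neg_mul]; congr 1; abel
      have e2 : Trig.ex (-(b - T.a k)) x = Trig.ex (-b) x * Trig.ex (T.a k) x := by
        rw [ex_neg_mul]; congr 1; abel
      rw [e1, e2, ← ev_eq_sum]
      simp only [map_mul, map_div₀, map_neg, Complex.conj_ofReal, Complex.conj_I, map_ofNat]
      ring
    simp_rw [h3]
    have hb : ∀ x, ‖((T.ev x : ℝ) : ℂ) ^ n‖ ≤ (∑ k, |T.c k|) ^ n := by
      intro x
      rw [norm_pow, Complex.norm_real, Real.norm_eq_abs]
      exact pow_le_pow_left₀ (abs_nonneg _) (T.abs_ev_le x) n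
    have hc : Continuous fun x => ((T.ev x : ℝ) : ℂ) ^ n :=
      (Complex.continuous_ofReal.comp T.continuous_ev).pow n
    have hi : ∀ k : Fin T.N, Integrable (fun x => (starRingEnd ℂ) ((T.c k : ℂ) *
        (-(Complex.I) / 2)) * (Trig.ex (-(b + T.a k)) x * ((T.ev x : ℝ) : ℂ) ^ n -
            Trig.ex (-(b - T.a k)) x * ((T.ev x : ℝ) : ℂ) ^ n)) (gl Q) := fun k =>
      ((integrable_ex_mul Q _ hc hb).sub (integrable_ex_mul Q _ hc hb)).const_mul _
    rw [integral_finsetSum _ fun k _ => hi k]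
    refine Finset.sum_congr rfl fun k _ => ?_
    rw [integral_const_mul, integral_sub (integrable_ex_mul Q _ hc hb)
      (integrable_ex_mul Q _ hc hb), ← ih, ← ih, inner_smul_left, inner_sub_left]

/-- `∂_j (e^{ib·x} T(x)ⁿ)` -/
def Dp (T : TP J) (j : J) (b : J → ℝ) (n : ℕ) (x : J → ℝ) : ℂ :=
  Trig.ex b x * (Complex.I * (b j : ℂ) * ((T.ev x : ℝ) : ℂ) ^ n +
    n * ((T.ev x : ℝ) : ℂ) ^ (n - 1) * ((T.d j x : ℝ) : ℂ))

theorem d_eq_sum (T : TP J) (j : J) (x : J → ℝ) : ((T.d j x : ℝ) : ℂ) =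
    ∑ k, ((T.c k : ℂ) * (-(Complex.I) / 2)) * (Complex.I * (T.a k j : ℂ)) *
      (Trig.ex (T.a k) x + Trig.ex (-T.a k) x) := by
  unfold TP.d Trig.ex
  push_cast
  refine Finset.sum_congr rfl fun k _ => ?_
  have e1 : ∑ i, (((-T.a k) i : ℝ) : ℂ) * (x i : ℂ) = - ∑ i, ((T.a k i : ℝ) : ℂ) * (x i : ℂ) := by
    rw [← Finset.sum_neg_distrib]
    refine Finset.sum_congr rfl fun i _ => ?_
    rw [Pi.neg_apply]; push_cast; ring
  rw [e1, Complex.cos]
  have := Complex.I_sq
  linear_combination (-(1/2) * (T.c k : ℂ) * (T.a k j : ℂ) *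
    (Complex.exp ((∑ i, ((T.a k i : ℝ) : ℂ) * (x i : ℂ)) * Complex.I) +
      Complex.exp (-(∑ i, ((T.a k i : ℝ) : ℂ) * (x i : ℂ)) * Complex.I)) * -1) * this

theorem Dp_succ (T : TP J) (j : J) (b : J → ℝ) (n : ℕ) (x : J → ℝ) :
    Dp T j b (n + 1) x = ∑ k, ((T.c k : ℂ) * (-(Complex.I) / 2)) *
      (Dp T j (b + T.a k) n x - Dp T j (b - T.a k) n x) := by
  have h1 : ∀ k, ((T.c k : ℂ) * (-(Complex.I) / 2)) *
      (Dp T j (b + T.a k) n x - Dp T j (b - T.a k) n x) =
      Trig.ex b x * (Complex.I * (b j : ℂ) * ((T.ev x : ℝ) : ℂ) ^ n +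
        n * ((T.ev x : ℝ) : ℂ) ^ (n - 1) * ((T.d j x : ℝ) : ℂ)) *
        (((T.c k : ℂ) * (-(Complex.I) / 2)) * (Trig.ex (T.a k) x - Trig.ex (-T.a k) x)) +
      Trig.ex b x * ((T.ev x : ℝ) : ℂ) ^ n *
        (((T.c k : ℂ) * (-(Complex.I) / 2)) * (Complex.I * (T.a k j : ℂ)) *
          (Trig.ex (T.a k) x + Trig.ex (-T.a k) x)) := by
    intro k
    unfold Dp
    have e1 : Trig.ex (b + T.a k) x = Trig.ex b x * Trig.ex (T.a k) x := (ex_neg_mul _ _ _).symm
    have e2 : Trig.ex (b - T.a k) x = Trig.ex b x * Trig.ex (-T.a k) x := by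
      rw [ex_neg_mul, sub_eq_add_neg]
    rw [e1, e2]
    simp only [Pi.add_apply, Pi.sub_apply, Complex.ofReal_add, Complex.ofReal_sub]
    ring
  simp_rw [h1]
  rw [Finset.sum_add_distrib, ← Finset.mul_sum, ← Finset.mul_sum, ← ev_eq_sum, ← d_eq_sum]
  unfold Dp
  rcases n with _ | n
  · simp; ring
  · rw [show n + 1 + 1 - 1 = n + 1 from rfl, show n + 1 - 1 = n from rfl]
    push_cast
    ring

theorem continuous_Dp (T : TP J) (j : J) (b : J → ℝ) (n : ℕ) : Continuous (Dp T j b n) := by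
  have h1 : Continuous fun x => ((T.ev x : ℝ) : ℂ) := Complex.continuous_ofReal.comp T.continuous_ev
  have h2 : Continuous fun x => ((T.d j x : ℝ) : ℂ) :=
    Complex.continuous_ofReal.comp (T.continuous_d j)
  unfold Dp
  exact (continuous_ex b).mul ((continuous_const.mul (h1.pow n)).add
    ((continuous_const.mul (h1.pow (n - 1))).mul h2))

theorem integrable_Dp (Q : Matrix J J ℝ) (T : TP J) (j : J) (b : J → ℝ) (n : ℕ) :
    Integrable (Dp T j b n) (gl Q) := by
  set A := ∑ k, |T.c k| with hA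
  set B := ∑ k, |T.c k * T.a k j| with hB
  refine (integrable_const (|b j| * A ^ n + n * A ^ (n - 1) * B)).mono'
    (continuous_Dp T j b n).aestronglyMeasurable (Eventually.of_forall fun x => ?_)
  unfold Dp
  rw [norm_mul, norm_ex, one_mul]
  refine (norm_add_le _ _).trans ?_
  have h1 : ‖((T.ev x : ℝ) : ℂ)‖ ≤ A := by
    rw [Complex.norm_real, Real.norm_eq_abs]; exact T.abs_ev_le x
  have h2 : ‖((T.d j x : ℝ) : ℂ)‖ ≤ B := by
    rw [Complex.norm_real, Real.norm_eq_abs]; exact T.abs_d_le j x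
  have hA0 : 0 ≤ A := (norm_nonneg _).trans h1
  rw [norm_mul, norm_mul, norm_mul, norm_mul, norm_pow, norm_pow, Complex.norm_I, one_mul,
    Complex.norm_real, Real.norm_eq_abs, Complex.norm_natCast]
  gcongr

/-- `⟨φ(f) vac, e^{iφ(b)} T(φ)ⁿ vac⟩ = ∑_j ⟨f, l_j⟩ E[∂_j(e^{ib·x} T(x)ⁿ)]` -/
theorem RealGram.inner_one_fld_pow (h : RealGram l Q) (T : TP J) (f : K) (n : ℕ) : ∀ b : J → ℝ,
    ⟪one f, Wl l b ((fld l T ^ n) vac)⟫_ℂ = ∑ j, ⟪f, l j⟫_ℂ * ∫ x, Dp T j b n x ∂gl Q := by
  induction n with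
  | zero =>
    intro b
    have h0 : Wl l b ((fld l T ^ 0) vac) = coh (lc l b) := by
      rw [pow_zero]
      exact Wy_vac _
    rw [h0, ← inner_conj_symm, inner_coh_one]
    have h1 : ∀ j, ∫ x, Dp T j b 0 x ∂gl Q =
        Complex.I * (b j : ℂ) * Complex.exp (-((‖lc l b‖ ^ 2 / 2 : ℝ) : ℂ)) := by
      intro j
      unfold Dp
      simp only [pow_zero, mul_one, Nat.cast_zero, zero_mul, add_zero]
      rw [integral_mul_const]
      unfold Trig.ex
      rw [Trig.charFun_gl h.posSemidef, h.norm_lc]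
      rw [mul_comm]
      congr 2
      push_cast
      ring
    simp_rw [h1]
    have h2 : ⟪f, lc l b⟫_ℂ = ∑ j, ⟪f, l j⟫_ℂ * (b j : ℂ) := by
      unfold lc
      rw [inner_sum]
      refine Finset.sum_congr rfl fun j _ => ?_
      rw [inner_smul_right]; ring
    simp only [map_mul, map_neg, Complex.conj_I, neg_neg, inner_conj_symm, ← Complex.exp_conj,
      Complex.conj_ofReal]
    rw [h2, Finset.mul_sum, Finset.sum_mul]
    refine Finset.sum_congr rfl fun j _ => by ring
  | succ n ih =>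
    intro b
    have h1 : Wl l b ((fld l T ^ (n + 1)) vac) = ∑ k, ((T.c k : ℂ) * (-(Complex.I) / 2)) •
        (Wl l (b + T.a k) ((fld l T ^ n) vac) - Wl l (b - T.a k) ((fld l T ^ n) vac)) := by
      have e : Wl l b * fld l T = ∑ k, ((T.c k : ℂ) * (-(Complex.I) / 2)) •
          (Wl l (b + T.a k) - Wl l (b - T.a k)) := by
        unfold fld
        rw [Finset.mul_sum]
        refine Finset.sum_congr rfl fun k _ => ?_
        rw [mul_smul_comm, mul_sub, h.Wl_mul, h.Wl_mul, sub_eq_add_neg b]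
      have e2 : Wl l b ((fld l T ^ (n + 1)) vac) = (Wl l b * fld l T) ((fld l T ^ n) vac) := by
        rw [pow_succ']; rfl
      rw [e2, e, sum_apply]
      rfl
    rw [h1, inner_sum]
    simp_rw [inner_smul_right, inner_sub_right, ih, Dp_succ]
    have h2 : ∀ j, ∫ x, ∑ k, ((T.c k : ℂ) * (-(Complex.I) / 2)) *
        (Dp T j (b + T.a k) n x - Dp T j (b - T.a k) n x) ∂gl Q =
        ∑ k, ((T.c k : ℂ) * (-(Complex.I) / 2)) *
          (∫ x, Dp T j (b + T.a k) n x ∂gl Q - ∫ x, Dp T j (b - T.a k) n x ∂gl Q) := by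
      intro j
      have hi : ∀ k : Fin T.N, Integrable (fun x => ((T.c k : ℂ) * (-(Complex.I) / 2)) *
        (Dp T j (b + T.a k) n x - Dp T j (b - T.a k) n x)) (gl Q) := fun k =>
        ((integrable_Dp Q T j _ n).sub (integrable_Dp Q T j _ n)).const_mul _
      rw [integral_finsetSum _ fun k _ => hi k]
      refine Finset.sum_congr rfl fun k _ => ?_
      rw [integral_const_mul, integral_sub (integrable_Dp Q T j _ n) (integrable_Dp Q T j _ n)]
    simp_rw [h2, Finset.mul_sum]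
    rw [Finset.sum_comm]
    refine Finset.sum_congr rfl fun k _ => ?_
    rw [← Finset.sum_sub_distrib, Finset.mul_sum]
    refine Finset.sum_congr rfl fun j _ => by ring

/-! ### Exponentials -/

open NormedSpace in
theorem hasSum_exp_inner (A : BF K) (z : ℂ) (v w : Fock K) :
    HasSum (fun n : ℕ => (((n.factorial : ℂ))⁻¹ * z ^ n) * ⟪v, (A ^ n) w⟫_ℂ)
      ⟪v, (exp (z • A)) w⟫_ℂ := by
  have h1 := exp_series_hasSum_exp' (𝕂 := ℂ) (z • A)
  have h2 := (h1.mapL (ContinuousLinearMap.apply ℂ (Fock K) w)).mapL (innerSL ℂ v)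
  refine h2.congr_fun fun n => ?_
  simp only [smul_pow, map_smul, ContinuousLinearMap.apply_apply, innerSL_apply_apply, smul_eq_mul]
  ring

theorem hasSum_integral_exp {α : Type*} [MeasurableSpace α] (μ : Measure α)
    [IsProbabilityMeasure μ] {g : α → ℂ} {T : α → ℝ} (hg : AEStronglyMeasurable g μ)
    (hT : AEStronglyMeasurable T μ) {C M : ℝ} (hC : ∀ x, ‖g x‖ ≤ C) (hM : ∀ x, |T x| ≤ M) (z : ℂ) :
    HasSum (fun n : ℕ => (((n.factorial : ℂ))⁻¹ * z ^ n) * ∫ x, g x * ((T x : ℝ) : ℂ) ^ n ∂μ)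
      (∫ x, g x * Complex.exp (z * (T x : ℂ)) ∂μ) := by
  have hT' : AEStronglyMeasurable (fun x => ((T x : ℝ) : ℂ)) μ :=
    Complex.continuous_ofReal.comp_aestronglyMeasurable hT
  have hC0 : ∀ x, 0 ≤ C := fun x => (norm_nonneg _).trans (hC x)
  set F : ℕ → α → ℂ := fun n x => (((n.factorial : ℂ))⁻¹ * z ^ n) * (g x * ((T x : ℝ) : ℂ) ^ n)
    with hF
  have hb : ∀ n x, ‖F n x‖ ≤ |C| * ((n.factorial : ℝ)⁻¹ * (‖z‖ * |M|) ^ n) := by
    intro n x
    simp only [hF]
    rw [norm_mul, norm_mul, norm_mul, norm_inv, norm_pow, norm_pow, Complex.norm_real,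
      Complex.norm_natCast, Real.norm_eq_abs, mul_pow]
    have h1 : ‖g x‖ ≤ |C| := (hC x).trans (le_abs_self _)
    have h2 : |T x| ≤ |M| := (hM x).trans (le_abs_self _)
    calc (n.factorial : ℝ)⁻¹ * ‖z‖ ^ n * (‖g x‖ * |T x| ^ n)
        ≤ (n.factorial : ℝ)⁻¹ * ‖z‖ ^ n * (|C| * |M| ^ n) := by gcongr
      _ = _ := by ring
  have hm : ∀ n, AEStronglyMeasurable (F n) μ := fun n =>
    (hg.mul (hT'.pow n)).const_mul _
  have hint : ∀ n, Integrable (F n) μ := fun n =>
    (integrable_const _).mono' (hm n) (Eventually.of_forall (hb n))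
  have hsum : Summable fun n => ∫ x, ‖F n x‖ ∂μ := by
    have hs : Summable fun n : ℕ => |C| * ((n.factorial : ℝ)⁻¹ * (‖z‖ * |M|) ^ n) := by
      refine Summable.mul_left _ ?_
      have := Real.summable_pow_div_factorial (‖z‖ * |M|)
      refine this.congr fun n => ?_
      rw [div_eq_inv_mul]
    refine hs.of_nonneg_of_le (fun n => integral_nonneg fun x => norm_nonneg _) fun n => ?_
    refine (integral_mono (hint n).norm (integrable_const _) (hb n)).trans ?_
    simp
  have h := hasSum_integral_of_summable_integral_norm hint hsum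
  have e1 : ∀ n, ∫ x, F n x ∂μ = (((n.factorial : ℂ))⁻¹ * z ^ n) *
      ∫ x, g x * ((T x : ℝ) : ℂ) ^ n ∂μ := fun n => integral_const_mul _ _
  have e2 : ∀ x, ∑' n, F n x = g x * Complex.exp (z * (T x : ℂ)) := by
    intro x
    rw [Complex.exp_eq_exp_ℂ, NormedSpace.exp_eq_tsum_div]
    simp only [hF]
    rw [← tsum_mul_left]
    refine tsum_congr fun n => ?_
    rw [mul_pow]
    field_simp
  simp_rw [e1, e2] at h
  exact h

open NormedSpace in
/-- `⟨coh b, e^{zT(φ)} vac⟩ = E[e^{-ib·x} e^{zT(x)}]` -/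
theorem RealGram.inner_coh_exp (h : RealGram l Q) (T : TP J) (z : ℂ) (b : J → ℝ) :
    ⟪coh (lc l b), (exp (z • fld l T)) vac⟫_ℂ =
      ∫ x, Trig.ex (-b) x * Complex.exp (z * ((T.ev x : ℝ) : ℂ)) ∂gl Q := by
  have h1 := hasSum_exp_inner (fld l T) z (coh (lc l b)) vac
  have h2 := hasSum_integral_exp (gl Q) (g := Trig.ex (-b)) (T := T.ev)
    (continuous_ex _).aestronglyMeasurable T.continuous_ev.aestronglyMeasurable
    (C := 1) (M := ∑ k, |T.c k|) (fun x => (norm_ex _ x).le) (fun x => T.abs_ev_le x) z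
  simp_rw [h.inner_coh_fld_pow] at h1
  exact h1.unique h2

open NormedSpace in
/-- `⟨φ(f) vac, e^{zT(φ)} vac⟩ = ∑_j ⟨f, l_j⟩ E[z ∂_jT e^{zT}]` -/
theorem RealGram.inner_one_exp (h : RealGram l Q) (T : TP J) (z : ℂ) (f : K) :
    ⟪one f, (exp (z • fld l T)) vac⟫_ℂ = ∑ j, ⟪f, l j⟫_ℂ *
      (z * ∫ x, ((T.d j x : ℝ) : ℂ) * Complex.exp (z * ((T.ev x : ℝ) : ℂ)) ∂gl Q) := by
  have h1 := hasSum_exp_inner (fld l T) z (one f) vac
  have h0 : ∀ n, ⟪one f, (fld l T ^ n) vac⟫_ℂ = ∑ j, ⟪f, l j⟫_ℂ * ∫ x, Dp T j 0 n x ∂gl Q := by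
    intro n
    have := h.inner_one_fld_pow T f n 0
    have e : Wl l (0 : J → ℝ) = 1 := by unfold Wl; rw [lc_zero, Wy_zero]
    rw [e] at this
    exact this
  have hD : ∀ j, HasSum (fun n : ℕ => (((n.factorial : ℂ))⁻¹ * z ^ n) *
      ∫ x, Dp T j 0 n x ∂gl Q)
      (z * ∫ x, ((T.d j x : ℝ) : ℂ) * Complex.exp (z * ((T.ev x : ℝ) : ℂ)) ∂gl Q) := by
    intro j
    have h2 := (hasSum_integral_exp (gl Q) (g := fun x => ((T.d j x : ℝ) : ℂ)) (T := T.ev)
      (Complex.continuous_ofReal.comp (T.continuous_d j)).aestronglyMeasurable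
      T.continuous_ev.aestronglyMeasurable
      (C := ∑ k, |T.c k * T.a k j|) (M := ∑ k, |T.c k|) (fun x => by
        rw [Complex.norm_real, Real.norm_eq_abs]; exact T.abs_d_le j x)
      (fun x => T.abs_ev_le x) z).mul_left z
    rw [← hasSum_nat_add_iff' 1]
    have e0 : ∑ i ∈ Finset.range 1, (((i.factorial : ℂ))⁻¹ * z ^ i) *
        ∫ x, Dp T j 0 i x ∂gl Q = 0 := by
      simp [Dp]
    rw [e0, sub_zero]
    refine h2.congr_fun fun n => ?_
    have e1 : ∀ x, Dp T j 0 (n + 1) x =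
        ((n : ℂ) + 1) * (((T.d j x : ℝ) : ℂ) * ((T.ev x : ℝ) : ℂ) ^ n) := by
      intro x
      have e2 : Trig.ex (0 : J → ℝ) x = 1 := by simp [Trig.ex]
      unfold Dp
      rw [e2]
      simp only [Pi.zero_apply, Complex.ofReal_zero, mul_zero, zero_mul, zero_add, one_mul,
        Nat.add_sub_cancel]
      push_cast
      ring
    simp_rw [e1]
    rw [integral_const_mul, Nat.factorial_succ]
    push_cast
    have hn : ((n : ℂ) + 1) ≠ 0 := Nat.cast_add_one_ne_zero n
    have hf : ((n.factorial : ℂ)) ≠ 0 := by exact_mod_cast n.factorial_ne_zero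
    field_simp
    ring
  have h3 : HasSum (fun n : ℕ => (((n.factorial : ℂ))⁻¹ * z ^ n) *
      ∑ j, ⟪f, l j⟫_ℂ * ∫ x, Dp T j 0 n x ∂gl Q) (∑ j, ⟪f, l j⟫_ℂ *
      (z * ∫ x, ((T.d j x : ℝ) : ℂ) * Complex.exp (z * ((T.ev x : ℝ) : ℂ)) ∂gl Q)) := by
    have := hasSum_sum (s := Finset.univ) fun j _ => (hD j).mul_left ⟪f, l j⟫_ℂ
    refine this.congr_fun fun n => ?_
    rw [Finset.mul_sum]
    refine Finset.sum_congr rfl fun j _ => by ring
  simp_rw [h0] at h1
  exact h1.unique h3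

end Crest.Agent.R339.FE
end
end

-- ▼ part R339/FE716b
section

/-!
# Row 339, part (C): the energy of the final state in the site model

The final unitary is `U = D * exp A` where `A` is (half) the generator of the rotation about the
`Y` axis by the angle `Θ(φ(l))`, and `D` commutes with the spin and with `A`.  The energy is the
`value` of the trigonometric scheme.
-/

set_option autoImplicit false
set_option linter.unusedSectionVars false

noncomputable section

open scoped ComplexConjugate InnerProductSpace Topology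
open Filter MeasureTheory
open Crest.MathPhysics.SpinGlass
open Crest.Agent.R339.Site

namespace Crest.Agent.R339.FE

open Crest.Agent.R339.Trig (gl TP TrigScheme)

variable {K : Type*} [NormedAddCommGroup K] [InnerProductSpace ℂ K]

/-- the real rotation generator: `rotM F = -i F ⊗ Y`, entries `0, ∓F` -/
def rotM (F : BF K) : Matrix Bool Bool (BF K) := Matrix.of fun b b' =>
  if b = b' then 0 else ((spinSign b' : ℝ) : ℂ) • F

/-- `(⟨+| ⊗ 1) v` -/
def plusP : Sp K →L[ℂ] Fock K :=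
  ((((1 : ℝ) / Real.sqrt 2 : ℝ) : ℂ)) • (∑ b : Bool,
    (PiLp.proj 2 (fun _ : Bool => Fock K) b : Sp K →L[ℂ] Fock K))

theorem plusP_apply (v : Sp K) : plusP v = ((((1 : ℝ) / Real.sqrt 2 : ℝ) : ℂ)) • (v true + v false) := by
  simp [plusP]

theorem inner_Sop (ι : Sp K →ₗᵢ[ℂ] K) (v w : Sp K) :
    ⟪v, Sop ι w⟫_ℂ = ⟪plusP v, one (ι w)⟫_ℂ := by
  have e : Sop ι w = WithLp.toLp 2 fun _ => (((1 : ℝ) / Real.sqrt 2 : ℝ) : ℂ) • one (ι w) := rfl
  rw [e, PiLp.inner_apply, plusP_apply, inner_smul_left, inner_add_left, Fintype.sum_bool]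
  simp only [inner_smul_right, Complex.conj_ofReal]
  ring

/-- `|+⟩ ⊗ v` -/
def plusV (v : Fock K) : Sp K := WithLp.toLp 2 fun _ => (((1 : ℝ) / Real.sqrt 2 : ℝ) : ℂ) • v

theorem inner_plusV (v : Fock K) (w : Sp K) : ⟪plusV v, w⟫_ℂ = ⟪v, plusP w⟫_ℂ := by
  rw [plusV, PiLp.inner_apply, plusP_apply, inner_smul_right, inner_add_right, Fintype.sum_bool]
  simp only [inner_smul_left, Complex.conj_ofReal]
  ring

/-- the eigenvectors of `Y` (`s = ±1`) -/
def yV (s : ℝ) : Fock K →L[ℂ] Sp K :=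
  ((PiLp.continuousLinearEquiv 2 ℂ (fun _ : Bool => Fock K)).symm :
    (Bool → Fock K) →L[ℂ] Sp K) ∘L
    (ContinuousLinearMap.pi fun b => if b then ((s : ℂ) * Complex.I) • (1 : BF K) else 1)

theorem yV_true (s : ℝ) (v : Fock K) : yV s v true = ((s : ℂ) * Complex.I) • v := by
  simp [yV]

theorem yV_false (s : ℝ) (v : Fock K) : yV s v false = v := by
  simp [yV]

theorem rotM_yV (F : BF K) {s : ℝ} (hs : s * s = 1) :
    opM (rotM F) ∘L yV s = yV s ∘L ((-(Complex.I) * (s : ℂ)) • F) := by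
  refine ContinuousLinearMap.ext fun v => ?_
  ext b
  have hs' : (s : ℂ) * (s : ℂ) = 1 := by exact_mod_cast hs
  rw [ContinuousLinearMap.comp_apply, ContinuousLinearMap.comp_apply, opM_apply, Fintype.sum_bool]
  cases b
  · rw [yV_true, yV_false, yV_false]
    simp only [rotM, Matrix.of_apply, if_true, spinSign]
    simp [mul_comm]
  · rw [yV_true, yV_false, yV_true]
    simp only [rotM, Matrix.of_apply, if_true, spinSign]
    simp only [Bool.true_eq_false, if_false, zero_apply, zero_add, smul_apply,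
      smul_smul, Bool.false_eq_true]
    congr 1
    have := Complex.I_mul_I
    simp
    linear_combination ((s : ℂ) * (s : ℂ)) * this - hs'

open NormedSpace in
/-- intertwining and exponentials -/
theorem exp_comp {E F : Type*} [NormedAddCommGroup E] [NormedSpace ℂ E] [CompleteSpace E]
    [NormedAddCommGroup F] [NormedSpace ℂ F] [CompleteSpace F] (A : F →L[ℂ] F) (B : E →L[ℂ] E)
    (T : E →L[ℂ] F) (h : A ∘L T = T ∘L B) : (exp A) ∘L T = T ∘L (exp B) := by
  have hn : ∀ n : ℕ, (A ^ n) ∘L T = T ∘L (B ^ n) := by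
    intro n
    induction n with
    | zero => rfl
    | succ n ih =>
      calc (A ^ (n + 1)) ∘L T = (A ^ n) ∘L (A ∘L T) := by rw [pow_succ]; rfl
        _ = ((A ^ n) ∘L T) ∘L B := by rw [h]; rfl
        _ = (T ∘L (B ^ n)) ∘L B := by rw [ih]
        _ = T ∘L (B ^ (n + 1)) := by rw [pow_succ]; rfl
  refine ContinuousLinearMap.ext fun v => ?_
  have h1 := (exp_series_hasSum_exp' (𝕂 := ℂ) A).mapL (ContinuousLinearMap.apply ℂ F (T v))
  have h2 := ((exp_series_hasSum_exp' (𝕂 := ℂ) B).mapL (ContinuousLinearMap.apply ℂ E v)).mapL T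
  have h3 : ∀ n : ℕ, (ContinuousLinearMap.apply ℂ F (T v)) (((n.factorial : ℂ))⁻¹ • A ^ n) =
      T ((ContinuousLinearMap.apply ℂ E v) (((n.factorial : ℂ))⁻¹ • B ^ n)) := by
    intro n
    simp only [ContinuousLinearMap.apply_apply, map_smul]
    congr 1
    exact congrArg (fun S : E →L[ℂ] F => S v) (hn n)
  simp_rw [h3] at h1
  exact h1.unique h2

open NormedSpace in
/-- the `|+⟩` component of `Z exp(-i F Y) Ω` is `- sin F vac` -/
theorem plusP_final (F : BF K) : plusP (Zop ((exp (opM (rotM F))) (Om : Sp K))) =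
    (Complex.I / 2) • ((exp (Complex.I • F)) vac - (exp ((-Complex.I) • F)) vac) := by
  have hsq : (((1 : ℝ) / Real.sqrt 2 : ℝ) : ℂ) * (((1 : ℝ) / Real.sqrt 2 : ℝ) : ℂ) = 1 / 2 := by
    rw [← Complex.ofReal_mul, div_mul_div_comm, Real.mul_self_sqrt (by norm_num)]
    norm_num
  set r : ℂ := (((1 : ℝ) / Real.sqrt 2 : ℝ) : ℂ) with hr
  have hOm : (Om : Sp K) = yV 1 ((r * (1 - Complex.I) / 2) • vac) +
      yV (-1) ((r * (1 + Complex.I) / 2) • vac) := by
    ext b
    have h0 : (Om : Sp K) b = r • vac := rfl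
    rw [h0, PiLp.add_apply]
    cases b
    · rw [yV_false, yV_false, ← add_smul]
      congr 1; ring
    · rw [yV_true, yV_true, smul_smul, smul_smul, ← add_smul]
      congr 1
      have := Complex.I_sq
      push_cast
      linear_combination (r * this)
  have e1 : ∀ (s : ℝ), s * s = 1 → ∀ v : Fock K, (exp (opM (rotM F))) (yV s v) =
      yV s ((exp ((-(Complex.I) * (s : ℂ)) • F)) v) := by
    intro s hs v
    exact congrArg (fun S : Fock K →L[ℂ] Sp K => S v) (exp_comp _ _ _ (rotM_yV F hs))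
  have e2 : ∀ (s : ℝ) (v : Fock K), plusP (Zop (yV s v)) = (r * (1 - (s : ℂ) * Complex.I)) • v := by
    intro s v
    rw [plusP_apply, ← hr, Zop_apply, Zop_apply, yV_true, yV_false, smul_smul, ← add_smul,
      smul_smul]
    congr 1
    have h1 : spinSign true = -1 := rfl
    have h2 : spinSign false = 1 := rfl
    rw [h1, h2]
    push_cast
    ring
  rw [hOm, map_add, map_add, map_add, e1 1 (by norm_num), e1 (-1) (by norm_num), e2, e2]
  simp only [map_smul, smul_smul, Complex.ofReal_one, mul_one, Complex.ofReal_neg, mul_neg, neg_neg,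
    smul_sub]
  have c1 : r * (1 - 1 * Complex.I) * (r * (1 - Complex.I) / 2) = -(Complex.I / 2) := by
    have := Complex.I_sq
    linear_combination ((1 - Complex.I) ^ 2 / 2) * hsq + (1 / 4) * this
  have c2 : r * (1 - -1 * Complex.I) * (r * (1 + Complex.I) / 2) = Complex.I / 2 := by
    have := Complex.I_sq
    linear_combination ((1 + Complex.I) ^ 2 / 2) * hsq + (1 / 4) * this
  rw [c1, c2, neg_smul, sub_eq_add_neg, add_comm]

variable {J : Type*} [Fintype J] [DecidableEq J] {l : J → K} {Q : Matrix J J ℝ}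


theorem cexp_sub (t : ℝ) : Complex.exp (Complex.I * (t : ℂ)) - Complex.exp (-Complex.I * (t : ℂ)) =
    2 * Complex.I * ((Real.sin t : ℝ) : ℂ) := by
  rw [Complex.ofReal_sin, Complex.sin]
  have := Complex.I_sq
  rw [show Complex.I * (t : ℂ) = (t : ℂ) * Complex.I by ring,
    show -Complex.I * (t : ℂ) = -(t : ℂ) * Complex.I by ring]
  linear_combination (Complex.exp (-(t : ℂ) * Complex.I) - Complex.exp ((t : ℂ) * Complex.I)) *
    (-1) * this

theorem cexp_add (t : ℝ) : Complex.exp (Complex.I * (t : ℂ)) + Complex.exp (-Complex.I * (t : ℂ)) =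
    2 * ((Real.cos t : ℝ) : ℂ) := by
  rw [Complex.ofReal_cos, Complex.cos]
  rw [show Complex.I * (t : ℂ) = (t : ℂ) * Complex.I by ring,
    show -Complex.I * (t : ℂ) = -(t : ℂ) * Complex.I by ring]
  ring

theorem integrable_mul_cexp (Q : Matrix J J ℝ) {f : (J → ℝ) → ℝ} (hf : Continuous f) {C : ℝ}
    (hC : ∀ x, |f x| ≤ C) (T : TP J) {z : ℂ} (hz : z = Complex.I ∨ z = -Complex.I) :
    Integrable (fun x => ((f x : ℝ) : ℂ) * Complex.exp (z * ((T.ev x : ℝ) : ℂ))) (gl Q) := by
  refine (integrable_const C).mono' ?_ (Eventually.of_forall fun x => ?_)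
  · exact ((Complex.continuous_ofReal.comp hf).mul (Complex.continuous_exp.comp
      (continuous_const.mul (Complex.continuous_ofReal.comp T.continuous_ev)))).aestronglyMeasurable
  · have h1 : ‖Complex.exp (z * ((T.ev x : ℝ) : ℂ))‖ = 1 := by
      rw [Complex.norm_exp]
      rcases hz with rfl | rfl <;> simp
    rw [norm_mul, h1, mul_one, Complex.norm_real, Real.norm_eq_abs]
    exact hC x

open NormedSpace in
/-- `⟨φ(f) vac, sin T(φ) vac⟩`, up to the factor of `plusP_final` -/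
theorem RealGram.inner_one_sin (h : RealGram l Q) (T : TP J) (f : K) :
    ⟪one f, (Complex.I / 2) • ((exp (Complex.I • fld l T)) vac - (exp ((-Complex.I) • fld l T)) vac)⟫_ℂ
      = -∑ j, ⟪f, l j⟫_ℂ * ((∫ x, Real.cos (T.ev x) * T.d j x ∂gl Q : ℝ) : ℂ) := by
  rw [inner_smul_right, inner_sub_right, h.inner_one_exp, h.inner_one_exp,
    ← Finset.sum_sub_distrib, Finset.mul_sum, ← Finset.sum_neg_distrib]
  refine Finset.sum_congr rfl fun j _ => ?_
  have hi1 := integrable_mul_cexp Q (T.continuous_d j) (T.abs_d_le j) T (Or.inl rfl)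
  have hi2 := integrable_mul_cexp Q (T.continuous_d j) (T.abs_d_le j) T (Or.inr rfl)
  have h1 : ∫ x, ((T.d j x : ℝ) : ℂ) * Complex.exp (Complex.I * ((T.ev x : ℝ) : ℂ)) ∂gl Q +
      ∫ x, ((T.d j x : ℝ) : ℂ) * Complex.exp (-Complex.I * ((T.ev x : ℝ) : ℂ)) ∂gl Q =
      2 * ((∫ x, Real.cos (T.ev x) * T.d j x ∂gl Q : ℝ) : ℂ) := by
    rw [← integral_add hi1 hi2, ← integral_complex_ofReal, ← integral_const_mul]
    refine integral_congr_ae (Eventually.of_forall fun x => ?_)
    simp only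
    rw [← mul_add, cexp_add]
    push_cast
    ring
  have := Complex.I_sq
  linear_combination (⟪f, l j⟫_ℂ * Complex.I ^ 2 / 2) * h1 +
    (⟪f, l j⟫_ℂ * ((∫ x, Real.cos (T.ev x) * T.d j x ∂gl Q : ℝ) : ℂ)) * this

/-- the vector `T(φ) vac` -/
theorem RealGram.inner_fld (h : RealGram l Q) (T' : TP J) (v : Fock K) :
    ⟪fld l T' vac, v⟫_ℂ = ∑ k, (starRingEnd ℂ) ((T'.c k : ℂ) * (-(Complex.I) / 2)) *
      (⟪coh (lc l (T'.a k)), v⟫_ℂ - ⟪coh (lc l (-T'.a k)), v⟫_ℂ) := by
  have h0 := h.fld_coh T' 0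
  rw [lc_zero] at h0
  have h1 : fld l T' vac = fld l T' (coh 0) := rfl
  rw [h1, h0, sum_inner]
  refine Finset.sum_congr rfl fun k _ => ?_
  rw [inner_smul_left, inner_sub_left, zero_add, zero_sub]

open NormedSpace in
theorem RealGram.inner_fld_exp (h : RealGram l Q) (T' T : TP J) {z : ℂ}
    (hz : z = Complex.I ∨ z = -Complex.I) :
    ⟪fld l T' vac, (exp (z • fld l T)) vac⟫_ℂ =
      ∫ x, ((T'.ev x : ℝ) : ℂ) * Complex.exp (z * ((T.ev x : ℝ) : ℂ)) ∂gl Q := by
  rw [h.inner_fld]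
  simp_rw [h.inner_coh_exp, neg_neg]
  have hc : Continuous fun x => Complex.exp (z * ((T.ev x : ℝ) : ℂ)) :=
    Complex.continuous_exp.comp (continuous_const.mul (Complex.continuous_ofReal.comp
      T.continuous_ev))
  have hn : ∀ x, ‖Complex.exp (z * ((T.ev x : ℝ) : ℂ))‖ ≤ 1 := by
    intro x
    rw [Complex.norm_exp]
    rcases hz with rfl | rfl <;> simp
  have hi := fun a => integrable_ex_mul Q a hc hn
  have h2 : ∀ x, ((T'.ev x : ℝ) : ℂ) * Complex.exp (z * ((T.ev x : ℝ) : ℂ)) =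
      ∑ k, (starRingEnd ℂ) ((T'.c k : ℂ) * (-(Complex.I) / 2)) *
        (Trig.ex (-T'.a k) x * Complex.exp (z * ((T.ev x : ℝ) : ℂ)) -
          Trig.ex (T'.a k) x * Complex.exp (z * ((T.ev x : ℝ) : ℂ))) := by
    intro x
    rw [ev_eq_sum, Finset.sum_mul]
    refine Finset.sum_congr rfl fun k _ => ?_
    simp only [map_mul, map_div₀, map_neg, Complex.conj_ofReal, Complex.conj_I, map_ofNat]
    ring
  simp_rw [h2]
  have hi' : ∀ k : Fin T'.N, Integrable (fun x => (starRingEnd ℂ) ((T'.c k : ℂ) *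
      (-(Complex.I) / 2)) * (Trig.ex (-T'.a k) x * Complex.exp (z * ((T.ev x : ℝ) : ℂ)) -
          Trig.ex (T'.a k) x * Complex.exp (z * ((T.ev x : ℝ) : ℂ)))) (gl Q) := fun k =>
    ((hi _).sub (hi _)).const_mul _
  rw [integral_finsetSum _ fun k _ => hi' k]
  refine Finset.sum_congr rfl fun k _ => ?_
  rw [integral_const_mul, integral_sub (hi _) (hi _)]

open NormedSpace in
theorem RealGram.inner_fld_sin (h : RealGram l Q) (T' T : TP J) :
    ⟪fld l T' vac, (Complex.I / 2) •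
      ((exp (Complex.I • fld l T)) vac - (exp ((-Complex.I) • fld l T)) vac)⟫_ℂ
      = -((∫ x, T'.ev x * Real.sin (T.ev x) ∂gl Q : ℝ) : ℂ) := by
  rw [inner_smul_right, inner_sub_right, h.inner_fld_exp T' T (Or.inl rfl),
    h.inner_fld_exp T' T (Or.inr rfl)]
  have hi1 := integrable_mul_cexp Q T'.continuous_ev T'.abs_ev_le T (Or.inl rfl)
  have hi2 := integrable_mul_cexp Q T'.continuous_ev T'.abs_ev_le T (Or.inr rfl)
  rw [← integral_sub hi1 hi2, ← integral_complex_ofReal, ← integral_const_mul, ← integral_neg]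
  refine integral_congr_ae (Eventually.of_forall fun x => ?_)
  simp only
  rw [← mul_sub, cexp_sub]
  have := Complex.I_sq
  push_cast
  linear_combination ((T'.ev x : ℂ) * Complex.sin (T.ev x : ℂ)) * this

end Crest.Agent.R339.FE
end
end

-- ▼ part R339/FE716c
section

/-!
# Row 339, part (C): the final energy is the value of the scheme

* `realGram_of_labels`: labels built by the state-evolution recursion have Gram matrix `S.Q`.
* `energy_final`: the energy of `U = D * exp (½ rotation by Θ(φ(l)) about Y)` is `S.value`.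
-/

set_option autoImplicit false
set_option linter.unusedSectionVars false

noncomputable section

open scoped ComplexConjugate InnerProductSpace Topology
open Filter MeasureTheory
open Crest.MathPhysics.SpinGlass
open Crest.Agent.R339.Site

namespace Crest.Agent.R339.FE

open Crest.Agent.R339.Trig (gl TP TrigScheme)

variable {K : Type*} [NormedAddCommGroup K] [InnerProductSpace ℂ K]

/-- the label vectors of a scheme: the label `0` is a unit vector orthogonal to the range of `ι`,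
the label `j+1` is `ι (|+⟩ ⊗ T_j(φ(l)) vac)` -/
structure Labels {m : ℕ} (S : TrigScheme m) (ι : Sp K →ₗᵢ[ℂ] K) (l : Fin (m + 1) → K) : Prop where
  norm0 : ‖l 0‖ = 1
  orth0 : ∀ v, ⟪l 0, ι v⟫_ℂ = 0
  succ : ∀ j : Fin m, l j.succ = ι (plusV (fld l (S.T j) vac))

/-- sharpened form: `⟪T'(φ) vac, T(φ) vac⟫ = E[T' T]` -/
theorem RealGram.inner_fld_fld {J : Type*} [Fintype J] [DecidableEq J] {l : J → K}
    {Q : Matrix J J ℝ} (h : RealGram l Q) (T' T : TP J) :
    ⟪fld l T' vac, fld l T vac⟫_ℂ = ((∫ x, T'.ev x * T.ev x ∂gl Q : ℝ) : ℂ) := by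
  rw [h.inner_fld]
  have h1 : ∀ b, ⟪coh (lc l b), fld l T vac⟫_ℂ = ∫ x, Trig.ex (-b) x * ((T.ev x : ℝ) : ℂ) ∂gl Q := by
    intro b
    have := h.inner_coh_fld_pow T 1 b
    simpa using this
  simp_rw [h1, neg_neg]
  have hc : Continuous fun x => ((T.ev x : ℝ) : ℂ) := Complex.continuous_ofReal.comp T.continuous_ev
  have hn : ∀ x, ‖((T.ev x : ℝ) : ℂ)‖ ≤ ∑ k, |T.c k| := by
    intro x
    rw [Complex.norm_real, Real.norm_eq_abs]; exact T.abs_ev_le x
  have hi := fun a => integrable_ex_mul Q a hc hn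
  rw [← integral_complex_ofReal]
  have h2 : ∀ x, ((T'.ev x * T.ev x : ℝ) : ℂ) =
      ∑ k, (starRingEnd ℂ) ((T'.c k : ℂ) * (-(Complex.I) / 2)) *
        (Trig.ex (-T'.a k) x * ((T.ev x : ℝ) : ℂ) - Trig.ex (T'.a k) x * ((T.ev x : ℝ) : ℂ)) := by
    intro x
    rw [Complex.ofReal_mul, ev_eq_sum T' x, Finset.sum_mul]
    refine Finset.sum_congr rfl fun k _ => ?_
    simp only [map_mul, map_div₀, map_neg, Complex.conj_ofReal, Complex.conj_I, map_ofNat]
    ring
  simp_rw [h2]
  have hi' : ∀ k : Fin T'.N, Integrable (fun x => (starRingEnd ℂ) ((T'.c k : ℂ) *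
      (-(Complex.I) / 2)) * (Trig.ex (-T'.a k) x * ((T.ev x : ℝ) : ℂ) -
          Trig.ex (T'.a k) x * ((T.ev x : ℝ) : ℂ))) (gl Q) := fun k =>
    ((hi _).sub (hi _)).const_mul _
  rw [integral_finsetSum _ fun k _ => hi' k]
  refine Finset.sum_congr rfl fun k _ => ?_
  rw [integral_const_mul, integral_sub (hi _) (hi _)]

theorem inner_plusV_plusV (v w : Fock K) : ⟪plusV v, plusV w⟫_ℂ = ⟪v, w⟫_ℂ := by
  rw [inner_plusV]
  congr 1
  rw [plusP_apply]
  have e : (plusV w : Sp K) true = (((1 : ℝ) / Real.sqrt 2 : ℝ) : ℂ) • w := rfl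
  have e' : (plusV w : Sp K) false = (((1 : ℝ) / Real.sqrt 2 : ℝ) : ℂ) • w := rfl
  rw [e, e', ← two_smul ℂ, smul_smul, smul_smul]
  have hsq : (((1 : ℝ) / Real.sqrt 2 : ℝ) : ℂ) * (((1 : ℝ) / Real.sqrt 2 : ℝ) : ℂ) = 1 / 2 := by
    rw [← Complex.ofReal_mul, div_mul_div_comm, Real.mul_self_sqrt (by norm_num)]
    norm_num
  have : (((1 : ℝ) / Real.sqrt 2 : ℝ) : ℂ) * 2 * (((1 : ℝ) / Real.sqrt 2 : ℝ) : ℂ) = 1 := by
    linear_combination 2 * hsq
  rw [this, one_smul]

/-- operators only see the labels up to their level -/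
theorem fld_congr {J : Type*} [Fintype J] [DecidableEq J] {l l' : J → K} (T : TP J)
    (h : ∀ k j, T.a k j ≠ 0 → l j = l' j) : fld l T = fld l' T := by
  unfold fld
  refine Finset.sum_congr rfl fun k _ => ?_
  have h1 : lc l (T.a k) = lc l' (T.a k) := by
    unfold lc
    refine Finset.sum_congr rfl fun j _ => ?_
    by_cases hj : T.a k j = 0
    · rw [hj]; simp
    · rw [h k j hj]
  have h2 : lc l (-T.a k) = lc l' (-T.a k) := by rw [lc_neg, lc_neg, h1]
  rw [Wl, Wl, Wl, Wl, h1, h2]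

/-- the labels have Gram matrix `S.Q` -/
theorem Labels.realGram {m : ℕ} {S : TrigScheme m} {ι : Sp K →ₗᵢ[ℂ] K} {l : Fin (m + 1) → K}
    (h : Labels S ι l) : RealGram l S.Q := by
  have key : ∀ n : ℕ, ∀ i j : Fin (m + 1), (i : ℕ) < n → (j : ℕ) < n →
      ⟪l i, l j⟫_ℂ = ((S.Q i j : ℝ) : ℂ) := by
    intro n
    induction n with
    | zero => intro i j hi; exact absurd hi (Nat.not_lt_zero _)
    | succ n ih =>
      -- truncated labels
      set l' : Fin (m + 1) → K := fun i => if (i : ℕ) < n then l i else 0 with hl'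
      set Q' : Matrix (Fin (m + 1)) (Fin (m + 1)) ℝ := Matrix.of fun i j =>
        if (i : ℕ) < n ∧ (j : ℕ) < n then S.Q i j else 0 with hQ'
      have hG : RealGram l' Q' := by
        intro i j
        simp only [hl', hQ', Matrix.of_apply]
        by_cases hi : (i : ℕ) < n
        · by_cases hj : (j : ℕ) < n
          · simp only [hi, hj, and_self, if_true, ih i j hi hj]
          · simp only [hj, and_false, if_false, inner_zero_right, Complex.ofReal_zero]
        · simp only [hi, false_and, if_false, inner_zero_left, Complex.ofReal_zero]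
      have hfld : ∀ j : Fin m, (j : ℕ) < n → fld l (S.T j) = fld l' (S.T j) := by
        intro j hj
        refine fld_congr _ fun k i hi => ?_
        have hij : (i : ℕ) ≤ j := by
          by_contra hc
          refine hi (S.causal j k i ?_)
          rw [Fin.lt_def, Fin.val_castSucc]
          omega
        simp only [hl']
        rw [if_pos (lt_of_le_of_lt hij hj)]
      intro i j
      refine Fin.cases ?_ (fun i' => ?_) i
      · refine Fin.cases ?_ (fun j' => ?_) j
        · intro _ _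
          rw [S.Q_zero_zero, inner_self_eq_norm_sq_to_K, h.norm0]
          simp
        · intro _ _
          rw [S.Q_zero_succ, h.succ j', h.orth0, Complex.ofReal_zero]
      · refine Fin.cases ?_ (fun j' => ?_) j
        · intro _ _
          rw [S.Q_succ_zero, h.succ i', ← inner_conj_symm, h.orth0, map_zero, Complex.ofReal_zero]
        · intro hi hj
          rw [Fin.val_succ] at hi hj
          rw [h.succ i', h.succ j', ι.inner_map_map, inner_plusV_plusV, hfld i' (by omega),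
            hfld j' (by omega), hG.inner_fld_fld, S.Q_succ_succ]
          congr 1
          refine Trig.integral_gl_congr hG.posSemidef S.posSemidef_Q
            (s := {i : Fin (m + 1) | (i : ℕ) < n}) (fun a ha b hb => ?_)
            ((TP.continuous_ev _).mul (TP.continuous_ev _)).stronglyMeasurable ?_
          · simp only [hQ', Matrix.of_apply]
            rw [if_pos ⟨ha, hb⟩]
          · intro x y hxy
            have e : ∀ j : Fin m, (j : ℕ) < n → (S.T j).ev x = (S.T j).ev y := by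
              intro j hj
              unfold TP.ev
              refine Finset.sum_congr rfl fun k _ => ?_
              have h2 : ∑ i, (S.T j).a k i * x i = ∑ i, (S.T j).a k i * y i := by
                refine Finset.sum_congr rfl fun i _ => ?_
                by_cases hi : (i : ℕ) < n
                · rw [hxy i hi]
                · rw [S.causal j k i (by rw [Fin.lt_def, Fin.val_castSucc]; omega), zero_mul,
                    zero_mul]
              rw [h2]
            simp only [e i' (by omega), e j' (by omega)]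
  intro i j
  exact key (m + 1) i j i.2 j.2

/-- one step of the construction of the labels -/
def labStep {m : ℕ} (S : TrigScheme m) (ι : Sp K →ₗᵢ[ℂ] K) (s : K) (l : Fin (m + 1) → K) :
    Fin (m + 1) → K := Fin.cons s fun j => ι (plusV (fld l (S.T j) vac))

theorem labStep_zero {m : ℕ} (S : TrigScheme m) (ι : Sp K →ₗᵢ[ℂ] K) (s : K)
    (l : Fin (m + 1) → K) : labStep S ι s l 0 = s := rfl

theorem labStep_succ {m : ℕ} (S : TrigScheme m) (ι : Sp K →ₗᵢ[ℂ] K) (s : K)
    (l : Fin (m + 1) → K) (j : Fin m) :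
    labStep S ι s l j.succ = ι (plusV (fld l (S.T j) vac)) := rfl

theorem labStep_agree {m : ℕ} (S : TrigScheme m) (ι : Sp K →ₗᵢ[ℂ] K) (s : K) (n : ℕ)
    {l l' : Fin (m + 1) → K} (h : ∀ i : Fin (m + 1), (i : ℕ) < n → l i = l' i)
    (i : Fin (m + 1)) (hi : (i : ℕ) < n + 1) : labStep S ι s l i = labStep S ι s l' i := by
  induction i using Fin.cases with
  | zero => rw [labStep_zero, labStep_zero]
  | succ j =>
    rw [Fin.val_succ] at hi
    rw [labStep_succ, labStep_succ]
    have e : fld l (S.T j) = fld l' (S.T j) := by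
      refine fld_congr (S.T j) fun k i hi' => ?_
      refine h i ?_
      by_contra hc
      refine hi' (S.causal j k i ?_)
      rw [Fin.lt_def, Fin.val_castSucc]
      omega
    rw [e]

theorem labStep_iterate_agree {m : ℕ} (S : TrigScheme m) (ι : Sp K →ₗᵢ[ℂ] K) (s : K) (n : ℕ)
    (l l' : Fin (m + 1) → K) : ∀ i : Fin (m + 1), (i : ℕ) < n →
      (labStep S ι s)^[n] l i = (labStep S ι s)^[n] l' i := by
  induction n with
  | zero => intro i hi; exact absurd hi (Nat.not_lt_zero _)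
  | succ n ih =>
    intro i hi
    rw [Function.iterate_succ_apply', Function.iterate_succ_apply']
    exact labStep_agree S ι s n ih i hi


/-! ### The final unitary -/

theorem star_rotM {F : BF K} (hF : star F = F) : star (rotM F) = -rotM F := by
  ext b b' : 1
  rw [Matrix.star_apply, Matrix.neg_apply]
  simp only [rotM, Matrix.of_apply]
  by_cases h : b = b'
  · rw [if_pos h.symm, if_pos h]; simp
  · rw [if_neg (Ne.symm h), if_neg h, star_smul, hF, ← neg_smul]
    congr 1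
    simp only [RCLike.star_def, Complex.conj_ofReal]
    cases b <;> cases b' <;> simp_all [spinSign]

theorem zM_rotM (F : BF K) : (zM : Matrix Bool Bool (BF K)) * rotM F = -(rotM F * zM) := by
  ext b b' : 1
  rw [Matrix.neg_apply, zM, Matrix.diagonal_mul, Matrix.mul_diagonal]
  simp only [rotM, Matrix.of_apply]
  cases b <;> cases b' <;> simp [spinSign]

open NormedSpace in
/-- the algebra behind `eVec_final` -/
theorem alg_final {𝔸 : Type*} [NormedRing 𝔸] [NormedAlgebra ℂ 𝔸] [CompleteSpace 𝔸] [StarRing 𝔸]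
    [ContinuousStar 𝔸] {A Z D : 𝔸} (hA : star A = -A) (hZA : Z * A = -A * Z)
    (hD : star D * D = 1) (hDZ : Commute D Z) :
    star (D * exp A) * (Z * (D * exp A)) = Z * exp (A + A) := by
  let _ : NormedAlgebra ℚ 𝔸 := NormedAlgebra.restrictScalars ℚ ℂ 𝔸
  have hZe : Z * exp A = exp (-A) * Z := by
    have h1 := (exp_series_hasSum_exp' (𝕂 := ℂ) A).mul_left Z
    have h2 := (exp_series_hasSum_exp' (𝕂 := ℂ) (-A)).mul_right Z
    have h3 : ∀ n : ℕ, Z * (((n.factorial : ℂ))⁻¹ • A ^ n) =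
        (((n.factorial : ℂ))⁻¹ • (-A) ^ n) * Z := by
      intro n
      have h4 : SemiconjBy Z A (-A) := hZA
      have h5 := (h4.pow_right n).eq
      rw [mul_smul_comm, smul_mul_assoc, h5]
    simp_rw [h3] at h1
    exact h1.unique h2
  have hstar : star (D * exp A) = exp (-A) * star D := by
    rw [star_mul, star_exp, hA]
  have hexp : exp A * exp A = exp (A + A) := (exp_add_of_commute (Commute.refl A)).symm
  calc star (D * exp A) * (Z * (D * exp A))
      = exp (-A) * star D * ((Z * D) * exp A) := by rw [hstar, mul_assoc Z]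
    _ = exp (-A) * star D * ((D * Z) * exp A) := by rw [hDZ.eq]
    _ = exp (-A) * (star D * D) * (Z * exp A) := by simp only [mul_assoc]
    _ = exp (-A) * Z * exp A := by rw [hD, mul_one, mul_assoc]
    _ = Z * exp A * exp A := by rw [hZe]
    _ = Z * exp (A + A) := by rw [mul_assoc, hexp]

open NormedSpace in
/-- the energy vector of `U = D exp (½ rotM F)` in terms of `F` -/
theorem eVec_final (F : BF K) (hF : star F = F) {D : Sp K →L[ℂ] Sp K} (hD : star D * D = 1)
    (hDZ : Commute D Zop) (U : USp K)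
    (hU : (U : Sp K →L[ℂ] Sp K) = D * exp (opM (rotM ((1 / 2 : ℂ) • F)))) :
    eVec U = Zop ((exp (opM (rotM F))) (Om : Sp K)) := by
  have hF' : star ((1 / 2 : ℂ) • F) = (1 / 2 : ℂ) • F := by
    rw [star_smul, hF]
    congr 1
    simp
  have hneg : ∀ M : Matrix Bool Bool (BF K), opM (-M) = -opM M := fun M => map_neg opMHom M
  have hA : star (opM (rotM ((1 / 2 : ℂ) • F))) = -opM (rotM ((1 / 2 : ℂ) • F)) := by
    rw [opM_star, star_rotM hF', hneg]
  have hZA : (Zop : Sp K →L[ℂ] Sp K) * opM (rotM ((1 / 2 : ℂ) • F)) =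
      -opM (rotM ((1 / 2 : ℂ) • F)) * Zop := by
    rw [Zop, ← opM_mul, ← hneg, ← opM_mul, zM_rotM, neg_mul]
  have hAA : opM (rotM ((1 / 2 : ℂ) • F)) + opM (rotM ((1 / 2 : ℂ) • F)) = opM (rotM F) := by
    rw [← opM_add]
    congr 1
    ext b b' : 1
    rw [Matrix.add_apply]
    simp only [rotM, Matrix.of_apply]
    by_cases h : b = b'
    · simp [h]
    · rw [if_neg h, if_neg h, smul_smul, ← add_smul]
      congr 1
      ring
  have hmain := alg_final hA hZA hD hDZ
  rw [hAA, ← hU] at hmain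
  have := congrArg (fun S : Sp K →L[ℂ] Sp K => S Om) hmain
  exact this

open NormedSpace in
/-- **The energy of the final state is the value of the scheme.** -/
theorem energy_final {m : ℕ} {S : TrigScheme m} {ι : Sp K →ₗᵢ[ℂ] K} {l : Fin (m + 1) → K}
    (h : Labels S ι l) {D : Sp K →L[ℂ] Sp K} (hD : star D * D = 1) (hDZ : Commute D Zop)
    (U : USp K)
    (hU : (U : Sp K →L[ℂ] Sp K) = D * exp (opM (rotM ((1 / 2 : ℂ) • fld l S.Th)))) :
    energy ι U = S.value := by
  have hG := h.realGram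
  have he := eVec_final (fld l S.Th) (star_fld _) hD hDZ U hU
  have hP : plusP (eVec U) = (Complex.I / 2) • ((exp (Complex.I • fld l S.Th)) vac -
      (exp ((-Complex.I) • fld l S.Th)) vac) := by
    rw [he, plusP_final]
  unfold energy
  rw [inner_Sop, ← inner_conj_symm, Complex.conj_re, hP, hG.inner_one_sin, Complex.neg_re,
    Complex.re_sum, Fin.sum_univ_succ]
  have h0 : ⟪ι (eVec U), l 0⟫_ℂ = 0 := by rw [← inner_conj_symm, h.orth0, map_zero]
  have hj : ∀ j : Fin m, ⟪ι (eVec U), l j.succ⟫_ℂ =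
      ((-(∫ x, S.msg j x * S.out x ∂gl S.Q) : ℝ) : ℂ) := by
    intro j
    rw [h.succ j, ι.inner_map_map, ← inner_conj_symm, inner_plusV, hP, hG.inner_fld_sin]
    rw [map_neg, Complex.conj_ofReal, Complex.ofReal_neg]
    rfl
  rw [h0, zero_mul, Complex.zero_re, zero_add]
  simp_rw [hj, ← Complex.ofReal_mul, Complex.ofReal_re]
  unfold TrigScheme.value
  rw [← Finset.sum_neg_distrib]
  refine Finset.sum_congr rfl fun j _ => ?_
  have : ∫ x, Real.cos (S.Th.ev x) * S.Th.d j.succ x ∂gl S.Q = ∫ x, S.dout j.succ x ∂gl S.Q := rfl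
  rw [this]
  ring

end Crest.Agent.R339.FE
end
end

-- ▼ part R339/FEIL716a
section

/-!
# Row 339, part (C), block LI: label calculus in an abstract IL system, final energy

Port of `FE716a..c` to helper728's structure `ILSys`.
-/

set_option autoImplicit false
set_option linter.unusedSectionVars false

noncomputable section

open scoped ComplexConjugate InnerProductSpace Topology
open Filter MeasureTheory
open Crest.Agent.R339.Li

namespace Crest.Agent.R339.FEIL

open Crest.Agent.R339.Trig (gl TP TrigScheme)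
open Crest.Agent.R339.FE (lc lc_add lc_neg lc_zero RealGram Dp Dp_succ integrable_Dp continuous_Dp
  integrable_ex_mul ex_neg_mul norm_ex continuous_ex ev_eq_sum hasSum_integral_exp cexp_sub cexp_add
  integrable_mul_cexp)

variable {Λ H : Type*} [MeasurableSpace Λ] [NormedAddCommGroup H] [InnerProductSpace ℂ H]
  [CompleteSpace H] (I : ILSys Λ H)
variable {J : Type*} [Fintype J] [DecidableEq J] {l : J → H} {Q : Matrix J J ℝ}

/-- `sin φ(f)` -/
def snW (f : H) : H →L[ℂ] H := (-(Complex.I) / 2 : ℂ) • (I.W f - I.W (-f))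

/-- `T(φ(l))` -/
def fldI (l : J → H) (T : TP J) : H →L[ℂ] H := ∑ k, (T.c k : ℂ) • snW I (lc l (T.a k))

variable {I}

theorem inner_W_left (f : H) (v w : H) : ⟪I.W f v, w⟫_ℂ = ⟪v, I.W (-f) w⟫_ℂ := by
  rw [← I.W_star, ContinuousLinearMap.star_eq_adjoint, ContinuousLinearMap.adjoint_inner_right]

theorem inner_P_left {A : Set Λ} (hA : MeasurableSet A) (v w : H) :
    ⟪I.P A v, w⟫_ℂ = ⟪v, I.P A w⟫_ℂ := by
  conv_rhs => rw [← I.P_star A hA, ContinuousLinearMap.star_eq_adjoint,
    ContinuousLinearMap.adjoint_inner_right]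

theorem star_snW (f : H) : star (snW I f) = snW I f := by
  unfold snW
  rw [star_smul, star_sub, I.W_star, I.W_star, neg_neg, ← neg_sub, smul_neg, ← neg_smul]
  congr 1
  have h2 : star (2 : ℂ) = 2 := by simp
  simp only [star_div₀, star_neg, h2, RCLike.star_def, Complex.conj_I]
  ring

theorem star_fldI (T : TP J) : star (fldI I l T) = fldI I l T := by
  unfold fldI
  rw [star_sum]
  refine Finset.sum_congr rfl fun k _ => ?_
  rw [star_smul, star_snW, RCLike.star_def, Complex.conj_ofReal]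

theorem W_lc_mul (h : RealGram l Q) (a b : J → ℝ) :
    I.W (lc l a) * I.W (lc l b) = I.W (lc l (a + b)) := by
  rw [I.W_mul, h.inner_lc, Complex.ofReal_im, lc_add]
  simp

theorem fldI_mul_W (h : RealGram l Q) (T : TP J) (b : J → ℝ) :
    fldI I l T * I.W (lc l b) = ∑ k, ((T.c k : ℂ) * (-(Complex.I) / 2)) •
      (I.W (lc l (b + T.a k)) - I.W (lc l (b - T.a k))) := by
  unfold fldI snW
  rw [Finset.sum_mul]
  refine Finset.sum_congr rfl fun k _ => ?_
  rw [smul_mul_assoc, smul_mul_assoc, smul_smul, sub_mul, W_lc_mul h, ← lc_neg, W_lc_mul h,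
    add_comm (T.a k) b, show -T.a k + b = b - T.a k by abel]

theorem W_mul_fldI (h : RealGram l Q) (T : TP J) (b : J → ℝ) :
    I.W (lc l b) * fldI I l T = ∑ k, ((T.c k : ℂ) * (-(Complex.I) / 2)) •
      (I.W (lc l (b + T.a k)) - I.W (lc l (b - T.a k))) := by
  unfold fldI snW
  rw [Finset.mul_sum]
  refine Finset.sum_congr rfl fun k _ => ?_
  rw [mul_smul_comm, mul_smul_comm, smul_smul, mul_sub, W_lc_mul h, ← lc_neg, W_lc_mul h,
    sub_eq_add_neg b]

theorem P_fldI {A : Set Λ} (hA : MeasurableSet A) (T : TP J) :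
    Commute (I.P A) (fldI I l T) := by
  unfold fldI snW
  exact Commute.sum_right _ _ _ fun k _ =>
    (((I.P_W A _ hA).sub_right (I.P_W A _ hA)).smul_right _).smul_right _

theorem sg_fldI (M : Matrix Bool Bool ℂ) (T : TP J) : Commute (I.sg M) (fldI I l T) := by
  unfold fldI snW
  exact Commute.sum_right _ _ _ fun k _ =>
    (((I.sg_W M _).sub_right (I.sg_W M _)).smul_right _).smul_right _

/-- `⟪P_A W(h) Om, Om⟫` -/
theorem inner_PW_Om {A : Set Λ} (hA : MeasurableSet A) (f : H) :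
    ⟪I.P A (I.W f I.Om), I.Om⟫_ℂ = (I.μ.real A : ℂ) * Complex.exp (-((‖f‖ ^ 2 / 2 : ℝ) : ℂ)) := by
  rw [inner_P_left hA, inner_W_left]
  have h1 : I.W (-f) (I.P A I.Om) = I.P A (I.W (-f) I.Om) :=
    congrArg (fun S : H →L[ℂ] H => S I.Om) (I.P_W A (-f) hA).eq.symm
  rw [h1, I.inner_Om A _ hA, norm_neg]

/-- `⟪one f, P_A W(h) Om⟫` -/
theorem inner_one_PW {A : Set Λ} (hA : MeasurableSet A) (f h : H) :
    ⟪I.one f, I.P A (I.W h I.Om)⟫_ℂ =
      (I.μ.real A : ℂ) * (Complex.I * ⟪f, h⟫_ℂ * Complex.exp (-((‖h‖ ^ 2 / 2 : ℝ) : ℂ))) := by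
  have h1 : HasDerivAt (fun t : ℝ => ⟪I.W ((t : ℂ) • f) I.Om, I.P A (I.W h I.Om)⟫_ℂ)
      ⟪Complex.I • I.one f, I.P A (I.W h I.Om)⟫_ℂ 0 := by
    have := (I.one_deriv f).inner ℂ (hasDerivAt_const (0 : ℝ) (I.P A (I.W h I.Om)))
    simp only [inner_zero_right, zero_add] at this
    exact this
  have h2 : ∀ t : ℝ, ⟪I.W ((t : ℂ) • f) I.Om, I.P A (I.W h I.Om)⟫_ℂ =
      (I.μ.real A : ℂ) * Complex.exp ((t : ℂ) * ⟪f, h⟫_ℂ - ((‖h‖ ^ 2 / 2 : ℝ) : ℂ) -
        (t : ℂ) ^ 2 * ((‖f‖ ^ 2 / 2 : ℝ) : ℂ)) := by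
    intro t
    rw [inner_W_left]
    have e1 : I.W (-((t : ℂ) • f)) (I.P A (I.W h I.Om)) =
        I.P A ((I.W (-((t : ℂ) • f)) * I.W h) I.Om) :=
      congrArg (fun S : H →L[ℂ] H => S (I.W h I.Om)) (I.P_W A (-((t : ℂ) • f)) hA).eq.symm
    rw [e1, I.W_mul, smul_apply, map_smul, inner_smul_right, I.inner_Om A _ hA, mul_comm, mul_assoc,
      ← Complex.exp_add]
    congr 2
    have e2 : ‖-((t : ℂ) • f) + h‖ ^ 2 = t ^ 2 * ‖f‖ ^ 2 - 2 * t * (⟪f, h⟫_ℂ).re + ‖h‖ ^ 2 := by
      rw [@norm_add_sq ℂ, norm_neg, norm_smul, Complex.norm_real, mul_pow, Real.norm_eq_abs, sq_abs,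
        inner_neg_left, inner_smul_left, Complex.conj_ofReal]
      simp only [RCLike.re_eq_complex_re, Complex.neg_re, Complex.re_ofReal_mul]
      ring
    rw [e2, inner_neg_left, inner_smul_left, Complex.conj_ofReal, Complex.neg_im,
      Complex.im_ofReal_mul]
    conv_rhs => rw [← Complex.re_add_im ⟪f, h⟫_ℂ]
    push_cast
    ring
  simp_rw [h2] at h1
  have h3 : HasDerivAt (fun t : ℝ => (I.μ.real A : ℂ) * Complex.exp ((t : ℂ) * ⟪f, h⟫_ℂ -
      ((‖h‖ ^ 2 / 2 : ℝ) : ℂ) - (t : ℂ) ^ 2 * ((‖f‖ ^ 2 / 2 : ℝ) : ℂ)))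
      ((I.μ.real A : ℂ) * (Complex.exp (-((‖h‖ ^ 2 / 2 : ℝ) : ℂ)) * ⟪f, h⟫_ℂ)) 0 := by
    have g1 : HasDerivAt (fun t : ℝ => (t : ℂ)) 1 0 := Complex.ofRealCLM.hasDerivAt
    have g2 : HasDerivAt (fun t : ℝ => (t : ℂ) * ⟪f, h⟫_ℂ - ((‖h‖ ^ 2 / 2 : ℝ) : ℂ) -
        (t : ℂ) ^ 2 * ((‖f‖ ^ 2 / 2 : ℝ) : ℂ)) ⟪f, h⟫_ℂ 0 := by
      refine (((g1.mul_const ⟪f, h⟫_ℂ).sub_const (((‖h‖ ^ 2 / 2 : ℝ) : ℂ))).fun_sub
        ((g1.fun_pow 2).mul_const (((‖f‖ ^ 2 / 2 : ℝ) : ℂ)))).congr_deriv ?_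
      simp
    have := (g2.cexp).const_mul (I.μ.real A : ℂ)
    simpa using this
  have h4 := h1.unique h3
  rw [inner_smul_left, Complex.conj_I] at h4
  have := Complex.I_mul_I
  linear_combination Complex.I * h4 + (⟪I.one f, I.P A (I.W h I.Om)⟫_ℂ) * this

/-- `⟪P_A W(b·l) Om, T(φ)ⁿ Om⟫ = μ(A) E[e^{-ib·x} T(x)ⁿ]` -/
theorem inner_W_fldI_pow (h : RealGram l Q) {A : Set Λ} (hA : MeasurableSet A) (T : TP J) (n : ℕ) :
    ∀ b : J → ℝ, ⟪I.P A (I.W (lc l b) I.Om), (fldI I l T ^ n) I.Om⟫_ℂ =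
      (I.μ.real A : ℂ) * ∫ x, Trig.ex (-b) x * ((T.ev x : ℝ) : ℂ) ^ n ∂gl Q := by
  induction n with
  | zero =>
    intro b
    rw [pow_zero]
    have h0 : (1 : H →L[ℂ] H) I.Om = I.Om := rfl
    rw [h0, inner_PW_Om hA]
    simp only [pow_zero, mul_one]
    unfold Trig.ex
    rw [Trig.charFun_gl h.posSemidef, h.norm_lc]
    congr 2
    push_cast
    have e2 : ∑ i, ∑ j, (((-b) i : ℝ) : ℂ) * (Q i j : ℂ) * (((-b) j : ℝ) : ℂ) =
        ∑ i, ∑ j, ((b i : ℝ) : ℂ) * (Q i j : ℂ) * ((b j : ℝ) : ℂ) := by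
      refine Finset.sum_congr rfl fun i _ => Finset.sum_congr rfl fun j _ => ?_
      simp only [Pi.neg_apply]; push_cast; ring
    rw [e2]
    ring
  | succ n ih =>
    intro b
    have h1 : (fldI I l T ^ (n + 1)) I.Om = fldI I l T ((fldI I l T ^ n) I.Om) := by
      rw [pow_succ']; rfl
    have h2 : ∀ v w : H, ⟪v, fldI I l T w⟫_ℂ = ⟪fldI I l T v, w⟫_ℂ := by
      intro v w
      rw [← ContinuousLinearMap.adjoint_inner_left, ← ContinuousLinearMap.star_eq_adjoint,
        star_fldI]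
    have h3 : fldI I l T (I.P A (I.W (lc l b) I.Om)) = ∑ k, ((T.c k : ℂ) * (-(Complex.I) / 2)) •
        (I.P A (I.W (lc l (b + T.a k)) I.Om) - I.P A (I.W (lc l (b - T.a k)) I.Om)) := by
      have e1 : fldI I l T (I.P A (I.W (lc l b) I.Om)) =
          I.P A ((fldI I l T * I.W (lc l b)) I.Om) :=
        congrArg (fun S : H →L[ℂ] H => S (I.W (lc l b) I.Om)) (P_fldI (l := l) hA T).eq.symm
      rw [e1, fldI_mul_W h, sum_apply, map_sum]
      refine Finset.sum_congr rfl fun k _ => ?_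
      rw [smul_apply, sub_apply, map_smul, map_sub]
    rw [h1, h2, h3, sum_inner]
    have h4 : ∀ x, Trig.ex (-b) x * ((T.ev x : ℝ) : ℂ) ^ (n + 1) =
        ∑ k, (starRingEnd ℂ) ((T.c k : ℂ) * (-(Complex.I) / 2)) *
          (Trig.ex (-(b + T.a k)) x * ((T.ev x : ℝ) : ℂ) ^ n -
            Trig.ex (-(b - T.a k)) x * ((T.ev x : ℝ) : ℂ) ^ n) := by
      intro x
      rw [pow_succ, mul_comm (((T.ev x : ℝ) : ℂ) ^ n), ← mul_assoc]
      conv_lhs => rw [ev_eq_sum T x]
      rw [Finset.mul_sum, Finset.sum_mul]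
      refine Finset.sum_congr rfl fun k _ => ?_
      have e1 : Trig.ex (-(b + T.a k)) x = Trig.ex (-b) x * Trig.ex (-T.a k) x := by
        rw [ex_neg_mul]; congr 1; abel
      have e2 : Trig.ex (-(b - T.a k)) x = Trig.ex (-b) x * Trig.ex (T.a k) x := by
        rw [ex_neg_mul]; congr 1; abel
      rw [e1, e2, ← ev_eq_sum]
      simp only [map_mul, map_div₀, map_neg, Complex.conj_ofReal, Complex.conj_I, map_ofNat]
      ring
    simp_rw [h4]
    have hb : ∀ x, ‖((T.ev x : ℝ) : ℂ) ^ n‖ ≤ (∑ k, |T.c k|) ^ n := by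
      intro x
      rw [norm_pow, Complex.norm_real, Real.norm_eq_abs]
      exact pow_le_pow_left₀ (abs_nonneg _) (T.abs_ev_le x) n
    have hc : Continuous fun x => ((T.ev x : ℝ) : ℂ) ^ n :=
      (Complex.continuous_ofReal.comp T.continuous_ev).pow n
    have hi : ∀ k : Fin T.N, Integrable (fun x => (starRingEnd ℂ) ((T.c k : ℂ) *
        (-(Complex.I) / 2)) * (Trig.ex (-(b + T.a k)) x * ((T.ev x : ℝ) : ℂ) ^ n -
            Trig.ex (-(b - T.a k)) x * ((T.ev x : ℝ) : ℂ) ^ n)) (gl Q) := fun k =>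
      ((integrable_ex_mul Q _ hc hb).sub (integrable_ex_mul Q _ hc hb)).const_mul _
    rw [integral_finsetSum _ fun k _ => hi k, Finset.mul_sum]
    refine Finset.sum_congr rfl fun k _ => ?_
    rw [integral_const_mul, integral_sub (integrable_ex_mul Q _ hc hb)
      (integrable_ex_mul Q _ hc hb), inner_smul_left, inner_sub_left, ih, ih]
    ring

/-- `⟪φ(f) Om, P_A e^{iφ(b)} T(φ)ⁿ Om⟫ = μ(A) ∑_j ⟪f, l_j⟫ E[∂_j(e^{ib·x} T(x)ⁿ)]` -/
theorem inner_one_fldI_pow (h : RealGram l Q) {A : Set Λ} (hA : MeasurableSet A) (T : TP J)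
    (f : H) (n : ℕ) : ∀ b : J → ℝ,
    ⟪I.one f, I.P A (I.W (lc l b) ((fldI I l T ^ n) I.Om))⟫_ℂ =
      (I.μ.real A : ℂ) * ∑ j, ⟪f, l j⟫_ℂ * ∫ x, Dp T j b n x ∂gl Q := by
  induction n with
  | zero =>
    intro b
    rw [pow_zero]
    have h0 : (1 : H →L[ℂ] H) I.Om = I.Om := rfl
    rw [h0, inner_one_PW hA]
    have h1 : ∀ j, ∫ x, Dp T j b 0 x ∂gl Q =
        Complex.I * (b j : ℂ) * Complex.exp (-((‖lc l b‖ ^ 2 / 2 : ℝ) : ℂ)) := by
      intro j
      unfold Dp
      simp only [pow_zero, mul_one, Nat.cast_zero, zero_mul, add_zero]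
      rw [integral_mul_const]
      unfold Trig.ex
      rw [Trig.charFun_gl h.posSemidef, h.norm_lc, mul_comm]
      congr 2
      push_cast
      ring
    simp_rw [h1]
    have h2 : ⟪f, lc l b⟫_ℂ = ∑ j, ⟪f, l j⟫_ℂ * (b j : ℂ) := by
      unfold lc
      rw [inner_sum]
      refine Finset.sum_congr rfl fun j _ => ?_
      rw [inner_smul_right]; ring
    rw [h2, Finset.mul_sum, Finset.sum_mul, Finset.mul_sum, Finset.mul_sum]
    refine Finset.sum_congr rfl fun j _ => by ring
  | succ n ih =>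
    intro b
    have h1 : I.P A (I.W (lc l b) ((fldI I l T ^ (n + 1)) I.Om)) =
        ∑ k, ((T.c k : ℂ) * (-(Complex.I) / 2)) •
        (I.P A (I.W (lc l (b + T.a k)) ((fldI I l T ^ n) I.Om)) -
          I.P A (I.W (lc l (b - T.a k)) ((fldI I l T ^ n) I.Om))) := by
      have e2 : I.W (lc l b) ((fldI I l T ^ (n + 1)) I.Om) =
          (I.W (lc l b) * fldI I l T) ((fldI I l T ^ n) I.Om) := by
        rw [pow_succ']; rfl
      rw [e2, W_mul_fldI h, sum_apply, map_sum]
      refine Finset.sum_congr rfl fun k _ => ?_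
      rw [smul_apply, sub_apply, map_smul, map_sub]
    rw [h1, inner_sum]
    simp_rw [inner_smul_right, inner_sub_right, ih, Dp_succ]
    have h2 : ∀ j, ∫ x, ∑ k, ((T.c k : ℂ) * (-(Complex.I) / 2)) *
        (Dp T j (b + T.a k) n x - Dp T j (b - T.a k) n x) ∂gl Q =
        ∑ k, ((T.c k : ℂ) * (-(Complex.I) / 2)) *
          (∫ x, Dp T j (b + T.a k) n x ∂gl Q - ∫ x, Dp T j (b - T.a k) n x ∂gl Q) := by
      intro j
      have hi : ∀ k : Fin T.N, Integrable (fun x => ((T.c k : ℂ) * (-(Complex.I) / 2)) *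
        (Dp T j (b + T.a k) n x - Dp T j (b - T.a k) n x)) (gl Q) := fun k =>
        ((integrable_Dp Q T j _ n).sub (integrable_Dp Q T j _ n)).const_mul _
      rw [integral_finsetSum _ fun k _ => hi k]
      refine Finset.sum_congr rfl fun k _ => ?_
      rw [integral_const_mul, integral_sub (integrable_Dp Q T j _ n) (integrable_Dp Q T j _ n)]
    simp_rw [h2, Finset.mul_sum]
    rw [Finset.sum_comm]
    refine Finset.sum_congr rfl fun k _ => ?_
    rw [← Finset.sum_sub_distrib, Finset.mul_sum]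
    refine Finset.sum_congr rfl fun j _ => by ring

/-! ### Exponentials -/

open NormedSpace in
theorem hasSum_exp_inner (A : H →L[ℂ] H) (z : ℂ) (v w : H) :
    HasSum (fun n : ℕ => (((n.factorial : ℂ))⁻¹ * z ^ n) * ⟪v, (A ^ n) w⟫_ℂ)
      ⟪v, (exp (z • A)) w⟫_ℂ := by
  have h1 := exp_series_hasSum_exp' (𝕂 := ℂ) (z • A)
  have h2 := (h1.mapL (ContinuousLinearMap.apply ℂ H w)).mapL (innerSL ℂ v)
  refine h2.congr_fun fun n => ?_
  simp only [smul_pow, map_smul, ContinuousLinearMap.apply_apply, innerSL_apply_apply, smul_eq_mul]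
  ring

open NormedSpace in
/-- `⟪P_A W(b·l) Om, e^{zT(φ)} Om⟫ = μ(A) E[e^{-ib·x} e^{zT(x)}]` -/
theorem inner_W_exp (h : RealGram l Q) {A : Set Λ} (hA : MeasurableSet A) (T : TP J) (z : ℂ)
    (b : J → ℝ) : ⟪I.P A (I.W (lc l b) I.Om), (exp (z • fldI I l T)) I.Om⟫_ℂ =
      (I.μ.real A : ℂ) * ∫ x, Trig.ex (-b) x * Complex.exp (z * ((T.ev x : ℝ) : ℂ)) ∂gl Q := by
  have h1 := hasSum_exp_inner (fldI I l T) z (I.P A (I.W (lc l b) I.Om)) I.Om
  have h2 := (hasSum_integral_exp (gl Q) (g := Trig.ex (-b)) (T := T.ev)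
    (continuous_ex _).aestronglyMeasurable T.continuous_ev.aestronglyMeasurable
    (C := 1) (M := ∑ k, |T.c k|) (fun x => (norm_ex _ x).le)
    (fun x => T.abs_ev_le x) z).mul_left (I.μ.real A : ℂ)
  simp_rw [inner_W_fldI_pow h hA] at h1
  exact h1.unique (h2.congr_fun fun n => by ring)

open NormedSpace in
/-- `⟪φ(f) Om, P_A e^{zT(φ)} Om⟫ = μ(A) ∑_j ⟪f, l_j⟫ E[z ∂_jT e^{zT}]` -/
theorem inner_one_exp (h : RealGram l Q) {A : Set Λ} (hA : MeasurableSet A) (T : TP J) (z : ℂ)
    (f : H) : ⟪I.one f, I.P A ((exp (z • fldI I l T)) I.Om)⟫_ℂ =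
      (I.μ.real A : ℂ) * ∑ j, ⟪f, l j⟫_ℂ *
      (z * ∫ x, ((T.d j x : ℝ) : ℂ) * Complex.exp (z * ((T.ev x : ℝ) : ℂ)) ∂gl Q) := by
  have hP : ∀ B : H →L[ℂ] H, ⟪I.one f, I.P A (B I.Om)⟫_ℂ = ⟪I.P A (I.one f), B I.Om⟫_ℂ :=
    fun B => (inner_P_left hA _ _).symm
  rw [hP]
  have h1 := hasSum_exp_inner (fldI I l T) z (I.P A (I.one f)) I.Om
  have h0 : ∀ n, ⟪I.P A (I.one f), (fldI I l T ^ n) I.Om⟫_ℂ =
      (I.μ.real A : ℂ) * ∑ j, ⟪f, l j⟫_ℂ * ∫ x, Dp T j 0 n x ∂gl Q := by
    intro n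
    have := inner_one_fldI_pow (I := I) h hA T f n 0
    rw [lc_zero, I.W_zero] at this
    rw [← hP]
    exact this
  have hD : ∀ j, HasSum (fun n : ℕ => (((n.factorial : ℂ))⁻¹ * z ^ n) *
      ∫ x, Dp T j 0 n x ∂gl Q)
      (z * ∫ x, ((T.d j x : ℝ) : ℂ) * Complex.exp (z * ((T.ev x : ℝ) : ℂ)) ∂gl Q) := by
    intro j
    have h2 := (hasSum_integral_exp (gl Q) (g := fun x => ((T.d j x : ℝ) : ℂ)) (T := T.ev)
      (Complex.continuous_ofReal.comp (T.continuous_d j)).aestronglyMeasurable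
      T.continuous_ev.aestronglyMeasurable
      (C := ∑ k, |T.c k * T.a k j|) (M := ∑ k, |T.c k|) (fun x => by
        rw [Complex.norm_real, Real.norm_eq_abs]; exact T.abs_d_le j x)
      (fun x => T.abs_ev_le x) z).mul_left z
    rw [← hasSum_nat_add_iff' 1]
    have e0 : ∑ i ∈ Finset.range 1, (((i.factorial : ℂ))⁻¹ * z ^ i) *
        ∫ x, Dp T j 0 i x ∂gl Q = 0 := by
      simp [Dp]
    rw [e0, sub_zero]
    refine h2.congr_fun fun n => ?_
    have e1 : ∀ x, Dp T j 0 (n + 1) x =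
        ((n : ℂ) + 1) * (((T.d j x : ℝ) : ℂ) * ((T.ev x : ℝ) : ℂ) ^ n) := by
      intro x
      have e2 : Trig.ex (0 : J → ℝ) x = 1 := by simp [Trig.ex]
      unfold Dp
      rw [e2]
      simp only [Pi.zero_apply, Complex.ofReal_zero, mul_zero, zero_mul, zero_add, one_mul,
        Nat.add_sub_cancel]
      push_cast
      ring
    simp_rw [e1]
    rw [integral_const_mul, Nat.factorial_succ]
    push_cast
    have hn : ((n : ℂ) + 1) ≠ 0 := Nat.cast_add_one_ne_zero n
    have hf : ((n.factorial : ℂ)) ≠ 0 := by exact_mod_cast n.factorial_ne_zero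
    field_simp
    ring
  have h3 : HasSum (fun n : ℕ => (((n.factorial : ℂ))⁻¹ * z ^ n) * ((I.μ.real A : ℂ) *
      ∑ j, ⟪f, l j⟫_ℂ * ∫ x, Dp T j 0 n x ∂gl Q)) ((I.μ.real A : ℂ) * ∑ j, ⟪f, l j⟫_ℂ *
      (z * ∫ x, ((T.d j x : ℝ) : ℂ) * Complex.exp (z * ((T.ev x : ℝ) : ℂ)) ∂gl Q)) := by
    have := (hasSum_sum (s := Finset.univ) fun j _ =>
      (hD j).mul_left ⟪f, l j⟫_ℂ).mul_left (I.μ.real A : ℂ)
    refine this.congr_fun fun n => ?_
    rw [mul_left_comm, Finset.mul_sum]
    congr 1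
    refine Finset.sum_congr rfl fun j _ => by ring
  simp_rw [h0] at h1
  exact h1.unique h3

end Crest.Agent.R339.FEIL
end
end

-- ▼ part R339/FEIL716b
section

/-!
# Row 339, part (C), block LI: the final energy in an IL system is `μ(A)^{3/2} * value`
-/

set_option autoImplicit false
set_option linter.unusedSectionVars false

noncomputable section

open scoped ComplexConjugate InnerProductSpace Topology
open Filter MeasureTheory
open Crest.Agent.R339.Li

namespace Crest.Agent.R339.FEIL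

open Crest.Agent.R339.Trig (gl TP TrigScheme)
open Crest.Agent.R339.FE (lc lc_add lc_neg lc_zero RealGram Dp Dp_succ integrable_Dp continuous_Dp
  integrable_ex_mul ex_neg_mul norm_ex continuous_ex ev_eq_sum hasSum_integral_exp cexp_sub cexp_add
  integrable_mul_cexp)

variable {Λ H : Type*} [MeasurableSpace Λ] [NormedAddCommGroup H] [InnerProductSpace ℂ H]
  [CompleteSpace H] {I : ILSys Λ H}
variable {J : Type*} [Fintype J] [DecidableEq J] {l : J → H} {Q : Matrix J J ℝ}

/-- `sin F`, `cos F` for a bounded operator -/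
def sinO (F : H →L[ℂ] H) : H →L[ℂ] H := (-(Complex.I) / 2 : ℂ) •
  (NormedSpace.exp (Complex.I • F) - NormedSpace.exp ((-Complex.I) • F))

/-- `cos F` -/
def cosO (F : H →L[ℂ] H) : H →L[ℂ] H := (1 / 2 : ℂ) •
  (NormedSpace.exp (Complex.I • F) + NormedSpace.exp ((-Complex.I) • F))

theorem fldI_Om (h : RealGram l Q) (A : Set Λ) (T' : TP J) :
    I.P A (fldI I l T' I.Om) = ∑ k, ((T'.c k : ℂ) * (-(Complex.I) / 2)) •
      (I.P A (I.W (lc l (T'.a k)) I.Om) - I.P A (I.W (lc l (-T'.a k)) I.Om)) := by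
  have h0 := W_mul_fldI (I := I) h T' 0
  rw [lc_zero, I.W_zero, one_mul] at h0
  rw [h0, sum_apply, map_sum]
  refine Finset.sum_congr rfl fun k _ => ?_
  rw [smul_apply, sub_apply, map_smul, map_sub, zero_add, zero_sub]

/-- linearity step: moments against `P_A T'(φ) Om` -/
theorem inner_fldI_aux (h : RealGram l Q) {A : Set Λ} (hA : MeasurableSet A) (T' : TP J)
    {v : H} {f : (J → ℝ) → ℂ} (hf : Continuous f) {C : ℝ} (hC : ∀ x, ‖f x‖ ≤ C)
    (hv : ∀ b : J → ℝ, ⟪I.P A (I.W (lc l b) I.Om), v⟫_ℂ =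
      (I.μ.real A : ℂ) * ∫ x, Trig.ex (-b) x * f x ∂gl Q) :
    ⟪I.P A (fldI I l T' I.Om), v⟫_ℂ =
      (I.μ.real A : ℂ) * ∫ x, ((T'.ev x : ℝ) : ℂ) * f x ∂gl Q := by
  rw [fldI_Om h A, sum_inner]
  have hi := fun a => integrable_ex_mul Q a hf hC
  have h2 : ∀ x, ((T'.ev x : ℝ) : ℂ) * f x =
      ∑ k, (starRingEnd ℂ) ((T'.c k : ℂ) * (-(Complex.I) / 2)) *
        (Trig.ex (-T'.a k) x * f x - Trig.ex (T'.a k) x * f x) := by
    intro x
    rw [ev_eq_sum T' x, Finset.sum_mul]
    refine Finset.sum_congr rfl fun k _ => ?_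
    simp only [map_mul, map_div₀, map_neg, Complex.conj_ofReal, Complex.conj_I, map_ofNat]
    ring
  simp_rw [h2]
  have hi' : ∀ k : Fin T'.N, Integrable (fun x => (starRingEnd ℂ) ((T'.c k : ℂ) *
      (-(Complex.I) / 2)) * (Trig.ex (-T'.a k) x * f x - Trig.ex (T'.a k) x * f x)) (gl Q) :=
    fun k => ((hi _).sub (hi _)).const_mul _
  rw [integral_finsetSum _ fun k _ => hi' k, Finset.mul_sum]
  refine Finset.sum_congr rfl fun k _ => ?_
  rw [integral_const_mul, integral_sub (hi _) (hi _), inner_smul_left, inner_sub_left, hv, hv,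
    neg_neg]
  ring

/-- `⟪P_A T'(φ) Om, T(φ) Om⟫ = μ(A) E[T' T]` -/
theorem inner_fldI_fldI (h : RealGram l Q) {A : Set Λ} (hA : MeasurableSet A) (T' T : TP J) :
    ⟪I.P A (fldI I l T' I.Om), fldI I l T I.Om⟫_ℂ =
      ((I.μ.real A * ∫ x, T'.ev x * T.ev x ∂gl Q : ℝ) : ℂ) := by
  have hn : ∀ x, ‖((T.ev x : ℝ) : ℂ)‖ ≤ ∑ k, |T.c k| := by
    intro x
    rw [Complex.norm_real, Real.norm_eq_abs]; exact T.abs_ev_le x
  rw [inner_fldI_aux h hA T' (v := fldI I l T I.Om) (f := fun x => ((T.ev x : ℝ) : ℂ))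
    (Complex.continuous_ofReal.comp T.continuous_ev) hn (fun b => ?_)]
  · rw [Complex.ofReal_mul, ← integral_complex_ofReal]
    congr 1
    refine integral_congr_ae (Eventually.of_forall fun x => ?_)
    simp only
    push_cast
    ring
  · have := inner_W_fldI_pow (I := I) h hA T 1 b
    simpa using this

theorem inner_fldI_exp (h : RealGram l Q) {A : Set Λ} (hA : MeasurableSet A) (T' T : TP J) {z : ℂ}
    (hz : z = Complex.I ∨ z = -Complex.I) :
    ⟪I.P A (fldI I l T' I.Om), (NormedSpace.exp (z • fldI I l T)) I.Om⟫_ℂ =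
      (I.μ.real A : ℂ) *
        ∫ x, ((T'.ev x : ℝ) : ℂ) * Complex.exp (z * ((T.ev x : ℝ) : ℂ)) ∂gl Q := by
  have hc : Continuous fun x => Complex.exp (z * ((T.ev x : ℝ) : ℂ)) :=
    Complex.continuous_exp.comp (continuous_const.mul (Complex.continuous_ofReal.comp
      T.continuous_ev))
  have hn : ∀ x, ‖Complex.exp (z * ((T.ev x : ℝ) : ℂ))‖ ≤ 1 := by
    intro x
    rw [Complex.norm_exp]
    rcases hz with rfl | rfl <;> simp
  exact inner_fldI_aux h hA T' hc hn fun b => inner_W_exp h hA T z b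

/-- `⟪P_A T'(φ) Om, sin T(φ) Om⟫ = μ(A) E[T' sin T]` -/
theorem inner_fldI_sin (h : RealGram l Q) {A : Set Λ} (hA : MeasurableSet A) (T' T : TP J) :
    ⟪I.P A (fldI I l T' I.Om), sinO (fldI I l T) I.Om⟫_ℂ =
      ((I.μ.real A * ∫ x, T'.ev x * Real.sin (T.ev x) ∂gl Q : ℝ) : ℂ) := by
  unfold sinO
  rw [smul_apply, sub_apply, inner_smul_right, inner_sub_right,
    inner_fldI_exp h hA T' T (Or.inl rfl), inner_fldI_exp h hA T' T (Or.inr rfl)]
  have hi1 := integrable_mul_cexp Q T'.continuous_ev T'.abs_ev_le T (Or.inl rfl)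
  have hi2 := integrable_mul_cexp Q T'.continuous_ev T'.abs_ev_le T (Or.inr rfl)
  rw [← mul_sub, ← integral_sub hi1 hi2, Complex.ofReal_mul, ← integral_complex_ofReal,
    mul_left_comm, ← integral_const_mul]
  congr 1
  refine integral_congr_ae (Eventually.of_forall fun x => ?_)
  simp only
  rw [← mul_sub, cexp_sub]
  have := Complex.I_sq
  push_cast
  linear_combination (-(T'.ev x : ℂ) * Complex.sin (T.ev x : ℂ)) * this

/-- `⟪φ(f) Om, P_A sin T(φ) Om⟫ = μ(A) ∑_j ⟪f, l_j⟫ E[∂_j T cos T]` -/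
theorem inner_one_sin (h : RealGram l Q) {A : Set Λ} (hA : MeasurableSet A) (T : TP J) (f : H) :
    ⟪I.one f, I.P A (sinO (fldI I l T) I.Om)⟫_ℂ =
      (I.μ.real A : ℂ) *
        ∑ j, ⟪f, l j⟫_ℂ * ((∫ x, Real.cos (T.ev x) * T.d j x ∂gl Q : ℝ) : ℂ) := by
  unfold sinO
  rw [smul_apply, sub_apply, map_smul, map_sub, inner_smul_right, inner_sub_right,
    inner_one_exp h hA, inner_one_exp h hA, ← mul_sub, ← Finset.sum_sub_distrib, mul_left_comm,
    Finset.mul_sum]
  congr 1
  refine Finset.sum_congr rfl fun j _ => ?_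
  have hi1 := integrable_mul_cexp Q (T.continuous_d j) (T.abs_d_le j) T (Or.inl rfl)
  have hi2 := integrable_mul_cexp Q (T.continuous_d j) (T.abs_d_le j) T (Or.inr rfl)
  have h1 : ∫ x, ((T.d j x : ℝ) : ℂ) * Complex.exp (Complex.I * ((T.ev x : ℝ) : ℂ)) ∂gl Q +
      ∫ x, ((T.d j x : ℝ) : ℂ) * Complex.exp (-Complex.I * ((T.ev x : ℝ) : ℂ)) ∂gl Q =
      2 * ((∫ x, Real.cos (T.ev x) * T.d j x ∂gl Q : ℝ) : ℂ) := by
    rw [← integral_add hi1 hi2, ← integral_complex_ofReal, ← integral_const_mul]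
    refine integral_congr_ae (Eventually.of_forall fun x => ?_)
    simp only
    rw [← mul_add, cexp_add]
    push_cast
    ring
  have := Complex.I_sq
  linear_combination (-⟪f, l j⟫_ℂ * Complex.I ^ 2 / 2) * h1 -
    (⟪f, l j⟫_ℂ * ((∫ x, Real.cos (T.ev x) * T.d j x ∂gl Q : ℝ) : ℂ)) * this

/-! ### Labels -/

/-- the label vectors of a scheme in an IL system, with main class `A` -/
structure LabelsIL {m : ℕ} (S : TrigScheme m) (I : ILSys Λ H) (A : Set Λ) (l : Fin (m + 1) → H) :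
    Prop where
  norm0 : ‖l 0‖ = 1
  orth0 : ∀ v, ⟪l 0, I.P A v⟫_ℂ = 0
  succ : ∀ j : Fin m, l j.succ =
    (((Real.sqrt (I.μ.real A))⁻¹ : ℝ) : ℂ) • I.P A (fldI I l (S.T j) I.Om)

theorem fldI_congr {l l' : J → H} (T : TP J)
    (h : ∀ k j, T.a k j ≠ 0 → l j = l' j) : fldI I l T = fldI I l' T := by
  unfold fldI
  refine Finset.sum_congr rfl fun k _ => ?_
  have h1 : lc l (T.a k) = lc l' (T.a k) := by
    unfold lc
    refine Finset.sum_congr rfl fun j _ => ?_
    by_cases hj : T.a k j = 0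
    · rw [hj]; simp
    · rw [h k j hj]
  rw [h1]

/-- the labels have Gram matrix `S.Q` -/
theorem LabelsIL.realGram {m : ℕ} {S : TrigScheme m} {A : Set Λ} {l : Fin (m + 1) → H}
    (h : LabelsIL S I A l) (hA : MeasurableSet A) (hpos : 0 < I.μ.real A) : RealGram l S.Q := by
  have key : ∀ n : ℕ, ∀ i j : Fin (m + 1), (i : ℕ) < n → (j : ℕ) < n →
      ⟪l i, l j⟫_ℂ = ((S.Q i j : ℝ) : ℂ) := by
    intro n
    induction n with
    | zero => intro i j hi; exact absurd hi (Nat.not_lt_zero _)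
    | succ n ih =>
      -- truncated labels
      set l' : Fin (m + 1) → H := fun i => if (i : ℕ) < n then l i else 0 with hl'
      set Q' : Matrix (Fin (m + 1)) (Fin (m + 1)) ℝ := Matrix.of fun i j =>
        if (i : ℕ) < n ∧ (j : ℕ) < n then S.Q i j else 0 with hQ'
      have hG : RealGram l' Q' := by
        intro i j
        simp only [hl', hQ', Matrix.of_apply]
        by_cases hi : (i : ℕ) < n
        · by_cases hj : (j : ℕ) < n
          · simp only [hi, hj, and_self, if_true, ih i j hi hj]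
          · simp only [hj, and_false, if_false, inner_zero_right, Complex.ofReal_zero]
        · simp only [hi, false_and, if_false, inner_zero_left, Complex.ofReal_zero]
      have hfld : ∀ j : Fin m, (j : ℕ) < n → fldI I l (S.T j) = fldI I l' (S.T j) := by
        intro j hj
        refine fldI_congr _ fun k i hi => ?_
        have hij : (i : ℕ) ≤ j := by
          by_contra hc
          refine hi (S.causal j k i ?_)
          rw [Fin.lt_def, Fin.val_castSucc]
          omega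
        simp only [hl']
        rw [if_pos (lt_of_le_of_lt hij hj)]
      intro i j
      refine Fin.cases ?_ (fun i' => ?_) i
      · refine Fin.cases ?_ (fun j' => ?_) j
        · intro _ _
          rw [S.Q_zero_zero, inner_self_eq_norm_sq_to_K, h.norm0]
          simp
        · intro _ _
          rw [S.Q_zero_succ, h.succ j', inner_smul_right, h.orth0, mul_zero, Complex.ofReal_zero]
      · refine Fin.cases ?_ (fun j' => ?_) j
        · intro _ _
          rw [S.Q_succ_zero, h.succ i', inner_smul_left, ← inner_conj_symm, h.orth0, map_zero,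
            mul_zero, Complex.ofReal_zero]
        · intro hi hj
          rw [Fin.val_succ] at hi hj
          rw [h.succ i', h.succ j', inner_smul_left, inner_smul_right, inner_P_left hA]
          have e1 : I.P A (I.P A (fldI I l (S.T j') I.Om)) = I.P A (fldI I l (S.T j') I.Om) :=
            congrArg (fun S' : H →L[ℂ] H => S' (fldI I l (S.T j') I.Om)) (ILSys.P_sq hA)
          rw [e1, ← inner_P_left hA, hfld i' (by omega), hfld j' (by omega),
            inner_fldI_fldI hG hA, S.Q_succ_succ, Complex.conj_ofReal, ← Complex.ofReal_mul,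
            ← Complex.ofReal_mul]
          congr 1
          have e2 : ∫ x, (S.T i').ev x * (S.T j').ev x ∂gl Q' =
              ∫ x, S.msg i' x * S.msg j' x ∂gl S.Q := by
            refine Trig.integral_gl_congr hG.posSemidef S.posSemidef_Q
              (s := {i : Fin (m + 1) | (i : ℕ) < n}) (fun a ha b hb => ?_)
              ((TP.continuous_ev _).mul (TP.continuous_ev _)).stronglyMeasurable ?_
            · simp only [hQ', Matrix.of_apply]
              rw [if_pos ⟨ha, hb⟩]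
            · intro x y hxy
              have e : ∀ j : Fin m, (j : ℕ) < n → (S.T j).ev x = (S.T j).ev y := by
                intro j hj
                unfold TP.ev
                refine Finset.sum_congr rfl fun k _ => ?_
                have h2 : ∑ i, (S.T j).a k i * x i = ∑ i, (S.T j).a k i * y i := by
                  refine Finset.sum_congr rfl fun i _ => ?_
                  by_cases hi : (i : ℕ) < n
                  · rw [hxy i hi]
                  · rw [S.causal j k i (by rw [Fin.lt_def, Fin.val_castSucc]; omega), zero_mul,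
                      zero_mul]
                rw [h2]
              simp only [e i' (by omega), e j' (by omega)]
          rw [e2]
          have e3 : (Real.sqrt (I.μ.real A))⁻¹ * (Real.sqrt (I.μ.real A))⁻¹ * I.μ.real A = 1 := by
            rw [← mul_inv, Real.mul_self_sqrt hpos.le, inv_mul_cancel₀ hpos.ne']
          linear_combination (∫ x, S.msg i' x * S.msg j' x ∂gl S.Q) * e3
  intro i j
  exact key (m + 1) i j i.2 j.2

end Crest.Agent.R339.FEIL
end
end

-- ▼ part R339/FEIL716c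
section

/-!
# Row 339, part (C), block LI: the final energy in an IL system is `μ(A)^{3/2} * value`
-/

set_option autoImplicit false
set_option linter.unusedSectionVars false

noncomputable section

open scoped ComplexConjugate InnerProductSpace Topology
open Filter MeasureTheory
open Crest.Agent.R339.Li

namespace Crest.Agent.R339.FEIL

open Crest.Agent.R339.Trig (gl TP TrigScheme)
open Crest.Agent.R339.FE (lc lc_add lc_neg lc_zero RealGram)

section alg

variable {𝔸 : Type*} [NormedRing 𝔸] [NormedAlgebra ℂ 𝔸] [CompleteSpace 𝔸]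

open NormedSpace in
theorem exp_semiconj {A B P : 𝔸} (h : A * P = P * B) : exp A * P = P * exp B := by
  have h1 := (exp_series_hasSum_exp' (𝕂 := ℂ) B).mul_left P
  have h2 := (exp_series_hasSum_exp' (𝕂 := ℂ) A).mul_right P
  have h3 : ∀ n : ℕ, P * (((n.factorial : ℂ))⁻¹ • B ^ n) =
      (((n.factorial : ℂ))⁻¹ • A ^ n) * P := by
    intro n
    have h4 : SemiconjBy P B A := h.symm
    have h5 := (h4.pow_right n).eq
    rw [mul_smul_comm, smul_mul_assoc, h5]
  simp_rw [h3] at h1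
  exact h2.unique h1

open NormedSpace in
/-- Euler's formula with an imaginary unit `R` -/
theorem exp_euler {R F : 𝔸} (hR : R * R = -1) (hRF : Commute R F) :
    exp (R * F) = (1 / 2 : ℂ) • (exp (Complex.I • F) + exp ((-Complex.I) • F)) +
      R * ((-(Complex.I) / 2 : ℂ) • (exp (Complex.I • F) - exp ((-Complex.I) • F))) := by
  have key : ∀ s : ℂ, s * s = 1 → exp (R * F) * ((1 / 2 : ℂ) • (1 + (Complex.I * s) • R)) =
      ((1 / 2 : ℂ) • (1 + (Complex.I * s) • R)) * exp ((-Complex.I * s) • F) := by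
    intro s hs
    refine exp_semiconj ?_
    rw [mul_smul_comm, smul_mul_assoc]
    congr 1
    rw [mul_add, mul_one, mul_smul_comm, add_mul, one_mul, smul_mul_assoc, mul_smul_comm, smul_smul]
    have e1 : R * F * R = -F := by
      rw [mul_assoc, ← hRF.eq, ← mul_assoc, hR, neg_one_mul]
    rw [e1, smul_neg, ← neg_smul, ← neg_mul]
    have e2 : Complex.I * s * (-Complex.I * s) = 1 := by
      linear_combination (-s * s) * Complex.I_sq + hs
    rw [e2, one_smul, add_comm, neg_mul]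
  have k1 := key 1 (by norm_num)
  have k2 := key (-1) (by norm_num)
  have hsum : ((1 / 2 : ℂ) • (1 + (Complex.I * 1) • R)) + ((1 / 2 : ℂ) • (1 + (Complex.I * -1) • R))
      = (1 : 𝔸) := by
    rw [← smul_add, mul_one, mul_neg, mul_one, neg_smul]
    have : (1 : 𝔸) + Complex.I • R + (1 + -(Complex.I • R)) = (2 : ℂ) • 1 := by
      rw [two_smul]; abel
    rw [this, smul_smul]
    norm_num
  have e1 : (-Complex.I * 1 : ℂ) = -Complex.I := by ring
  have e2 : (-Complex.I * -1 : ℂ) = Complex.I := by ring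
  rw [e1] at k1
  rw [e2] at k2
  calc exp (R * F) = exp (R * F) * (((1 / 2 : ℂ) • (1 + (Complex.I * 1) • R)) +
        ((1 / 2 : ℂ) • (1 + (Complex.I * -1) • R))) := by rw [hsum, mul_one]
    _ = ((1 / 2 : ℂ) • (1 + (Complex.I * 1) • R)) * exp ((-Complex.I) • F) +
        ((1 / 2 : ℂ) • (1 + (Complex.I * -1) • R)) * exp (Complex.I • F) := by
      rw [mul_add, k1, k2]
    _ = _ := by
      generalize exp ((-Complex.I) • F) = E1
      generalize exp (Complex.I • F) = E2
      simp only [smul_mul_assoc, add_mul, one_mul, mul_smul_comm, mul_sub]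
      module

end alg

variable {Λ H : Type*} [MeasurableSpace Λ] [NormedAddCommGroup H] [InnerProductSpace ℂ H]
  [CompleteSpace H] {I : ILSys Λ H}

theorem Z_X : I.Z * I.X = -(I.X * I.Z) := by
  unfold ILSys.Z ILSys.X
  rw [← map_mul, ← map_mul, ← map_neg]
  congr 1
  ext s t
  fin_cases s <;> fin_cases t <;> simp [xM, zM, dM, Matrix.mul_apply]

theorem XZ_sq : (I.X * I.Z) * (I.X * I.Z) = -1 := by
  calc (I.X * I.Z) * (I.X * I.Z) = I.X * (I.Z * I.X) * I.Z := by simp only [mul_assoc]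
    _ = -((I.X * I.X) * (I.Z * I.Z)) := by rw [Z_X]; simp only [mul_neg, neg_mul, mul_assoc]
    _ = -1 := by rw [ILSys.X_mul_X, ILSys.Z_mul_Z, mul_one]

theorem star_XZ : star (I.X * I.Z) = -(I.X * I.Z) := by
  rw [star_mul, ILSys.star_X, ILSys.star_Z, Z_X]

theorem inner_X_left (v w : H) : ⟪I.X v, w⟫_ℂ = ⟪v, I.X w⟫_ℂ := by
  conv_rhs => rw [← ILSys.star_X, ContinuousLinearMap.star_eq_adjoint,
    ContinuousLinearMap.adjoint_inner_right]

/-- the one-particle vectors have spin `X = 1` -/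
theorem X_one (f : H) : I.X (I.one f) = I.one f := by
  have h1 := I.one_deriv f
  have h2 : HasDerivAt (fun t : ℝ => I.X (I.W ((t : ℂ) • f) I.Om)) (I.X (Complex.I • I.one f)) 0 :=
    (I.X.restrictScalars ℝ).hasFDerivAt.comp_hasDerivAt (0 : ℝ) h1
  have h3 : ∀ t : ℝ, I.X (I.W ((t : ℂ) • f) I.Om) = I.W ((t : ℂ) • f) I.Om := by
    intro t
    have e : I.X (I.W ((t : ℂ) • f) I.Om) = I.W ((t : ℂ) • f) (I.X I.Om) :=
      congrArg (fun S : H →L[ℂ] H => S I.Om) (ILSys.X_W ((t : ℂ) • f)).eq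
    have e2 : I.X I.Om = I.Om := I.Om_X
    rw [e, e2]
  simp_rw [h3] at h2
  have h4 := h1.unique h2
  rw [map_smul] at h4
  exact (smul_right_injective H Complex.I_ne_zero h4).symm

/-- the vectors `Z v`, `X v = v`, are orthogonal to the one-particle vectors -/
theorem inner_Z_one {v : H} (hv : I.X v = v) (f : H) : ⟪I.Z v, I.one f⟫_ℂ = 0 := by
  have h1 : ⟪I.Z v, I.one f⟫_ℂ = ⟪I.X (I.Z v), I.one f⟫_ℂ := by
    conv_lhs => rw [← X_one f]
    rw [← inner_X_left]
  have h2 : I.X (I.Z v) = -(I.Z v) := by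
    have e : (I.X * I.Z) v = -((I.Z * I.X) v) := by rw [Z_X]; simp
    have e2 : (I.Z * I.X) v = I.Z v := by
      show I.Z (I.X v) = I.Z v
      rw [hv]
    rw [e2] at e
    exact e
  rw [h2, inner_neg_left] at h1
  have : (2 : ℂ) * ⟪I.Z v, I.one f⟫_ℂ = 0 := by linear_combination h1
  simpa using this

open NormedSpace in
/-- the energy vector of the final state -/
theorem eV_final {A : Set Λ} (hA : MeasurableSet A) {F : H →L[ℂ] H} (hF : star F = F)
    (hFs : ∀ M, Commute (I.sg M) F) (hFP : Commute (I.P A) F) {D : H →L[ℂ] H}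
    (hD : star D * D = 1) (hDZ : Commute D I.Z) (U : UH H)
    (hU : (U : H →L[ℂ] H) = D * I.blk A (exp ((I.X * I.Z) * ((1 / 2 : ℂ) • F)))) :
    I.eV U = I.P Aᶜ (I.Z I.Om) + I.P A (I.Z (cosO F I.Om) - sinO F I.Om) := by
  have hRF : Commute (I.X * I.Z) F := (hFs xM).mul_left (hFs zM)
  set G : H →L[ℂ] H := (I.X * I.Z) * ((1 / 2 : ℂ) • F) with hG
  have hF2 : star ((1 / 2 : ℂ) • F) = (1 / 2 : ℂ) • F := by
    rw [star_smul, hF]
    congr 1
    simp
  have hGs : star G = -G := by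
    rw [hG, star_mul, hF2, star_XZ, mul_neg]
    congr 1
    exact ((hRF.smul_right _).eq).symm
  have hZG : I.Z * G = -G * I.Z := by
    have h1 : I.Z * (I.X * I.Z) = -(I.X * I.Z) * I.Z := by
      rw [← mul_assoc, Z_X]
    have h2 : Commute I.Z ((1 / 2 : ℂ) • F) := (hFs zM).smul_right _
    rw [hG, ← mul_assoc, h1, mul_assoc, h2.eq, ← mul_assoc, neg_mul]
  have hGG : G + G = (I.X * I.Z) * F := by
    rw [hG, ← mul_add, ← add_smul]
    norm_num
  have hE := FE.alg_final (A := G) (Z := I.Z) (D := 1) hGs hZG (by simp) (Commute.one_left _)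
  rw [one_mul, hGG] at hE
  -- commutation with the projections
  have hPG : Commute (I.P A) G := ((I.P_sg A xM hA).mul_right (I.P_sg A zM hA)).mul_right
    (hFP.smul_right _)
  have hPE : Commute (I.P A) (exp G) := by
    have := exp_semiconj (A := G) (B := G) (P := I.P A) hPG.eq.symm
    exact this.symm
  have hPE' : Commute (I.P A) (star (exp G)) := by
    have h1 := congrArg star hPE.eq
    rw [star_mul, star_mul, I.P_star A hA] at h1
    exact h1.symm
  have hmain : star (U : H →L[ℂ] H) * (I.Z * (U : H →L[ℂ] H)) =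
      I.P Aᶜ * I.Z + I.P A * (I.Z * exp ((I.X * I.Z) * F)) := by
    have h1 : star (I.blk A (exp G)) = I.blk A (star (exp G)) := ILSys.star_blk hA hPE'
    have hPc : ∀ B : H →L[ℂ] H, Commute (I.P A) B → Commute (I.P Aᶜ) B := by
      intro B hB
      have e : I.P Aᶜ = 1 - I.P A := by rw [← ILSys.P_compl_add hA]; abel
      rw [e]
      exact (Commute.one_left _).sub_left hB
    have hPZ : Commute (I.P A) I.Z := ILSys.P_Z hA
    have e12 : I.P Aᶜ * I.P A = 0 := ILSys.P_disj hA.compl hA disjoint_compl_left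
    have e21 : I.P A * I.P Aᶜ = 0 := ILSys.P_disj hA hA.compl disjoint_compl_right
    have eAA : I.P A * I.P A = I.P A := ILSys.P_sq hA
    have ecc : I.P Aᶜ * I.P Aᶜ = I.P Aᶜ := ILSys.P_sq hA.compl
    calc star (U : H →L[ℂ] H) * (I.Z * (U : H →L[ℂ] H))
        = star (I.blk A (exp G)) * star D * ((I.Z * D) * I.blk A (exp G)) := by
          rw [hU, star_mul]; simp only [mul_assoc]
      _ = star (I.blk A (exp G)) * (star D * D) * (I.Z * I.blk A (exp G)) := by
          rw [← hDZ.eq]; simp only [mul_assoc]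
      _ = I.blk A (star (exp G)) * (I.Z * I.blk A (exp G)) := by rw [hD, mul_one, h1]
      _ = I.P Aᶜ * I.Z + I.P A * (star (exp G) * (I.Z * exp G)) := by
          unfold ILSys.blk
          have t1 : I.P Aᶜ * (I.Z * I.P Aᶜ) = I.P Aᶜ * I.Z := by
            rw [← (hPc _ hPZ).eq, ← mul_assoc, ecc]
          have t2 : I.P Aᶜ * (I.Z * (I.P A * exp G)) = 0 := by
            rw [← mul_assoc I.Z, ← hPZ.eq, mul_assoc, ← mul_assoc, e12, zero_mul]
          have t3 : I.P A * star (exp G) * (I.Z * I.P Aᶜ) = 0 := by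
            rw [← (hPc _ hPZ).eq, ← mul_assoc, mul_assoc (I.P A), ← (hPc _ hPE').eq, ← mul_assoc,
              e21, zero_mul, zero_mul]
          have t4 : I.P A * star (exp G) * (I.Z * (I.P A * exp G)) =
              I.P A * (star (exp G) * (I.Z * exp G)) := by
            rw [← mul_assoc I.Z, ← hPZ.eq, mul_assoc (I.P A) I.Z, ← mul_assoc, mul_assoc (I.P A),
              ← hPE'.eq, ← mul_assoc (I.P A), eAA, mul_assoc]
          rw [mul_add, add_mul, mul_add, mul_add, t1, t2, t3, t4]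
          abel
      _ = _ := by rw [hE]
  have h2 : I.eV U = (I.P Aᶜ * I.Z + I.P A * (I.Z * exp ((I.X * I.Z) * F))) I.Om := by
    rw [← hmain]; rfl
  rw [h2, exp_euler XZ_sq hRF]
  have h3 : I.Z * (cosO F + (I.X * I.Z) * sinO F) = I.Z * cosO F - I.X * sinO F := by
    have e1 : I.Z * (I.X * I.Z) = -I.X := by
      rw [← mul_assoc, Z_X, neg_mul, mul_assoc, ILSys.Z_mul_Z, mul_one]
    rw [mul_add, ← mul_assoc I.Z, e1, neg_mul, sub_eq_add_neg]
  have h4 : I.X * sinO F = sinO F * I.X := by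
    have hc : ∀ z : ℂ, Commute I.X (exp (z • F)) := by
      intro z
      have := exp_semiconj (A := z • F) (B := z • F) (P := I.X) (((hFs xM).smul_right z).eq.symm)
      exact this.symm
    exact (((hc _).sub_right (hc _)).smul_right _).eq
  change (I.P Aᶜ * I.Z + I.P A * (I.Z * (cosO F + (I.X * I.Z) * sinO F))) I.Om = _
  rw [h3, h4]
  have e2 : I.X I.Om = I.Om := I.Om_X
  show I.P Aᶜ (I.Z I.Om) + I.P A (I.Z (cosO F I.Om) - sinO F (I.X I.Om)) = _
  rw [e2]

open NormedSpace in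
/-- **Final energy in an IL system.** -/
theorem energy_final {m : ℕ} {S : TrigScheme m} {A : Set Λ} (hA : MeasurableSet A)
    (hpos : 0 < I.μ.real A) {l : Fin (m + 1) → H} (h : LabelsIL S I A l)
    (h0 : (⟪I.P Aᶜ (I.Z I.Om), l 0⟫_ℂ).re = 0)
    {D : H →L[ℂ] H} (hD : star D * D = 1) (hDZ : Commute D I.Z) (U : UH H)
    (hU : (U : H →L[ℂ] H) =
      D * I.blk A (exp ((I.X * I.Z) * ((1 / 2 : ℂ) • fldI I l S.Th)))) :
    I.energy U = I.μ.real A * Real.sqrt (I.μ.real A) * S.value := by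
  have hG := h.realGram hA hpos
  have he := eV_final hA (star_fldI S.Th) (fun M => sg_fldI M S.Th) (P_fldI hA S.Th) hD hDZ U hU
  set e := I.eV U with hedef
  set F := fldI I l S.Th with hF
  -- the `X = 1` component
  have hcos : I.X (cosO F I.Om) = cosO F I.Om := by
    have hc : ∀ z : ℂ, Commute I.X (exp (z • F)) := by
      intro z
      have := exp_semiconj (A := z • F) (B := z • F) (P := I.X)
        (((sg_fldI (I := I) (l := l) xM S.Th).smul_right z).eq.symm)
      exact this.symm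
    have h4 : I.X * cosO F = cosO F * I.X := (((hc _).add_right (hc _)).smul_right _).eq
    have e2 : I.X I.Om = I.Om := I.Om_X
    have := congrArg (fun S' : H →L[ℂ] H => S' I.Om) h4
    have h5 : I.X (cosO F I.Om) = cosO F (I.X I.Om) := this
    rw [h5, e2]
  have hP : ∀ v, I.P A (I.Z v) = I.Z (I.P A v) := fun v =>
    congrArg (fun S' : H →L[ℂ] H => S' v) (ILSys.P_Z hA).eq
  have hPc : ∀ v, I.P Aᶜ (I.Z v) = I.Z (I.P Aᶜ v) := fun v =>
    congrArg (fun S' : H →L[ℂ] H => S' v) (ILSys.P_Z hA.compl).eq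
  have hXP : ∀ v, I.X v = v → I.X (I.P A v) = I.P A v := by
    intro v hv
    have := congrArg (fun S' : H →L[ℂ] H => S' v) (ILSys.P_X (I := I) hA).eq
    have h5 : I.P A (I.X v) = I.X (I.P A v) := this
    rw [← h5, hv]
  have hXPc : I.X (I.P Aᶜ I.Om) = I.P Aᶜ I.Om := by
    have := congrArg (fun S' : H →L[ℂ] H => S' I.Om) (ILSys.P_X (I := I) hA.compl).eq
    have h5 : I.P Aᶜ (I.X I.Om) = I.X (I.P Aᶜ I.Om) := this
    have e2 : I.X I.Om = I.Om := I.Om_X
    rw [← h5, e2]
  have hleft : ∀ g, ⟪e, I.one g⟫_ℂ = -⟪I.P A (sinO F I.Om), I.one g⟫_ℂ := by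
    intro g
    rw [he, inner_add_left, map_sub, inner_sub_left, hP, hPc, inner_Z_one hXPc,
      inner_Z_one (hXP _ hcos)]
    ring
  have hone := inner_one_sin (I := I) hG hA S.Th e
  have hsw : ⟪I.P A (sinO F I.Om), I.one e⟫_ℂ = (starRingEnd ℂ) ⟪I.one e, I.P A (sinO F I.Om)⟫_ℂ :=
    (inner_conj_symm _ _).symm
  -- inner products of `e` with the labels
  have hj : ∀ j : Fin m, ⟪e, l j.succ⟫_ℂ =
      ((-(Real.sqrt (I.μ.real A) * ∫ x, S.msg j x * S.out x ∂gl S.Q) : ℝ) : ℂ) := by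
    intro j
    have g1 : ⟪I.P A (fldI I l (S.T j) I.Om), e⟫_ℂ =
        ((-(I.μ.real A * ∫ x, S.msg j x * S.out x ∂gl S.Q) : ℝ) : ℂ) := by
      have hX' : I.X (I.P A (fldI I l (S.T j) I.Om)) = I.P A (fldI I l (S.T j) I.Om) := by
        refine hXP _ ?_
        have := congrArg (fun S' : H →L[ℂ] H => S' I.Om) (sg_fldI (I := I) (l := l) xM (S.T j)).eq
        have h5 : I.X (fldI I l (S.T j) I.Om) = fldI I l (S.T j) (I.X I.Om) := this
        have e2 : I.X I.Om = I.Om := I.Om_X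
        rw [h5, e2]
      have hXZ0 : ∀ v w : H, I.X v = v → I.X w = w → ⟪v, I.Z w⟫_ℂ = 0 := by
        intro v w hv hw
        have t1 : ⟪v, I.Z w⟫_ℂ = ⟪v, I.X (I.Z w)⟫_ℂ := by
          rw [← inner_X_left, hv]
        have t2 : I.X (I.Z w) = -(I.Z w) := by
          have e : (I.X * I.Z) w = -((I.Z * I.X) w) := by rw [Z_X]; simp
          have e2 : (I.Z * I.X) w = I.Z w := by
            show I.Z (I.X w) = I.Z w
            rw [hw]
          rw [e2] at e
          exact e
        rw [t2, inner_neg_right] at t1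
        have : (2 : ℂ) * ⟪v, I.Z w⟫_ℂ = 0 := by linear_combination t1
        simpa using this
      rw [he, inner_add_right, map_sub, inner_sub_right, hPc, hP, hXZ0 _ _ hX' hXPc,
        hXZ0 _ _ hX' (hXP _ hcos), ← inner_P_left hA]
      have e1 : I.P A (I.P A (fldI I l (S.T j) I.Om)) = I.P A (fldI I l (S.T j) I.Om) :=
        congrArg (fun S' : H →L[ℂ] H => S' (fldI I l (S.T j) I.Om)) (ILSys.P_sq hA)
      rw [e1, hF, inner_fldI_sin hG hA, zero_add, zero_sub, Complex.ofReal_neg]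
      rfl
    rw [h.succ j, inner_smul_right, ← inner_conj_symm, g1, Complex.conj_ofReal,
      ← Complex.ofReal_mul]
    congr 1
    have e3 : (Real.sqrt (I.μ.real A))⁻¹ * I.μ.real A = Real.sqrt (I.μ.real A) := by
      rw [inv_mul_eq_div, Real.div_sqrt]
    linear_combination (-∫ x, S.msg j x * S.out x ∂gl S.Q) * e3
  have h00 : (⟪e, l 0⟫_ℂ).re = 0 := by
    rw [he, inner_add_left, Complex.add_re, h0, ← inner_conj_symm, h.orth0]
    simp
  unfold ILSys.energy
  rw [← hedef, hleft, hsw, Complex.neg_re, Complex.conj_re, hone, Complex.re_ofReal_mul,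
    Complex.re_sum, Fin.sum_univ_succ]
  rw [mul_comm ⟪e, l 0⟫_ℂ, Complex.re_ofReal_mul, h00, mul_zero, zero_add]
  simp_rw [hj, ← Complex.ofReal_mul, Complex.ofReal_re]
  unfold TrigScheme.value
  rw [Finset.mul_sum, Finset.mul_sum, ← Finset.sum_neg_distrib]
  refine Finset.sum_congr rfl fun j _ => ?_
  have : ∫ x, Real.cos (S.Th.ev x) * S.Th.d j.succ x ∂gl S.Q = ∫ x, S.dout j.succ x ∂gl S.Q := rfl
  rw [this]
  ring

/-! ### Existence of the labels -/

/-- one step of the construction of the labels -/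
def labStep {m : ℕ} (S : TrigScheme m) (I : ILSys Λ H) (A : Set Λ) (s : H) (l : Fin (m + 1) → H) :
    Fin (m + 1) → H := Fin.cons s fun j =>
      (((Real.sqrt (I.μ.real A))⁻¹ : ℝ) : ℂ) • I.P A (fldI I l (S.T j) I.Om)

theorem labStep_zero {m : ℕ} (S : TrigScheme m) (A : Set Λ) (s : H)
    (l : Fin (m + 1) → H) : labStep S I A s l 0 = s := rfl

theorem labStep_succ {m : ℕ} (S : TrigScheme m) (A : Set Λ) (s : H)
    (l : Fin (m + 1) → H) (j : Fin m) : labStep S I A s l j.succ =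
      (((Real.sqrt (I.μ.real A))⁻¹ : ℝ) : ℂ) • I.P A (fldI I l (S.T j) I.Om) := rfl

theorem labStep_agree {m : ℕ} (S : TrigScheme m) (A : Set Λ) (s : H) (n : ℕ)
    {l l' : Fin (m + 1) → H} (h : ∀ i : Fin (m + 1), (i : ℕ) < n → l i = l' i)
    (i : Fin (m + 1)) (hi : (i : ℕ) < n + 1) : labStep S I A s l i = labStep S I A s l' i := by
  induction i using Fin.cases with
  | zero => rw [labStep_zero, labStep_zero]
  | succ j =>
    rw [Fin.val_succ] at hi
    rw [labStep_succ, labStep_succ]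
    have e : fldI I l (S.T j) = fldI I l' (S.T j) := by
      refine fldI_congr (S.T j) fun k i hi' => ?_
      refine h i ?_
      by_contra hc
      refine hi' (S.causal j k i ?_)
      rw [Fin.lt_def, Fin.val_castSucc]
      omega
    rw [e]

theorem labStep_iterate_agree {m : ℕ} (S : TrigScheme m) (A : Set Λ) (s : H) (n : ℕ)
    (l l' : Fin (m + 1) → H) : ∀ i : Fin (m + 1), (i : ℕ) < n →
      (labStep S I A s)^[n] l i = (labStep S I A s)^[n] l' i := by
  induction n with
  | zero => intro i hi; exact absurd hi (Nat.not_lt_zero _)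
  | succ n ih =>
    intro i hi
    rw [Function.iterate_succ_apply', Function.iterate_succ_apply']
    exact labStep_agree S A s n ih i hi

/-- the labels exist -/
theorem exists_labelsIL {m : ℕ} (S : TrigScheme m) (I : ILSys Λ H) (A : Set Λ) {s : H}
    (hs : ‖s‖ = 1) (hs0 : ∀ v, ⟪s, I.P A v⟫_ℂ = 0) :
    ∃ l : Fin (m + 1) → H, l 0 = s ∧ LabelsIL S I A l := by
  obtain ⟨l, hl⟩ : ∃ l : Fin (m + 1) → H, labStep S I A s l = l := by
    refine ⟨(labStep S I A s)^[m + 1] 0, ?_⟩
    rw [← Function.iterate_succ_apply' (labStep S I A s), Function.iterate_succ_apply]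
    funext i
    exact labStep_iterate_agree S A s (m + 1) _ _ i i.2
  have h0 : l 0 = s := by
    have := congrFun hl 0
    rw [← this]; rfl
  refine ⟨l, h0, ⟨?_, fun v => ?_, fun j => ?_⟩⟩
  · rw [h0]; exact hs
  · rw [h0]; exact hs0 v
  · have := congrFun hl j.succ
    rw [← this]; rfl

end Crest.Agent.R339.FEIL
end
end

-- ▼ part R339/FEIL716d
section

/-!
# Row 339, part (C), block LI: the last step of the label induction

If the pure label gates of all the labels of a scheme are available, then the energy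
`μ(A)^{3/2} * value` is reached.
-/

set_option autoImplicit false
set_option linter.unusedSectionVars false

noncomputable section

open scoped ComplexConjugate InnerProductSpace Topology
open Filter MeasureTheory
open Crest.Agent.R339.Li

namespace Crest.Agent.R339.FEIL

open Crest.Agent.R339.Trig (gl TP TrigScheme)
open Crest.Agent.R339.FE (lc lc_add lc_neg lc_zero RealGram)

variable {Λ H : Type*} [MeasurableSpace Λ] [NormedAddCommGroup H] [InnerProductSpace ℂ H]
  [CompleteSpace H] {I : ILSys Λ H}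
variable {J : Type*} [Fintype J] [DecidableEq J] {l : J → H} {Q : Matrix J J ℝ}

theorem snW_eq (f : H) : snW I f = I.sW f := by
  unfold snW ILSys.sW
  rw [neg_div]

theorem fldI_eq (T : TP J) : fldI I l T = ∑ k, (T.c k : ℂ) • I.sW (lc l (T.a k)) := by
  unfold fldI
  exact Finset.sum_congr rfl fun k _ => by rw [snW_eq]

/-- the scheme with the opposite final angle -/
def negTh {m : ℕ} (S : TrigScheme m) : TrigScheme m where
  T := S.T
  Th := ⟨S.Th.N, fun k => -S.Th.c k, S.Th.a⟩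
  causal := S.causal

theorem negTh_ev {m : ℕ} (S : TrigScheme m) (x : Fin (m + 1) → ℝ) :
    (negTh S).Th.ev x = -S.Th.ev x := by
  unfold negTh TP.ev
  simp only [neg_mul, Finset.sum_neg_distrib]

theorem negTh_d {m : ℕ} (S : TrigScheme m) (j : Fin (m + 1)) (x : Fin (m + 1) → ℝ) :
    (negTh S).Th.d j x = -S.Th.d j x := by
  unfold negTh TP.d
  simp only [neg_mul, Finset.sum_neg_distrib]

theorem negTh_value {m : ℕ} (S : TrigScheme m) : (negTh S).value = S.value := by
  unfold TrigScheme.value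
  refine Finset.sum_congr rfl fun j _ => ?_
  have hQ : (negTh S).Q = S.Q := rfl
  have h1 : ∀ x, (negTh S).dout j.succ x = -S.dout j.succ x := by
    intro x
    unfold TrigScheme.dout
    rw [negTh_ev, negTh_d, Real.cos_neg, mul_neg]
  have h2 : ∀ x, (negTh S).msg j x * (negTh S).out x = -(S.msg j x * S.out x) := by
    intro x
    unfold TrigScheme.out
    rw [negTh_ev, Real.sin_neg, mul_neg]
    rfl
  simp_rw [h1, h2, hQ, integral_neg]
  ring

theorem fldI_negTh {m : ℕ} (S : TrigScheme m) (l : Fin (m + 1) → H) :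
    fldI I l (negTh S).Th = -fldI I l S.Th := by
  unfold fldI negTh
  simp only [Complex.ofReal_neg, neg_smul, Finset.sum_neg_distrib]

/-- exponential of a block generator -/
theorem exp_blk {A : Set Λ} (hA : MeasurableSet A) {G : H →L[ℂ] H} (hG : Commute (I.P A) G) :
    NormedSpace.exp (I.P A * G) = I.blk A (NormedSpace.exp G) := by
  have e12 : I.P A * I.P Aᶜ = 0 := ILSys.P_disj hA hA.compl disjoint_compl_right
  have h1 : NormedSpace.exp (I.P A * G) * I.P A = I.P A * NormedSpace.exp G := by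
    refine exp_semiconj ?_
    rw [mul_assoc, ← hG.eq, ← mul_assoc, ILSys.P_sq hA]
  have h2 : NormedSpace.exp (I.P A * G) * I.P Aᶜ = I.P Aᶜ * NormedSpace.exp 0 := by
    refine exp_semiconj ?_
    have hGc : Commute (I.P Aᶜ) G := by
      have e : I.P Aᶜ = 1 - I.P A := by rw [← ILSys.P_compl_add hA]; abel
      rw [e]
      exact (Commute.one_left _).sub_left hG
    rw [mul_zero, mul_assoc, ← hGc.eq, ← mul_assoc, e12, zero_mul]
  rw [NormedSpace.exp_zero, mul_one] at h2
  calc NormedSpace.exp (I.P A * G) = NormedSpace.exp (I.P A * G) * (I.P Aᶜ + I.P A) := by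
        rw [ILSys.P_compl_add hA, mul_one]
    _ = _ := by rw [mul_add, h1, h2]; rfl

open ILSys in
/-- **Last step of the label induction.** -/
theorem final_step {m : ℕ} {S : TrigScheme m} {R A : Set Λ} {L : Set H} {c : ℝ} (hA : I.Cl A)
    (hAR : A ⊆ R) (hpos : 0 < I.μ.real A) {l : Fin (m + 1) → H} (h : LabelsIL S I A l)
    (hl : ∀ j, l j ∈ L) (hL : RealSet L) (h0 : (⟪I.P Aᶜ (I.Z I.Om), l 0⟫_ℂ).re = 0)
    (hgood : I.Good R L c 1) : I.μ.real A * Real.sqrt (I.μ.real A) * S.value ≤ c := by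
  have hm := I.Cl_meas A hA
  have := I.nontriv
  have hspan : ∀ a : Fin (m + 1) → ℝ, lc l a ∈ Submodule.span ℝ L := by
    intro a
    unfold lc
    refine Submodule.sum_mem _ fun j _ => ?_
    rw [Complex.coe_smul]
    exact Submodule.smul_mem _ _ (Submodule.subset_span (hl j))
  set G : H →L[ℂ] H := ∑ k, (S.Th.c k / 2) •
    (Complex.I • (I.P A * (I.Y * I.sW (lc l (S.Th.a k))))) with hG
  have hGL : G ∈ I.LG R L c := by
    refine Trot.sum_mem_lieOf (isClosed_GP R L c) _ _ fun k _ => ?_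
    exact Trot.smul_mem_lieOf (Ys_mem_LG hL hA hAR (hspan _)) _
  have hGe : G = I.P A * ((I.X * I.Z) * ((1 / 2 : ℂ) • fldI I l (negTh S).Th)) := by
    have hY : Complex.I • I.Y = -(I.X * I.Z) := by
      unfold ILSys.Y
      rw [smul_smul, ILSys.Z_X]
      have : Complex.I * -Complex.I = 1 := by
        have := Complex.I_mul_I
        linear_combination -this
      rw [this, one_smul]
    rw [hG, fldI_negTh, fldI_eq, smul_neg, mul_neg, Finset.smul_sum, Finset.mul_sum,
      ← Finset.sum_neg_distrib, Finset.mul_sum]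
    refine Finset.sum_congr rfl fun k _ => ?_
    have e1 : Complex.I • (I.P A * (I.Y * I.sW (lc l (S.Th.a k)))) =
        -(I.P A * ((I.X * I.Z) * I.sW (lc l (S.Th.a k)))) := by
      rw [← mul_smul_comm, ← smul_mul_assoc, hY, neg_mul, mul_neg]
    rw [e1, ← Complex.coe_smul]
    simp only [mul_smul_comm, mul_neg, smul_neg, smul_smul]
    congr 2
    push_cast
    ring
  have hexp := hGL 1
  rw [one_smul] at hexp
  have hcomm : Commute (I.P A) ((I.X * I.Z) * ((1 / 2 : ℂ) • fldI I l (negTh S).Th)) :=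
    ((P_X hm).mul_right (P_Z hm)).mul_right ((P_fldI hm _).smul_right _)
  obtain ⟨hu, hpres⟩ := hexp
  have h1 := hpres 1 hgood
  rw [mul_one] at h1
  have h2 := h1.energy_le
  have h' : LabelsIL (negTh S) I A l := ⟨h.norm0, h.orth0, h.succ⟩
  have h3 := energy_final (I := I) hm hpos h' h0 (D := 1) (by simp) (Commute.one_left _)
    ⟨NormedSpace.exp G, hu⟩ (by
      rw [one_mul]
      show NormedSpace.exp G = _
      rw [hGe, exp_blk hm hcomm])
  rw [h3, negTh_value] at h2
  exact h2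

end Crest.Agent.R339.FEIL
end
end

-- ▼ part R339/LvI716

/-!
# Row 339, part (C), block LI: the level induction and the choice of the baths

Input: the level step (one label is added, one bath is used up).  Output: from
`Good S {l0} c 1` the bound `μ(S)^{3/2} * value ≤ c` for every trigonometric scheme.
-/

set_option autoImplicit false
set_option linter.unusedSectionVars false

noncomputable section

open scoped ComplexConjugate InnerProductSpace Topology
open Filter MeasureTheory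
open Crest.Agent.R339.Li

namespace Crest.Agent.R339.LvI

open Crest.Agent.R339.Trig (gl TP TrigScheme)
open Crest.Agent.R339.FE (lc lc_add lc_neg lc_zero RealGram)
open Crest.Agent.R339.FEIL

variable {Λ H : Type*} [MeasurableSpace Λ] [NormedAddCommGroup H] [InnerProductSpace ℂ H]
  [CompleteSpace H]

/-! ### Existence of baths -/

theorem exists_many_cells (I : ILSys Λ H) {S : Set Λ} (hS : I.Cl S) (hpos : 0 < I.μ.real S)
    (m : ℕ) {ε : ℝ} (hε : 0 < ε) :
    ∃ M : Fin m → Set Λ, (∀ i, I.Cl (M i)) ∧ (∀ i, M i ⊆ S) ∧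
      (Pairwise fun i j => Disjoint (M i) (M j)) ∧ (∀ i, 0 < I.μ.real (M i)) ∧
      ∑ i, I.μ.real (M i) ≤ ε := by
  classical
  obtain ⟨C, hC⟩ := I.Cl_div
  have hSm := I.Cl_meas S hS
  have hCpos : 0 < C := by
    obtain ⟨N, _, _, hcov, hle⟩ := hC 1 one_pos
    have h1 : (⋃ r < 1, N r) = N 0 := by
      ext x; simp
    rw [h1] at hcov
    have := hle 0
    rw [hcov] at this
    simp at this
    linarith
  obtain ⟨R, hR⟩ := exists_nat_gt (max (m * C / I.μ.real S) (m * C / ε))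
  have hR0 : 0 < R := by
    have h0 : (0 : ℝ) ≤ m * C / ε := by positivity
    have : (0 : ℝ) < R := lt_of_le_of_lt (h0.trans (le_max_right _ _)) hR
    exact_mod_cast this
  have hRR : (0 : ℝ) < R := by exact_mod_cast hR0
  obtain ⟨N, hN, hdis, hcov, hle⟩ := hC R hR0
  have hNm : ∀ r, MeasurableSet (N r) := fun r => I.Cl_meas _ (hN r)
  have hsum : I.μ.real S = ∑ r ∈ Finset.range R, I.μ.real (S ∩ N r) := by
    have h1 : S = ⋃ r ∈ Finset.range R, S ∩ N r := by
      ext x
      simp only [Finset.mem_range, Set.mem_iUnion, Set.mem_inter_iff, exists_and_left, exists_prop]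
      constructor
      · intro hx
        have : x ∈ ⋃ r < R, N r := by rw [hcov]; trivial
        simpa [hx] using this
      · intro h
        exact h.1
    conv_lhs => rw [h1]
    rw [measureReal_biUnion_finset]
    · intro i _ j _ hij
      exact (hdis hij).mono Set.inter_subset_right Set.inter_subset_right
    · intro r _; exact hSm.inter (hNm r)
  set s : Finset ℕ := (Finset.range R).filter fun r => 0 < I.μ.real (S ∩ N r) with hs
  have hcell : ∀ r, I.μ.real (S ∩ N r) ≤ C / R := fun r =>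
    (measureReal_mono Set.inter_subset_right).trans (hle r)
  have hsum2 : I.μ.real S ≤ s.card * (C / R) := by
    rw [hsum, ← Finset.sum_filter_add_sum_filter_not (Finset.range R)
      (fun r => 0 < I.μ.real (S ∩ N r))]
    have h2 : ∑ r ∈ (Finset.range R).filter (fun r => ¬ 0 < I.μ.real (S ∩ N r)),
        I.μ.real (S ∩ N r) ≤ 0 := by
      refine Finset.sum_nonpos fun r hr => ?_
      exact not_lt.mp (Finset.mem_filter.mp hr).2
    have h3 : ∑ r ∈ s, I.μ.real (S ∩ N r) ≤ s.card • (C / R) :=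
      Finset.sum_le_card_nsmul _ _ _ fun r _ => hcell r
    rw [nsmul_eq_mul] at h3
    linarith
  have hcard : m ≤ s.card := by
    have h4 : m * C / I.μ.real S < R := lt_of_le_of_lt (le_max_left _ _) hR
    rw [div_lt_iff₀ hpos] at h4
    have h5 : I.μ.real S * R ≤ s.card * C := by
      have := mul_le_mul_of_nonneg_right hsum2 hRR.le
      rwa [mul_assoc, div_mul_cancel₀ _ hRR.ne'] at this
    have h6 : (m : ℝ) * C < s.card * C := by nlinarith
    have h7 : (m : ℝ) < s.card := lt_of_mul_lt_mul_right h6 hCpos.le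
    exact_mod_cast h7.le
  obtain ⟨t, hts, htc⟩ := Finset.exists_subset_card_eq hcard
  set e := t.orderEmbOfFin htc with he
  have hes : ∀ i, e i ∈ s := fun i => hts (Finset.orderEmbOfFin_mem t htc i)
  refine ⟨fun i => S ∩ N (e i), fun i => I.Cl_inter _ _ hS (hN _), fun i => Set.inter_subset_left,
    ?_, ?_, ?_⟩
  · intro i j hij
    exact (hdis (fun h => hij (e.injective h))).mono Set.inter_subset_right Set.inter_subset_right
  · intro i
    exact (Finset.mem_filter.mp (hes i)).2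
  · have h1 : ∑ i : Fin m, I.μ.real (S ∩ N (e i)) ≤ ∑ _i : Fin m, C / R :=
      Finset.sum_le_sum fun i _ => hcell _
    have h2 : m * C / ε < R := lt_of_le_of_lt (le_max_right _ _) hR
    rw [div_lt_iff₀ hε] at h2
    have h3 : (m : ℝ) * (C / R) ≤ ε := by
      rw [← mul_div_assoc, div_le_iff₀ hRR]
      linarith
    simp only [Finset.sum_const, Finset.card_univ, Fintype.card_fin, nsmul_eq_mul] at h1
    exact h1.trans h3

/-! ### The level step as an interface -/

/-- the level step -/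
structure LevelStep (I : ILSys Λ H) (c : ℝ) (Lab : Set Λ → Set Λ → Set H → Prop) : Prop where
  real : ∀ {S Mn : Set Λ} {L : Set H}, Lab S Mn L → ILSys.RealSet L
  init : ∀ {S Mn : Set Λ} {l0 : H}, MeasurableSet S → MeasurableSet Mn → Mn ⊆ S →
    I.P S l0 = 0 → Lab S Mn {l0}
  mono : ∀ {S S' Mn : Set Λ} {L : Set H}, Lab S Mn L → MeasurableSet S' → S' ⊆ S → Lab S' Mn L
  insert : ∀ {S Mn : Set Λ} {L : Set H} {n : ℕ} {a : Fin n → ℝ} {u : Fin n → H} (b : ℝ),
    Lab S Mn L → MeasurableSet Mn → Mn ⊆ S → (∀ k, u k ∈ Submodule.span ℝ L) →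
    Lab S Mn (Insert.insert ((b : ℂ) • I.P Mn (I.fT a u I.Om)) L)
  level : ∀ {S Mn M : Set Λ} {L : Set H} {n : ℕ} {a : Fin n → ℝ} {u : Fin n → H} (b : ℝ),
    Lab S Mn L → I.Cl S → I.Cl M → M ⊆ S → I.Cl Mn → Mn ⊆ S → Disjoint M Mn →
    0 < I.μ.real M → (∀ k, u k ∈ Submodule.span ℝ L) → I.Good S L c 1 →
    I.Good (S \ M) (Insert.insert ((b : ℂ) • I.P Mn (I.fT a u I.Om)) L) c 1

lemma Cl_diff {I : ILSys Λ H} {A B : Set Λ} (hA : I.Cl A) (hB : I.Cl B) : I.Cl (A \ B) := by
  rw [Set.sdiff_eq]; exact I.Cl_inter _ _ hA (I.Cl_compl _ hB)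

/-- the region left after `j` baths -/
def reg {m : ℕ} (S : Set Λ) (M : Fin m → Set Λ) (j : ℕ) : Set Λ :=
  S \ ⋃ (i : Fin m) (_ : (i : ℕ) < j), M i

lemma reg_zero {m : ℕ} (S : Set Λ) (M : Fin m → Set Λ) : reg S M 0 = S := by
  simp [reg]

lemma reg_succ {m : ℕ} (S : Set Λ) (M : Fin m → Set Λ) (j : Fin m) :
    reg S M (j + 1) = reg S M j \ M j := by
  unfold reg
  ext x
  simp only [Set.mem_sdiff, Set.mem_iUnion, exists_prop, not_exists, not_and]
  constructor
  · rintro ⟨hx, h⟩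
    exact ⟨⟨hx, fun i hi => h i (by omega)⟩, h j (by omega)⟩
  · rintro ⟨⟨hx, h⟩, hj⟩
    refine ⟨hx, fun i hi => ?_⟩
    rcases Nat.lt_succ_iff_lt_or_eq.mp hi with h1 | h1
    · exact h i h1
    · have : i = j := Fin.ext h1
      rw [this]; exact hj

lemma reg_top_subset {m : ℕ} (S : Set Λ) (M : Fin m → Set Λ) (j : ℕ) :
    reg S M m ⊆ reg S M j := by
  unfold reg
  refine Set.sdiff_subset_sdiff_right ?_
  refine Set.iUnion_subset fun i => Set.iUnion_subset fun _ => ?_
  exact Set.subset_iUnion₂_of_subset i i.2 subset_rfl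

lemma reg_subset {m : ℕ} (S : Set Λ) (M : Fin m → Set Λ) (j : ℕ) : reg S M j ⊆ S :=
  Set.sdiff_subset

lemma Cl_reg {I : ILSys Λ H} {m : ℕ} {S : Set Λ} (hS : I.Cl S) {M : Fin m → Set Λ}
    (hM : ∀ i, I.Cl (M i)) (j : ℕ) (hj : j ≤ m) : I.Cl (reg S M j) := by
  induction j with
  | zero => rw [reg_zero]; exact hS
  | succ j ih =>
    have := reg_succ S M ⟨j, hj⟩
    simp only at this
    rw [this]
    exact Cl_diff (ih (by omega)) (hM _)

/-- the labels after `j` steps -/
def labs {m : ℕ} (l : Fin (m + 1) → H) (j : ℕ) : Set H := {x | ∃ i : Fin (m + 1), (i : ℕ) ≤ j ∧ l i = x}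

lemma labs_zero {m : ℕ} (l : Fin (m + 1) → H) : labs l 0 = {l 0} := by
  ext x
  simp only [labs, nonpos_iff_eq_zero, Set.mem_ofPred_eq, Set.mem_singleton_iff]
  constructor
  · rintro ⟨i, hi, rfl⟩
    have : i = 0 := Fin.ext hi
    rw [this]
  · rintro rfl
    exact ⟨0, rfl, rfl⟩

lemma labs_succ {m : ℕ} (l : Fin (m + 1) → H) (j : Fin m) :
    labs l (j + 1) = Insert.insert (l j.succ) (labs l j) := by
  ext x
  simp only [labs, Set.mem_ofPred_eq, Set.mem_insert_iff]
  constructor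
  · rintro ⟨i, hi, rfl⟩
    rcases Nat.le_succ_iff.mp hi with h1 | h1
    · exact Or.inr ⟨i, h1, rfl⟩
    · left
      have : i = j.succ := Fin.ext (by simpa using h1)
      rw [this]
  · rintro (rfl | ⟨i, hi, rfl⟩)
    · exact ⟨j.succ, by simp, rfl⟩
    · exact ⟨i, by omega, rfl⟩

lemma mem_labs {m : ℕ} (l : Fin (m + 1) → H) (i : Fin (m + 1)) : l i ∈ labs l m :=
  ⟨i, Nat.lt_succ_iff.mp i.2, rfl⟩

lemma lc_mem_span {m : ℕ} (l : Fin (m + 1) → H) (a : Fin (m + 1) → ℝ) (j : ℕ)
    (ha : ∀ i : Fin (m + 1), j < (i : ℕ) → a i = 0) : lc l a ∈ Submodule.span ℝ (labs l j) := by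
  unfold lc
  refine Submodule.sum_mem _ fun i _ => ?_
  by_cases hi : (i : ℕ) ≤ j
  · rw [Complex.coe_smul]
    exact Submodule.smul_mem _ _ (Submodule.subset_span ⟨i, hi, rfl⟩)
  · rw [ha i (not_le.mp hi), Complex.ofReal_zero, zero_smul]
    exact Submodule.zero_mem _

/-- **the level induction** -/
theorem level_induction {I : ILSys Λ H} {c : ℝ} {Lab : Set Λ → Set Λ → Set H → Prop}
    (hst : LevelStep I c Lab) {m : ℕ} (T : TrigScheme m) {S : Set Λ} (hS : I.Cl S)
    {M : Fin m → Set Λ} (hM : ∀ i, I.Cl (M i)) (hMS : ∀ i, M i ⊆ S)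
    (hdis : Pairwise fun i j => Disjoint (M i) (M j)) (hMpos : ∀ i, 0 < I.μ.real (M i))
    {l : Fin (m + 1) → H} (hl : LabelsIL T I (reg S M m) l) (h0 : I.P S (l 0) = 0)
    (hgood : I.Good S {l 0} c 1) (j : ℕ) (hj : j ≤ m) :
    Lab (reg S M j) (reg S M m) (labs l j) ∧ I.Good (reg S M j) (labs l j) c 1 := by
  have hMnCl : I.Cl (reg S M m) := Cl_reg hS hM m le_rfl
  have hMn := I.Cl_meas _ hMnCl
  induction j with
  | zero =>
    rw [reg_zero, labs_zero]
    exact ⟨hst.init (I.Cl_meas _ hS) hMn (reg_subset _ _ _) h0, hgood⟩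
  | succ j ih =>
    obtain ⟨ih1, ih2⟩ := ih (by omega)
    set jj : Fin m := ⟨j, hj⟩ with hjj
    have e1 : reg S M (j + 1) = reg S M j \ M jj := reg_succ S M jj
    have e2 : labs l (j + 1) = Insert.insert (l jj.succ) (labs l j) := labs_succ l jj
    have e3 : l jj.succ = (((Real.sqrt (I.μ.real (reg S M m)))⁻¹ : ℝ) : ℂ) •
        I.P (reg S M m) (I.fT (T.T jj).c (fun k => lc l ((T.T jj).a k)) I.Om) := by
      rw [hl.succ jj, fldI_eq]; rfl
    have hu : ∀ k, lc l ((T.T jj).a k) ∈ Submodule.span ℝ (labs l j) := by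
      intro k
      refine lc_mem_span l _ j fun i hi => ?_
      exact T.causal jj k i (by rw [Fin.lt_def, Fin.val_castSucc]; exact hi)
    have hMj : M jj ⊆ reg S M j := by
      intro x hx
      refine ⟨hMS _ hx, ?_⟩
      simp only [Set.mem_iUnion, exists_prop, not_exists, not_and]
      intro i hi hxi
      have hne : i ≠ jj := by
        intro h; rw [h] at hi; simp [hjj] at hi
      exact (Set.disjoint_left.mp (hdis hne)) hxi hx
    have hdj : Disjoint (M jj) (reg S M m) := by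
      rw [Set.disjoint_left]
      intro x hx hx2
      refine hx2.2 ?_
      simp only [Set.mem_iUnion, exists_prop]
      exact ⟨jj, jj.2, hx⟩
    have hClj : I.Cl (reg S M j) := Cl_reg hS hM j (by omega)
    have hClj' : I.Cl (reg S M (j + 1)) := Cl_reg hS hM (j + 1) hj
    refine ⟨?_, ?_⟩
    · rw [e2, e3]
      refine hst.mono (hst.insert _ ih1 hMn (reg_top_subset _ _ _) hu) (I.Cl_meas _ hClj') ?_
      rw [e1]; exact Set.sdiff_subset
    · rw [e1, e2, e3]
      exact hst.level _ ih1 hClj (hM jj) hMj hMnCl (reg_top_subset _ _ _) hdj (hMpos jj) hu ih2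

/-- the bound with fixed baths -/
theorem bound_of_baths {I : ILSys Λ H} {c : ℝ} {Lab : Set Λ → Set Λ → Set H → Prop}
    (hst : LevelStep I c Lab) {m : ℕ} (T : TrigScheme m) {S : Set Λ} (hS : I.Cl S)
    {M : Fin m → Set Λ} (hM : ∀ i, I.Cl (M i)) (hMS : ∀ i, M i ⊆ S)
    (hdis : Pairwise fun i j => Disjoint (M i) (M j)) (hMpos : ∀ i, 0 < I.μ.real (M i))
    (hpos : 0 < I.μ.real (reg S M m)) {l0 : H} (hn : ‖l0‖ = 1) (h0 : I.P S l0 = 0)
    (hZ : (⟪I.Z I.Om, l0⟫_ℂ).re = 0) (hgood : I.Good S {l0} c 1) :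
    I.μ.real (reg S M m) * Real.sqrt (I.μ.real (reg S M m)) * T.value ≤ c := by
  have hSm := I.Cl_meas _ hS
  have hACl := Cl_reg hS hM m le_rfl
  have hA := I.Cl_meas _ hACl
  have hAS : reg S M m ⊆ S := reg_subset _ _ _
  have hPA : I.P (reg S M m) l0 = 0 := by
    have : I.P (reg S M m) = I.P (reg S M m) * I.P S := by
      rw [← I.P_inter _ _ hA hSm, Set.inter_eq_left.mpr hAS]
    rw [this, mul_apply_eq_comp]
    show I.P (reg S M m) (I.P S l0) = 0
    rw [h0, map_zero]
  have horth : ∀ v, ⟪l0, I.P (reg S M m) v⟫_ℂ = 0 := by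
    intro v
    rw [← inner_P_left hA, hPA, inner_zero_left]
  obtain ⟨l, hl0, hl⟩ := exists_labelsIL T I (reg S M m) hn horth
  obtain ⟨h1, h2⟩ := level_induction hst T hS hM hMS hdis hMpos hl (by rw [hl0]; exact h0)
    (by rw [hl0]; exact hgood) m le_rfl
  refine final_step (L := labs l m) hACl subset_rfl hpos hl (fun i => mem_labs l i) (hst.real h1)
    ?_ h2
  rw [hl0, inner_P_left hA.compl]
  have h3 : I.P (reg S M m)ᶜ l0 = l0 := by
    have := ILSys.P_compl_add (I := I) hA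
    have h4 : I.P (reg S M m)ᶜ l0 + I.P (reg S M m) l0 = l0 := by
      have h5 := congrArg (fun B : H →L[ℂ] H => B l0) this
      simpa using h5
    rwa [hPA, add_zero] at h4
  rw [h3]; exact hZ

/-- **LI**: the final bound -/
theorem bound {I : ILSys Λ H} {c : ℝ} {Lab : Set Λ → Set Λ → Set H → Prop}
    (hst : LevelStep I c Lab) {m : ℕ} (T : TrigScheme m) {S : Set Λ} (hS : I.Cl S)
    (hpos : 0 < I.μ.real S) {l0 : H} (hn : ‖l0‖ = 1) (h0 : I.P S l0 = 0)
    (hZ : (⟪I.Z I.Om, l0⟫_ℂ).re = 0) (hgood : I.Good S {l0} c 1) :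
    I.μ.real S * Real.sqrt (I.μ.real S) * T.value ≤ c := by
  have hSm := I.Cl_meas _ hS
  have key : ∀ ε : ℝ, 0 < ε → ε < I.μ.real S → ∃ p : ℝ, I.μ.real S - ε ≤ p ∧ p ≤ I.μ.real S ∧
      p * Real.sqrt p * T.value ≤ c := by
    intro ε hε hεS
    obtain ⟨M, hM, hMS, hdis, hMpos, hMsum⟩ := exists_many_cells I hS hpos m hε
    have hsub : reg S M m = S \ ⋃ i, M i := by
      unfold reg
      congr 1
      ext x
      simp only [Set.mem_iUnion, exists_prop]
      exact ⟨fun ⟨i, _, h⟩ => ⟨i, h⟩, fun ⟨i, h⟩ => ⟨i, i.2, h⟩⟩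
    have hmeas : I.μ.real S - ε ≤ I.μ.real (reg S M m) := by
      have h1 : I.μ.real (⋃ i, M i) ≤ ∑ i, I.μ.real (M i) := measureReal_iUnion_fintype_le _
      have h2 : I.μ.real S ≤ I.μ.real (S \ ⋃ i, M i) + I.μ.real (⋃ i, M i) := by
        have := measureReal_union_le (μ := I.μ) (S \ ⋃ i, M i) (⋃ i, M i)
        refine le_trans (measureReal_mono ?_) this
        rw [Set.sdiff_union_self]
        exact Set.subset_union_left
      rw [hsub]
      linarith
    refine ⟨I.μ.real (reg S M m), hmeas, measureReal_mono (reg_subset _ _ _), ?_⟩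
    exact bound_of_baths hst T hS hM hMS hdis hMpos (by linarith) hn h0 hZ hgood
  choose! p hp1 hp2 hp3 using key
  have hlim : Tendsto p (𝓝[>] 0) (𝓝 (I.μ.real S)) := by
    have hl1 : Tendsto (fun ε : ℝ => I.μ.real S - ε) (𝓝[>] 0) (𝓝 (I.μ.real S)) := by
      have : Tendsto (fun ε : ℝ => I.μ.real S - ε) (𝓝 0) (𝓝 (I.μ.real S - 0)) :=
        tendsto_const_nhds.sub tendsto_id
      rw [sub_zero] at this
      exact this.mono_left nhdsWithin_le_nhds
    have hev : ∀ᶠ ε : ℝ in 𝓝[>] 0, 0 < ε ∧ ε < I.μ.real S := by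
      have := Ioo_mem_nhdsGT hpos
      filter_upwards [this] with ε hε
      exact hε
    refine tendsto_of_tendsto_of_tendsto_of_le_of_le' hl1 tendsto_const_nhds ?_ ?_
    · filter_upwards [hev] with ε hε using hp1 ε hε.1 hε.2
    · filter_upwards [hev] with ε hε using hp2 ε hε.1 hε.2
  have hfin : Tendsto (fun ε => p ε * Real.sqrt (p ε) * T.value) (𝓝[>] 0)
      (𝓝 (I.μ.real S * Real.sqrt (I.μ.real S) * T.value)) :=
    (hlim.mul ((Real.continuous_sqrt.tendsto _).comp hlim)).mul_const _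
  refine le_of_tendsto hfin ?_
  have := Ioo_mem_nhdsGT hpos
  filter_upwards [this] with ε hε using hp3 ε hε.1 hε.2

/-- the limit of small antennas -/
theorem value_le_of_forall {v c : ℝ} (h : ∀ δ : ℝ, 0 < δ → δ < 1 →
    ∃ p : ℝ, 1 - δ ≤ p ∧ p ≤ 1 ∧ p * Real.sqrt p * v ≤ c) : v ≤ c := by
  choose! p hp1 hp2 hp3 using h
  have hlim : Tendsto p (𝓝[>] 0) (𝓝 1) := by
    have hl1 : Tendsto (fun ε : ℝ => 1 - ε) (𝓝[>] 0) (𝓝 1) := by
      have : Tendsto (fun ε : ℝ => 1 - ε) (𝓝 0) (𝓝 (1 - 0)) := tendsto_const_nhds.sub tendsto_id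
      rw [sub_zero] at this
      exact this.mono_left nhdsWithin_le_nhds
    have hev := Ioo_mem_nhdsGT (show (0 : ℝ) < 1 by norm_num)
    refine tendsto_of_tendsto_of_tendsto_of_le_of_le' hl1 tendsto_const_nhds ?_ ?_
    · filter_upwards [hev] with ε hε using hp1 ε hε.1 hε.2
    · filter_upwards [hev] with ε hε using hp2 ε hε.1 hε.2
  have hfin : Tendsto (fun ε => p ε * Real.sqrt (p ε) * v) (𝓝[>] 0) (𝓝 (1 * Real.sqrt 1 * v)) :=
    (hlim.mul ((Real.continuous_sqrt.tendsto _).comp hlim)).mul_const _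
  rw [Real.sqrt_one, one_mul, one_mul] at hfin
  refine le_of_tendsto hfin ?_
  have := Ioo_mem_nhdsGT (show (0 : ℝ) < 1 by norm_num)
  filter_upwards [this] with ε hε using hp3 ε hε.1 hε.2

end Crest.Agent.R339.LvI
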