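import Crest.Agent.R339.B107PhiL
import Mathlib
import Crest.Agent.R339.Guerra

-- ▼ part R339/Var71D
section

set_option autoImplicit false

namespace Crest.Agent.R339.Var

open MeasureTheory ProbabilityTheory Filter Topology Set
open Crest.Agent.R164.GC Crest.Agent.R339.B
open Crest.ProbabilityR.InvariantGlass (gaussOp)

noncomputable section

/-- derivative of `m ↦ gaussOp m v f x` at fixed `f` -/
def Dm (m v : ℝ) (f : ℝ → ℝ) (x : ℝ) : ℝ := m⁻¹ * (tE m v f f x - gaussOp m v f x)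

/-- One Cole–Hopf step with `t`-dependent level and `t`-dependent terminal function. -/
theorem step_hasDerivAt {f A : ℝ → ℝ → ℝ} {m η v C r : ℝ} {t : ℝ} (hr : |t| < r)
    (hm : ∀ s, |s| < r → 0 < m + s * η)
    (hf : ∀ s, |s| < r → Lip1 (f s))
    (hA : ∀ s, |s| < r → ∀ x, HasDerivAt (fun s => f s x) (A s x) s)
    (hAb : ∀ s, |s| < r → ∀ x, |A s x| ≤ C)
    (hAc : ∀ s, |s| < r → Continuous (A s)) (x : ℝ) :
    HasDerivAt (fun s => gaussOp (m + s * η) v (f s) x)
      (η * Dm (m + t * η) v (f t) x + tE (m + t * η) v (f t) (A t) x) t := by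
  set γ := gaussianReal 0 1 with hγ
  have hC0 : 0 ≤ C := (abs_nonneg _).trans (hAb t hr 0)
  have hr0 : 0 < r := (abs_nonneg t).trans_lt hr
  -- bound on f s y, uniformly in s
  have hfb : ∀ s, |s| < r → ∀ y, |f s y| ≤ |f 0 0| + C * r + |y| := by
    intro s hs y
    have h1 : |f s y - f s 0| ≤ |y| := by
      rw [abs_le]
      have e1 := hf s hs y 0
      have e2 := hf s hs 0 y
      rw [sub_zero] at e1
      rw [zero_sub, abs_neg] at e2
      constructor <;> linarith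
    have h2 : |f s 0 - f 0 0| ≤ C * |s - 0| := by
      have h3 : ∀ u ∈ Ioo (-r) r, HasDerivWithinAt (fun u => f u 0) (A u 0) (Ioo (-r) r) u :=
        fun u hu => (hA u (abs_lt.2 hu) 0).hasDerivWithinAt
      have h4 := Convex.norm_image_sub_le_of_norm_hasDerivWithin_le (f := fun u => f u 0)
        (f' := fun u => A u 0) (C := C) (s := Ioo (-r) r) (x := 0) (y := s) h3
        (fun u hu => hAb u (abs_lt.2 hu) 0) (convex_Ioo _ _)
        ⟨by linarith, hr0⟩ (abs_lt.1 hs)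
      simpa [Real.norm_eq_abs] using h4
    have h3 : C * |s - 0| ≤ C * r := by
      rw [sub_zero]; exact mul_le_mul_of_nonneg_left hs.le hC0
    have h4 : f s y = (f s y - f s 0) + (f s 0 - f 0 0) + f 0 0 := by ring
    calc |f s y| = |(f s y - f s 0) + (f s 0 - f 0 0) + f 0 0| := by rw [← h4]
      _ ≤ |f s y - f s 0| + |f s 0 - f 0 0| + |f 0 0| := by
          refine (abs_add_le _ _).trans ?_
          gcongr
          exact abs_add_le _ _
      _ ≤ _ := by linarith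
  set B := |f 0 0| + C * r with hB
  have hB0 : 0 ≤ B := by positivity
  set M := |m| + r * |η| with hM
  have hM0 : 0 ≤ M := by positivity
  have hmM : ∀ s, |s| < r → |m + s * η| ≤ M := by
    intro s hs
    refine (abs_add_le _ _).trans ?_
    rw [abs_mul]
    have := mul_le_mul_of_nonneg_right hs.le (abs_nonneg η)
    linarith
  have hfc : ∀ s, |s| < r → Continuous (f s) := fun s hs =>
    (EG.lip (hf s hs)).cont
  -- the partition function
  set N : ℝ → ℝ := fun s => ∫ g, Real.exp ((m + s * η) * f s (x + Real.sqrt v * g)) ∂γ with hN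
  have hball : Metric.ball t (r - |t|) ∈ 𝓝 t := Metric.ball_mem_nhds t (by linarith)
  have hin : ∀ s ∈ Metric.ball t (r - |t|), |s| < r := by
    intro s hs
    rw [Metric.mem_ball, Real.dist_eq] at hs
    have := abs_sub_abs_le_abs_sub s t
    linarith
  have hexpb : ∀ s, |s| < r → ∀ g : ℝ, Real.exp ((m + s * η) * f s (x + Real.sqrt v * g)) ≤
      Real.exp (M * (B + |x|)) * Real.exp ((M * Real.sqrt v) * |g|) := by
    intro s hs g
    rw [← Real.exp_add]
    apply Real.exp_le_exp.2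
    have h1 := hfb s hs (x + Real.sqrt v * g)
    have h2 : |x + Real.sqrt v * g| ≤ |x| + Real.sqrt v * |g| := by
      refine (abs_add_le _ _).trans ?_
      rw [abs_mul, abs_of_nonneg (Real.sqrt_nonneg v)]
    have h3 : (m + s * η) * f s (x + Real.sqrt v * g) ≤ M * (B + (|x| + Real.sqrt v * |g|)) := by
      refine (le_abs_self _).trans ?_
      rw [abs_mul]
      exact mul_le_mul (hmM s hs) (by linarith) (abs_nonneg _) hM0
    linarith
  have hNder : HasDerivAt N (∫ g, (η * f t (x + Real.sqrt v * g) +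
      (m + t * η) * A t (x + Real.sqrt v * g)) *
      Real.exp ((m + t * η) * f t (x + Real.sqrt v * g)) ∂γ) t := by
    refine (hasDerivAt_integral_of_dominated_loc_of_deriv_le
      (bound := fun g => ((|η| * (B + |x|) + M * C) * (Real.exp (M * (B + |x|)) *
        Real.exp ((M * Real.sqrt v) * |g|))) + (|η| * Real.sqrt v * Real.exp (M * (B + |x|))) *
        (|g| * Real.exp ((M * Real.sqrt v) * |g|)))
      (F' := fun s g => (η * f s (x + Real.sqrt v * g) +
        (m + s * η) * A s (x + Real.sqrt v * g)) *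
        Real.exp ((m + s * η) * f s (x + Real.sqrt v * g))) hball ?_ ?_ ?_ ?_ ?_ ?_).2
    · filter_upwards [hball] with s hs
      have hc := hfc s (hin s hs)
      exact (by fun_prop : Continuous fun g : ℝ =>
        Real.exp ((m + s * η) * f s (x + Real.sqrt v * g))).aestronglyMeasurable
    · have hc := (EG.exp_lip (hf t hr) (m + t * η)).int (Real.sqrt v) x
      exact hc
    · have hc := hfc t hr
      have hc2 := hAc t hr
      exact (by fun_prop : Continuous fun g : ℝ => (η * f t (x + Real.sqrt v * g) +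
        (m + t * η) * A t (x + Real.sqrt v * g)) *
        Real.exp ((m + t * η) * f t (x + Real.sqrt v * g))).aestronglyMeasurable
    · refine Eventually.of_forall fun g s hs => ?_
      have hs' := hin s hs
      have h1 := hfb s hs' (x + Real.sqrt v * g)
      have h2 : |x + Real.sqrt v * g| ≤ |x| + Real.sqrt v * |g| := by
        refine (abs_add_le _ _).trans ?_
        rw [abs_mul, abs_of_nonneg (Real.sqrt_nonneg v)]
      have h3 : |η * f s (x + Real.sqrt v * g) + (m + s * η) * A s (x + Real.sqrt v * g)| ≤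
          |η| * (B + (|x| + Real.sqrt v * |g|)) + M * C := by
        refine (abs_add_le _ _).trans ?_
        rw [abs_mul, abs_mul]
        exact add_le_add (mul_le_mul_of_nonneg_left (by linarith) (abs_nonneg _))
          (mul_le_mul (hmM s hs') (hAb s hs' _) (abs_nonneg _) hM0)
      rw [Real.norm_eq_abs, abs_mul, abs_of_pos (Real.exp_pos _)]
      calc _ ≤ (|η| * (B + (|x| + Real.sqrt v * |g|)) + M * C) *
          (Real.exp (M * (B + |x|)) * Real.exp ((M * Real.sqrt v) * |g|)) :=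
            mul_le_mul h3 (hexpb s hs' g) (Real.exp_pos _).le (by positivity)
        _ = _ := by ring
    · refine Integrable.add ?_ ?_
      · exact ((integrable_exp_abs _).const_mul _).const_mul _
      · exact (integrable_mul_exp_abs _).const_mul _
    · refine Eventually.of_forall fun g s hs => ?_
      have h1 : HasDerivAt (fun s : ℝ => m + s * η) η s := by
        simpa using ((hasDerivAt_id s).mul_const η).const_add m
      have h2 := hA s (hin s hs) (x + Real.sqrt v * g)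
      have h3 := (h1.fun_mul h2).exp
      refine h3.congr_deriv ?_
      ring
  have hNpos : ∀ s, |s| < r → 0 < N s := fun s hs => den_pos (hf s hs) (m + s * η) (Real.sqrt v) x
  have hmt := hm t hr
  have h1 : HasDerivAt (fun s : ℝ => (m + s * η)⁻¹) (-η / (m + t * η) ^ 2) t := by
    have h2 : HasDerivAt (fun s : ℝ => m + s * η) η t := by
      simpa using ((hasDerivAt_id t).mul_const η).const_add m
    exact h2.fun_inv hmt.ne'
  have h2 := h1.fun_mul (hNder.log (hNpos t hr).ne')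
  have h3 : (fun s => gaussOp (m + s * η) v (f s) x) =ᶠ[𝓝 t]
      fun s => (m + s * η)⁻¹ * Real.log (N s) := by
    filter_upwards [hball] with s hs
    rw [gaussOp_ne (hm s (hin s hs)).ne']
    rfl
  refine (h2.congr_of_eventuallyEq h3).congr_deriv ?_
  -- algebra
  have hft := EG.lip (hf t hr)
  have hex := EG.exp_lip (hf t hr) (m + t * η)
  have hAt : EG (A t) := EG.of_bdd (hAc t hr) (hAb t hr)
  have e1 : ∫ g, (η * f t (x + Real.sqrt v * g) +
      (m + t * η) * A t (x + Real.sqrt v * g)) *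
      Real.exp ((m + t * η) * f t (x + Real.sqrt v * g)) ∂γ =
      η * (tE (m + t * η) v (f t) (f t) x * N t) +
      (m + t * η) * (tE (m + t * η) v (f t) (A t) x * N t) := by
    have i1 := (hft.mul hex).int (Real.sqrt v) x
    have i2 := (hAt.mul hex).int (Real.sqrt v) x
    have e2 : tE (m + t * η) v (f t) (f t) x * N t =
        ∫ g, f t (x + Real.sqrt v * g) * Real.exp ((m + t * η) * f t (x + Real.sqrt v * g)) ∂γ :=
      div_mul_cancel₀ _ (hNpos t hr).ne'
    have e3 : tE (m + t * η) v (f t) (A t) x * N t =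
        ∫ g, A t (x + Real.sqrt v * g) * Real.exp ((m + t * η) * f t (x + Real.sqrt v * g)) ∂γ :=
      div_mul_cancel₀ _ (hNpos t hr).ne'
    rw [e2, e3, ← integral_const_mul, ← integral_const_mul, ← integral_add (i1.const_mul η)
      (i2.const_mul _)]
    refine integral_congr_ae (Eventually.of_forall fun g => ?_)
    simp only
    ring
  rw [e1]
  have hNt := (hNpos t hr).ne'
  have e4 : gaussOp (m + t * η) v (f t) x = (m + t * η)⁻¹ * Real.log (N t) :=
    gaussOp_ne hmt.ne' _ _ _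
  unfold Dm
  rw [e4]
  generalize m + t * η = μ at hmt
  generalize tE μ v (f t) (f t) x = U1
  generalize tE μ v (f t) (A t) x = U2
  generalize N t = Nt at hNt
  have hμ := hmt.ne'
  field_simp
  ring

end

end Crest.Agent.R339.Var
end

-- ▼ part R339/Var71E
section

set_option autoImplicit false

namespace Crest.Agent.R339.Var

open MeasureTheory ProbabilityTheory Filter Topology Set
open Crest.Agent.R164.GC Crest.Agent.R339.B
open Crest.ProbabilityR.InvariantGlass (gaussOp)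

noncomputable section

/-! ### semigroup -/

theorem gm_map_sqrt (v : ℝ) (hv : 0 ≤ v) :
    (gaussianReal 0 1).map (fun g => Real.sqrt v * g) = gaussianReal 0 (Real.toNNReal v) := by
  have h := gaussianReal_map_const_mul (μ := 0) (v := 1) (Real.sqrt v)
  rw [mul_zero, mul_one] at h
  have e : NNReal.mk (Real.sqrt v ^ 2) (sq_nonneg _) = Real.toNNReal v := by
    apply NNReal.eq
    rw [Real.coe_toNNReal v hv]
    exact Real.sq_sqrt hv
  rw [← e]
  exact h

theorem H_semi {φ : ℝ → ℝ} (hφ : EG φ) {v w : ℝ} (hv : 0 ≤ v) (hw : 0 ≤ w) (x : ℝ) :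
    H (Real.sqrt v) (H (Real.sqrt w) φ) x = H (Real.sqrt (v + w)) φ x := by
  set gm := gaussianReal 0 1 with hgm
  have h1 : ∀ (u : ℝ) (hu : 0 ≤ u) (G : ℝ → ℝ), Measurable G →
      ∫ g, G (Real.sqrt u * g) ∂gm = ∫ z, G z ∂gaussianReal 0 (Real.toNNReal u) := by
    intro u hu G hG
    rw [← gm_map_sqrt u hu, integral_map (by fun_prop) hG.aestronglyMeasurable]
  have hm := hφ.cont.measurable
  have hF' : Measurable fun z => φ (x + z) := hm.comp (by fun_prop)
  show ∫ g, (∫ g', φ (x + Real.sqrt v * g + Real.sqrt w * g') ∂gm) ∂gm =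
      ∫ g, φ (x + Real.sqrt (v + w) * g) ∂gm
  rw [h1 (v + w) (add_nonneg hv hw) (fun z => φ (x + z)) hF']
  have e : gaussianReal 0 (Real.toNNReal (v + w)) =
      (gaussianReal 0 (Real.toNNReal v)) ∗ (gaussianReal 0 (Real.toNNReal w)) := by
    rw [gaussianReal_conv_gaussianReal, add_zero, Real.toNNReal_add hv hw]
  have e2 : ((gaussianReal 0 (Real.toNNReal v)) ∗ (gaussianReal 0 (Real.toNNReal w))) =
      (gm.prod gm).map (fun p : ℝ × ℝ => Real.sqrt v * p.1 + Real.sqrt w * p.2) := by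
    unfold Measure.conv
    rw [← gm_map_sqrt v hv, ← gm_map_sqrt w hw, Measure.map_prod_map _ _ (by fun_prop)
      (by fun_prop), Measure.map_map (by fun_prop) (by fun_prop)]
    rfl
  rw [e, e2, integral_map (by fun_prop) hF'.aestronglyMeasurable]
  obtain ⟨K, A, hK, hA, hb⟩ := hφ.bd
  have hint : Integrable (fun p : ℝ × ℝ => φ (x + (Real.sqrt v * p.1 + Real.sqrt w * p.2)))
      (gm.prod gm) := by
    have hbd : Integrable (fun p : ℝ × ℝ => (K * Real.exp (A * |x|) *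
        Real.exp ((A * Real.sqrt v) * |p.1|)) *
        Real.exp ((A * Real.sqrt w) * |p.2|)) (gm.prod gm) :=
      Integrable.mul_prod ((Crest.Agent.R164.GC.integrable_exp_abs (A * Real.sqrt v)).const_mul _)
        (Crest.Agent.R164.GC.integrable_exp_abs (A * Real.sqrt w))
    refine Integrable.mono' hbd (hF'.comp (by fun_prop)).aestronglyMeasurable
      (Eventually.of_forall fun p => ?_)
    rw [Real.norm_eq_abs]
    refine (hb _).trans ?_
    rw [mul_assoc, mul_assoc, ← Real.exp_add, ← Real.exp_add]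
    refine mul_le_mul_of_nonneg_left (Real.exp_le_exp.2 ?_) hK
    have h2 := abs_add_le x (Real.sqrt v * p.1 + Real.sqrt w * p.2)
    have h3 := abs_add_le (Real.sqrt v * p.1) (Real.sqrt w * p.2)
    rw [abs_mul, abs_mul, abs_of_nonneg (Real.sqrt_nonneg v),
      abs_of_nonneg (Real.sqrt_nonneg w)] at h3
    have h4 := mul_le_mul_of_nonneg_left (h2.trans (add_le_add le_rfl h3)) hA
    linarith
  rw [integral_prod _ hint]
  refine integral_congr_ae (Eventually.of_forall fun g => ?_)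
  refine integral_congr_ae (Eventually.of_forall fun g' => ?_)
  show φ _ = φ _
  rw [add_assoc]

theorem gaussOp_semi {Φ : ℝ → ℝ} (h : Prof Φ) {m : ℝ} (hm : m ≠ 0) {v w : ℝ} (hv : 0 ≤ v)
    (hw : 0 ≤ w) : gaussOp m (v + w) Φ = gaussOp m v (gaussOp m w Φ) := by
  funext x
  rw [gaussOp_ne hm, gaussOp_ne hm, ← H_semi (h.exp_egs m).eg hv hw]
  congr 3
  funext y
  exact (h.exp_gaussOp hm w y).symm

theorem gaussOp_v0 {m : ℝ} (hm : m ≠ 0) (Φ : ℝ → ℝ) : gaussOp m 0 Φ = Φ := by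
  funext x
  rw [gaussOp_ne hm, Real.sqrt_zero, H_zero, Real.log_exp]
  field_simp

theorem tE_v0 (m : ℝ) (Φ φ : ℝ → ℝ) : tE m 0 Φ φ = φ := by
  funext x
  unfold tE
  rw [Real.sqrt_zero, H_zero, H_zero]
  exact mul_div_cancel_right₀ _ (Real.exp_pos _).ne'

/-- tilted average, with the normalisation written as the exponential of the Cole–Hopf step -/
theorem tE_eq {Φ : ℝ → ℝ} (h : Prof Φ) {m : ℝ} (hm : m ≠ 0) (v : ℝ) (φ : ℝ → ℝ) (x : ℝ) :
    tE m v Φ φ x * Real.exp (m * gaussOp m v Φ x) =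
      H (Real.sqrt v) (fun y => φ y * Real.exp (m * Φ y)) x := by
  unfold tE
  rw [h.exp_gaussOp hm, div_mul_cancel₀ _ (den_pos h.lip m _ x).ne']

theorem tE_semi {Φ : ℝ → ℝ} (h : Prof Φ) {m : ℝ} (hm : m ≠ 0) {v w : ℝ} (hv : 0 ≤ v)
    (hw : 0 ≤ w) {φ : ℝ → ℝ} (hφ : EG φ) :
    tE m (v + w) Φ φ = tE m v (gaussOp m w Φ) (tE m w Φ φ) := by
  funext x
  have h1 := tE_eq h hm (v + w) φ x
  have h2 := tE_eq (h.step m w) hm v (tE m w Φ φ) x
  rw [← gaussOp_semi h hm hv hw] at h2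
  have h3 : (fun y => tE m w Φ φ y * Real.exp (m * gaussOp m w Φ y)) =
      H (Real.sqrt w) (fun y => φ y * Real.exp (m * Φ y)) :=
    funext fun y => tE_eq h hm w φ y
  rw [h3, H_semi (hφ.mul (h.exp_egs m).eg) hv hw, ← h1] at h2
  exact (mul_right_cancel₀ (Real.exp_pos _).ne' h2).symm

/-! ### the tilted expectation along a list of blocks -/

/-- profile at time `t` -/
def PhiT (β : ℝ) : List (ℝ × ℝ) → ℝ → ℝ → ℝ
  | [], _ => phi0 β
  | p :: l, t => if t ≤ p.2 then gaussOp p.1 (p.2 - t) (PhiL β l) else PhiT β l (t - p.2)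

/-- expectation of `F (X_t)`, started from `x` at time `0` -/
def EX (β : ℝ) : List (ℝ × ℝ) → ℝ → (ℝ → ℝ) → ℝ → ℝ
  | [], _, F => F
  | p :: l, t, F => if t ≤ p.2 then tE p.1 t (gaussOp p.1 (p.2 - t) (PhiL β l)) F
      else tE p.1 p.2 (PhiL β l) (EX β l (t - p.2) F)

/-- the list at parameter `t`: entries `(m, η, d)` become `(m + t η, d)` -/
def lev (t : ℝ) (L : List (ℝ × ℝ × ℝ)) : List (ℝ × ℝ) := L.map fun p => (p.1 + t * p.2.1, p.2.2)

/-- derivative of `PhiL` along `lev` -/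
def AA (β t : ℝ) : List (ℝ × ℝ × ℝ) → ℝ → ℝ
  | [], _ => 0
  | p :: L, x => p.2.1 * Dm (p.1 + t * p.2.1) p.2.2 (PhiL β (lev t L)) x +
      tE (p.1 + t * p.2.1) p.2.2 (PhiL β (lev t L)) (AA β t L) x

theorem PhiL_prof {β : ℝ} (hβ : 0 < β) : ∀ l : List (ℝ × ℝ), Prof (PhiL β l)
  | [] => phi0_prof hβ
  | p :: l => (PhiL_prof hβ l).step p.1 p.2

theorem PhiT_prof {β : ℝ} (hβ : 0 < β) : ∀ (l : List (ℝ × ℝ)) (t : ℝ), Prof (PhiT β l t)
  | [], _ => phi0_prof hβ
  | p :: l, t => by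
    unfold PhiT
    split_ifs
    · exact (PhiL_prof hβ l).step _ _
    · exact PhiT_prof hβ l _

theorem EX_BC {β : ℝ} (hβ : 0 < β) : ∀ (l : List (ℝ × ℝ)) (t : ℝ) {F : ℝ → ℝ} {K : ℝ},
    BC F K → BC (EX β l t F) K
  | [], _, _, _, h => h
  | p :: l, t, F, K, h => by
    unfold EX
    split_ifs
    · exact tE_BC ((PhiL_prof hβ l).step _ _).lip _ _ h
    · exact tE_BC (PhiL_prof hβ l).lip _ _ (EX_BC hβ l _ h)

end

end Crest.Agent.R339.Var
private theorem rz_a6b9c36877 : type_of% @_root_.Crest.Agent.R339.Var.AA.eq_def := @_root_.Crest.Agent.R339.Var.AA.eq_def -- L135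
private theorem rz_8213316be7 : type_of% @_root_.Crest.Agent.R339.Var.AA.eq_1 := @_root_.Crest.Agent.R339.Var.AA.eq_1 -- L135
private theorem rz_d0232df02a : type_of% @_root_.Crest.Agent.R339.Var.EX.eq_def := @_root_.Crest.Agent.R339.Var.EX.eq_def -- L126
private theorem rz_3ee11cb991 : type_of% @_root_.Crest.Agent.R339.Var.EX.eq_1 := @_root_.Crest.Agent.R339.Var.EX.eq_1 -- L126
private theorem rz_532a8dfcbe : type_of% @_root_.Crest.Agent.R339.Var.PhiT.eq_def := @_root_.Crest.Agent.R339.Var.PhiT.eq_def -- L121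
private theorem rz_ade00282f5 : type_of% @_root_.Crest.Agent.R339.Var.PhiT.eq_1 := @_root_.Crest.Agent.R339.Var.PhiT.eq_1 -- L121
end

-- ▼ part R339/Var71F
section

set_option autoImplicit false

namespace Crest.Agent.R339.Var

open MeasureTheory ProbabilityTheory Filter Topology Set
open scoped Interval
open Crest.Agent.R164.GC Crest.Agent.R339.B
open Crest.ProbabilityR.InvariantGlass (gaussOp)

noncomputable section

/-- the integral formula for `Dm` (entropy production along the tilted heat flow) -/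
def DmFormula : Prop := ∀ (Φ : ℝ → ℝ), Prof Φ → ∀ (m : ℝ), 0 < m → ∀ (v : ℝ), 0 ≤ v → ∀ x : ℝ,
  Dm m v Φ x = (1/2) * ∫ s in (0:ℝ)..v,
    tE m s (gaussOp m (v - s) Φ) (fun y => deriv (gaussOp m (v - s) Φ) y ^ 2) x

theorem sq_BC {Φ : ℝ → ℝ} (h : Prof Φ) : BC (fun y => deriv Φ y ^ 2) 1 := by
  have := BC.pow (φ := deriv Φ) (K := 1) ⟨h.bd.cont, h.b1⟩ 2
  simpa using this

theorem sq_nn (Φ : ℝ → ℝ) (y : ℝ) : 0 ≤ deriv Φ y ^ 2 := sq_nonneg _

theorem Dm_bound (hF : DmFormula) {Φ : ℝ → ℝ} (h : Prof Φ) {m : ℝ} (hm : 0 < m) {v : ℝ}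
    (hv : 0 ≤ v) (x : ℝ) : |Dm m v Φ x| ≤ v / 2 := by
  rw [hF Φ h m hm v hv x, abs_mul]
  have h1 : ‖∫ s in (0:ℝ)..v,
      tE m s (gaussOp m (v - s) Φ) (fun y => deriv (gaussOp m (v - s) Φ) y ^ 2) x‖ ≤
      1 * |v - 0| := by
    apply intervalIntegral.norm_integral_le_of_norm_le_const
    intro s _
    exact tE_abs_le (h.step m (v - s)).lip m s (sq_BC (h.step m (v - s))) x
  rw [Real.norm_eq_abs, one_mul, sub_zero, abs_of_nonneg hv] at h1
  rw [abs_of_pos (by norm_num : (0:ℝ) < 1/2)]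
  linarith

theorem Dm_cont {Φ : ℝ → ℝ} (h : Prof Φ) (m v : ℝ) : Continuous (Dm m v Φ) := by
  unfold Dm
  have h1 : Continuous (tE m v Φ Φ) :=
    (tE_continuous h.lip m h.egs.eg).comp (by fun_prop : Continuous fun x : ℝ => (v, x))
  have h2 : Continuous (gaussOp m v Φ) := (h.step m v).egs.eg.cont
  exact continuous_const.mul (h1.sub h2)

theorem PhiL_lev_hasDerivAt (hF : DmFormula) {β : ℝ} (hβ : 0 < β) {r : ℝ} :
    ∀ L : List (ℝ × ℝ × ℝ), (∀ p ∈ L, 0 ≤ p.2.2) →
    (∀ s, |s| < r → ∀ p ∈ L, 0 < p.1 + s * p.2.1) →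
    ∃ C, ∀ t, |t| < r → (∀ x, HasDerivAt (fun s => PhiL β (lev s L) x) (AA β t L x) t) ∧
      BC (AA β t L) C
  | [], _, _ => ⟨0, fun t _ => ⟨fun x => by
      show HasDerivAt (fun _ => phi0 β x) 0 t
      exact hasDerivAt_const _ _, ⟨continuous_const, fun x => by simp [AA]⟩⟩⟩
  | p :: L, hd, hpos => by
    obtain ⟨C, hC⟩ := PhiL_lev_hasDerivAt hF hβ (r := r) L (fun q hq => hd q (by simp [hq]))
      (fun s hs q hq => hpos s hs q (by simp [hq]))
    refine ⟨|p.2.1| * (p.2.2 / 2) + C, fun t ht => ⟨fun x => ?_, ?_, fun x => ?_⟩⟩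
    · exact step_hasDerivAt (f := fun s => PhiL β (lev s L)) (A := fun s => AA β s L) ht
        (fun s hs => hpos s hs p (by simp)) (fun s _ => (PhiL_prof hβ _).lip)
        (fun s hs x => (hC s hs).1 x) (fun s hs => (hC s hs).2.bd) (fun s hs => (hC s hs).2.cont) x
    · have h1 := Dm_cont (PhiL_prof hβ (lev t L)) (p.1 + t * p.2.1) p.2.2
      have h2 := (tE_BC (PhiL_prof hβ (lev t L)).lip (p.1 + t * p.2.1) p.2.2 (hC t ht).2).cont
      exact (continuous_const.mul h1).add h2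
    · have h1 := Dm_bound hF (PhiL_prof hβ (lev t L)) (hpos t ht p (by simp))
        (hd p (by simp)) x
      have h2 := (tE_BC (PhiL_prof hβ (lev t L)).lip (p.1 + t * p.2.1) p.2.2 (hC t ht).2).bd x
      show |p.2.1 * Dm (p.1 + t * p.2.1) p.2.2 (PhiL β (lev t L)) x +
        tE (p.1 + t * p.2.1) p.2.2 (PhiL β (lev t L)) (AA β t L) x| ≤ _
      refine (abs_add_le _ _).trans (add_le_add ?_ h2)
      rw [abs_mul]
      exact mul_le_mul_of_nonneg_left h1 (abs_nonneg _)

/-! ### joint measurability -/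

theorem meas_H {ψ : ℝ → ℝ → ℝ} (hψ : Measurable (fun p : ℝ × ℝ => ψ p.1 p.2)) {c : ℝ → ℝ}
    (hc : Measurable c) : Measurable (fun p : ℝ × ℝ => H (c p.1) (ψ p.1) p.2) := by
  unfold H
  have h1 : Measurable (fun q : (ℝ × ℝ) × ℝ => ψ q.1.1 (q.1.2 + c q.1.1 * q.2)) :=
    hψ.comp (by fun_prop : Measurable fun q : (ℝ × ℝ) × ℝ => (q.1.1, q.1.2 + c q.1.1 * q.2))
  exact (h1.stronglyMeasurable.integral_prod_right (ν := gaussianReal 0 1)).measurable

theorem meas_tE {f F : ℝ → ℝ → ℝ} (hf : Measurable (fun p : ℝ × ℝ => f p.1 p.2))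
    (hF : Measurable (fun p : ℝ × ℝ => F p.1 p.2)) (m : ℝ) {c : ℝ → ℝ}
    (hc : Measurable c) : Measurable (fun p : ℝ × ℝ => tE m (c p.1) (f p.1) (F p.1) p.2) := by
  unfold tE
  have h1 : Measurable (fun p : ℝ × ℝ => F p.1 p.2 * Real.exp (m * f p.1 p.2)) := by fun_prop
  have h2 : Measurable (fun p : ℝ × ℝ => Real.exp (m * f p.1 p.2)) := by fun_prop
  exact (meas_H (ψ := fun s y => F s y * Real.exp (m * f s y)) h1
    (c := fun s => Real.sqrt (c s)) (by fun_prop)).div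
    (meas_H (ψ := fun s y => Real.exp (m * f s y)) h2 (c := fun s => Real.sqrt (c s)) (by fun_prop))

theorem cont_gaussOp {Φ : ℝ → ℝ} (h : Prof Φ) {m : ℝ} (hm : m ≠ 0) :
    Continuous (fun p : ℝ × ℝ => gaussOp m p.1 Φ p.2) := by
  have e : (fun p : ℝ × ℝ => gaussOp m p.1 Φ p.2) = fun p : ℝ × ℝ =>
      m⁻¹ * Real.log (H (Real.sqrt p.1) (fun y => Real.exp (m * Φ y)) p.2) := by
    funext p
    exact gaussOp_ne hm _ _ _
  rw [e]
  have h1 := H_continuous (h.exp_egs m).eg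
  have hs : Continuous (fun p : ℝ × ℝ => (Real.sqrt p.1, p.2)) := by fun_prop
  exact continuous_const.mul ((h1.comp hs).log fun p => (den_pos h.lip m _ _).ne')

theorem cont_deriv_gaussOp {Φ : ℝ → ℝ} (h : Prof Φ) (m : ℝ) :
    Continuous (fun p : ℝ × ℝ => deriv (gaussOp m p.1 Φ) p.2) := by
  have e : (fun p : ℝ × ℝ => deriv (gaussOp m p.1 Φ) p.2) = fun p : ℝ × ℝ =>
      tE m p.1 Φ (deriv Φ) p.2 := by
    funext p
    rw [h.gaussOp_deriv]
  rw [e]
  exact tE_continuous h.lip m h.bd.eg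

theorem meas_EX {β : ℝ} (hβ : 0 < β) : ∀ (l : List (ℝ × ℝ)), (∀ p ∈ l, 0 < p.1) →
    ∀ {F : ℝ → ℝ → ℝ}, Measurable (fun p : ℝ × ℝ => F p.1 p.2) →
    Measurable (fun p : ℝ × ℝ => EX β l p.1 (F p.1) p.2)
  | [], _, _, hF => hF
  | p :: l, hl, F, hF => by
    have e : (fun q : ℝ × ℝ => EX β (p :: l) q.1 (F q.1) q.2) = fun q : ℝ × ℝ =>
        if q.1 ≤ p.2 then tE p.1 q.1 (gaussOp p.1 (p.2 - q.1) (PhiL β l)) (F q.1) q.2
        else tE p.1 p.2 (PhiL β l) (EX β l (q.1 - p.2) (F q.1)) q.2 := by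
      funext q
      show (if q.1 ≤ p.2 then tE p.1 q.1 (gaussOp p.1 (p.2 - q.1) (PhiL β l)) (F q.1)
        else tE p.1 p.2 (PhiL β l) (EX β l (q.1 - p.2) (F q.1))) q.2 = _
      split_ifs <;> rfl
    rw [e]
    refine Measurable.ite (measurableSet_le measurable_fst measurable_const) ?_ ?_
    · have hg : Measurable (fun q : ℝ × ℝ => gaussOp p.1 (p.2 - q.1) (PhiL β l) q.2) :=
        ((cont_gaussOp (PhiL_prof hβ l) (hl p (by simp)).ne').comp
          (by fun_prop : Continuous fun q : ℝ × ℝ => (p.2 - q.1, q.2))).measurable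
      exact meas_tE (f := fun s => gaussOp p.1 (p.2 - s) (PhiL β l)) hg hF p.1 (c := fun s => s)
        measurable_id
    · have h1 : Measurable (fun q : ℝ × ℝ => F (q.1 + p.2) q.2) :=
        hF.comp (by fun_prop : Measurable fun q : ℝ × ℝ => (q.1 + p.2, q.2))
      have h2 := meas_EX hβ l (fun q hq => hl q (by simp [hq])) (F := fun s => F (s + p.2)) h1
      have h3 : Measurable (fun q : ℝ × ℝ => EX β l (q.1 - p.2) (F q.1) q.2) := by
        have h4 := h2.comp (by fun_prop : Measurable fun q : ℝ × ℝ => (q.1 - p.2, q.2))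
        simp only [Function.comp_def, sub_add_cancel] at h4
        exact h4
      exact meas_tE (f := fun _ => PhiL β l) (F := fun s => EX β l (s - p.2) (F s))
        ((PhiL_prof hβ l).egs.eg.cont.measurable.comp measurable_snd) h3 p.1
        (c := fun _ => p.2) measurable_const

theorem meas_PhiT {β : ℝ} (hβ : 0 < β) : ∀ (l : List (ℝ × ℝ)),
    Measurable (fun p : ℝ × ℝ => deriv (PhiT β l p.1) p.2)
  | [] => by
    show Measurable (fun p : ℝ × ℝ => deriv (phi0 β) p.2)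
    exact ((phi0_prof hβ).bd.cont).measurable.comp measurable_snd
  | p :: l => by
    have e : (fun q : ℝ × ℝ => deriv (PhiT β (p :: l) q.1) q.2) = fun q : ℝ × ℝ =>
        if q.1 ≤ p.2 then deriv (gaussOp p.1 (p.2 - q.1) (PhiL β l)) q.2
        else deriv (PhiT β l (q.1 - p.2)) q.2 := by
      funext q
      show deriv (if q.1 ≤ p.2 then gaussOp p.1 (p.2 - q.1) (PhiL β l)
        else PhiT β l (q.1 - p.2)) q.2 = _
      split_ifs <;> rfl
    rw [e]
    refine Measurable.ite (measurableSet_le measurable_fst measurable_const) ?_ ?_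
    · exact ((cont_deriv_gaussOp (PhiL_prof hβ l) p.1).comp
          (by fun_prop : Continuous fun q : ℝ × ℝ => (p.2 - q.1, q.2))).measurable
    · exact (meas_PhiT hβ l).comp (by fun_prop : Measurable fun q : ℝ × ℝ => (q.1 - p.2, q.2))

/-- `E Φ_x(s, X_s)²` started from `x` -/
def QQ (β : ℝ) (l : List (ℝ × ℝ)) (s x : ℝ) : ℝ :=
  EX β l s (fun y => deriv (PhiT β l s) y ^ 2) x

theorem meas_QQ {β : ℝ} (hβ : 0 < β) (l : List (ℝ × ℝ)) (hl : ∀ p ∈ l, 0 < p.1) :
    Measurable (fun p : ℝ × ℝ => QQ β l p.1 p.2) :=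
  meas_EX hβ l hl (F := fun s y => deriv (PhiT β l s) y ^ 2) ((meas_PhiT hβ l).pow_const 2)

theorem QQ_BC {β : ℝ} (hβ : 0 < β) (l : List (ℝ × ℝ)) (s : ℝ) : BC (QQ β l s) 1 :=
  EX_BC hβ l s (sq_BC (PhiT_prof hβ l s))

theorem QQ_nonneg {β : ℝ} (hβ : 0 < β) (l : List (ℝ × ℝ)) (s x : ℝ) : 0 ≤ QQ β l s x := by
  have key : ∀ (l : List (ℝ × ℝ)) (t : ℝ) (F : ℝ → ℝ), BC F 1 → (∀ y, 0 ≤ F y) →
      ∀ x, 0 ≤ EX β l t F x := by
    intro l
    induction l with
    | nil => intro t F _ hF x; exact hF x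
    | cons p l ih =>
      intro t F hF hF0 x
      unfold EX
      split_ifs
      · have := tE_mono ((PhiL_prof hβ l).step p.1 (p.2 - t)).lip p.1 t (EG.const 0) hF.eg hF0 x
        rwa [tE_const ((PhiL_prof hβ l).step p.1 (p.2 - t)).lip] at this
      · have := tE_mono (PhiL_prof hβ l).lip p.1 p.2 (EG.const 0) (EX_BC hβ l (t - p.2) hF).eg
          (ih (t - p.2) F hF hF0) x
        rwa [tE_const (PhiL_prof hβ l).lip] at this
  exact key l s _ (sq_BC (PhiT_prof hβ l s)) (fun y => sq_nonneg _) x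

/-- Fubini for the tilted average -/
theorem tE_integral {Φ : ℝ → ℝ} (h : Prof Φ) (m v : ℝ) {q : ℝ → ℝ → ℝ}
    (hq : Measurable (fun p : ℝ × ℝ => q p.1 p.2)) {K : ℝ} (hb : ∀ s y, |q s y| ≤ K) (a b x : ℝ) :
    tE m v Φ (fun y => ∫ s in a..b, q s y) x = ∫ s in a..b, tE m v Φ (q s) x := by
  unfold tE
  rw [intervalIntegral.integral_div]
  congr 1
  unfold H
  have hint : Integrable (fun p : ℝ × ℝ => q p.1 (x + Real.sqrt v * p.2) *
      Real.exp (m * Φ (x + Real.sqrt v * p.2)))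
      ((volume.restrict (Ι a b)).prod (gaussianReal 0 1)) := by
    have h1 : Integrable (fun p : ℝ × ℝ => (1:ℝ) * Real.exp (m * Φ (x + Real.sqrt v * p.2)))
        ((volume.restrict (Ι a b)).prod (gaussianReal 0 1)) := by
      have hfin : IsFiniteMeasure ((volume : Measure ℝ).restrict (Ι a b)) := by
        rw [uIoc]; infer_instance
      have hc1 : Integrable (fun _ : ℝ => (1:ℝ)) ((volume : Measure ℝ).restrict (Ι a b)) :=
        integrable_const 1
      exact Integrable.mul_prod hc1 ((h.exp_egs m).eg.int (Real.sqrt v) x)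
    refine (h1.const_mul K).mono' ?_ (Eventually.of_forall fun p => ?_)
    · have h2 : Measurable fun p : ℝ × ℝ => q p.1 (x + Real.sqrt v * p.2) :=
        hq.comp (by fun_prop : Measurable fun p : ℝ × ℝ => (p.1, x + Real.sqrt v * p.2))
      have h3 : Measurable Φ := h.egs.eg.cont.measurable
      exact (h2.mul (by fun_prop)).aestronglyMeasurable
    · rw [Real.norm_eq_abs, abs_mul, abs_of_pos (Real.exp_pos _), one_mul]
      exact mul_le_mul_of_nonneg_right (hb _ _) (Real.exp_pos _).le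
  have key := intervalIntegral_integral_swap (a := a) (b := b)
    (μ := gaussianReal 0 1) (f := fun s g => q s (x + Real.sqrt v * g) *
      Real.exp (m * Φ (x + Real.sqrt v * g))) hint
  rw [key]
  refine integral_congr_ae (Eventually.of_forall fun g => ?_)
  show (∫ s in a..b, q s (x + Real.sqrt v * g)) * Real.exp (m * Φ (x + Real.sqrt v * g)) = _
  rw [← intervalIntegral.integral_mul_const]

/-! ### the weighted sum of integrals -/

/-- `Σ_k η_k (1/2) ∫_{t_k}^{t_{k+1}} q` -/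
def wsum (q : ℝ → ℝ) : ℝ → List (ℝ × ℝ × ℝ) → ℝ
  | _, [] => 0
  | t, p :: L => p.2.1 * ((1/2) * ∫ s in t..(t + p.2.2), q s) + wsum q (t + p.2.2) L

theorem tE_wsum {Φ : ℝ → ℝ} (h : Prof Φ) (m v : ℝ) {q : ℝ → ℝ → ℝ}
    (hq : Measurable (fun p : ℝ × ℝ => q p.1 p.2)) {K : ℝ} (hb : ∀ s y, |q s y| ≤ K)
    (hc : ∀ a b, Continuous fun y => ∫ s in a..b, q s y) (x : ℝ) :
    ∀ (L : List (ℝ × ℝ × ℝ)) (t : ℝ), tE m v Φ (fun y => wsum (fun s => q s y) t L) x =
      wsum (fun s => tE m v Φ (q s) x) t L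
  | [], t => tE_const h.lip m v 0 x
  | p :: L, t => by
    have e : (fun y => wsum (fun s => q s y) t (p :: L)) = fun y =>
      (p.2.1 * (1/2)) * (∫ s in t..(t + p.2.2), q s y) + wsum (fun s => q s y) (t + p.2.2) L := by
      funext y
      show p.2.1 * ((1/2) * _) + _ = _
      ring
    have hbd : ∀ a b, EG fun y => ∫ s in a..b, q s y := by
      intro a b
      refine EG.of_bdd (hc a b) (K := K * |b - a|) fun y => ?_
      have := intervalIntegral.norm_integral_le_of_norm_le_const (a := a) (b := b)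
        (f := fun s => q s y) (C := K) (fun s _ => hb s y)
      simpa [Real.norm_eq_abs] using this
    have hw : ∀ (L : List (ℝ × ℝ × ℝ)) (t : ℝ), EG fun y => wsum (fun s => q s y) t L := by
      intro L
      induction L with
      | nil => intro t; exact EG.const 0
      | cons p L ih =>
        intro t
        exact ((hbd t (t + p.2.2)).const_mul (1/2)).const_mul p.2.1 |>.add (ih _)
    rw [e, tE_add h.lip m v ((hbd _ _).const_mul _) (hw _ _), tE_const_mul,
      tE_integral h m v hq hb, tE_wsum h m v hq hb hc x L]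
    show _ = p.2.1 * ((1/2) * _) + _
    ring

theorem wsum_shift (q : ℝ → ℝ) (d : ℝ) : ∀ (L : List (ℝ × ℝ × ℝ)) (t : ℝ),
    wsum (fun s => q (s + d)) t L = wsum q (t + d) L
  | [], _ => rfl
  | p :: L, t => by
    show p.2.1 * ((1/2) * ∫ s in t..(t + p.2.2), q (s + d)) + _ =
      p.2.1 * ((1/2) * ∫ s in (t + d)..(t + d + p.2.2), q s) + _
    rw [intervalIntegral.integral_comp_add_right, wsum_shift q d L]
    have e : t + p.2.2 + d = t + d + p.2.2 := by ring
    rw [e]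

theorem wsum_congr {q q' : ℝ → ℝ} {c : ℝ} (h : ∀ s, c < s → q s = q' s) :
    ∀ (L : List (ℝ × ℝ × ℝ)), (∀ p ∈ L, 0 ≤ p.2.2) → ∀ (t : ℝ), c ≤ t → wsum q t L = wsum q' t L
  | [], _, _, _ => rfl
  | p :: L, hd, t, ht => by
    have hp := hd p (by simp)
    show p.2.1 * ((1/2) * ∫ s in t..(t + p.2.2), q s) + _ =
      p.2.1 * ((1/2) * ∫ s in t..(t + p.2.2), q' s) + _
    rw [wsum_congr h L (fun r hr => hd r (by simp [hr])) (t + p.2.2) (by linarith)]
    congr 3
    apply intervalIntegral.integral_congr_ae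
    refine Eventually.of_forall fun s hs => ?_
    rw [uIoc_of_le (by linarith)] at hs
    exact h s (by linarith [hs.1])

theorem lev_zero_fst (L : List (ℝ × ℝ × ℝ)) : lev 0 L = L.map fun p => (p.1, p.2.2) := by
  unfold lev; simp

/-- the integral formula for the derivative -/
theorem AA_eq (hF : DmFormula) {β : ℝ} (hβ : 0 < β) :
    ∀ L : List (ℝ × ℝ × ℝ), (∀ p ∈ L, 0 ≤ p.2.2) → (∀ p ∈ L, 0 < p.1) → ∀ x,
    AA β 0 L x = wsum (fun s => QQ β (lev 0 L) s x) 0 L
  | [], _, _, _ => rfl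
  | p :: L, hd, hpos, x => by
    have hp := hd p (by simp)
    have hp1 := hpos p (by simp)
    have ih := AA_eq hF hβ L (fun r hr => hd r (by simp [hr])) (fun r hr => hpos r (by simp [hr]))
    have hlpos : ∀ q ∈ lev 0 L, 0 < q.1 := by
      intro q hq
      rw [lev_zero_fst, List.mem_map] at hq
      obtain ⟨r, hr, rfl⟩ := hq
      exact hpos r (by simp [hr])
    have hlev : lev 0 (p :: L) = (p.1, p.2.2) :: lev 0 L := by
      unfold lev; simp
    set ℓ := lev 0 L with hℓ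
    have hprof := PhiL_prof hβ ℓ
    show p.2.1 * Dm (p.1 + 0 * p.2.1) p.2.2 (PhiL β ℓ) x +
      tE (p.1 + 0 * p.2.1) p.2.2 (PhiL β ℓ) (AA β 0 L) x = _
    have e0 : p.1 + 0 * p.2.1 = p.1 := by ring
    rw [e0]
    have e1 : AA β 0 L = fun y => wsum (fun s => QQ β ℓ s y) 0 L := funext ih
    have hm := meas_QQ hβ ℓ hlpos
    have hb : ∀ s y, |QQ β ℓ s y| ≤ 1 := fun s y => (QQ_BC hβ ℓ s).bd y
    have hcont : ∀ a b, Continuous fun y => ∫ s in a..b, QQ β ℓ s y := by
      intro a b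
      refine intervalIntegral.continuous_of_dominated_interval (bound := fun _ => 1) ?_ ?_ ?_ ?_
      · intro y
        exact (hm.comp (by fun_prop : Measurable fun s : ℝ => (s, y))).aestronglyMeasurable
      · intro y
        exact Eventually.of_forall fun s _ => hb s y
      · simp
      · exact Eventually.of_forall fun s _ => (QQ_BC hβ ℓ s).cont
    rw [e1, tE_wsum hprof p.1 p.2.2 hm hb hcont x L 0, hlev]
    show _ = p.2.1 * ((1/2) * ∫ s in (0:ℝ)..(0 + p.2.2), QQ β ((p.1, p.2.2) :: ℓ) s x) +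
      wsum (fun s => QQ β ((p.1, p.2.2) :: ℓ) s x) (0 + p.2.2) L
    congr 1
    · rw [hF (PhiL β ℓ) hprof p.1 hp1 p.2.2 hp x, zero_add]
      congr 2
      apply intervalIntegral.integral_congr_ae
      refine Eventually.of_forall fun s hs => ?_
      rw [uIoc_of_le hp] at hs
      have hs2 : s ≤ p.2.2 := hs.2
      unfold QQ EX PhiT
      simp only [hs2, if_true]
    · rw [← wsum_shift]
      refine wsum_congr (c := 0) ?_ L (fun r hr => hd r (by simp [hr])) 0 le_rfl
      intro s hs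
      have hs2 : ¬ (s + p.2.2 ≤ p.2.2) := by linarith
      unfold QQ EX PhiT
      simp only [hs2, if_false, add_sub_cancel_right]
      cases ℓ <;> rfl

end

end Crest.Agent.R339.Var
private theorem rz_4880e0b87d : type_of% @_root_.Crest.Agent.R339.Var.wsum.eq_def := @_root_.Crest.Agent.R339.Var.wsum.eq_def -- L228
private theorem rz_3659d7da18 : type_of% @_root_.Crest.Agent.R339.Var.wsum.eq_1 := @_root_.Crest.Agent.R339.Var.wsum.eq_1 -- L228
end

-- ▼ part R339/Var71A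
section

set_option autoImplicit false

open MeasureTheory Set intervalIntegral
open scoped Interval

namespace Crest.Agent.R339.Var

/-- If `G t < G s` for `s < t`, there is an intermediate point with `g < 1`. -/
lemma exists_lt_one {G g : ℝ → ℝ} {s t : ℝ} (hst : s < t) (hc : ContinuousOn G (Icc s t))
    (hd : ∀ x ∈ Ioo s t, HasDerivAt G (g x - 1) x) (h : G t < G s) : ∃ x ∈ Ioo s t, g x < 1 := by
  obtain ⟨x, hx, hx'⟩ := exists_hasDerivAt_eq_slope G (fun x => g x - 1) hst hc hd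
  refine ⟨x, hx, ?_⟩
  have : (G t - G s) / (t - s) < 0 := div_neg_of_neg_of_pos (by linarith) (by linarith)
  linarith

/-- If `G s < G t` for `s < t`, there is an intermediate point with `g > 1`. -/
lemma exists_gt_one {G g : ℝ → ℝ} {s t : ℝ} (hst : s < t) (hc : ContinuousOn G (Icc s t))
    (hd : ∀ x ∈ Ioo s t, HasDerivAt G (g x - 1) x) (h : G s < G t) : ∃ x ∈ Ioo s t, 1 < g x := by
  obtain ⟨x, hx, hx'⟩ := exists_hasDerivAt_eq_slope G (fun x => g x - 1) hst hc hd
  refine ⟨x, hx, ?_⟩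
  have : 0 < (G t - G s) / (t - s) := div_pos (by linarith) (by linarith)
  linarith

/-- Lipschitz bound for `G` from the bound on its derivative in the interior. -/
lemma lip_of_deriv {G g : ℝ → ℝ} {a b C : ℝ} (hc : ContinuousOn G (Icc a b))
    (hd : ∀ x ∈ Ioo a b, HasDerivAt G (g x - 1) x) (hC : ∀ x ∈ Ioo a b, |g x - 1| ≤ C)
    {s t : ℝ} (hs : s ∈ Icc a b) (ht : t ∈ Icc a b) (hst : s ≤ t) :
    |G t - G s| ≤ C * (t - s) := by
  rcases hst.eq_or_lt with rfl | hst
  · simp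
  obtain ⟨x, hx, hx'⟩ := exists_hasDerivAt_eq_slope G (fun x => g x - 1) hst
    (hc.mono (Icc_subset_Icc hs.1 ht.2))
    (fun x hx => hd x ⟨lt_of_le_of_lt hs.1 hx.1, lt_of_lt_of_le hx.2 ht.2⟩)
  have hpos : 0 < t - s := by linarith
  have h1 : G t - G s = (g x - 1) * (t - s) := by
    rw [hx']; field_simp
  rw [h1, abs_mul, abs_of_pos hpos]
  exact mul_le_mul_of_nonneg_right
    (hC x ⟨lt_of_le_of_lt hs.1 hx.1, lt_of_lt_of_le hx.2 ht.2⟩) hpos.le

/-- Lower bound of the integral of a function which is at least `y - C (t0 - t)` near `t0`. -/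
lemma int_lower {G : ℝ → ℝ} {a t0 y C δ l : ℝ} (hl : 0 ≤ l) (hal : a ≤ t0 - l)
    (hc : ContinuousOn G (Icc a t0)) (h1 : ∀ t ∈ Icc a t0, -δ ≤ G t)
    (h2 : ∀ t ∈ Icc (t0 - l) t0, y - C * (t0 - t) ≤ G t) :
    -δ * (t0 - l - a) + (y * l - C * l ^ 2 / 2) ≤ ∫ t in a..t0, G t := by
  have hint1 : IntervalIntegrable G volume a (t0 - l) :=
    ContinuousOn.intervalIntegrable (by
      rw [uIcc_of_le hal]; exact hc.mono (Icc_subset_Icc le_rfl (by linarith)))
  have hint2 : IntervalIntegrable G volume (t0 - l) t0 :=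
    ContinuousOn.intervalIntegrable (by
      rw [uIcc_of_le (by linarith)]; exact hc.mono (Icc_subset_Icc hal le_rfl))
  rw [← integral_add_adjacent_intervals hint1 hint2]
  have e1 : -δ * (t0 - l - a) ≤ ∫ t in a..(t0 - l), G t := by
    have := intervalIntegral.integral_mono_on (a := a) (b := t0 - l) (f := fun _ => -δ) (g := G)
      hal (by simp) hint1 (fun t ht => h1 t ⟨ht.1, by linarith [ht.2]⟩)
    simp only [intervalIntegral.integral_const, smul_eq_mul] at this
    linarith [mul_comm (t0 - l - a) (-δ)]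
  have e2 : y * l - C * l ^ 2 / 2 ≤ ∫ t in (t0 - l)..t0, G t := by
    have hi : IntervalIntegrable (fun t => y - C * (t0 - t)) volume (t0 - l) t0 :=
      Continuous.intervalIntegrable (by fun_prop) _ _
    have := intervalIntegral.integral_mono_on (a := t0 - l) (b := t0)
      (f := fun t => y - C * (t0 - t)) (g := G) (by linarith) hi hint2 h2
    have hv : ∫ t in (t0 - l)..t0, (y - C * (t0 - t)) = y * l - C * l ^ 2 / 2 := by
      have hF : ∀ x ∈ uIcc (t0 - l) t0,
          HasDerivAt (fun t => y * t + C * (t0 - t) ^ 2 / 2) (y - C * (t0 - x)) x := by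
        intro x _
        have h3 : HasDerivAt (fun t : ℝ => t0 - t) (-1) x := by
          simpa using (hasDerivAt_id x).const_sub t0
        have h4 : HasDerivAt (fun t : ℝ => (t0 - t) ^ 2) (2 * (t0 - x) * (-1)) x := by
          simpa using h3.fun_pow 2
        have h5 : HasDerivAt (fun t : ℝ => y * t + C * (t0 - t) ^ 2 / 2)
            (y * 1 + C * (2 * (t0 - x) * (-1)) / 2) x :=
          ((hasDerivAt_id x).const_mul y).fun_add ((h4.const_mul C).div_const 2)
        exact h5.congr_deriv (by ring)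
      rw [intervalIntegral.integral_eq_sub_of_hasDerivAt hF hi]
      ring
    linarith
  linarith

/-- Upper bound on a block. -/
lemma block_upper {G g : ℝ → ℝ} {a b C δ : ℝ} (hab : a ≤ b) (hab1 : b - a ≤ 1) (hC0 : 0 < C)
    (hδ : 0 ≤ δ)
    (hc : ContinuousOn G (Icc a b)) (hd : ∀ x ∈ Ioo a b, HasDerivAt G (g x - 1) x)
    (hC : ∀ x ∈ Ioo a b, |g x - 1| ≤ C)
    (hqc : ∀ x ∈ Ioo a b, ∀ y ∈ Ioo a b, ∀ z ∈ Ioo a b, x < y → y < z → g y ≤ max (g x) (g z))
    (hGa : -δ ≤ G a) (hGa' : G a ≤ δ) (hGb : G b ≤ δ)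
    (hK : ∀ s ∈ Icc a b, ∫ t in a..s, G t ≤ δ) :
    ∀ t ∈ Icc a b, G t ≤ δ + 2 * Real.sqrt (C * δ) := by
  have hsq : 0 ≤ Real.sqrt (C * δ) := Real.sqrt_nonneg _
  obtain ⟨t0, ht0, hmax⟩ := isCompact_Icc.exists_isMaxOn (nonempty_Icc.2 hab) hc
  have hmax' : ∀ t ∈ Icc a b, G t ≤ G t0 := fun t ht => hmax ht
  intro t ht
  refine (hmax' t ht).trans ?_
  by_contra hcon
  push Not at hcon
  set y := G t0 with hy
  have hyδ : δ < y := by linarith
  have ha0 : a < t0 := lt_of_le_of_ne ht0.1 (by rintro h; rw [← h] at hy; linarith)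
  have hb0 : t0 < b := lt_of_le_of_ne ht0.2 (by rintro h; rw [h] at hy; linarith)
  -- G ≥ -δ on [a, t0]
  have hlow : ∀ s ∈ Icc a t0, -δ ≤ G s := by
    intro s hs
    by_contra hs'
    push Not at hs'
    have has : a < s := lt_of_le_of_ne hs.1 (by rintro h; rw [← h] at hs'; linarith)
    have hst0 : s < t0 := lt_of_le_of_ne hs.2 (by rintro h; rw [h] at hs'; linarith)
    obtain ⟨x1, hx1, hx1'⟩ := exists_lt_one (g := g) has
      (hc.mono (Icc_subset_Icc le_rfl (by linarith)))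
      (fun x hx => hd x ⟨hx.1, by linarith [hx.2]⟩) (by linarith)
    obtain ⟨x2, hx2, hx2'⟩ := exists_gt_one (g := g) hst0
      (hc.mono (Icc_subset_Icc hs.1 hb0.le))
      (fun x hx => hd x ⟨by linarith [hx.1], by linarith [hx.2]⟩) (by linarith)
    obtain ⟨x3, hx3, hx3'⟩ := exists_lt_one (g := g) hb0
      (hc.mono (Icc_subset_Icc ha0.le le_rfl))
      (fun x hx => hd x ⟨by linarith [hx.1], hx.2⟩) (by linarith)
    have := hqc x1 ⟨hx1.1, by linarith [hx1.2]⟩ x2 ⟨by linarith [hx2.1], by linarith [hx2.2]⟩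
      x3 ⟨by linarith [hx3.1], hx3.2⟩ (by linarith [hx1.2, hx2.1]) (by linarith [hx2.2, hx3.1])
    rcases le_max_iff.1 this with h | h <;> linarith
  have hlip : ∀ s ∈ Icc a t0, y - C * (t0 - s) ≤ G s := by
    intro s hs
    have := lip_of_deriv hc hd hC ⟨hs.1, by linarith [hs.2]⟩ ht0 hs.2
    have := (abs_le.1 this).2
    linarith
  have hl0 : 0 < (y - δ) / C := div_pos (by linarith) hC0
  have hal : a ≤ t0 - (y - δ) / C := by
    have h1 := hlip a ⟨le_rfl, ha0.le⟩
    have h2 : (y - δ) / C ≤ t0 - a := by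
      rw [div_le_iff₀ hC0]; nlinarith
    linarith
  have hI := int_lower (G := G) (a := a) (t0 := t0) (y := y) (C := C) (δ := δ) hl0.le hal
    (hc.mono (Icc_subset_Icc le_rfl hb0.le)) hlow
    (fun s hs => hlip s ⟨by linarith [hs.1], hs.2⟩)
  have hK' := hK t0 ht0
  have e1 : y * ((y - δ) / C) - C * ((y - δ) / C) ^ 2 / 2 = (y - δ) * (y + δ) / (2 * C) := by
    field_simp; ring
  rw [e1] at hI
  have e2 : -δ ≤ -δ * (t0 - (y - δ) / C - a) := by
    have : t0 - (y - δ) / C - a ≤ 1 := by linarith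
    nlinarith
  have e3 : (y - δ) ^ 2 / (2 * C) ≤ (y - δ) * (y + δ) / (2 * C) := by
    apply div_le_div_of_nonneg_right _ (by positivity)
    nlinarith
  have e4 : (y - δ) ^ 2 / (2 * C) ≤ 2 * δ := by linarith
  rw [div_le_iff₀ (by positivity)] at e4
  have e5 : (y - δ) ^ 2 ≤ (2 * Real.sqrt (C * δ)) ^ 2 := by
    rw [mul_pow, Real.sq_sqrt (by positivity)]; nlinarith
  have e6 : y - δ ≤ 2 * Real.sqrt (C * δ) := by
    exact abs_le_of_sq_le_sq' e5 (by positivity) |>.2
  linarith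

/-- Lower bound on a block, by reflection. -/
lemma block_lower {G g : ℝ → ℝ} {a b C δ : ℝ} (hab : a ≤ b) (hab1 : b - a ≤ 1) (hC0 : 0 < C)
    (hδ : 0 ≤ δ)
    (hc : ContinuousOn G (Icc a b)) (hd : ∀ x ∈ Ioo a b, HasDerivAt G (g x - 1) x)
    (hC : ∀ x ∈ Ioo a b, |g x - 1| ≤ C)
    (hqc : ∀ x ∈ Ioo a b, ∀ y ∈ Ioo a b, ∀ z ∈ Ioo a b, x < y → y < z → g y ≤ max (g x) (g z))
    (hGb : -δ ≤ G b) (hGb' : G b ≤ δ) (hGa : -δ ≤ G a)
    (hK : ∀ s ∈ Icc a b, -δ ≤ ∫ t in s..b, G t) :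
    ∀ t ∈ Icc a b, -(δ + 2 * Real.sqrt (C * δ)) ≤ G t := by
  have key := block_upper (G := fun t => -G (a + b - t)) (g := fun t => g (a + b - t))
    (a := a) (b := b) (C := C) (δ := δ) hab hab1 hC0 hδ ?_ ?_ ?_ ?_ ?_ ?_ ?_ ?_
  · intro t ht
    have := key (a + b - t) ⟨by linarith [ht.2], by linarith [ht.1]⟩
    simp only [sub_sub_cancel] at this
    linarith
  · apply ContinuousOn.neg
    apply hc.comp (by fun_prop)
    intro x hx
    exact ⟨by linarith [hx.2], by linarith [hx.1]⟩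
  · intro x hx
    have h1 := hd (a + b - x) ⟨by linarith [hx.2], by linarith [hx.1]⟩
    have h2 : HasDerivAt (fun t : ℝ => a + b - t) (-1) x := by
      simpa using (hasDerivAt_id x).const_sub (a + b)
    have h3 := (HasDerivAt.comp x h1 h2).neg
    exact h3.congr_deriv (by ring)
  · intro x hx
    exact hC (a + b - x) ⟨by linarith [hx.2], by linarith [hx.1]⟩
  · intro x hx y hy z hz hxy hyz
    have := hqc (a + b - z) ⟨by linarith [hz.2], by linarith [hz.1]⟩ (a + b - y)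
      ⟨by linarith [hy.2], by linarith [hy.1]⟩ (a + b - x)
      ⟨by linarith [hx.2], by linarith [hx.1]⟩ (by linarith) (by linarith)
    rw [max_comm] at this
    exact this
  · simp only [add_sub_cancel_left]; linarith
  · simp only [add_sub_cancel_left]; linarith
  · simp only [add_sub_cancel_right]; linarith
  · intro s hs
    have h1 : ∫ t in a..s, -G (a + b - t) = -∫ t in (a + b - s)..b, G t := by
      rw [intervalIntegral.integral_neg, intervalIntegral.integral_comp_sub_left]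
      simp
    rw [h1]
    have := hK (a + b - s) ⟨by linarith [hs.2], by linarith [hs.1]⟩
    linarith

/-- Both bounds on an interior block. -/
lemma block_abs {G g : ℝ → ℝ} {a b C δ : ℝ} (hab : a ≤ b) (hab1 : b - a ≤ 1) (hC0 : 0 < C)
    (hδ : 0 ≤ δ)
    (hc : ContinuousOn G (Icc a b)) (hd : ∀ x ∈ Ioo a b, HasDerivAt G (g x - 1) x)
    (hC : ∀ x ∈ Ioo a b, |g x - 1| ≤ C)
    (hqc : ∀ x ∈ Ioo a b, ∀ y ∈ Ioo a b, ∀ z ∈ Ioo a b, x < y → y < z → g y ≤ max (g x) (g z))
    (hGa : |G a| ≤ δ) (hGb : |G b| ≤ δ)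
    (hK1 : ∀ s ∈ Icc a b, -δ ≤ ∫ t in s..b, G t)
    (hK2 : ∀ s ∈ Icc a b, ∫ t in a..s, G t ≤ δ) :
    ∀ t ∈ Icc a b, |G t| ≤ δ + 2 * Real.sqrt (C * δ) := by
  intro t ht
  rw [abs_le] at hGa hGb ⊢
  exact ⟨block_lower hab hab1 hC0 hδ hc hd hC hqc hGb.1 hGb.2 hGa.1 hK1 t ht,
    block_upper hab hab1 hC0 hδ hc hd hC hqc hGa.1 hGa.2 hGb.2 hK2 t ht⟩

/-- Upper bound of an integral to the right of a low point. -/
lemma int_upper {G : ℝ → ℝ} {b t0 y C δ l : ℝ} (hl : 0 ≤ l) (hal : t0 + l ≤ b)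
    (hc : ContinuousOn G (Icc t0 b)) (h1 : ∀ t ∈ Icc t0 b, G t ≤ δ)
    (h2 : ∀ t ∈ Icc t0 (t0 + l), G t ≤ -y + C * (t - t0)) :
    ∫ t in t0..b, G t ≤ δ * (b - l - t0) - (y * l - C * l ^ 2 / 2) := by
  have := int_lower (G := fun t => -G (t0 + b - t)) (a := t0) (t0 := b) (y := y) (C := C) (δ := δ)
    (l := l) hl (by linarith) ?_ ?_ ?_
  · have h1 : ∫ t in t0..b, -G (t0 + b - t) = -∫ t in t0..b, G t := by
      rw [intervalIntegral.integral_neg, intervalIntegral.integral_comp_sub_left]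
      simp
    rw [h1] at this
    nlinarith
  · apply ContinuousOn.neg
    apply hc.comp (by fun_prop)
    intro x hx
    exact ⟨by linarith [hx.2], by linarith [hx.1]⟩
  · intro t ht
    have := h1 (t0 + b - t) ⟨by linarith [ht.2], by linarith [ht.1]⟩
    linarith
  · intro t ht
    have := h2 (t0 + b - t) ⟨by linarith [ht.2], by linarith [ht.1]⟩
    linarith

/-- The lowest block `γ = ε`: `g` is almost nondecreasing. -/
lemma eps_block {G g : ℝ → ℝ} {a b C δ : ℝ} (hab : a ≤ b) (hab1 : b - a ≤ 1) (hC0 : 0 < C)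
    (hδ : 0 ≤ δ)
    (hc : ContinuousOn G (Icc a b)) (hd : ∀ x ∈ Ioo a b, HasDerivAt G (g x - 1) x)
    (hC : ∀ x ∈ Ioo a b, |g x - 1| ≤ C)
    (hmono : ∀ x ∈ Ioo a b, ∀ y ∈ Ioo a b, x ≤ y → g x - δ ≤ g y)
    (hGa : G a = 0) (hGb : |G b| ≤ δ)
    (hK1 : ∀ s ∈ Icc a b, -δ ≤ ∫ t in s..b, G t) :
    ∀ t ∈ Icc a b, |G t| ≤ 2 * δ + 3 * Real.sqrt (C * δ) := by
  have hsq : 0 ≤ Real.sqrt (C * δ) := Real.sqrt_nonneg _
  have hup : ∀ t ∈ Icc a b, G t ≤ 2 * δ := by
    intro t ht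
    by_contra hcon
    push Not at hcon
    have hat : a < t := lt_of_le_of_ne ht.1 (by rintro h; rw [← h] at hcon; linarith)
    have htb : t < b := lt_of_le_of_ne ht.2 (by
      rintro h; rw [h] at hcon; linarith [(abs_le.1 hGb).2])
    obtain ⟨x, hx, hx'⟩ := exists_gt_one (g := g) hat
      (hc.mono (Icc_subset_Icc le_rfl htb.le))
      (fun x hx => hd x ⟨hx.1, by linarith [hx.2]⟩) (by linarith)
    obtain ⟨z, hz, hz'⟩ := exists_hasDerivAt_eq_slope G (fun x => g x - 1) htb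
      (hc.mono (Icc_subset_Icc hat.le le_rfl))
      (fun x hx => hd x ⟨by linarith [hx.1], hx.2⟩)
    have h1 := hmono x ⟨hx.1, by linarith [hx.2]⟩ z ⟨by linarith [hz.1], hz.2⟩
      (by linarith [hx.2, hz.1])
    have h2 : -δ ≤ (G b - G t) / (b - t) := by rw [← hz']; linarith
    rw [le_div_iff₀ (by linarith)] at h2
    have h3 := (abs_le.1 hGb).2
    nlinarith
  intro t ht
  rw [abs_le]
  refine ⟨?_, by linarith [hup t ht]⟩
  by_contra hcon
  push Not at hcon
  set y := -G t with hy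
  have hyδ : 2 * δ + 3 * Real.sqrt (C * δ) < y := by linarith
  have hlip : ∀ s ∈ Icc t b, G s ≤ -y + C * (s - t) := by
    intro s hs
    have := lip_of_deriv hc hd hC ht ⟨by linarith [ht.1, hs.1], hs.2⟩ hs.1
    have := (abs_le.1 this).2
    linarith
  have hb' := (abs_le.1 hGb).1
  have hl0 : 0 ≤ (y - δ) / C := div_nonneg (by linarith) hC0.le
  have hbl : t + (y - δ) / C ≤ b := by
    have h1 := hlip b ⟨ht.2, le_rfl⟩
    have h2 : (y - δ) / C ≤ b - t := by
      rw [div_le_iff₀ hC0]; nlinarith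
    linarith
  have hI := int_upper (G := G) (b := b) (t0 := t) (y := y) (C := C) (δ := 2 * δ) hl0 hbl
    (hc.mono (Icc_subset_Icc ht.1 le_rfl)) (fun s hs => hup s ⟨by linarith [ht.1, hs.1], hs.2⟩)
    (fun s hs => hlip s ⟨hs.1, by linarith [hs.2]⟩)
  have hK' := hK1 t ht
  have e1 : y * ((y - δ) / C) - C * ((y - δ) / C) ^ 2 / 2 = (y - δ) * (y + δ) / (2 * C) := by
    field_simp; ring
  rw [e1] at hI
  have e2 : 2 * δ * (b - (y - δ) / C - t) ≤ 2 * δ := by
    have : b - (y - δ) / C - t ≤ 1 := by linarith [ht.1]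
    nlinarith
  have e3 : (y - δ) ^ 2 / (2 * C) ≤ (y - δ) * (y + δ) / (2 * C) := by
    apply div_le_div_of_nonneg_right _ (by positivity)
    nlinarith
  have e4 : (y - δ) ^ 2 / (2 * C) ≤ 3 * δ := by linarith
  rw [div_le_iff₀ (by positivity)] at e4
  have e5 : (y - δ) ^ 2 ≤ (3 * Real.sqrt (C * δ)) ^ 2 := by
    rw [mul_pow, Real.sq_sqrt (by positivity)]; nlinarith
  have e6 : y - δ ≤ 3 * Real.sqrt (C * δ) := (abs_le_of_sq_le_sq' e5 (by positivity)).2
  linarith

/-- The last block `γ = β` is short. -/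
lemma last_block {G g : ℝ → ℝ} {a C δ β : ℝ} (hβ : 1 ≤ β) (ha : a ≤ 1) (hC0 : 0 < C)
    (hδ : 0 ≤ δ)
    (hδ1 : δ ≤ 1 / (4 * β)) (hδ2 : 4 * δ < (1 / (4 * β * (1 + C))) ^ 2)
    (hc : ContinuousOn G (Icc a 1)) (hd : ∀ x ∈ Ioo a 1, HasDerivAt G (g x - 1) x)
    (hC : ∀ x ∈ Ioo a 1, |g x - 1| ≤ C)
    (hg : ∀ x ∈ Ioo a 1, β ^ 2 * (1 - x - G x) ^ 2 ≤ g x)
    (hGa : |G a| ≤ δ) (hK2 : ∀ s ∈ Icc a 1, ∫ t in a..s, G t ≤ δ) :
    β * (1 - a) ≤ 2 := by
  by_contra hcon
  push Not at hcon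
  set l : ℝ := 1 / (4 * β * (1 + C)) with hl
  have hl0 : 0 < l := by positivity
  have hβ0 : 0 < β := by linarith
  have hla : l ≤ 1 / (4 * β) := by
    rw [hl]; apply one_div_le_one_div_of_le (by positivity); nlinarith
  have h1a : 2 / β < 1 - a := by rw [div_lt_iff₀ hβ0]; linarith
  have hal : a + l < 1 := by
    have : 1 / (4 * β) ≤ 2 / β := by
      rw [div_le_div_iff₀ (by positivity) hβ0]; nlinarith
    linarith
  have hCl : (1 + C) * l = 1 / (4 * β) := by rw [hl]; field_simp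
  have hGa' := abs_le.1 hGa
  -- derivative at least one on (a, a + l)
  have hder : ∀ x ∈ Ioo a (a + l), 1 ≤ g x - 1 := by
    intro x hx
    have hx1 : x ∈ Ioo a 1 := ⟨hx.1, by linarith [hx.2]⟩
    have h1 := (abs_le.1 (lip_of_deriv hc hd hC ⟨le_rfl, ha⟩ ⟨hx1.1.le, hx1.2.le⟩ hx1.1.le)).2
    have h2 : C * (x - a) ≤ C * l := mul_le_mul_of_nonneg_left (by linarith [hx.2]) hC0.le
    have h3 : 3 / (2 * β) ≤ 1 - x - G x := by
      have h4 : 3 / (2 * β) = 2 / β - 1 / (4 * β) - 1 / (4 * β) := by field_simp; ring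
      rw [h4]
      have : (1 + C) * l = l + C * l := by ring
      linarith [hx.2]
    have h5 := hg x hx1
    have h6 : (3 / (2 * β)) ^ 2 ≤ (1 - x - G x) ^ 2 := by
      apply pow_le_pow_left₀ (by positivity) h3
    have h7 : β ^ 2 * (3 / (2 * β)) ^ 2 = 9 / 4 := by field_simp; ring
    nlinarith [mul_le_mul_of_nonneg_left h6 (sq_nonneg β)]
  have hlow : ∀ t ∈ Icc a (a + l), -δ + (t - a) ≤ G t := by
    intro t ht
    rcases ht.1.eq_or_lt with h | h
    · rw [← h]; linarith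
    obtain ⟨x, hx, hx'⟩ := exists_hasDerivAt_eq_slope G (fun x => g x - 1) h
      (hc.mono (Icc_subset_Icc le_rfl (by linarith [ht.2])))
      (fun x hx => hd x ⟨hx.1, by linarith [hx.2, ht.2]⟩)
    have h1 := hder x ⟨hx.1, by linarith [hx.2, ht.2]⟩
    rw [hx', le_div_iff₀ (by linarith)] at h1
    linarith
  have hint : IntervalIntegrable G volume a (a + l) :=
    ContinuousOn.intervalIntegrable (by
      rw [uIcc_of_le (by linarith)]; exact hc.mono (Icc_subset_Icc le_rfl hal.le))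
  have hi : IntervalIntegrable (fun t => -δ + (t - a)) volume a (a + l) :=
    Continuous.intervalIntegrable (by fun_prop) _ _
  have h8 := intervalIntegral.integral_mono_on (a := a) (b := a + l)
    (f := fun t => -δ + (t - a)) (g := G) (by linarith) hi hint hlow
  have hv : ∫ t in a..(a + l), (-δ + (t - a)) = -δ * l + l ^ 2 / 2 := by
    have hF : ∀ x ∈ uIcc a (a + l),
        HasDerivAt (fun t => -δ * t + (t - a) ^ 2 / 2) (-δ + (x - a)) x := by
      intro x _
      have h3 : HasDerivAt (fun t : ℝ => t - a) 1 x := by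
        simpa using (hasDerivAt_id x).sub_const a
      have h4 : HasDerivAt (fun t : ℝ => (t - a) ^ 2) (2 * (x - a) * 1) x := by
        simpa using h3.fun_pow 2
      have h5 : HasDerivAt (fun t : ℝ => -δ * t + (t - a) ^ 2 / 2)
          (-δ * 1 + (2 * (x - a) * 1) / 2) x :=
        ((hasDerivAt_id x).const_mul (-δ)).fun_add (h4.div_const 2)
      exact h5.congr_deriv (by ring)
    rw [intervalIntegral.integral_eq_sub_of_hasDerivAt hF hi]
    ring
  rw [hv] at h8
  have h9 := hK2 (a + l) ⟨by linarith, hal.le⟩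
  have h10 : l ≤ 1 := by
    have : 1 / (4 * β) ≤ 1 := by rw [div_le_one (by positivity)]; linarith
    linarith
  nlinarith

/-- Landau–Kolmogorov: `G` small and `g = 1 + G'` Lipschitz imply `g` close to `1`. -/
lemma landau {G g : ℝ → ℝ} {a b L η : ℝ} (hL : 0 < L) (hη : 0 ≤ η) (hab : a < b)
    (hc : ContinuousOn G (Icc a b)) (hd : ∀ x ∈ Ioo a b, HasDerivAt G (g x - 1) x)
    (hg : ∀ x ∈ Icc a b, ∀ y ∈ Icc a b, |g x - g y| ≤ L * |x - y|)
    (hG : ∀ t ∈ Icc a b, |G t| ≤ η) :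
    ∀ t ∈ Icc a b, |g t - 1| ≤ 3 * Real.sqrt (L * η) + 8 * η / (b - a) := by
  intro t ht
  set y := |g t - 1| with hy
  by_contra hcon
  push Not at hcon
  have hsq : 0 ≤ Real.sqrt (L * η) := Real.sqrt_nonneg _
  have hba : 0 < b - a := by linarith
  have hr : 0 ≤ 8 * η / (b - a) := by positivity
  have hy0 : 0 < y := by linarith
  -- for s < s' in the block with both within l of t, the increment is at least (y - L l) (s'-s)
  have hinc : ∀ l : ℝ, ∀ s ∈ Icc a b, ∀ s' ∈ Icc a b, s < s' → (∀ x ∈ Ioo s s', |x - t| ≤ l) →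
      (y - L * l) * (s' - s) ≤ 2 * η := by
    intro l s hs s' hs' hss hl
    obtain ⟨x, hx, hx'⟩ := exists_hasDerivAt_eq_slope G (fun x => g x - 1) hss
      (hc.mono (Icc_subset_Icc hs.1 hs'.2))
      (fun x hx => hd x ⟨by linarith [hx.1, hs.1], by linarith [hx.2, hs'.2]⟩)
    have hpos : 0 < s' - s := by linarith
    have h1 : G s' - G s = (g x - 1) * (s' - s) := by rw [hx']; field_simp
    have h2 : |g x - 1| * (s' - s) ≤ 2 * η := by
      rw [← abs_of_pos hpos, ← abs_mul, ← h1]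
      have := abs_sub (G s') (G s)
      linarith [hG s hs, hG s' hs']
    have h3 := hg x ⟨by linarith [hx.1, hs.1], by linarith [hx.2, hs'.2]⟩ t ht
    have h4 : y ≤ |g x - 1| + |g x - g t| := by
      have h5 : g t - 1 = (g x - 1) - (g x - g t) := by ring
      rw [hy, h5]; exact abs_sub _ _
    have h6 : L * |x - t| ≤ L * l := mul_le_mul_of_nonneg_left (hl x hx) hL.le
    have h7 : y - L * l ≤ |g x - 1| := by linarith
    nlinarith
  have hone : ∀ l : ℝ, 0 < l → l ≤ (b - a) / 2 → (y - L * l) * l ≤ 2 * η := by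
    intro l hl hl2
    rcases le_total (t + l) b with h | h
    · have := hinc l t ht (t + l) ⟨by linarith [ht.1], h⟩ (by linarith) (fun x hx => by
        rw [abs_le]; constructor <;> linarith [hx.1, hx.2])
      simpa using this
    · have := hinc l (t - l) ⟨by linarith, by linarith [ht.2]⟩ t ht (by linarith) (fun x hx => by
        rw [abs_le]; constructor <;> linarith [hx.1, hx.2])
      simpa using this
  rcases le_total (y / (2 * L)) ((b - a) / 2) with h | h
  · have h1 := hone (y / (2 * L)) (by positivity) h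
    have h2 : (y - L * (y / (2 * L))) * (y / (2 * L)) = y ^ 2 / (4 * L) := by
      field_simp; ring
    rw [h2, div_le_iff₀ (by positivity)] at h1
    have h3 : y ^ 2 ≤ (3 * Real.sqrt (L * η)) ^ 2 := by
      rw [mul_pow, Real.sq_sqrt (by positivity)]
      nlinarith [mul_nonneg hL.le hη]
    have h4 := (abs_le_of_sq_le_sq' h3 (by positivity)).2
    linarith
  · have h1 := hone ((b - a) / 2) (by positivity) le_rfl
    have h2 : L * ((b - a) / 2) ≤ y / 2 := by
      rw [le_div_iff₀ (by positivity)] at h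
      nlinarith
    have h3 : y / 2 * ((b - a) / 2) ≤ 2 * η := by
      refine le_trans ?_ h1
      apply mul_le_mul_of_nonneg_right _ (by positivity)
      linarith
    have h4 : y ≤ 8 * η / (b - a) := by
      rw [le_div_iff₀ hba]; linarith
    linarith

end Crest.Agent.R339.Var
end

-- ▼ part R339/Var71B
section

set_option autoImplicit false

open MeasureTheory Set intervalIntegral
open scoped Interval BigOperators

namespace Crest.Agent.R339.Var

/-- The cone of nondecreasing vectors with entries in `[ε, β]`. -/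
def cone (K : ℕ) (ε β : ℝ) : Set (Fin K → ℝ) := {m | Monotone m ∧ ∀ k, ε ≤ m k ∧ m k ≤ β}

lemma cone_nonempty (K : ℕ) {ε β : ℝ} (h : ε ≤ β) : (cone K ε β).Nonempty :=
  ⟨fun _ => ε, monotone_const, fun _ => ⟨le_rfl, h⟩⟩

lemma isCompact_cone (K : ℕ) (ε β : ℝ) : IsCompact (cone K ε β) := by
  have h1 : IsCompact (Set.pi univ fun _ : Fin K => Icc ε β) :=
    isCompact_univ_pi fun _ => isCompact_Icc
  refine h1.of_isClosed_subset ?_ ?_
  · have : cone K ε β = (⋂ (i : Fin K) (j : Fin K) (_ : i ≤ j), {m : Fin K → ℝ | m i ≤ m j}) ∩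
        (⋂ (k : Fin K), {m : Fin K → ℝ | ε ≤ m k ∧ m k ≤ β}) := by
      ext m
      simp only [mem_inter_iff, mem_iInter]
      constructor
      · rintro ⟨h1, h2⟩; exact ⟨fun i j hij => h1 hij, h2⟩
      · rintro ⟨h1, h2⟩; exact ⟨fun i j hij => h1 i j hij, h2⟩
    rw [this]
    apply IsClosed.inter
    · exact isClosed_iInter fun i => isClosed_iInter fun j => isClosed_iInter fun _ =>
        isClosed_le (continuous_apply i) (continuous_apply j)
    · refine isClosed_iInter fun k => ?_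
      exact IsClosed.inter (isClosed_le continuous_const (continuous_apply k))
        (isClosed_le (continuous_apply k) continuous_const)
  · intro m hm
    simp only [mem_pi, mem_univ, true_implies, mem_Icc]
    exact hm.2

lemma convex_cone (K : ℕ) (ε β : ℝ) : Convex ℝ (cone K ε β) := by
  intro x hx y hy a b ha hb hab
  refine ⟨?_, ?_⟩
  · intro i j hij
    simp only [Pi.add_apply, Pi.smul_apply, smul_eq_mul]
    have := hx.1 hij; have := hy.1 hij
    nlinarith [mul_le_mul_of_nonneg_left (hx.1 hij) ha, mul_le_mul_of_nonneg_left (hy.1 hij) hb]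
  · intro k
    simp only [Pi.add_apply, Pi.smul_apply, smul_eq_mul]
    have e1 : ε = a * ε + b * ε := by rw [← add_mul, hab, one_mul]
    have e2 : β = a * β + b * β := by rw [← add_mul, hab, one_mul]
    constructor
    · linarith [mul_le_mul_of_nonneg_left (hx.2 k).1 ha, mul_le_mul_of_nonneg_left (hy.2 k).1 hb]
    · linarith [mul_le_mul_of_nonneg_left (hx.2 k).2 ha, mul_le_mul_of_nonneg_left (hy.2 k).2 hb]

/-- Existence of a minimiser, from directional derivatives bounded on the cone. -/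
lemma exists_minimiser {K : ℕ} {ε β B : ℝ} (hεβ : ε ≤ β) {P : (Fin K → ℝ) → ℝ}
    {D : (Fin K → ℝ) → Fin K → ℝ}
    (hderiv : ∀ m ∈ cone K ε β, ∀ η : Fin K → ℝ,
      HasDerivAt (fun t : ℝ => P (m + t • η)) (∑ k, η k * D m k) 0)
    (hD : ∀ m ∈ cone K ε β, ∀ k, |D m k| ≤ B) :
    ∃ m ∈ cone K ε β, ∀ m' ∈ cone K ε β, P m ≤ P m' := by
  have hlip : ∀ m ∈ cone K ε β, ∀ m' ∈ cone K ε β, |P m' - P m| ≤ K * B * ‖m' - m‖ := by
    intro m hm m' hm'
    have h1 : ∀ t ∈ Icc (0:ℝ) 1, HasDerivAt (fun t : ℝ => P (m + t • (m' - m)))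
        (∑ k, (m' - m) k * D (m + t • (m' - m)) k) t := by
      intro t ht
      have hmt : m + t • (m' - m) ∈ cone K ε β := by
        have := convex_cone K ε β hm hm' (a := 1 - t) (b := t) (by linarith [ht.2]) ht.1 (by ring)
        convert this using 1
        funext k; simp; ring
      have h2 := hderiv _ hmt (m' - m)
      have h3 : HasDerivAt (fun s : ℝ => s - t) 1 t := by
        simpa using (hasDerivAt_id t).sub_const t
      have h4 : HasDerivAt (fun s : ℝ => P (m + t • (m' - m) + s • (m' - m)))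
          (∑ k, (m' - m) k * D (m + t • (m' - m)) k) (t - t) := by
        rw [sub_self]; exact h2
      have h5 := HasDerivAt.comp (h := fun s : ℝ => s - t) t h4 h3
      rw [mul_one] at h5
      have h6 : (fun s : ℝ => P (m + s • (m' - m))) =
          (fun s : ℝ => P (m + t • (m' - m) + s • (m' - m))) ∘ (fun s : ℝ => s - t) := by
        funext s
        simp only [Function.comp]
        congr 1
        funext k; simp; ring
      rw [h6]
      exact h5
    have hbound : ∀ t ∈ Icc (0:ℝ) 1,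
        ‖∑ k, (m' - m) k * D (m + t • (m' - m)) k‖ ≤ K * B * ‖m' - m‖ := by
      intro t ht
      have hmt : m + t • (m' - m) ∈ cone K ε β := by
        have := convex_cone K ε β hm hm' (a := 1 - t) (b := t) (by linarith [ht.2]) ht.1 (by ring)
        convert this using 1
        funext k; simp; ring
      calc ‖∑ k, (m' - m) k * D (m + t • (m' - m)) k‖
          ≤ ∑ k, ‖(m' - m) k * D (m + t • (m' - m)) k‖ := norm_sum_le _ _
        _ ≤ ∑ _k : Fin K, ‖m' - m‖ * B := by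
            apply Finset.sum_le_sum
            intro k _
            rw [norm_mul]
            exact mul_le_mul (norm_le_pi_norm _ k) (hD _ hmt k) (norm_nonneg _) (norm_nonneg _)
        _ = K * B * ‖m' - m‖ := by
            simp; ring
    have := Convex.norm_image_sub_le_of_norm_hasDerivWithin_le (s := Icc (0:ℝ) 1)
      (f := fun t : ℝ => P (m + t • (m' - m)))
      (f' := fun t => ∑ k, (m' - m) k * D (m + t • (m' - m)) k)
      (fun t ht => (h1 t ht).hasDerivWithinAt) hbound (convex_Icc 0 1)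
      (left_mem_Icc.2 zero_le_one) (right_mem_Icc.2 zero_le_one)
    simpa using this
  have hcont : ContinuousOn P (cone K ε β) := by
    intro m hm
    rw [ContinuousWithinAt, tendsto_iff_norm_sub_tendsto_zero]
    have h0 : Filter.Tendsto (fun m' => K * B * ‖m' - m‖) (nhdsWithin m (cone K ε β))
        (nhds 0) := by
      have : Filter.Tendsto (fun m' : Fin K → ℝ => K * B * ‖m' - m‖) (nhds m)
          (nhds (K * B * ‖m - m‖)) :=
        (Continuous.tendsto (by fun_prop) m)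
      simp only [sub_self, norm_zero, mul_zero] at this
      exact this.mono_left nhdsWithin_le_nhds
    refine squeeze_zero' (Filter.Eventually.of_forall fun _ => norm_nonneg _) ?_ h0
    filter_upwards [self_mem_nhdsWithin] with m' hm'
    exact hlip m hm m' hm'
  obtain ⟨m, hm, hmin⟩ := (isCompact_cone K ε β).exists_isMinOn (cone_nonempty K hεβ) hcont
  exact ⟨m, hm, fun m' hm' => hmin hm'⟩

/-- First-order condition in a feasible direction. -/
lemma first_order {K : ℕ} {ε β : ℝ} {P : (Fin K → ℝ) → ℝ} {m η : Fin K → ℝ} {d : ℝ}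
    (hmin : ∀ m' ∈ cone K ε β, P m ≤ P m')
    (hderiv : HasDerivAt (fun t : ℝ => P (m + t • η)) d 0)
    {t0 : ℝ} (ht0 : 0 < t0) (hfeas : ∀ t, 0 < t → t ≤ t0 → m + t • η ∈ cone K ε β) : 0 ≤ d := by
  have h1 := hderiv.hasDerivWithinAt (s := Ioi 0)
  rw [hasDerivWithinAt_iff_tendsto_slope'] at h1
  · refine ge_of_tendsto h1 ?_
    have : ∀ᶠ t in nhdsWithin (0:ℝ) (Ioi 0), t ∈ Ioc 0 t0 := by
      apply Ioc_mem_nhdsGT ht0
    filter_upwards [this] with t ht
    have h2 := hmin _ (hfeas t ht.1 ht.2)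
    simp only [slope_def_field, sub_zero, zero_smul, add_zero]
    exact div_nonneg (by linarith) ht.1.le
  · simp

/-- Raising the values on the right part `[s, b)` of a constancy block. -/
lemma kkt_raise {K : ℕ} {ε β : ℝ} {P : (Fin K → ℝ) → ℝ} {m : Fin K → ℝ} {D : Fin K → ℝ}
    (hm : m ∈ cone K ε β) (hmin : ∀ m' ∈ cone K ε β, P m ≤ P m')
    (hderiv : ∀ η : Fin K → ℝ, HasDerivAt (fun t : ℝ => P (m + t • η)) (∑ k, η k * D k) 0)
    {s b : ℕ} {v : ℝ} (hv : ∀ k : Fin K, s ≤ k → (k:ℕ) < b → m k = v)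
    (hb : ∀ k : Fin K, b ≤ (k:ℕ) → v < m k) (hvβ : v < β) :
    0 ≤ ∑ k : Fin K, if s ≤ (k:ℕ) ∧ (k:ℕ) < b then D k else 0 := by
  classical
  -- a uniform gap
  obtain ⟨t0, ht0, ht0β, hgap⟩ : ∃ t0 > 0, v + t0 ≤ β ∧ ∀ k : Fin K, b ≤ (k:ℕ) → v + t0 ≤ m k := by
    by_cases hbK : b < K
    · refine ⟨min (β - v) (m ⟨b, hbK⟩ - v), lt_min (by linarith) (by linarith [hb ⟨b, hbK⟩ le_rfl]),
        by linarith [min_le_left (β - v) (m ⟨b, hbK⟩ - v)], ?_⟩
      intro k hk
      have h1 : m ⟨b, hbK⟩ ≤ m k := hm.1 (by exact hk)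
      linarith [min_le_right (β - v) (m ⟨b, hbK⟩ - v)]
    · refine ⟨β - v, by linarith, by linarith, ?_⟩
      intro k hk
      exact absurd (lt_of_le_of_lt hk k.2) hbK
  set η : Fin K → ℝ := fun k => if s ≤ (k:ℕ) ∧ (k:ℕ) < b then 1 else 0 with hη
  have h1 := first_order hmin (hderiv η) ht0 ?_
  · have : ∑ k, η k * D k = ∑ k : Fin K, if s ≤ (k:ℕ) ∧ (k:ℕ) < b then D k else 0 := by
      apply Finset.sum_congr rfl
      intro k _
      simp only [hη]; split_ifs <;> simp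
    rwa [this] at h1
  · intro t ht ht'
    refine ⟨?_, ?_⟩
    · intro i j hij
      have hij' : (i:ℕ) ≤ j := hij
      have hmij := hm.1 hij
      simp only [Pi.add_apply, Pi.smul_apply, smul_eq_mul, hη]
      split_ifs with h1 h2 h2
      · linarith
      · -- i in S, j not in S
        have hjb : b ≤ (j:ℕ) := by
          by_contra hcon
          exact h2 ⟨le_trans h1.1 hij', by omega⟩
        have := hgap j hjb
        have := hv i h1.1 h1.2
        linarith
      · linarith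
      · linarith
    · intro k
      simp only [Pi.add_apply, Pi.smul_apply, smul_eq_mul, hη]
      split_ifs with h1
      · have := hv k h1.1 h1.2
        have := (hm.2 k).1
        constructor <;> linarith
      · simpa using hm.2 k

/-- Lowering the values on the left part `[a, s)` of a constancy block. -/
lemma kkt_lower {K : ℕ} {ε β : ℝ} {P : (Fin K → ℝ) → ℝ} {m : Fin K → ℝ} {D : Fin K → ℝ}
    (hm : m ∈ cone K ε β) (hmin : ∀ m' ∈ cone K ε β, P m ≤ P m')
    (hderiv : ∀ η : Fin K → ℝ, HasDerivAt (fun t : ℝ => P (m + t • η)) (∑ k, η k * D k) 0)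
    {a s : ℕ} {v : ℝ} (haK : a < K) (hv : ∀ k : Fin K, a ≤ k → (k:ℕ) < s → m k = v)
    (ha : ∀ k : Fin K, (k:ℕ) < a → m k < v) (hvε : ε < v) :
    ∑ k : Fin K, (if a ≤ (k:ℕ) ∧ (k:ℕ) < s then D k else 0) ≤ 0 := by
  classical
  obtain ⟨t0, ht0, ht0ε, hgap⟩ : ∃ t0 > 0, ε ≤ v - t0 ∧ ∀ k : Fin K, (k:ℕ) < a → m k ≤ v - t0 := by
    rcases Nat.eq_zero_or_pos a with h0 | h0
    · refine ⟨v - ε, by linarith, by linarith, ?_⟩
      intro k hk
      omega
    · have hlt : a - 1 < K := by omega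
      refine ⟨min (v - ε) (v - m ⟨a - 1, hlt⟩),
        lt_min (by linarith) (by
          have := ha ⟨a - 1, hlt⟩ (by simp only; omega)
          linarith), by linarith [min_le_left (v - ε) (v - m ⟨a - 1, hlt⟩)], ?_⟩
      intro k hk
      have h1 : m k ≤ m ⟨a - 1, hlt⟩ := hm.1 (by
        show (k:ℕ) ≤ a - 1
        omega)
      linarith [min_le_right (v - ε) (v - m ⟨a - 1, hlt⟩)]
  set η : Fin K → ℝ := fun k => if a ≤ (k:ℕ) ∧ (k:ℕ) < s then -1 else 0 with hη
  have h1 := first_order hmin (hderiv η) ht0 ?_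
  · have : ∑ k, η k * D k = -∑ k : Fin K, if a ≤ (k:ℕ) ∧ (k:ℕ) < s then D k else 0 := by
      rw [← Finset.sum_neg_distrib]
      apply Finset.sum_congr rfl
      intro k _
      simp only [hη]; split_ifs <;> simp
    rw [this] at h1
    linarith
  · intro t ht ht'
    refine ⟨?_, ?_⟩
    · intro i j hij
      have hij' : (i:ℕ) ≤ j := hij
      have hmij := hm.1 hij
      simp only [Pi.add_apply, Pi.smul_apply, smul_eq_mul, hη]
      split_ifs with h1 h2 h2
      · linarith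
      · linarith
      · have hia : (i:ℕ) < a := by
          by_contra hcon
          exact h1 ⟨by omega, by omega⟩
        have := hgap i hia
        have := hv j h2.1 h2.2
        linarith
      · linarith
    · intro k
      simp only [Pi.add_apply, Pi.smul_apply, smul_eq_mul, hη]
      split_ifs with h1
      · have := hv k h1.1 h1.2
        have := (hm.2 k).2
        constructor <;> linarith
      · simpa using hm.2 k

/-- Sum of grid integrals. -/
lemma sum_grid_integral {K : ℕ} (hK : 0 < K) {G : ℝ → ℝ} (hG : ContinuousOn G (Icc 0 1))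
    {a b : ℕ} (hab : a ≤ b) (hb : b ≤ K) :
    (∑ k : Fin K, if a ≤ (k:ℕ) ∧ (k:ℕ) < b then
      (1/2) * ∫ t in ((k:ℕ):ℝ)/K..(((k:ℕ):ℝ)+1)/K, G t else 0) =
    (1/2) * ∫ t in (a:ℝ)/K..(b:ℝ)/K, G t := by
  have hK' : (0:ℝ) < K := by exact_mod_cast hK
  have hint : ∀ i j : ℕ, i ≤ j → j ≤ K →
      IntervalIntegrable G volume ((i:ℝ)/K) ((j:ℝ)/K) := by
    intro i j hij hj
    apply ContinuousOn.intervalIntegrable
    rw [uIcc_of_le (by
      apply div_le_div_of_nonneg_right _ hK'.le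
      exact_mod_cast hij)]
    apply hG.mono
    apply Icc_subset_Icc
    · positivity
    · rw [div_le_one hK']; exact_mod_cast hj
  rw [Fin.sum_univ_eq_sum_range (fun k : ℕ => if a ≤ k ∧ k < b then
      (1/2) * ∫ t in (k:ℝ)/K..((k:ℝ)+1)/K, G t else 0) K]
  have h1 : ∑ k ∈ Finset.range K, (if a ≤ k ∧ k < b then
      (1/2) * ∫ t in (k:ℝ)/K..((k:ℝ)+1)/K, G t else 0) =
      ∑ k ∈ Finset.Ico a b, (1/2) * ∫ t in (k:ℝ)/K..((k:ℝ)+1)/K, G t := by
    rw [← Finset.sum_filter]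
    congr 1
    ext k
    simp only [Finset.mem_filter, Finset.mem_range, Finset.mem_Ico]
    omega
  rw [h1, ← Finset.mul_sum]
  congr 1
  have h2 := intervalIntegral.sum_integral_adjacent_intervals_Ico (f := G) (μ := volume)
    (a := fun k : ℕ => (k:ℝ)/K) hab (fun k hk => by
      have := hint k (k+1) (by omega) (by have := hk.2; omega)
      simpa using this)
  simp only [Nat.cast_add, Nat.cast_one] at h2
  exact h2

/-- A downward closed predicate on `Fin K` is an initial segment. -/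
lemma initial_segment {K : ℕ} (p : Fin K → Prop) (hp : ∀ i j : Fin K, i ≤ j → p j → p i) :
    ∃ a ≤ K, ∀ k : Fin K, (k:ℕ) < a ↔ p k := by
  classical
  by_cases hall : ∀ k, p k
  · exact ⟨K, le_rfl, fun k => ⟨fun _ => hall k, fun _ => k.2⟩⟩
  · push Not at hall
    have hex : ∃ n : ℕ, ∃ h : n < K, ¬ p ⟨n, h⟩ := by
      obtain ⟨k, hk⟩ := hall
      exact ⟨k, k.2, hk⟩
    refine ⟨Nat.find hex, ?_, ?_⟩
    · obtain ⟨h, _⟩ := Nat.find_spec hex
      exact h.le
    · intro k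
      constructor
      · intro hk
        by_contra hcon
        exact Nat.find_min hex hk ⟨k.2, hcon⟩
      · intro hk
        by_contra hcon
        push Not at hcon
        obtain ⟨h, h'⟩ := Nat.find_spec hex
        exact h' (hp ⟨Nat.find hex, h⟩ k hcon hk)

end Crest.Agent.R339.Var
end

-- ▼ part R339/Var71C
section

set_option autoImplicit false

open MeasureTheory Set intervalIntegral
open scoped Interval BigOperators

namespace Crest.Agent.R339.Var

/-- quasi-convexity on an open interval -/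
def QC (g : ℝ → ℝ) (a b : ℝ) : Prop :=
  ∀ x ∈ Ioo a b, ∀ y ∈ Ioo a b, ∀ z ∈ Ioo a b, x < y → y < z → g y ≤ max (g x) (g z)

/-- Data of a (candidate) minimiser. -/
structure Data (K : ℕ) (ε β C δ : ℝ) (P : (Fin K → ℝ) → ℝ) (m : Fin K → ℝ) (G g : ℝ → ℝ) :
    Prop where
  hK : 0 < K
  hε : 0 < ε
  hεβ : ε < β
  hβ : 1 ≤ β
  hm : m ∈ cone K ε β
  hmin : ∀ m' ∈ cone K ε β, P m ≤ P m'
  hderiv : ∀ η : Fin K → ℝ, HasDerivAt (fun t : ℝ => P (m + t • η))
    (∑ k, η k * ((1/2) * ∫ t in ((k:ℕ):ℝ)/K..(((k:ℕ):ℝ)+1)/K, G t)) 0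
  hG0 : G 0 = 0
  hG1 : ∀ t ∈ Icc (0:ℝ) 1, G t ≤ 1 - t
  hGl : ∀ t ∈ Icc (0:ℝ) 1, -t ≤ G t
  hGc : ContinuousOn G (Icc 0 1)
  hd : ∀ x ∈ Ioo (0:ℝ) 1, HasDerivAt G (g x - 1) x
  hC : ∀ x ∈ Ioo (0:ℝ) 1, |g x - 1| ≤ C
  hC1 : 1 ≤ C
  hqc : ∀ a b : ℕ, a < b → b ≤ K → ∀ v, ε < v → v < β →
    (∀ k : Fin K, a ≤ (k:ℕ) → (k:ℕ) < b → m k = v) → QC g ((a:ℝ)/K) ((b:ℝ)/K)
  heps : ∀ b : ℕ, b ≤ K → (∀ k : Fin K, (k:ℕ) < b → m k = ε) →
    ∀ x ∈ Ioo (0:ℝ) ((b:ℝ)/K), ∀ y ∈ Ioo (0:ℝ) ((b:ℝ)/K), x ≤ y → g x - δ ≤ g y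
  hlast : ∀ a : ℕ, a ≤ K → (∀ k : Fin K, a ≤ (k:ℕ) → m k = β) →
    ∀ x ∈ Ioo ((a:ℝ)/K) 1, β ^ 2 * (1 - x - G x) ^ 2 ≤ g x
  hδ : C / K ≤ δ
  hδ1 : δ ≤ 1 / (4 * β)
  hδ2 : 4 * δ < (1 / (4 * β * (1 + C))) ^ 2

namespace Data

variable {K : ℕ} {ε β C δ : ℝ} {P : (Fin K → ℝ) → ℝ} {m : Fin K → ℝ} {G g : ℝ → ℝ}

lemma Kpos (D : Data K ε β C δ P m G g) : (0:ℝ) < K := by exact_mod_cast D.hK

lemma δnn (D : Data K ε β C δ P m G g) : 0 ≤ δ := by
  have h1 := D.hδ
  have h2 : 0 ≤ C / K := div_nonneg (by linarith [D.hC1]) D.Kpos.le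
  linarith

lemma Cpos (D : Data K ε β C δ P m G g) : 0 < C := by linarith [D.hC1]

lemma grid_mem (D : Data K ε β C δ P m G g) {a : ℕ} (ha : a ≤ K) : ((a:ℝ)/K) ∈ Icc (0:ℝ) 1 := by
  have hK := D.Kpos
  refine ⟨by positivity, ?_⟩
  rw [div_le_one hK]; exact_mod_cast ha

lemma lip (D : Data K ε β C δ P m G g) {s t : ℝ} (hs : s ∈ Icc (0:ℝ) 1) (ht : t ∈ Icc (0:ℝ) 1)
    (hst : s ≤ t) : |G t - G s| ≤ C * (t - s) :=
  lip_of_deriv D.hGc D.hd D.hC hs ht hst

lemma ii (D : Data K ε β C δ P m G g) {s t : ℝ} (hs : s ∈ Icc (0:ℝ) 1) (ht : t ∈ Icc (0:ℝ) 1) :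
    IntervalIntegrable G volume s t := by
  apply ContinuousOn.intervalIntegrable
  apply D.hGc.mono
  exact (ordConnected_Icc.uIcc_subset hs ht)

lemma int_small_le (D : Data K ε β C δ P m G g) {s t : ℝ} (hs : s ∈ Icc (0:ℝ) 1)
    (ht : t ∈ Icc (0:ℝ) 1) (hst : s ≤ t) (h1 : t - s ≤ 1 / K) :
    |∫ x in s..t, G x| ≤ δ := by
  have hb : ∀ x ∈ Ι s t, ‖G x‖ ≤ 1 := by
    intro x hx
    rw [uIoc_of_le hst] at hx
    have hx1 : x ∈ Icc (0:ℝ) 1 := ⟨by linarith [hx.1, hs.1], by linarith [hx.2, ht.2]⟩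
    rw [Real.norm_eq_abs, abs_le]
    constructor <;> linarith [D.hG1 x hx1, D.hGl x hx1, hx1.1, hx1.2]
  have := intervalIntegral.norm_integral_le_of_norm_le_const hb
  rw [Real.norm_eq_abs, one_mul, abs_of_nonneg (a := t - s) (by linarith)] at this
  have h2 : (1:ℝ) / K ≤ C / K := div_le_div_of_nonneg_right D.hC1 D.Kpos.le
  linarith [D.hδ]

/-- discrete K1 -/
lemma raise (D : Data K ε β C δ P m G g) {s b : ℕ} {v : ℝ} (hsb : s ≤ b) (hbK : b ≤ K)
    (hv : ∀ k : Fin K, s ≤ (k:ℕ) → (k:ℕ) < b → m k = v)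
    (hb : ∀ k : Fin K, b ≤ (k:ℕ) → v < m k) (hvβ : v < β) :
    0 ≤ ∫ t in (s:ℝ)/K..(b:ℝ)/K, G t := by
  have h1 := kkt_raise D.hm D.hmin D.hderiv hv hb hvβ
  have h2 := sum_grid_integral D.hK D.hGc hsb hbK
  rw [h2] at h1
  linarith

/-- discrete K2 -/
lemma lower (D : Data K ε β C δ P m G g) {a s : ℕ} {v : ℝ} (has : a ≤ s) (hsK : s ≤ K)
    (hv : ∀ k : Fin K, a ≤ (k:ℕ) → (k:ℕ) < s → m k = v)
    (ha : ∀ k : Fin K, (k:ℕ) < a → m k < v) (hvε : ε < v) :
    ∫ t in (a:ℝ)/K..(s:ℝ)/K, G t ≤ 0 := by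
  rcases Nat.lt_or_ge a K with haK | haK
  · have h1 := kkt_lower D.hm D.hmin D.hderiv haK hv ha hvε
    have h2 := sum_grid_integral D.hK D.hGc has hsK
    rw [h2] at h1
    linarith
  · have : a = s := by omega
    rw [this]; simp

/-- K1 for all real times -/
lemma raise' (D : Data K ε β C δ P m G g) {a b : ℕ} {v : ℝ} (hbK : b ≤ K)
    (hv : ∀ k : Fin K, a ≤ (k:ℕ) → (k:ℕ) < b → m k = v)
    (hb : ∀ k : Fin K, b ≤ (k:ℕ) → v < m k) (hvβ : v < β) :
    ∀ s ∈ Icc ((a:ℝ)/K) ((b:ℝ)/K), -δ ≤ ∫ t in s..(b:ℝ)/K, G t := by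
  intro s hs
  have hK := D.Kpos
  have hs0 : 0 ≤ s := le_trans (by positivity) hs.1
  have hsK : 0 ≤ s * K := by positivity
  set j := ⌈s * K⌉₊ with hj
  have hj1 : s * K ≤ j := Nat.le_ceil _
  have hj2 : (j:ℝ) < s * K + 1 := Nat.ceil_lt_add_one hsK
  have hjb : j ≤ b := by
    rw [hj, Nat.ceil_le]
    have := hs.2
    rwa [le_div_iff₀ hK] at this
  have haj : a ≤ j := by
    have h1 : (a:ℝ) ≤ s * K := by
      have := hs.1
      rwa [div_le_iff₀ hK] at this
    exact_mod_cast h1.trans hj1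
  have hsj : s ≤ (j:ℝ)/K := by rw [le_div_iff₀ hK]; exact hj1
  have hjs : (j:ℝ)/K - s ≤ 1/K := by
    rw [sub_le_iff_le_add, div_le_iff₀ hK, add_mul, div_mul_cancel₀ _ hK.ne']
    linarith
  have hs1 : s ∈ Icc (0:ℝ) 1 := ⟨hs0, hs.2.trans (D.grid_mem hbK).2⟩
  have hjm := D.grid_mem (hjb.trans hbK)
  have h1 := D.raise hjb hbK (fun k hk => hv k (by omega)) hb hvβ
  have h2 := D.int_small_le hs1 hjm hsj hjs
  rw [← intervalIntegral.integral_add_adjacent_intervals (D.ii hs1 hjm)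
    (D.ii hjm (D.grid_mem hbK))]
  have h3 := (abs_le.1 h2).1
  linarith

/-- K2 for all real times -/
lemma lower' (D : Data K ε β C δ P m G g) {a b : ℕ} {v : ℝ} (hbK : b ≤ K)
    (hv : ∀ k : Fin K, a ≤ (k:ℕ) → (k:ℕ) < b → m k = v)
    (ha : ∀ k : Fin K, (k:ℕ) < a → m k < v) (hvε : ε < v) :
    ∀ s ∈ Icc ((a:ℝ)/K) ((b:ℝ)/K), ∫ t in (a:ℝ)/K..s, G t ≤ δ := by
  intro s hs
  have hK := D.Kpos
  have hs0 : 0 ≤ s := le_trans (by positivity) hs.1
  have hsK : 0 ≤ s * K := by positivity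
  set j := ⌊s * K⌋₊ with hj
  have hj1 : (j:ℝ) ≤ s * K := Nat.floor_le hsK
  have hj2 : s * K < j + 1 := Nat.lt_floor_add_one _
  have hsb : s * K ≤ b := by
    have := hs.2
    rwa [le_div_iff₀ hK] at this
  have hjb : j ≤ b := by exact_mod_cast hj1.trans hsb
  have haj : a ≤ j := by
    rw [hj, Nat.le_floor_iff hsK]
    have := hs.1
    rwa [div_le_iff₀ hK] at this
  have hsj : (j:ℝ)/K ≤ s := by rw [div_le_iff₀ hK]; exact hj1
  have hjs : s - (j:ℝ)/K ≤ 1/K := by
    rw [sub_le_iff_le_add, ← add_div, le_div_iff₀ hK]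
    linarith
  have hs1 : s ∈ Icc (0:ℝ) 1 := ⟨hs0, hs.2.trans (D.grid_mem hbK).2⟩
  have hjm := D.grid_mem (hjb.trans hbK)
  have ham := D.grid_mem (haj.trans (hjb.trans hbK))
  have h1 := D.lower haj (hjb.trans hbK) (fun k hk hk' => hv k hk (by omega)) ha hvε
  have h2 := D.int_small_le hjm hs1 hsj hjs
  rw [← intervalIntegral.integral_add_adjacent_intervals (D.ii ham hjm) (D.ii hjm hs1)]
  have h3 := (abs_le.1 h2).2
  linarith

/-- lower bound at the right end of a block -/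
lemma bdry_low (D : Data K ε β C δ P m G g) {b : ℕ} {v : ℝ} (hb0 : 0 < b) (hbK : b ≤ K)
    (hv : ∀ k : Fin K, b - 1 ≤ (k:ℕ) → (k:ℕ) < b → m k = v)
    (hb : ∀ k : Fin K, b ≤ (k:ℕ) → v < m k) (hvβ : v < β) : -δ ≤ G ((b:ℝ)/K) := by
  have h1 := D.raise (Nat.sub_le b 1) hbK hv hb hvβ
  have hK := D.Kpos
  by_contra hcon
  push Not at hcon
  have hcast : ((b - 1 : ℕ) : ℝ) = (b:ℝ) - 1 := by
    rw [Nat.cast_sub (by omega)]; simp
  have hb1 := D.grid_mem (show b - 1 ≤ K by omega)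
  have hbm := D.grid_mem hbK
  have hlt : ((b - 1 : ℕ) : ℝ)/K < (b:ℝ)/K := by
    apply div_lt_div_of_pos_right _ hK; rw [hcast]; linarith
  have hneg : ∀ x ∈ Icc (((b - 1 : ℕ) : ℝ)/K) ((b:ℝ)/K), G x ≤ G ((b:ℝ)/K) + δ := by
    intro x hx
    have hx1 : x ∈ Icc (0:ℝ) 1 := ⟨by linarith [hx.1, hb1.1], by linarith [hx.2, hbm.2]⟩
    have h2 := (abs_le.1 (D.lip hx1 hbm hx.2)).1
    have h3 : (b:ℝ)/K - x ≤ 1/K := by
      have := hx.1
      rw [hcast, sub_div] at this
      linarith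
    have h4 : C * ((b:ℝ)/K - x) ≤ C / K := by
      calc C * ((b:ℝ)/K - x) ≤ C * (1/K) := mul_le_mul_of_nonneg_left h3 D.Cpos.le
        _ = C / K := by ring
    linarith [D.hδ]
  have h5 := intervalIntegral.integral_mono_on (a := ((b - 1 : ℕ) : ℝ)/K) (b := (b:ℝ)/K)
    (f := G) (g := fun _ => G ((b:ℝ)/K) + δ) hlt.le (D.ii hb1 hbm) (by simp) hneg
  simp only [intervalIntegral.integral_const, smul_eq_mul] at h5
  have h6 : ((b:ℝ)/K - ((b - 1 : ℕ) : ℝ)/K) * (G ((b:ℝ)/K) + δ) < 0 :=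
    mul_neg_of_pos_of_neg (by linarith) (by linarith)
  linarith

/-- upper bound at the left end of a block -/
lemma bdry_up (D : Data K ε β C δ P m G g) {a : ℕ} {v : ℝ} (haK : a < K)
    (hv : ∀ k : Fin K, a ≤ (k:ℕ) → (k:ℕ) < a + 1 → m k = v)
    (ha : ∀ k : Fin K, (k:ℕ) < a → m k < v) (hvε : ε < v) : G ((a:ℝ)/K) ≤ δ := by
  have h1 := D.lower (Nat.le_succ a) haK hv ha hvε
  have hK := D.Kpos
  by_contra hcon
  push Not at hcon
  have hcast : ((a + 1 : ℕ) : ℝ) = (a:ℝ) + 1 := by push_cast; ring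
  have ha1 := D.grid_mem (show a + 1 ≤ K by omega)
  have ham := D.grid_mem haK.le
  have hlt : (a:ℝ)/K < ((a + 1 : ℕ) : ℝ)/K := by
    apply div_lt_div_of_pos_right _ hK; rw [hcast]; linarith
  have hpos : ∀ x ∈ Icc ((a:ℝ)/K) (((a + 1 : ℕ) : ℝ)/K), G ((a:ℝ)/K) - δ ≤ G x := by
    intro x hx
    have hx1 : x ∈ Icc (0:ℝ) 1 := ⟨by linarith [hx.1, ham.1], by linarith [hx.2, ha1.2]⟩
    have h2 := (abs_le.1 (D.lip ham hx1 hx.1)).1
    have h3 : x - (a:ℝ)/K ≤ 1/K := by
      have := hx.2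
      rw [hcast, add_div] at this
      linarith
    have h4 : C * (x - (a:ℝ)/K) ≤ C / K := by
      calc C * (x - (a:ℝ)/K) ≤ C * (1/K) := mul_le_mul_of_nonneg_left h3 D.Cpos.le
        _ = C / K := by ring
    linarith [D.hδ]
  have h5 := intervalIntegral.integral_mono_on (a := (a:ℝ)/K) (b := ((a + 1 : ℕ) : ℝ)/K)
    (f := fun _ => G ((a:ℝ)/K) - δ) (g := G) hlt.le (by simp) (D.ii ham ha1) hpos
  simp only [intervalIntegral.integral_const, smul_eq_mul] at h5
  have h6 : 0 < (((a + 1 : ℕ) : ℝ)/K - (a:ℝ)/K) * (G ((a:ℝ)/K) - δ) :=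
    mul_pos (by linarith) (by linarith)
  linarith

/-- MAIN: uniform smallness of `G` below the top block, the top block is short. -/
theorem main (D : Data K ε β C δ P m G g) :
    ∃ a : ℕ, a ≤ K ∧ (∀ k : Fin K, (k:ℕ) < a ↔ m k < β) ∧ β * (1 - (a:ℝ)/K) ≤ 2 ∧
      (∀ t ∈ Icc (0:ℝ) ((a:ℝ)/K), |G t| ≤ 2 * δ + 3 * Real.sqrt (C * δ)) ∧
      ∫ t in (a:ℝ)/K..1, G t ≤ 0 := by
  have hK := D.Kpos
  have hδ := D.δnn
  have hsq : 0 ≤ Real.sqrt (C * δ) := Real.sqrt_nonneg _
  have hmono := D.hm.1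
  obtain ⟨A, hAK, hA⟩ := initial_segment (fun k => m k < β)
    (fun i j hij hj => lt_of_le_of_lt (hmono hij) hj)
  have hmtop : ∀ k : Fin K, A ≤ (k:ℕ) → m k = β := by
    intro k hk
    have h1 : ¬ (m k < β) := fun h => absurd ((hA k).2 h) (by omega)
    exact le_antisymm (D.hm.2 k).2 (not_lt.1 h1)
  have hKK : ((K:ℕ):ℝ)/K = 1 := div_self hK.ne'
  -- upper bound at any block boundary
  have hbup : ∀ b : ℕ, b ≤ K → (∀ k : Fin K, (k:ℕ) < b → ∀ l : Fin K, b ≤ (l:ℕ) → m k < m l) →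
      0 < b → G ((b:ℝ)/K) ≤ δ := by
    intro b hb hsep hb0
    rcases hb.lt_or_eq with hlt | rfl
    · have hprev : m ⟨b - 1, by omega⟩ < m ⟨b, hlt⟩ :=
        hsep ⟨b - 1, by omega⟩ (by simp only; omega) ⟨b, hlt⟩ le_rfl
      refine D.bdry_up hlt (v := m ⟨b, hlt⟩) ?_ ?_ ?_
      · intro k hk hk'
        have : k = ⟨b, hlt⟩ := Fin.ext (by simp only; omega)
        rw [this]
      · intro k hk
        exact hsep k hk ⟨b, hlt⟩ le_rfl
      · exact lt_of_le_of_lt (D.hm.2 _).1 hprev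
    · rw [hKK]
      have := D.hG1 1 ⟨zero_le_one, le_rfl⟩
      linarith
  have hblow : ∀ b : ℕ, b ≤ K → (∀ k : Fin K, (k:ℕ) < b → ∀ l : Fin K, b ≤ (l:ℕ) → m k < m l) →
      0 < b → (∀ k : Fin K, (k:ℕ) < b → m k < β) → -δ ≤ G ((b:ℝ)/K) := by
    intro b hb hsep hb0 hβ
    refine D.bdry_low hb0 hb (v := m ⟨b - 1, by omega⟩) ?_ ?_ ?_
    · intro k hk hk'
      have : k = ⟨b - 1, by omega⟩ := Fin.ext (by simp only; omega)
      rw [this]
    · intro k hk
      exact hsep _ (by simp only; omega) k hk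
    · exact hβ _ (by simp only; omega)
  have hlastint : ∫ t in (A:ℝ)/K..1, G t ≤ 0 := by
    have := D.lower hAK le_rfl (fun k hk _ => hmtop k hk) (fun k hk => (hA k).1 hk) D.hεβ
    rwa [hKK] at this
  have hAsep : ∀ k : Fin K, (k:ℕ) < A → ∀ l : Fin K, A ≤ (l:ℕ) → m k < m l := by
    intro k hk l hl
    rw [hmtop l hl]; exact (hA k).1 hk
  refine ⟨A, hAK, hA, ?_, ?_, hlastint⟩
  · -- the top block is short
    have hGA : |G ((A:ℝ)/K)| ≤ δ := by
      rcases Nat.eq_zero_or_pos A with h0 | h0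
      · rw [h0]; simp [D.hG0, hδ]
      · rw [abs_le]
        exact ⟨hblow A hAK hAsep h0 (fun k hk => (hA k).1 hk), hbup A hAK hAsep h0⟩
    have hAm := D.grid_mem hAK
    refine last_block D.hβ hAm.2 D.Cpos hδ D.hδ1 D.hδ2
      (D.hGc.mono (Icc_subset_Icc hAm.1 le_rfl)) ?_ ?_ (D.hlast A hAK hmtop) hGA ?_
    · intro x hx; exact D.hd x ⟨lt_of_le_of_lt hAm.1 hx.1, hx.2⟩
    · intro x hx; exact D.hC x ⟨lt_of_le_of_lt hAm.1 hx.1, hx.2⟩
    · intro s hs
      refine D.lower' (a := A) (b := K) (v := β) le_rfl (fun k hk _ => hmtop k hk)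
        (fun k hk => (hA k).1 hk) D.hεβ s ?_
      rw [hKK]; exact hs
  · intro t ht
    rcases ht.1.eq_or_lt with h0 | h0
    · rw [← h0, D.hG0]; simp; positivity
    -- index of the grid interval
    have htK : 0 < t * K := by positivity
    obtain ⟨i, hi⟩ : ∃ i : ℕ, ⌈t * K⌉₊ = i + 1 :=
      Nat.exists_eq_succ_of_ne_zero (Nat.ceil_pos.2 htK).ne'
    have hi1 : t * K ≤ i + 1 := by
      have := Nat.le_ceil (t * K)
      rw [hi] at this; exact_mod_cast this
    have hi2 : (i:ℝ) < t * K := by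
      have := Nat.ceil_lt_add_one htK.le
      rw [hi] at this; push_cast at this; linarith
    have htA : t * K ≤ A := by
      have := ht.2; rwa [le_div_iff₀ hK] at this
    have hiA : i < A := by
      have : (i:ℝ) < A := lt_of_lt_of_le hi2 htA
      exact_mod_cast this
    have hiK : i < K := lt_of_lt_of_le hiA hAK
    set v := m ⟨i, hiK⟩ with hv
    have hvβ : v < β := (hA ⟨i, hiK⟩).1 hiA
    obtain ⟨a, haK, ha⟩ := initial_segment (fun k => m k < v)
      (fun i j hij hj => lt_of_le_of_lt (hmono hij) hj)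
    obtain ⟨b, hbK, hb⟩ := initial_segment (fun k => m k ≤ v)
      (fun i j hij hj => le_trans (hmono hij) hj)
    have hai : a ≤ i := by
      by_contra hcon
      push Not at hcon
      have := (ha ⟨i, hiK⟩).1 hcon
      exact lt_irrefl _ this
    have hib : i < b := (hb ⟨i, hiK⟩).2 le_rfl
    have hblk : ∀ k : Fin K, a ≤ (k:ℕ) → (k:ℕ) < b → m k = v := by
      intro k hk hk'
      have h1 := (hb k).1 hk'
      have h2 : ¬ m k < v := fun h => absurd ((ha k).2 h) (by omega)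
      exact le_antisymm h1 (not_lt.1 h2)
    have habove : ∀ k : Fin K, b ≤ (k:ℕ) → v < m k := by
      intro k hk
      by_contra hcon
      exact absurd ((hb k).2 (not_lt.1 hcon)) (by omega)
    have hbelow : ∀ k : Fin K, (k:ℕ) < a → m k < v := fun k hk => (ha k).1 hk
    have hbA : b ≤ A := by
      by_contra hcon
      push Not at hcon
      have hAK' : A < K := by omega
      have := (hb ⟨A, hAK'⟩).1 hcon
      rw [hmtop ⟨A, hAK'⟩ le_rfl] at this
      linarith
    have hbsep : ∀ k : Fin K, (k:ℕ) < b → ∀ l : Fin K, b ≤ (l:ℕ) → m k < m l :=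
      fun k hk l hl => lt_of_le_of_lt ((hb k).1 hk) (habove l hl)
    have hasep : ∀ k : Fin K, (k:ℕ) < a → ∀ l : Fin K, a ≤ (l:ℕ) → m k < m l := by
      intro k hk l hl
      refine lt_of_lt_of_le ((ha k).1 hk) ?_
      by_contra hcon
      exact absurd ((ha l).2 (not_le.1 hcon)) (by omega)
    have hGb : |G ((b:ℝ)/K)| ≤ δ := by
      rw [abs_le]
      exact ⟨hblow b hbK hbsep (by omega) (fun k hk => lt_of_le_of_lt ((hb k).1 hk) hvβ),
        hbup b hbK hbsep (by omega)⟩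
    have ham := D.grid_mem haK
    have hbm := D.grid_mem hbK
    have hab : (a:ℝ)/K ≤ (b:ℝ)/K := by
      apply div_le_div_of_nonneg_right _ hK.le
      exact_mod_cast (by omega : a ≤ b)
    have htmem : t ∈ Icc ((a:ℝ)/K) ((b:ℝ)/K) := by
      constructor
      · rw [div_le_iff₀ hK]
        have : (a:ℝ) ≤ i := by exact_mod_cast hai
        linarith
      · rw [le_div_iff₀ hK]
        have : (i:ℝ) + 1 ≤ b := by exact_mod_cast hib
        linarith
    have hGc' := D.hGc.mono (Icc_subset_Icc ham.1 hbm.2)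
    have hd' : ∀ x ∈ Ioo ((a:ℝ)/K) ((b:ℝ)/K), HasDerivAt G (g x - 1) x :=
      fun x hx => D.hd x ⟨lt_of_le_of_lt ham.1 hx.1, lt_of_lt_of_le hx.2 hbm.2⟩
    have hC' : ∀ x ∈ Ioo ((a:ℝ)/K) ((b:ℝ)/K), |g x - 1| ≤ C :=
      fun x hx => D.hC x ⟨lt_of_le_of_lt ham.1 hx.1, lt_of_lt_of_le hx.2 hbm.2⟩
    have hlen : (b:ℝ)/K - (a:ℝ)/K ≤ 1 := by linarith [ham.1, hbm.2]
    have hK1 := D.raise' hbK hblk habove hvβ
    rcases (D.hm.2 ⟨i, hiK⟩).1.eq_or_lt with hvε | hvε
    · -- the ε-block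
      have ha0 : a = 0 := by
        by_contra hcon
        have h1 := hbelow ⟨0, by omega⟩ (by simp only; omega)
        have h2 := (D.hm.2 ⟨0, by omega⟩).1
        rw [hv, ← hvε] at h1
        linarith
      subst ha0
      simp only [Nat.cast_zero, zero_div] at *
      refine eps_block hab hlen D.Cpos hδ hGc' hd' hC' ?_ D.hG0 hGb hK1 t htmem
      refine D.heps b hbK ?_
      intro k hk
      rw [hblk k (Nat.zero_le _) hk, hv, ← hvε]
    · have hGa : |G ((a:ℝ)/K)| ≤ δ := by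
        rcases Nat.eq_zero_or_pos a with h0 | h0
        · rw [h0]; simp [D.hG0, hδ]
        · rw [abs_le]
          exact ⟨hblow a haK hasep h0 (fun k hk => lt_trans ((ha k).1 hk) hvβ),
            hbup a haK hasep h0⟩
      have := block_abs hab hlen D.Cpos hδ hGc' hd' hC'
        (D.hqc a b (by omega) hbK v hvε hvβ hblk) hGa hGb hK1
        (D.lower' hbK hblk hbelow hvε) t htmem
      linarith

end Data

end Crest.Agent.R339.Var
end

-- ▼ part R339/Var71G

set_option autoImplicit false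

namespace Crest.Agent.R339.Var

open MeasureTheory ProbabilityTheory Filter Topology Set
open scoped Interval
open Crest.Agent.R164.GC Crest.Agent.R339.B
open Crest.ProbabilityR.InvariantGlass (gaussOp)
open Crest.Agent.R339.Guerra (pen Good mh Phi T)

noncomputable section

/-! ### bridge between the two recursions -/

theorem gaussOp_eq_T {m : ℝ} (hm : m ≠ 0) (d : ℝ) (f : ℝ → ℝ) : gaussOp m d f = T m d f := by
  funext x
  rw [gaussOp_ne hm]
  unfold H T
  rw [one_div]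

theorem headLv_eq_mh (β : ℝ) (l : List (ℝ × ℝ)) : headLv β l = mh β l := by
  cases l <;> rfl

theorem good_of_adm {β : ℝ} : ∀ {l : List (ℝ × ℝ)}, Adm β l → Good β l
  | [], _ => trivial
  | p :: l, h => ⟨h.1, by rw [← headLv_eq_mh]; exact h.2.1, h.2.2.1, good_of_adm h.2.2.2⟩

theorem PhiL_eq_Phi {β : ℝ} : ∀ {l : List (ℝ × ℝ)}, (∀ p ∈ l, 0 < p.1) → PhiL β l = Phi β l
  | [], _ => rfl
  | p :: l, h => by
    show gaussOp p.1 p.2 (PhiL β l) = T p.1 p.2 (Phi β l)
    rw [PhiL_eq_Phi (fun q hq => h q (by simp [hq])), gaussOp_eq_T (h p (by simp)).ne']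

/-! ### the functional -/

/-- the discretised Parisi functional of a list of blocks (start at time `0`) -/
def PL (β : ℝ) (l : List (ℝ × ℝ)) : ℝ := PhiL β l 0 - pen 0 l / 4

/-- the list of blocks of a vector of levels on the uniform grid -/
def grid {K : ℕ} (m : Fin K → ℝ) : List (ℝ × ℝ) := List.ofFn fun k => (m k, 1 / (K:ℝ))

def PF (β : ℝ) {K : ℕ} (m : Fin K → ℝ) : ℝ := PL β (grid m)

theorem pen_lev_hasDerivAt : ∀ (L : List (ℝ × ℝ × ℝ)) (q t : ℝ),
    HasDerivAt (fun t => -(pen q (lev t L)) / 4) (wsum (fun s => -s) q L) t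
  | [], q, t => by
    show HasDerivAt (fun _ => -(0:ℝ) / 4) 0 t
    exact hasDerivAt_const _ _
  | p :: L, q, t => by
    have ih := pen_lev_hasDerivAt L (q + p.2.2) t
    have h1 : HasDerivAt (fun t : ℝ => p.1 + t * p.2.1) p.2.1 t := by
      simpa using ((hasDerivAt_id t).mul_const p.2.1).const_add p.1
    have h2 := ((h1.mul_const ((q + p.2.2) ^ 2 - q ^ 2)).fun_neg.div_const 4).fun_add ih
    have e1 : (fun t => -(pen q (lev t (p :: L))) / 4) = fun t =>
        -((p.1 + t * p.2.1) * ((q + p.2.2) ^ 2 - q ^ 2)) / 4 + -(pen (q + p.2.2) (lev t L)) / 4 := by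
      funext t
      show -((p.1 + t * p.2.1) * ((q + p.2.2) ^ 2 - q ^ 2) + pen (q + p.2.2) (lev t L)) / 4 = _
      ring
    rw [e1]
    refine h2.congr_deriv ?_
    show _ = p.2.1 * ((1/2) * ∫ s in q..(q + p.2.2), -s) + _
    rw [intervalIntegral.integral_neg, integral_id]
    ring

theorem wsum_add {q q' : ℝ → ℝ} (hq : ∀ a b, IntervalIntegrable q volume a b)
    (hq' : ∀ a b, IntervalIntegrable q' volume a b) : ∀ (L : List (ℝ × ℝ × ℝ)) (t : ℝ),
    wsum q t L + wsum q' t L = wsum (fun s => q s + q' s) t L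
  | [], _ => by show (0:ℝ) + 0 = 0; ring
  | p :: L, t => by
    show (p.2.1 * ((1/2) * ∫ s in t..(t + p.2.2), q s) + wsum q (t + p.2.2) L) +
      (p.2.1 * ((1/2) * ∫ s in t..(t + p.2.2), q' s) + wsum q' (t + p.2.2) L) =
      p.2.1 * ((1/2) * ∫ s in t..(t + p.2.2), (q s + q' s)) + _
    rw [intervalIntegral.integral_add (hq _ _) (hq' _ _), ← wsum_add hq hq' L]
    ring

theorem lev_zero_pos {L : List (ℝ × ℝ × ℝ)} (h : ∀ p ∈ L, 0 < p.1) :
    ∀ q ∈ lev 0 L, 0 < q.1 := by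
  intro q hq
  rw [lev_zero_fst, List.mem_map] at hq
  obtain ⟨r, hr, rfl⟩ := hq
  exact h r hr

theorem exists_radius : ∀ L : List (ℝ × ℝ × ℝ), (∀ p ∈ L, 0 < p.1) →
    ∃ r > 0, ∀ s, |s| < r → ∀ p ∈ L, 0 < p.1 + s * p.2.1
  | [], _ => ⟨1, one_pos, fun s _ p hp => by simp at hp⟩
  | p :: L, h => by
    obtain ⟨r, hr, hr'⟩ := exists_radius L (fun q hq => h q (by simp [hq]))
    have hp := h p (by simp)
    refine ⟨min r (p.1 / (|p.2.1| + 1)), lt_min hr (by positivity), fun s hs q hq => ?_⟩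
    rcases List.mem_cons.1 hq with rfl | hq
    · have h1 : |s| < q.1 / (|q.2.1| + 1) := lt_of_lt_of_le hs (min_le_right _ _)
      rw [lt_div_iff₀ (by positivity)] at h1
      have h2 : |s * q.2.1| ≤ |s| * (|q.2.1| + 1) := by
        rw [abs_mul]
        exact mul_le_mul_of_nonneg_left (by linarith) (abs_nonneg _)
      have h3 := (abs_le.1 (h2.trans h1.le)).1
      have h4 := neg_abs_le (s * q.2.1)
      linarith
    · exact hr' s (lt_of_lt_of_le hs (min_le_left _ _)) q hq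

theorem QQ_ii {β : ℝ} (hβ : 0 < β) (l : List (ℝ × ℝ)) (hl : ∀ p ∈ l, 0 < p.1) (x a b : ℝ) :
    IntervalIntegrable (fun s => QQ β l s x) volume a b := by
  have hm : Measurable fun s => QQ β l s x :=
    (meas_QQ hβ l hl).comp (by fun_prop : Measurable fun s : ℝ => (s, x))
  have h1 : IntervalIntegrable (fun _ : ℝ => (1:ℝ)) volume a b := by simp
  refine h1.mono_fun hm.aestronglyMeasurable (Eventually.of_forall fun s => ?_)
  show |QQ β l s x| ≤ |(1:ℝ)|
  rw [abs_one]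
  exact (QQ_BC hβ l s).bd x

theorem PL_lev_hasDerivAt (hF : DmFormula) {β : ℝ} (hβ : 0 < β) (L : List (ℝ × ℝ × ℝ))
    (hd : ∀ p ∈ L, 0 ≤ p.2.2) (hpos : ∀ p ∈ L, 0 < p.1) :
    HasDerivAt (fun t => PL β (lev t L)) (wsum (fun s => QQ β (lev 0 L) s 0 - s) 0 L) 0 := by
  obtain ⟨r, hr, hr'⟩ := exists_radius L hpos
  obtain ⟨C, hC⟩ := PhiL_lev_hasDerivAt hF hβ L hd hr'
  have h1 := (hC 0 (by simpa using hr)).1 0
  rw [AA_eq hF hβ L hd hpos 0] at h1
  have h2 := h1.fun_add (pen_lev_hasDerivAt L 0 0)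
  rw [wsum_add (QQ_ii hβ _ (lev_zero_pos hpos) 0)
    (fun a b => (by fun_prop : Continuous fun s : ℝ => -s).intervalIntegrable a b)] at h2
  have e : (fun t => PL β (lev t L)) = fun t => PhiL β (lev t L) 0 + -(pen 0 (lev t L)) / 4 := by
    funext t
    unfold PL
    ring
  rw [e]
  exact h2

/-! ### the functional on the cone -/

def trip {K : ℕ} (d : ℝ) (m η : Fin K → ℝ) : List (ℝ × ℝ × ℝ) := List.ofFn fun k => (m k, η k, d)

theorem lev_trip {K : ℕ} (d t : ℝ) (m η : Fin K → ℝ) :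
    lev t (trip d m η) = List.ofFn fun k => ((m + t • η) k, d) := by
  unfold lev trip
  rw [List.map_ofFn]
  rfl

theorem wsum_trip (q : ℝ → ℝ) (d : ℝ) : ∀ {K : ℕ} (m η : Fin K → ℝ) (t : ℝ),
    wsum q t (trip d m η) =
      ∑ k : Fin K, η k * ((1/2) * ∫ s in (t + (k:ℕ) * d)..(t + ((k:ℕ) + 1) * d), q s)
  | 0, _, _, _ => by simp [trip, wsum]
  | K + 1, m, η, t => by
    have e : trip d m η = (m 0, η 0, d) :: trip d (fun k => m k.succ) (fun k => η k.succ) := by
      unfold trip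
      rw [List.ofFn_succ]
    rw [e, Fin.sum_univ_succ]
    show η 0 * ((1/2) * ∫ s in t..(t + d), q s) +
      wsum q (t + d) (trip d (fun k => m k.succ) (fun k => η k.succ)) = _
    rw [wsum_trip q d]
    congr 1
    · simp
    · apply Finset.sum_congr rfl
      intro k _
      have e1 : t + d + (k:ℕ) * d = t + ((k.succ : Fin (K+1)) : ℕ) * d := by
        rw [Fin.val_succ]; push_cast; ring
      have e2 : t + d + ((k:ℕ) + 1) * d = t + (((k.succ : Fin (K+1)) : ℕ) + 1) * d := by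
        rw [Fin.val_succ]; push_cast; ring
      rw [e1, e2]

theorem PF_hasDerivAt (hF : DmFormula) {β : ℝ} (hβ : 0 < β) {K : ℕ} {m : Fin K → ℝ}
    (hm : ∀ k, 0 < m k) (η : Fin K → ℝ) :
    HasDerivAt (fun t : ℝ => PF β (m + t • η))
      (∑ k : Fin K, η k * ((1/2) * ∫ s in ((k:ℕ):ℝ)/K..(((k:ℕ):ℝ)+1)/K,
        (QQ β (grid m) s 0 - s))) 0 := by
  have h := PL_lev_hasDerivAt hF hβ (trip (1 / (K:ℝ)) m η)
    (by
      intro p hp
      unfold trip at hp
      rw [List.mem_ofFn] at hp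
      obtain ⟨k, rfl⟩ := hp
      show 0 ≤ 1 / (K:ℝ)
      positivity)
    (by
      intro p hp
      unfold trip at hp
      rw [List.mem_ofFn] at hp
      obtain ⟨k, rfl⟩ := hp
      exact hm k)
  rw [wsum_trip] at h
  have e0 : lev 0 (trip (1 / (K:ℝ)) m η) = grid m := by
    rw [lev_trip]
    unfold grid
    simp
  rw [e0] at h
  have e1 : (fun t : ℝ => PF β (m + t • η)) = fun t => PL β (lev t (trip (1 / (K:ℝ)) m η)) := by
    funext t
    rw [lev_trip]
    rfl
  rw [e1]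
  refine h.congr_deriv ?_
  apply Finset.sum_congr rfl
  intro k _
  have e2 : (0:ℝ) + (k:ℕ) * (1 / (K:ℝ)) = ((k:ℕ):ℝ)/K := by ring
  have e3 : (0:ℝ) + ((k:ℕ) + 1) * (1 / (K:ℝ)) = (((k:ℕ):ℝ)+1)/K := by ring
  rw [e2, e3]

/-- the coefficients are bounded on the positive cone -/
theorem coeff_bound {β : ℝ} (hβ : 0 < β) {K : ℕ} {m : Fin K → ℝ} (hm : ∀ k, 0 < m k)
    (k : Fin K) :
    |(1/2) * ∫ s in ((k:ℕ):ℝ)/K..(((k:ℕ):ℝ)+1)/K, (QQ β (grid m) s 0 - s)| ≤ 1 := by
  have hK : (0:ℝ) < K := by exact_mod_cast (Nat.zero_le _).trans_lt k.2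
  have hk1 : (((k:ℕ):ℝ)+1)/K ≤ 1 := by
    rw [div_le_one hK]; exact_mod_cast k.2
  have hk0 : 0 ≤ ((k:ℕ):ℝ)/K := by positivity
  have hle : ((k:ℕ):ℝ)/K ≤ (((k:ℕ):ℝ)+1)/K :=
    div_le_div_of_nonneg_right (by linarith) hK.le
  have h1 : ‖∫ s in ((k:ℕ):ℝ)/K..(((k:ℕ):ℝ)+1)/K, (QQ β (grid m) s 0 - s)‖ ≤
      2 * |(((k:ℕ):ℝ)+1)/K - ((k:ℕ):ℝ)/K| := by
    apply intervalIntegral.norm_integral_le_of_norm_le_const
    intro s hs
    rw [uIoc_of_le hle] at hs
    rw [Real.norm_eq_abs, abs_le]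
    have h2 := abs_le.1 ((QQ_BC hβ (grid m) s).bd 0)
    constructor <;> linarith [hs.1, hs.2]
  rw [abs_mul, abs_of_pos (by norm_num : (0:ℝ) < 1/2)]
  rw [Real.norm_eq_abs, abs_of_nonneg (by linarith : 0 ≤ (((k:ℕ):ℝ)+1)/K - ((k:ℕ):ℝ)/K)] at h1
  linarith

/-- existence of the minimiser -/
theorem exists_min (hF : DmFormula) {β ε : ℝ} (hβ : 0 < β) (hε : 0 < ε) (hεβ : ε ≤ β) (K : ℕ) :
    ∃ m ∈ cone K ε β, ∀ m' ∈ cone K ε β, PF β m ≤ PF β m' :=
  exists_minimiser (B := 1) hεβ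
    (fun m hm η => PF_hasDerivAt hF hβ (fun k => lt_of_lt_of_le hε (hm.2 k).1) η)
    (fun m hm k => coeff_bound hβ (fun k => lt_of_lt_of_le hε (hm.2 k).1) k)

end

end Crest.Agent.R339.Var
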