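import Crest.Agent.R339.Var71G
import Crest.Agent.R339.B107U

-- ▼ part R339/Var71H
section

set_option autoImplicit false

namespace Crest.Agent.R339.Var

open MeasureTheory ProbabilityTheory Filter Topology Set
open scoped Interval
open Crest.Agent.R164.GC Crest.Agent.R339.B
open Crest.ProbabilityR.InvariantGlass (gaussOp)

noncomputable section

theorem Wk0_eq (Φ : ℝ → ℝ) (m v : ℝ) :
    Wk Φ m 0 v = H (Real.sqrt v) (fun y => Real.exp (m * Φ y)) := by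
  funext x
  unfold Wk
  rw [iteratedDeriv_zero]
  rfl

theorem Wk0_exp {Φ : ℝ → ℝ} (h : Prof Φ) {m : ℝ} (hm : m ≠ 0) (v x : ℝ) :
    Wk Φ m 0 v x = Real.exp (m * gaussOp m v Φ x) := by
  rw [Wk0_eq, h.exp_gaussOp hm]

/-- the block average in terms of the tilted average -/
theorem HW_eq {Φ : ℝ → ℝ} (h : Prof Φ) {m : ℝ} (hm : m ≠ 0) {d τ : ℝ} (h0 : 0 ≤ τ) (h1 : τ ≤ d)
    (φ : ℝ → ℝ) (x : ℝ) :
    H (Real.sqrt τ) (fun y => Wk Φ m 0 (d - τ) y * φ y) x =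
      tE m τ (gaussOp m (d - τ) Φ) φ x * Wk Φ m 0 d x := by
  have e1 := tE_eq (h.step m (d - τ)) hm τ φ x
  rw [← gaussOp_semi h hm h0 (by linarith : 0 ≤ d - τ)] at e1
  have e2 : τ + (d - τ) = d := by ring
  rw [e2] at e1
  rw [Wk0_exp h hm, e1]
  congr 1
  funext y
  rw [Wk0_exp h hm, mul_comm]

theorem dmFormula : DmFormula := by
  intro Φ h m hm v hv x
  have hm' := hm.ne'
  set E0 : ℝ → ℝ := fun τ => H (Real.sqrt τ) (fun y => Wk Φ m 0 (v - τ) y * U Φ m 0 (v - τ) y) x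
    with hE0
  set E1 : ℝ → ℝ := fun τ => H (Real.sqrt τ)
    (fun y => Wk Φ m 0 (v - τ) y * (m / 2 * U Φ m 1 (v - τ) y ^ 2)) x with hE1
  have hc0 : Continuous E0 := by
    have := heat_cont ((Wk_ug h m 0).mul (tb_U0 h hm').ug) v
    exact this.comp (by fun_prop : Continuous fun τ : ℝ => (τ, x))
  have hc1 : Continuous E1 := by
    have := heat_cont ((Wk_ug h m 0).mul ((tb_U0 h hm').ugL h)) v
    exact this.comp (by fun_prop : Continuous fun τ : ℝ => (τ, x))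
  have hder : ∀ τ ∈ Ioo 0 v, HasDerivAt E0 (E1 τ) τ := fun τ hτ =>
    EX_deriv h m (tb_U0 h hm') hτ.1 hτ.2 x
  have hFTC := intervalIntegral.integral_eq_sub_of_hasDerivAt_of_le hv hc0.continuousOn hder
    (hc1.intervalIntegrable _ _)
  have hWpos := Wk_pos h m v x
  have e1 : E0 v = tE m v Φ Φ x * Wk Φ m 0 v x := by
    have := HW_eq h hm' hv le_rfl (U Φ m 0 0) x
    rw [sub_self, gaussOp_v0 hm', U_zero, gaussOp_v0 hm'] at this
    rw [← this]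
    show H (Real.sqrt v) (fun y => Wk Φ m 0 (v - v) y * U Φ m 0 (v - v) y) x = _
    rw [sub_self, U_zero, gaussOp_v0 hm']
  have e2 : E0 0 = gaussOp m v Φ x * Wk Φ m 0 v x := by
    show H (Real.sqrt 0) (fun y => Wk Φ m 0 (v - 0) y * U Φ m 0 (v - 0) y) x = _
    rw [Real.sqrt_zero, H_zero, sub_zero, U_zero, mul_comm]
  have e3 : ∫ s in (0:ℝ)..v, E1 s = ∫ s in (0:ℝ)..v, (m / 2 * Wk Φ m 0 v x) *
      tE m s (gaussOp m (v - s) Φ) (fun y => deriv (gaussOp m (v - s) Φ) y ^ 2) x := by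
    apply intervalIntegral.integral_congr
    intro s hs
    rw [uIcc_of_le hv] at hs
    show H (Real.sqrt s) (fun y => Wk Φ m 0 (v - s) y * (m / 2 * U Φ m 1 (v - s) y ^ 2)) x = _
    rw [HW_eq h hm' hs.1 hs.2 (fun y => m / 2 * U Φ m 1 (v - s) y ^ 2) x, tE_const_mul, U_one]
    ring
  rw [e3, intervalIntegral.integral_const_mul, e1, e2] at hFTC
  unfold Dm
  have h3 : tE m v Φ Φ x - gaussOp m v Φ x = m / 2 * ∫ s in (0:ℝ)..v,
      tE m s (gaussOp m (v - s) Φ) (fun y => deriv (gaussOp m (v - s) Φ) y ^ 2) x := by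
    have h4 := hWpos.ne'
    apply mul_right_cancel₀ h4
    rw [sub_mul, ← hFTC]
    ring
  rw [h3]
  field_simp

end

end Crest.Agent.R339.Var
end

-- ▼ part R339/Var71I

set_option autoImplicit false

namespace Crest.Agent.R339.Var

open MeasureTheory ProbabilityTheory Filter Topology Set
open scoped Interval
open Crest.Agent.R164.GC Crest.Agent.R339.B
open Crest.ProbabilityR.InvariantGlass (gaussOp)

noncomputable section

/-- bounded functionals of the profile, jointly continuous along the Cole–Hopf flow -/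
structure BFn (G : (ℝ → ℝ) → ℝ → ℝ) : Prop where
  bc : ∀ Φ, Prof Φ → ∃ K, BC (G Φ) K
  ug : ∀ Φ, Prof Φ → ∀ m, 0 < m → UG (fun v => G (gaussOp m v Φ))

/-- expectation at time `t` of the functional `G` of the profile, started from `ν` times the
exponential of the profile -/
def PsiF (G : (ℝ → ℝ) → ℝ → ℝ) (β : ℝ) (l : List (ℝ × ℝ)) (ν : Measure ℝ) (t : ℝ) : ℝ :=
  ∫ x, EX β l t (G (PhiT β l t)) x * Real.exp (headLv β l * PhiL β l x) ∂ν

theorem PsiF_block {G : (ℝ → ℝ) → ℝ → ℝ} {β : ℝ} (hβ : 0 < β) {p : ℝ × ℝ} {l : List (ℝ × ℝ)}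
    (hp : 0 < p.1) (ν : Measure ℝ) {t : ℝ} (h0 : 0 ≤ t) (h1 : t ≤ p.2) :
    PsiF G β (p :: l) ν t =
      EE (PhiL β l) p.1 p.2 ν (fun v => G (gaussOp p.1 v (PhiL β l))) t := by
  have hprof := PhiL_prof hβ l
  unfold PsiF EE
  congr 1
  funext x
  rw [HW_eq hprof hp.ne' h0 h1, Wk0_exp hprof hp.ne']
  show EX β (p :: l) t (G (PhiT β (p :: l) t)) x * Real.exp (p.1 * gaussOp p.1 p.2 (PhiL β l) x) = _
  congr 1
  have e1 : PhiT β (p :: l) t = gaussOp p.1 (p.2 - t) (PhiL β l) := by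
    unfold PhiT; rw [if_pos h1]
  have e2 : ∀ F, EX β (p :: l) t F = tE p.1 t (gaussOp p.1 (p.2 - t) (PhiL β l)) F := by
    intro F
    unfold EX; rw [if_pos h1]
  rw [e2, e1]

/-- the starting measure of the next block -/
def Nx (β : ℝ) (p : ℝ × ℝ) (l : List (ℝ × ℝ)) (ν ν' : Measure ℝ) : Prop :=
  ∀ φ : ℝ → ℝ, EG φ → ∫ y, φ y ∂ν' = ∫ x, H (Real.sqrt p.2)
    (fun y => φ y * Real.exp ((p.1 - headLv β l) * PhiL β l y)) x ∂ν

theorem PsiF_next {G : (ℝ → ℝ) → ℝ → ℝ} (hG : BFn G) {β : ℝ} (hβ : 0 < β) {p : ℝ × ℝ}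
    {l : List (ℝ × ℝ)} (hp : 0 < p.1) {ν ν' : Measure ℝ} (hN : Nx β p l ν ν') {t : ℝ}
    (h1 : p.2 < t) : PsiF G β (p :: l) ν t = PsiF G β l ν' (t - p.2) := by
  have hprof := PhiL_prof hβ l
  unfold PsiF
  obtain ⟨K, hK⟩ := hG.bc _ (PhiT_prof hβ l (t - p.2))
  have hEX := EX_BC hβ l (t - p.2) hK
  rw [hN _ (hEX.eg.mul (hprof.exp_egs (headLv β l)).eg)]
  congr 1
  funext x
  have e1 : PhiT β (p :: l) t = PhiT β l (t - p.2) := by
    conv_lhs => unfold PhiT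
    rw [if_neg (not_le.2 h1)]
  have e2 : ∀ F, EX β (p :: l) t F = tE p.1 p.2 (PhiL β l) (EX β l (t - p.2) F) := by
    intro F
    conv_lhs => unfold EX
    rw [if_neg (not_le.2 h1)]
  rw [e2, e1]
  show _ * Real.exp (p.1 * gaussOp p.1 p.2 (PhiL β l) x) = _
  rw [tE_eq hprof hp.ne']
  congr 1
  funext y
  rw [mul_assoc, ← Real.exp_add]
  congr 2
  ring

/-- at the junction -/
theorem PsiF_junction {G : (ℝ → ℝ) → ℝ → ℝ} (hG : BFn G) {β : ℝ} (hβ : 0 < β) {p : ℝ × ℝ}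
    {l : List (ℝ × ℝ)} (hp : 0 < p.1) (hp2 : 0 ≤ p.2) (hl : ∀ q ∈ l, 0 < q.1 ∧ 0 ≤ q.2)
    {ν ν' : Measure ℝ} (hN : Nx β p l ν ν') :
    PsiF G β (p :: l) ν p.2 = PsiF G β l ν' 0 := by
  have hprof := PhiL_prof hβ l
  rw [PsiF_block hβ hp ν hp2 le_rfl]
  have e1 : PhiT β l 0 = PhiL β l := by
    cases l with
    | nil => rfl
    | cons q l =>
      have hq := hl q (by simp)
      unfold PhiT
      rw [if_pos hq.2, sub_zero]
      rfl
  have e2 : ∀ F, EX β l 0 F = F := by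
    intro F
    cases l with
    | nil => rfl
    | cons q l =>
      have hq := hl q (by simp)
      unfold EX
      rw [if_pos hq.2, tE_v0]
  unfold PsiF EE
  rw [e1, e2]
  obtain ⟨K, hK⟩ := hG.bc _ hprof
  rw [hN _ (hK.eg.mul (hprof.exp_egs (headLv β l)).eg)]
  congr 1
  funext x
  rw [sub_self]
  congr 1
  funext y
  have e3 : headLv β l * PhiL β l y + (p.1 - headLv β l) * PhiL β l y = p.1 * PhiL β l y := by
    ring
  rw [Wk0_exp hprof hp.ne', gaussOp_v0 hp.ne', mul_assoc, ← Real.exp_add, e3, mul_comm]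
  show G (gaussOp p.1 0 (PhiL β l)) y * _ = _
  rw [gaussOp_v0 hp.ne']

theorem PsiF_next' {G : (ℝ → ℝ) → ℝ → ℝ} (hG : BFn G) {β : ℝ} (hβ : 0 < β) {p : ℝ × ℝ}
    {l : List (ℝ × ℝ)} (hp : 0 < p.1) (hp2 : 0 ≤ p.2) (hl : ∀ q ∈ l, 0 < q.1 ∧ 0 ≤ q.2)
    {ν ν' : Measure ℝ} (hN : Nx β p l ν ν') {t : ℝ}
    (h1 : p.2 ≤ t) : PsiF G β (p :: l) ν t = PsiF G β l ν' (t - p.2) := by
  rcases h1.eq_or_lt with rfl | h1
  · rw [PsiF_junction hG hβ hp hp2 hl hN, sub_self]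
  · exact PsiF_next hG hβ hp hN h1

/-- the class of starting measures -/
structure GClass (β : ℝ) (GC : Measure ℝ → Prop) : Prop where
  em : ∀ ν, GC ν → EM ν
  dirac : ∀ c : ℝ, 0 < c → GC (ENNReal.ofReal c • Measure.dirac 0)
  next : ∀ ν, GC ν → ∀ (Φ : ℝ → ℝ) (m m' d : ℝ), Inv β m' Φ → 0 < m → m ≤ m' → m' ≤ β → 0 < d →
    ∃ ν', GC ν' ∧ ∀ φ : ℝ → ℝ, EG φ → ∫ y, φ y ∂ν' = ∫ x, H (Real.sqrt d)
      (fun y => φ y * Real.exp ((m - m') * Φ y)) x ∂ν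
  conv : ∀ ν, GC ν → ∀ (Φ : ℝ → ℝ) (m d τ : ℝ), Inv β m Φ → 0 < m → m ≤ β → 0 < τ → τ < d →
    0 ≤ EE Φ m d ν (fun v x => U Φ m 4 v x ^ 2 - 12 * m * U Φ m 2 v x * U Φ m 3 v x ^ 2 +
      6 * m ^ 2 * U Φ m 2 v x ^ 4) τ

theorem GClass.nx {β : ℝ} (hβ : 0 < β) {GC : Measure ℝ → Prop} (hC : GClass β GC) {p : ℝ × ℝ}
    {l : List (ℝ × ℝ)} (hA : Adm β (p :: l)) (hp2 : 0 < p.2) {ν : Measure ℝ} (hν : GC ν) :
    ∃ ν', GC ν' ∧ Nx β p l ν ν' :=
  hC.next ν hν (PhiL β l) p.1 (headLv β l) p.2 (PhiL_inv hβ hA.2.2.2) hA.1 hA.2.1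
    hA.2.2.2.head_le hp2

theorem Adm.pos {β : ℝ} : ∀ {l : List (ℝ × ℝ)}, Adm β l → ∀ q ∈ l, 0 < q.1 ∧ 0 ≤ q.2
  | [], _, q, hq => by simp at hq
  | p :: l, h, q, hq => by
    rcases List.mem_cons.1 hq with rfl | hq
    · exact ⟨h.1, h.2.2.1⟩
    · exact Adm.pos h.2.2.2 q hq

/-- total length -/
def TT (l : List (ℝ × ℝ)) : ℝ := (l.map Prod.snd).sum

theorem TT_nonneg {l : List (ℝ × ℝ)} (h : ∀ p ∈ l, 0 ≤ p.2) : 0 ≤ TT l :=
  List.sum_nonneg (by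
    intro x hx
    rw [List.mem_map] at hx
    obtain ⟨p, hp, rfl⟩ := hx
    exact h p hp)

theorem TT_cons (p : ℝ × ℝ) (l : List (ℝ × ℝ)) : TT (p :: l) = p.2 + TT l := by
  unfold TT; simp

/-- continuity along the whole list -/
theorem PsiF_continuousOn {G : (ℝ → ℝ) → ℝ → ℝ} (hG : BFn G) {β : ℝ} (hβ : 0 < β)
    {GC : Measure ℝ → Prop} (hC : GClass β GC) : ∀ (l : List (ℝ × ℝ)), Adm β l →
    (∀ p ∈ l, 0 < p.2) → ∀ ν, GC ν → ContinuousOn (PsiF G β l ν) (Icc 0 (TT l))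
  | [], _, _, ν, _ => by
    have : Icc (0:ℝ) (TT []) = {0} := by unfold TT; simp
    rw [this]
    exact continuousOn_singleton _ _
  | p :: l, hA, hl, ν, hν => by
    obtain ⟨ν', hν', hN⟩ := hC.nx hβ hA (hl p (by simp)) hν
    have ih := PsiF_continuousOn hG hβ hC l hA.2.2.2 (fun q hq => hl q (by simp [hq])) ν' hν'
    have hp2 := hl p (by simp)
    have hT : 0 ≤ TT l := TT_nonneg fun q hq => (hl q (by simp [hq])).le
    have hc1 : ContinuousOn (PsiF G β (p :: l) ν) (Icc 0 p.2) := by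
      have h1 := (EE_cont (PhiL_prof hβ l) p.1 (hG.ug _ (PhiL_prof hβ l) p.1 hA.1) (hC.em ν hν)
        p.2).continuousOn (s := Icc 0 p.2)
      exact h1.congr fun t ht => PsiF_block hβ hA.1 ν ht.1 ht.2
    have hc2 : ContinuousOn (PsiF G β (p :: l) ν) (Icc p.2 (TT (p :: l))) := by
      have h1 : ContinuousOn (fun t => PsiF G β l ν' (t - p.2)) (Icc p.2 (TT (p :: l))) := by
        refine ih.comp (by fun_prop) fun t ht => ?_
        rw [TT_cons] at ht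
        exact ⟨by linarith [ht.1], by linarith [ht.2]⟩
      exact h1.congr fun t ht => PsiF_next' hG hβ hA.1 hp2.le (Adm.pos hA.2.2.2) hN ht.1
    have h2 := hc1.union_of_isClosed hc2 isClosed_Icc isClosed_Icc
    rwa [Icc_union_Icc_eq_Icc hp2.le (by rw [TT_cons]; linarith)] at h2

/-- integral formula along the whole list -/
theorem PsiF_integral {G G' : (ℝ → ℝ) → ℝ → ℝ} (hG : BFn G) (hG' : BFn G') {β : ℝ} (hβ : 0 < β)
    {GC : Measure ℝ → Prop} (hC : GClass β GC)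
    (hd : ∀ Φ, Prof Φ → ∀ m, 0 < m → ∀ ν, EM ν → ∀ d τ, 0 < τ → τ < d →
      HasDerivAt (EE Φ m d ν (fun v => G (gaussOp m v Φ)))
        (EE Φ m d ν (fun v => G' (gaussOp m v Φ)) τ) τ) :
    ∀ (l : List (ℝ × ℝ)), Adm β l →
    (∀ p ∈ l, 0 < p.2) → ∀ ν, GC ν → ∀ t ∈ Icc 0 (TT l),
    PsiF G β l ν t = PsiF G β l ν 0 + ∫ s in (0:ℝ)..t, PsiF G' β l ν s
  | [], _, _, ν, _, t, ht => by
    have e : t = 0 := by
      unfold TT at ht
      simp at ht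
      exact ht
    rw [e]; simp
  | p :: l, hA, hl, ν, hν, t, ht => by
    obtain ⟨ν', hν', hN⟩ := hC.nx hβ hA (hl p (by simp)) hν
    have ih := PsiF_integral hG hG' hβ hC hd l hA.2.2.2 (fun q hq => hl q (by simp [hq])) ν' hν'
    have hp2 := hl p (by simp)
    have hprof := PhiL_prof hβ l
    have hcont' := PsiF_continuousOn hG' hβ hC (p :: l) hA hl ν hν
    have hblock : ∀ t ∈ Icc 0 p.2,
        PsiF G β (p :: l) ν t = PsiF G β (p :: l) ν 0 + ∫ s in (0:ℝ)..t, PsiF G' β (p :: l) ν s := by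
      intro t ht
      have hc := EE_cont hprof p.1 (hG.ug _ hprof p.1 hA.1) (hC.em ν hν) p.2
      have hc' := EE_cont hprof p.1 (hG'.ug _ hprof p.1 hA.1) (hC.em ν hν) p.2
      have h1 := intervalIntegral.integral_eq_sub_of_hasDerivAt_of_le ht.1
        (hc.continuousOn (s := Icc 0 t)) (fun τ hτ => hd _ hprof p.1 hA.1 ν (hC.em ν hν) p.2 τ
          hτ.1 (lt_of_lt_of_le hτ.2 ht.2)) (hc'.intervalIntegrable _ _)
      rw [PsiF_block hβ hA.1 ν ht.1 ht.2, PsiF_block hβ hA.1 ν le_rfl hp2.le]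
      have h2 : ∫ s in (0:ℝ)..t, PsiF G' β (p :: l) ν s = ∫ s in (0:ℝ)..t,
          EE (PhiL β l) p.1 p.2 ν (fun v => G' (gaussOp p.1 v (PhiL β l))) s := by
        apply intervalIntegral.integral_congr
        intro s hs
        rw [uIcc_of_le ht.1] at hs
        exact PsiF_block hβ hA.1 ν hs.1 (hs.2.trans ht.2)
      rw [h2, h1]
      ring
    rcases le_total t p.2 with h | h
    · exact hblock t ⟨ht.1, h⟩
    · rw [TT_cons] at ht
      have hTT : Icc (0:ℝ) (TT (p :: l)) = Icc 0 (p.2 + TT l) := by rw [TT_cons]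
      rw [hTT] at hcont'
      have hT : 0 ≤ TT l := TT_nonneg fun q hq => (hl q (by simp [hq])).le
      have h3 := ih (t - p.2) ⟨by linarith, by linarith [ht.2]⟩
      rw [PsiF_next' hG hβ hA.1 hp2.le (Adm.pos hA.2.2.2) hN h, h3,
        ← PsiF_junction hG hβ hA.1 hp2.le (Adm.pos hA.2.2.2) hN, hblock p.2 ⟨hp2.le, le_rfl⟩]
      have hi1 : IntervalIntegrable (PsiF G' β (p :: l) ν) volume 0 p.2 := by
        apply ContinuousOn.intervalIntegrable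
        rw [uIcc_of_le hp2.le]
        exact hcont'.mono (Icc_subset_Icc le_rfl (by linarith))
      have hi2 : IntervalIntegrable (PsiF G' β (p :: l) ν) volume p.2 t := by
        apply ContinuousOn.intervalIntegrable
        rw [uIcc_of_le h]
        exact hcont'.mono (Icc_subset_Icc hp2.le ht.2)
      rw [← intervalIntegral.integral_add_adjacent_intervals hi1 hi2]
      have e1 : ∫ s in (0:ℝ)..(t - p.2), PsiF G' β l ν' s = ∫ s in p.2..t,
          PsiF G' β (p :: l) ν s := by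
        have h4 : ∫ s in p.2..t, PsiF G' β (p :: l) ν s = ∫ s in p.2..t,
            PsiF G' β l ν' (s - p.2) := by
          apply intervalIntegral.integral_congr
          intro s hs
          rw [uIcc_of_le h] at hs
          exact PsiF_next' hG' hβ hA.1 hp2.le (Adm.pos hA.2.2.2) hN hs.1
        rw [h4, intervalIntegral.integral_comp_sub_right (fun s => PsiF G' β l ν' s), sub_self]
      rw [e1]
      ring

/-! ### concrete functionals -/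

def G1 (Φ : ℝ → ℝ) (y : ℝ) : ℝ := deriv Φ y ^ 2
def G2 (Φ : ℝ → ℝ) (y : ℝ) : ℝ := deriv (deriv Φ) y ^ 2
def G2l (Φ : ℝ → ℝ) (y : ℝ) : ℝ := deriv (deriv Φ) y
def G3 (c : ℝ) (Φ : ℝ → ℝ) (y : ℝ) : ℝ :=
  deriv (deriv (deriv Φ)) y ^ 2 - 2 * c * deriv (deriv Φ) y ^ 3
def G33 (Φ : ℝ → ℝ) (y : ℝ) : ℝ := deriv (deriv (deriv Φ)) y ^ 2
def Gone (_ : ℝ → ℝ) (_ : ℝ) : ℝ := 1

theorem U_ug' {Φ : ℝ → ℝ} (h : Prof Φ) {m : ℝ} (hm : 0 < m) :
    UG (U Φ m 1) ∧ UG (U Φ m 2) ∧ UG (U Φ m 3) :=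
  ⟨(tb_U1 h hm.ne').ug, (tb_U2 h hm.ne').ug, (tb_U3 h hm.ne').ug⟩

theorem toBC {f : ℝ → ℝ} (h : BD f) : ∃ K, BC f K := by
  obtain ⟨C, hC⟩ := h.bdd
  exact ⟨C, h.cont, hC⟩

theorem bfn_G1 : BFn G1 := by
  refine ⟨fun Φ h => toBC (h.bd.pow 2), fun Φ h m hm => ?_⟩
  exact ((U_ug' h hm).1.pow 2).congr fun v x => by rw [U_one]; rfl

theorem bfn_G2 : BFn G2 := by
  refine ⟨fun Φ h => toBC (h.bd.deriv.pow 2), fun Φ h m hm => ?_⟩
  exact ((U_ug' h hm).2.1.pow 2).congr fun v x => by rw [U_two]; rfl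

theorem bfn_G2l : BFn G2l := by
  refine ⟨fun Φ h => toBC h.bd.deriv, fun Φ h m hm => ?_⟩
  exact (U_ug' h hm).2.1.congr fun v x => by rw [U_two]; rfl

theorem bfn_G33 : BFn G33 := by
  refine ⟨fun Φ h => toBC (h.bd.deriv.deriv.pow 2), fun Φ h m hm => ?_⟩
  exact ((U_ug' h hm).2.2.pow 2).congr fun v x => by rw [U_three]; rfl

theorem bfn_G3 (c : ℝ) : BFn (G3 c) := by
  refine ⟨fun Φ h => toBC ((h.bd.deriv.deriv.pow 2).sub
    ((h.bd.deriv.pow 3).const_mul (2 * c))), fun Φ h m hm => ?_⟩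
  exact (((U_ug' h hm).2.2.pow 2).sub (((U_ug' h hm).2.1.pow 3).const_mul (2 * c))).congr
    fun v x => by rw [U_three, U_two]; rfl

theorem bfn_Gone : BFn Gone :=
  ⟨fun _ _ => ⟨|1|, BC.const 1⟩, fun _ _ _ _ => UG.const 1⟩

theorem G1_eq (Φ : ℝ → ℝ) (m : ℝ) :
    (fun v => G1 (gaussOp m v Φ)) = fun v x => U Φ m 1 v x ^ 2 := by
  funext v x; rw [U_one]; rfl

theorem G2_eq (Φ : ℝ → ℝ) (m : ℝ) :
    (fun v => G2 (gaussOp m v Φ)) = fun v x => U Φ m 2 v x ^ 2 := by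
  funext v x; rw [U_two]; rfl

theorem G3_eq (Φ : ℝ → ℝ) (m c : ℝ) :
    (fun v => G3 c (gaussOp m v Φ)) = fun v x => U Φ m 3 v x ^ 2 - 2 * c * U Φ m 2 v x ^ 3 := by
  funext v x; rw [U_three, U_two]; rfl

theorem G33_eq (Φ : ℝ → ℝ) (m : ℝ) :
    (fun v => G33 (gaussOp m v Φ)) = fun v x => U Φ m 3 v x ^ 2 := by
  funext v x; rw [U_three]; rfl

/-- derivative of `E Φ_x²` -/
theorem G1_int {β : ℝ} (hβ : 0 < β) {GC : Measure ℝ → Prop} (hC : GClass β GC)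
    (l : List (ℝ × ℝ)) (hA : Adm β l) (hl : ∀ p ∈ l, 0 < p.2) (ν : Measure ℝ) (hν : GC ν)
    (t : ℝ) (ht : t ∈ Icc 0 (TT l)) :
    PsiF G1 β l ν t = PsiF G1 β l ν 0 + ∫ s in (0:ℝ)..t, PsiF G2 β l ν s := by
  refine PsiF_integral bfn_G1 bfn_G2 hβ hC ?_ l hA hl ν hν t ht
  intro Φ h m hm ν hν d τ h0 h1
  rw [G1_eq, G2_eq]
  exact dE_U1sq h hm.ne' hν h0 h1

end

end Crest.Agent.R339.Var
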